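import Vale.Agent.P152.GFF.S.Hint
import Vale.Agent.P152.GFF.S.Decomp
import Vale.Agent.P152.GFF.S.GffTail
import Mathlib.Analysis.Calculus.BumpFunction.FiniteDimension
import Mathlib.Analysis.Calculus.BumpFunction.Normed

/-!
P145, block F-B: smooth bumps, their scaling and the covariance of the difference of two bumps of
very different sizes.
-/

namespace Vale.Agent.P145.FB.AC

open MeasureTheory Filter Topology
open Vale.Agent.P152.GFF.S

/-! ### Bumps -/

/-- A bump on the line. -/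
noncomputable def bmp : ContDiffBump (0 : ℝ) := ⟨1 / 4, 1 / 2, by norm_num, by norm_num⟩

/-- The bump normalised to have integral one. -/
noncomputable def b (t : ℝ) : ℝ := bmp.normed volume t

lemma b_smooth : ContDiff ℝ ((⊤ : ℕ∞) : WithTop ℕ∞) b := bmp.contDiff_normed

lemma b_cont : Continuous b := b_smooth.continuous

lemma b_nonneg (t : ℝ) : 0 ≤ b t := bmp.nonneg_normed t

lemma b_compact : HasCompactSupport b := bmp.hasCompactSupport_normed

lemma b_int : ∫ t, b t = 1 := bmp.integral_normed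

lemma b_supp {t : ℝ} (h : b t ≠ 0) : |t| < 1 / 2 := by
  have h1 : t ∈ Function.support (bmp.normed volume) := h
  rw [bmp.support_normed_eq] at h1
  have h2 := Metric.mem_ball.1 h1
  rw [Real.dist_eq, sub_zero] at h2
  exact h2

/-- The bump at the point `c` of the plane. -/
noncomputable def phi (c : ℝ × ℝ) (x : ℝ × ℝ) : ℝ := b (x.1 - c.1) * b (x.2 - c.2)

lemma phi_smooth (c : ℝ × ℝ) : ContDiff ℝ ((⊤ : ℕ∞) : WithTop ℕ∞) (phi c) :=
  (b_smooth.comp (contDiff_fst.sub contDiff_const)).mul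
    (b_smooth.comp (contDiff_snd.sub contDiff_const))

lemma phi_cont (c : ℝ × ℝ) : Continuous (phi c) := (phi_smooth c).continuous

lemma phi_nonneg (c x : ℝ × ℝ) : 0 ≤ phi c x := mul_nonneg (b_nonneg _) (b_nonneg _)

lemma phi_supp {c x : ℝ × ℝ} (h : phi c x ≠ 0) : |x.1 - c.1| < 1 / 2 ∧ |x.2 - c.2| < 1 / 2 :=
  ⟨b_supp (left_ne_zero_of_mul h), b_supp (right_ne_zero_of_mul h)⟩

lemma phi_compact (c : ℝ × ℝ) : HasCompactSupport (phi c) := by
  refine HasCompactSupport.intro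
    ((isCompact_Icc (a := c.1 - 1) (b := c.1 + 1)).prod
      (isCompact_Icc (a := c.2 - 1) (b := c.2 + 1))) ?_
  intro x hx
  by_contra h
  obtain ⟨h1, h2⟩ := phi_supp h
  rw [abs_lt] at h1 h2
  exact hx ⟨⟨by linarith, by linarith⟩, ⟨by linarith, by linarith⟩⟩

lemma phi_int (c : ℝ × ℝ) : ∫ x, phi c x = 1 := by
  unfold phi
  rw [Measure.volume_eq_prod, integral_prod_mul (fun t => b (t - c.1)) (fun t => b (t - c.2)),
    integral_sub_right_eq_self b c.1, integral_sub_right_eq_self b c.2, b_int, one_mul]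

lemma phi_integrable (c : ℝ × ℝ) : Integrable (phi c) :=
  (phi_cont c).integrable_of_hasCompactSupport (phi_compact c)

/-! ### The difference of a bump and its translate is a derivative -/

theorem diff_deriv (c : ℝ × ℝ) (a : ℝ) : ∃ Ψ : ℝ × ℝ → ℝ,
    ContDiff ℝ ((⊤ : ℕ∞) : WithTop ℕ∞) Ψ ∧ HasCompactSupport Ψ ∧
      ∀ t y, HasDerivAt (fun t => Ψ (t, y)) (phi c (t, y) - phi (c.1 + a, c.2) (t, y)) t := by
  set g : ℝ → ℝ := fun t => b (t - c.1) - b (t - (c.1 + a)) with hg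
  have hgs : ContDiff ℝ ((⊤ : ℕ∞) : WithTop ℕ∞) g :=
    (b_smooth.comp (contDiff_id.sub contDiff_const)).sub
      (b_smooth.comp (contDiff_id.sub contDiff_const))
  have hgc : Continuous g := hgs.continuous
  set B : ℝ := |c.1| + |a| + 1 with hB
  have hgB : ∀ y, B < |y| → g y = 0 := by
    intro y hy
    have h1 : b (y - c.1) = 0 := by
      by_contra h
      have := b_supp h
      have h2 := abs_sub_abs_le_abs_sub y c.1
      have h3 := abs_nonneg a
      linarith
    have h2 : b (y - (c.1 + a)) = 0 := by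
      by_contra h
      have := b_supp h
      have h2 := abs_sub_abs_le_abs_sub y (c.1 + a)
      have h3 := abs_add_le c.1 a
      linarith
    simp only [hg, h1, h2, sub_zero]
  have hg0 : ∫ y, g y = 0 := by
    simp only [hg]
    rw [integral_sub]
    · rw [integral_sub_right_eq_self b, integral_sub_right_eq_self b, sub_self]
    · exact (b_cont.integrable_of_hasCompactSupport b_compact).comp_sub_right _
    · exact (b_cont.integrable_of_hasCompactSupport b_compact).comp_sub_right _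
  set ρ : ℝ → ℝ := fun y => ∫ u in (-B)..y, g u with hρ
  have hρd : ∀ y, HasDerivAt ρ (g y) y := fun y => deriv_conv hgc B y
  have hρs : ContDiff ℝ ((⊤ : ℕ∞) : WithTop ℕ∞) ρ := by
    rw [contDiff_infty_iff_deriv]
    refine ⟨fun y => (hρd y).differentiableAt, ?_⟩
    have e : deriv ρ = g := funext fun y => (hρd y).deriv
    rw [e]
    exact hgs
  have hρ0 : ∀ y, B < |y| → ρ y = 0 := fun y hy => interval_full hgc hgB hg0 hy
  refine ⟨fun x => ρ x.1 * b (x.2 - c.2), ?_, ?_, ?_⟩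
  · exact (hρs.comp contDiff_fst).mul (b_smooth.comp (contDiff_snd.sub contDiff_const))
  · refine HasCompactSupport.intro
      ((isCompact_Icc (a := -B) (b := B)).prod
        (isCompact_Icc (a := c.2 - 1) (b := c.2 + 1))) ?_
    intro x hx
    by_contra h
    have h1 : ρ x.1 ≠ 0 := left_ne_zero_of_mul h
    have h2 := b_supp (right_ne_zero_of_mul h)
    have h3 : |x.1| ≤ B := by
      by_contra h4
      exact h1 (hρ0 _ (not_le.1 h4))
    rw [abs_lt] at h2
    exact hx ⟨abs_le.1 h3, ⟨by linarith, by linarith⟩⟩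
  · intro t y
    have h1 := (hρd t).mul_const (b (y - c.2))
    have e : phi c (t, y) - phi (c.1 + a, c.2) (t, y) = g t * b (y - c.2) := by
      simp only [phi, hg]
      ring
    rw [e]
    exact h1

/-! ### Scaling -/

/-- The bump rescaled by the factor `l`. -/
noncomputable def psi (l : ℝ) (c : ℝ × ℝ) (x : ℝ × ℝ) : ℝ :=
  (l ^ 2)⁻¹ * phi c (l⁻¹ * x.1, l⁻¹ * x.2)

lemma hint_scale (h : ℤ × ℤ → ℤ) {δ l : ℝ} (hl : 0 < l) (c : ℝ × ℝ) :
    hint h δ (psi l c) = hint h (δ / l) (phi c) := by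
  unfold hint
  set Fn : ℝ × ℝ → ℝ := fun y => (l ^ 2)⁻¹ * (hd h (δ / l) y * phi c y) with hFn
  have e : (fun x : ℝ × ℝ => hd h δ x * psi l c x) = fun x => Fn (l⁻¹ • x) := by
    funext x
    have e0 : l⁻¹ • x = (l⁻¹ * x.1, l⁻¹ * x.2) := rfl
    simp only [hFn, e0, psi, hd]
    have e1 : ∀ u : ℝ, l⁻¹ * u / (δ / l) = u / δ := by
      intro u
      field_simp
    rw [e1, e1]
    ring
  have hf : Module.finrank ℝ (ℝ × ℝ) = 2 := by simp
  rw [e, Measure.integral_comp_smul volume Fn, hFn, integral_const_mul, hf, smul_eq_mul, inv_pow,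
    inv_inv, abs_of_pos (by positivity), ← mul_assoc, mul_inv_cancel₀ (by positivity), one_mul]

lemma psi_smooth (l : ℝ) (c : ℝ × ℝ) : ContDiff ℝ ((⊤ : ℕ∞) : WithTop ℕ∞) (psi l c) := by
  refine contDiff_const.mul ((phi_smooth c).comp ?_)
  exact (contDiff_const.mul contDiff_fst).prodMk (contDiff_const.mul contDiff_snd)

lemma psi_nonneg (l : ℝ) (c x : ℝ × ℝ) : 0 ≤ psi l c x :=
  mul_nonneg (by positivity) (phi_nonneg _ _)

lemma psi_supp {l : ℝ} (hl : 0 < l) {c x : ℝ × ℝ} (h : psi l c x ≠ 0) :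
    |x.1 - l * c.1| < l / 2 ∧ |x.2 - l * c.2| < l / 2 := by
  have h1 := phi_supp (right_ne_zero_of_mul h)
  have e : ∀ u v : ℝ, |u - l * v| = l * |l⁻¹ * u - v| := by
    intro u v
    have e1 : u - l * v = l * (l⁻¹ * u - v) := by
      field_simp
    rw [e1, abs_mul, abs_of_pos hl]
  rw [e, e]
  constructor
  · have := mul_lt_mul_of_pos_left h1.1 hl
    linarith
  · have := mul_lt_mul_of_pos_left h1.2 hl
    linarith

lemma psi_compact {l : ℝ} (hl : 0 < l) (c : ℝ × ℝ) : HasCompactSupport (psi l c) := by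
  refine HasCompactSupport.intro
    ((isCompact_Icc (a := l * c.1 - l) (b := l * c.1 + l)).prod
      (isCompact_Icc (a := l * c.2 - l) (b := l * c.2 + l))) ?_
  intro x hx
  by_contra h
  obtain ⟨h1, h2⟩ := psi_supp hl h
  rw [abs_lt] at h1 h2
  exact hx ⟨⟨by linarith, by linarith⟩, ⟨by linarith, by linarith⟩⟩

lemma psi_int {l : ℝ} (hl : 0 < l) (c : ℝ × ℝ) : ∫ x, psi l c x = 1 := by
  set Fn : ℝ × ℝ → ℝ := fun y => (l ^ 2)⁻¹ * phi c y with hFn
  have e : (fun x : ℝ × ℝ => psi l c x) = fun x => Fn (l⁻¹ • x) := rfl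
  have hf : Module.finrank ℝ (ℝ × ℝ) = 2 := by simp
  rw [e, Measure.integral_comp_smul volume Fn, hFn, integral_const_mul, phi_int, hf, smul_eq_mul,
    inv_pow, inv_inv, abs_of_pos (by positivity), mul_one, mul_inv_cancel₀ (by positivity)]

lemma psi_integrable {l : ℝ} (hl : 0 < l) (c : ℝ × ℝ) : Integrable (psi l c) :=
  (psi_smooth l c).continuous.integrable_of_hasCompactSupport (psi_compact hl c)

/-! ### Covariances -/

lemma haar4 : (volume : Measure ((ℝ × ℝ) × (ℝ × ℝ))).IsAddHaarMeasure :=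
  inferInstanceAs
    (((volume : Measure (ℝ × ℝ)).prod (volume : Measure (ℝ × ℝ))).IsAddHaarMeasure)

lemma pi_pos' : (0 : ℝ) < (2 * Real.pi)⁻¹ := by positivity

/-- The covariance of the rescaled bump. -/
lemma cov_psi {l : ℝ} (hl : 1 ≤ l) (c : ℝ × ℝ) :
    gffCov (phi c) (phi c) - (2 * Real.pi)⁻¹ * Real.log l ≤ gffCov (psi l c) (psi l c) := by
  have hl0 : 0 < l := by linarith
  have := haar4
  have cc := (psi_smooth l c).continuous
  rw [TL.cov_eq cc cc (psi_compact hl0 c) (psi_compact hl0 c),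
    TL.cov_eq (phi_cont c) (phi_cont c) (phi_compact c) (phi_compact c)]
  set Fn : (ℝ × ℝ) × (ℝ × ℝ) → ℝ := fun q => (l ^ 4)⁻¹ *
    (green (l * q.1.1, l * q.1.2) (l * q.2.1, l * q.2.2) * phi c q.1 * phi c q.2) with hFn
  have e : (fun p : (ℝ × ℝ) × (ℝ × ℝ) => green p.1 p.2 * psi l c p.1 * psi l c p.2) =
      fun p => Fn (l⁻¹ • p) := by
    funext p
    have e0 : l⁻¹ • p = ((l⁻¹ * p.1.1, l⁻¹ * p.1.2), (l⁻¹ * p.2.1, l⁻¹ * p.2.2)) := rfl
    simp only [hFn, e0, psi]
    have e1 : ∀ u : ℝ, l * (l⁻¹ * u) = u := by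
      intro u
      field_simp
    rw [e1, e1, e1, e1]
    have e2 : (l ^ 4)⁻¹ = (l ^ 2)⁻¹ * (l ^ 2)⁻¹ := by
      rw [← mul_inv]
      ring_nf
    rw [e2]
    ring
  have hf : Module.finrank ℝ ((ℝ × ℝ) × (ℝ × ℝ)) = 4 := by simp
  rw [e, Measure.integral_comp_smul volume Fn, hFn, integral_const_mul, hf, smul_eq_mul, inv_pow,
    inv_inv, abs_of_pos (by positivity), ← mul_assoc, mul_inv_cancel₀ (by positivity), one_mul]
  -- integrability
  have i1 : Integrable (fun q : (ℝ × ℝ) × (ℝ × ℝ) => green q.1 q.2 * phi c q.1 * phi c q.2) :=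
    TL.gint2 (phi_cont c) (phi_cont c) (phi_compact c) (phi_compact c)
  have i2 : Integrable (fun q : (ℝ × ℝ) × (ℝ × ℝ) => phi c q.1 * phi c q.2) := by
    rw [Measure.volume_eq_prod]
    exact (phi_integrable c).mul_prod (phi_integrable c)
  have i3 : Integrable (fun q : (ℝ × ℝ) × (ℝ × ℝ) =>
      green (l * q.1.1, l * q.1.2) (l * q.2.1, l * q.2.2) * phi c q.1 * phi c q.2) := by
    have i4 : Integrable (fun p : (ℝ × ℝ) × (ℝ × ℝ) =>
      green p.1 p.2 * psi l c p.1 * psi l c p.2) :=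
      TL.gint2 cc cc (psi_compact hl0 c) (psi_compact hl0 c)
    have i5 := (integrable_comp_smul_iff volume (fun p : (ℝ × ℝ) × (ℝ × ℝ) =>
      green p.1 p.2 * psi l c p.1 * psi l c p.2) hl0.ne').2 i4
    have i6 := i5.const_mul (l ^ 4)
    refine i6.congr (Eventually.of_forall fun q => ?_)
    have e0 : l • q = ((l * q.1.1, l * q.1.2), (l * q.2.1, l * q.2.2)) := rfl
    simp only [psi, e0]
    have e1 : ∀ u : ℝ, l⁻¹ * (l * u) = u := by
      intro u
      field_simp
    rw [e1, e1, e1, e1]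
    have e2 : l ^ 4 = l ^ 2 * l ^ 2 := by ring
    have e3 : l ^ 2 * (l ^ 2)⁻¹ = 1 := mul_inv_cancel₀ (by positivity)
    rw [e2]
    calc _ = (l ^ 2 * (l ^ 2)⁻¹) * (l ^ 2 * (l ^ 2)⁻¹) *
        (green (l * q.1.1, l * q.1.2) (l * q.2.1, l * q.2.2) * phi c (q.1.1, q.1.2) *
          phi c (q.2.1, q.2.2)) := by ring
      _ = _ := by rw [e3, one_mul, one_mul]
  have i7 : ∫ q : (ℝ × ℝ) × (ℝ × ℝ), phi c q.1 * phi c q.2 = 1 := by
    rw [Measure.volume_eq_prod, integral_prod_mul (phi c) (phi c), phi_int, one_mul]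
  have e3 : ∫ q : (ℝ × ℝ) × (ℝ × ℝ), (green q.1 q.2 * phi c q.1 * phi c q.2 -
      (2 * Real.pi)⁻¹ * Real.log l * (phi c q.1 * phi c q.2)) =
      (∫ q : (ℝ × ℝ) × (ℝ × ℝ), green q.1 q.2 * phi c q.1 * phi c q.2) -
        (2 * Real.pi)⁻¹ * Real.log l := by
    rw [integral_sub i1 (i2.const_mul _), integral_const_mul, i7, mul_one]
  rw [← e3]
  refine integral_mono (i1.sub (i2.const_mul _)) i3 fun q => ?_
  simp only
  have hg : green q.1 q.2 - (2 * Real.pi)⁻¹ * Real.log l ≤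
      green (l * q.1.1, l * q.1.2) (l * q.2.1, l * q.2.2) := by
    unfold green
    simp only
    have e4 : (l * q.1.1 - l * q.2.1) ^ 2 + (l * q.1.2 - l * q.2.2) ^ 2 =
        l ^ 2 * ((q.1.1 - q.2.1) ^ 2 + (q.1.2 - q.2.2) ^ 2) := by ring
    rw [e4, Real.sqrt_mul (by positivity), Real.sqrt_sq hl0.le]
    by_cases h0 : Real.sqrt ((q.1.1 - q.2.1) ^ 2 + (q.1.2 - q.2.2) ^ 2) = 0
    · rw [h0, mul_zero, Real.log_zero, mul_zero]
      have := mul_nonneg pi_pos'.le (Real.log_nonneg hl)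
      linarith
    · rw [Real.log_mul hl0.ne' h0]
      linarith
  have hp : 0 ≤ phi c q.1 * phi c q.2 := mul_nonneg (phi_nonneg _ _) (phi_nonneg _ _)
  have := mul_le_mul_of_nonneg_right hg hp
  nlinarith [this]

/-- The cross covariance. -/
lemma cov_cross {l : ℝ} (hl : 1 ≤ l) :
    gffCov (phi (0, 0)) (psi l (3, 3)) ≤ -((2 * Real.pi)⁻¹ * Real.log l) := by
  have hl0 : 0 < l := by linarith
  have cc := (psi_smooth l (3, 3)).continuous
  rw [TL.cov_eq (phi_cont _) cc (phi_compact _) (psi_compact hl0 _)]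
  have i1 : Integrable (fun q : (ℝ × ℝ) × (ℝ × ℝ) =>
      green q.1 q.2 * phi (0, 0) q.1 * psi l (3, 3) q.2) :=
    TL.gint2 (phi_cont _) cc (phi_compact _) (psi_compact hl0 _)
  have i2 : Integrable (fun q : (ℝ × ℝ) × (ℝ × ℝ) => phi (0, 0) q.1 * psi l (3, 3) q.2) := by
    rw [Measure.volume_eq_prod]
    exact (phi_integrable _).mul_prod (psi_integrable hl0 _)
  have i7 : ∫ q : (ℝ × ℝ) × (ℝ × ℝ), phi (0, 0) q.1 * psi l (3, 3) q.2 = 1 := by
    rw [Measure.volume_eq_prod, integral_prod_mul (phi (0, 0)) (psi l (3, 3)), phi_int,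
      psi_int hl0, one_mul]
  have e3 : ∫ q : (ℝ × ℝ) × (ℝ × ℝ), -((2 * Real.pi)⁻¹ * Real.log l) *
      (phi (0, 0) q.1 * psi l (3, 3) q.2) = -((2 * Real.pi)⁻¹ * Real.log l) := by
    rw [integral_const_mul, i7, mul_one]
  rw [← e3]
  refine integral_mono i1 (i2.const_mul _) fun q => ?_
  simp only
  by_cases h0 : phi (0, 0) q.1 * psi l (3, 3) q.2 = 0
  · rw [h0, mul_zero, mul_assoc, h0, mul_zero]
  · have h1 := phi_supp (left_ne_zero_of_mul h0)
    have h2 := psi_supp hl0 (right_ne_zero_of_mul h0)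
    have hp : 0 ≤ phi (0, 0) q.1 * psi l (3, 3) q.2 :=
      mul_nonneg (phi_nonneg _ _) (psi_nonneg _ _ _)
    rw [mul_assoc]
    refine mul_le_mul_of_nonneg_right ?_ hp
    unfold green
    have h3 : l ≤ Real.sqrt ((q.1.1 - q.2.1) ^ 2 + (q.1.2 - q.2.2) ^ 2) := by
      refine Real.le_sqrt_of_sq_le ?_
      have a1 := h1.1
      have a2 := h2.1
      simp only [sub_zero] at a1
      rw [abs_lt] at a1 a2
      have h4 : l ≤ q.2.1 - q.1.1 := by linarith [a1.2, a2.1]
      have h5 : l ^ 2 ≤ (q.2.1 - q.1.1) ^ 2 := pow_le_pow_left₀ hl0.le h4 2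
      nlinarith [sq_nonneg (q.1.2 - q.2.2)]
    have h6 := Real.log_le_log hl0 h3
    have := mul_le_mul_of_nonneg_left h6 pi_pos'.le
    linarith

/-- The difference of the bumps. -/
noncomputable def dif (l : ℝ) (x : ℝ × ℝ) : ℝ := phi (0, 0) x - psi l (3, 3) x

lemma dif_test {l : ℝ} (hl : 0 < l) : Test (dif l) := by
  refine ⟨(phi_smooth _).sub (psi_smooth _ _), (phi_compact _).sub (psi_compact hl _), ?_⟩
  unfold dif
  rw [integral_sub (phi_integrable _) (psi_integrable hl _), phi_int, psi_int hl, sub_self]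

theorem cov_dif : ∃ a : ℝ, ∀ l : ℝ, 1 ≤ l →
    a + (2 * Real.pi)⁻¹ * Real.log l ≤ gffCov (dif l) (dif l) := by
  refine ⟨gffCov (phi (0, 0)) (phi (0, 0)) + gffCov (phi (3, 3)) (phi (3, 3)), fun l hl => ?_⟩
  have hl0 : 0 < l := by linarith
  have e : gffCov (dif l) (dif l) = gffCov (phi (0, 0)) (phi (0, 0)) -
      2 * gffCov (phi (0, 0)) (psi l (3, 3)) + gffCov (psi l (3, 3)) (psi l (3, 3)) :=
    TL.cov_expand (phi_cont _) (psi_smooth _ _).continuous (phi_compact _) (psi_compact hl0 _)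
  rw [e]
  have h1 := cov_psi hl (3, 3)
  have h2 := cov_cross hl
  linarith

end Vale.Agent.P145.FB.AC
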