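import Vale.Agent.P145.FB.ACa
import Vale.Agent.P145.FB.ACb
import Vale.Agent.P145.FA.Stmt
import Vale.Agent.P152.GFF.S.Final

/-!
P145, block F-B (AC): second moments of differences of bump averages of the height function at
comparable scales are bounded, and the difference of the averages over two bumps of sizes `s` and
`2 M s` is anti-concentrated for large `M`.
-/

namespace Vale.Agent.P145.FB.AC

open MeasureTheory Filter Topology Finset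
open Vale.Agent.P152 Vale.Agent.P152.GFF.S
open Vale.Agent.P145.FA (ev Hgt)

/-! ### Weights of the cells -/

/-- The weights `∫_{cell} F` of the cells in a box. -/
noncomputable def cw (F : ℝ × ℝ → ℝ) (δ : ℝ) (N : ℕ) : (ℤ × ℤ) →₀ ℝ :=
  Finsupp.onFinset (hbox N) (fun v => if v ∈ hbox N then ∫ x in hcell δ v, F x else 0) (by
    intro v hv
    by_contra h
    rw [if_neg h] at hv
    exact hv rfl)

lemma cw_apply (F : ℝ × ℝ → ℝ) (δ : ℝ) (N : ℕ) (v : ℤ × ℤ) :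
    cw F δ N v = if v ∈ hbox N then ∫ x in hcell δ v, F x else 0 := rfl

lemma cw_sum (F : ℝ × ℝ → ℝ) (δ : ℝ) (N : ℕ) (g : ℤ × ℤ → ℝ → ℝ) (hg : ∀ v, g v 0 = 0) :
    (cw F δ N).sum g = ∑ v ∈ hbox N, g v (∫ x in hcell δ v, F x) := by
  unfold cw
  rw [Finsupp.onFinset_sum _ hg]
  refine Finset.sum_congr rfl fun v hv => ?_
  rw [if_pos hv]

lemma ev_cw (h : ℤ × ℤ → ℤ) {δ : ℝ} (hδ : 0 < δ) {F : ℝ × ℝ → ℝ} (hF : Integrable F)
    {R : ℝ} (hR : ∀ x : ℝ × ℝ, F x ≠ 0 → |x.1| ≤ R ∧ |x.2| ≤ R) {N : ℕ} (hN : R / δ + 1 ≤ N) :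
    ev (cw F δ N) h = hint h δ F := by
  unfold ev
  rw [cw_sum F δ N _ (fun v => by simp), hint_cells h hδ hF hR hN]
  exact Finset.sum_congr rfl fun v _ => mul_comm _ _

lemma mass_cw {δ : ℝ} (hδ : 0 < δ) {F : ℝ × ℝ → ℝ} (hF : Integrable F)
    {R : ℝ} (hR : ∀ x : ℝ × ℝ, F x ≠ 0 → |x.1| ≤ R ∧ |x.2| ≤ R) {N : ℕ} (hN : R / δ + 1 ≤ N) :
    ((cw F δ N).sum fun _ a => a) = ∫ x, F x := by
  rw [cw_sum F δ N _ (fun v => rfl)]
  have h1 := hint_cells (fun _ => 1) hδ hF hR hN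
  have h2 : hint (fun _ => 1) δ F = ∫ x, F x := by
    unfold hint hd
    simp
  rw [← h2, h1]
  refine Finset.sum_congr rfl fun v _ => ?_
  simp

lemma cw_supp {F : ℝ × ℝ → ℝ} {δ : ℝ} {N : ℕ} {v : ℤ × ℤ} (hv : v ∈ (cw F δ N).support) :
    ∃ x : ℝ × ℝ, F x ≠ 0 ∧ (δ * v.1 ≤ x.1 ∧ x.1 < δ * (v.1 + 1)) ∧
      (δ * v.2 ≤ x.2 ∧ x.2 < δ * (v.2 + 1)) := by
  rw [Finsupp.mem_support_iff, cw_apply] at hv
  by_contra hno
  apply hv
  split_ifs
  · refine setIntegral_eq_zero_of_forall_eq_zero fun x hx => ?_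
    by_contra hne
    exact hno ⟨x, hne, ⟨hx.1.1, hx.1.2⟩, ⟨hx.2.1, hx.2.2⟩⟩
  · rfl

/-- The weights of the bump at `c` at scale `s`. -/
noncomputable def bw (c : ℝ × ℝ) (s : ℕ) : (ℤ × ℤ) →₀ ℝ :=
  cw (phi c) (1 / s) ⌈(|c.1| + |c.2| + 1) / (1 / (s : ℝ)) + 1⌉₊

lemma phi_bd (c x : ℝ × ℝ) (h : phi c x ≠ 0) :
    |x.1| ≤ |c.1| + |c.2| + 1 ∧ |x.2| ≤ |c.1| + |c.2| + 1 := by
  have h1 := phi_supp h
  have h2 := abs_sub_abs_le_abs_sub x.1 c.1
  have h3 := abs_sub_abs_le_abs_sub x.2 c.2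
  have h4 := abs_nonneg c.1
  have h5 := abs_nonneg c.2
  constructor <;> linarith [h1.1, h1.2]

lemma ev_bw (c : ℝ × ℝ) {s : ℕ} (hs : 0 < s) (h : ℤ × ℤ → ℤ) :
    ev (bw c s) h = hint h (1 / s) (phi c) := by
  have h0 : (0 : ℝ) < 1 / s := by positivity
  exact ev_cw h h0 (phi_integrable c) (phi_bd c) (Nat.le_ceil _)

lemma mass_bw (c : ℝ × ℝ) {s : ℕ} (hs : 0 < s) : ((bw c s).sum fun _ a => a) = 1 := by
  have h0 : (0 : ℝ) < 1 / s := by positivity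
  rw [← phi_int c]
  exact mass_cw h0 (phi_integrable c) (phi_bd c) (Nat.le_ceil _)

lemma supp_bw (c : ℝ × ℝ) {s : ℕ} (hs : 0 < s) {v : ℤ × ℤ} (hv : v ∈ (bw c s).support) :
    (s * c.1 - s / 2 - 1 < v.1 ∧ (v.1 : ℝ) < s * c.1 + s / 2) ∧
      (s * c.2 - s / 2 - 1 < v.2 ∧ (v.2 : ℝ) < s * c.2 + s / 2) := by
  obtain ⟨x, hx, h1, h2⟩ := cw_supp hv
  have h3 := phi_supp hx
  have hs' : (0 : ℝ) < s := by exact_mod_cast hs
  have key : ∀ (u : ℤ) (y d : ℝ), 1 / (s : ℝ) * u ≤ y → y < 1 / (s : ℝ) * (u + 1) →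
      |y - d| < 1 / 2 → s * d - s / 2 - 1 < u ∧ (u : ℝ) < s * d + s / 2 := by
    intro u y d h4 h5 h6
    rw [abs_lt] at h6
    have h7 : (u : ℝ) ≤ s * y := by
      have := mul_le_mul_of_nonneg_left h4 hs'.le
      have e : (s : ℝ) * (1 / (s : ℝ) * u) = u := by field_simp
      linarith
    have h8 : s * y < u + 1 := by
      have := mul_lt_mul_of_pos_left h5 hs'
      have e : (s : ℝ) * (1 / (s : ℝ) * (u + 1)) = u + 1 := by field_simp
      linarith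
    have h9 : s * (y - d) < s * (1 / 2) := mul_lt_mul_of_pos_left h6.2 hs'
    have h10 : s * (-(1 / 2)) < s * (y - d) := mul_lt_mul_of_pos_left h6.1 hs'
    constructor <;> nlinarith
  exact ⟨key v.1 x.1 c.1 h1.1 h1.2 h3.1, key v.2 x.2 c.2 h2.1 h2.2 h3.2⟩

/-! ### Second moments -/

lemma hint_sub (h : ℤ × ℤ → ℤ) {δ : ℝ} (hδ : 0 < δ) {F G : ℝ × ℝ → ℝ} (hF : Continuous F)
    (cF : HasCompactSupport F) (hG : Continuous G) (cG : HasCompactSupport G) :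
    hint h δ (fun x => F x - G x) = hint h δ F - hint h δ G := by
  unfold hint
  rw [← integral_sub (hd_integrable h hδ hF cF) (hd_integrable h hδ hG cG)]
  refine integral_congr_ae (Eventually.of_forall (fun x => ?_))
  simp only
  ring

theorem second {P : Measure (Ori (ℤ × ℤ))} [IsProbabilityMeasure P] {C : ℝ} (hC : 0 ≤ C)
    (hGD : GD P C) (hice : ∀ᵐ ω ∂P, ∀ x y, Ice ω x y) (c : ℝ × ℝ) (a : ℝ) :
    ∃ D : ℝ, ∀ᶠ δ : ℝ in 𝓝[>] 0, ∫ ω, (hint (pth ω) δ (phi c) -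
      hint (pth ω) δ (phi (c.1 + a, c.2))) ^ 2 ∂P ≤ D := by
  obtain ⟨Ψ, hΨ, cΨ, dΨ⟩ := diff_deriv c a
  refine ⟨6 * C * (∫ x, Ψ x ^ 2) + 1, ?_⟩
  filter_upwards [row_var hC hGD hice hΨ cΨ (ε := 1) one_pos, self_mem_nhdsWithin] with δ h1 hδ
  have hδ0 : 0 < δ := hδ
  refine le_trans (le_of_eq ?_) h1
  refine integral_congr_ae ?_
  filter_upwards [hice] with ω hω
  rw [← hint_sub (pth ω) hδ0 (phi_cont _) (phi_compact _) (phi_cont _) (phi_compact _)]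
  have e := hint_dt (pth_isHeight hω) hδ0 hΨ.continuous cΨ
    (F := fun x => phi c x - phi (c.1 + a, c.2) x) ((phi_cont _).sub (phi_cont _)) dΨ
  rw [e]

/-! ### Anti-concentration -/

lemma gffCov_smul (t : ℝ) (f : ℝ × ℝ → ℝ) :
    gffCov (fun x => t * f x) (fun x => t * f x) = t ^ 2 * gffCov f f := by
  unfold gffCov
  rw [← integral_const_mul]
  congr 1
  funext x
  rw [← integral_const_mul]
  congr 1
  funext y
  ring

lemma hint_smul (h : ℤ × ℤ → ℤ) (δ t : ℝ) (f : ℝ × ℝ → ℝ) :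
    hint h δ (fun x => t * f x) = t * hint h δ f := by
  unfold hint
  rw [← integral_const_mul]
  congr 1
  funext x
  ring

lemma test_smul {f : ℝ × ℝ → ℝ} (hf : Test f) (t : ℝ) : Test (fun x => t * f x) := by
  refine ⟨contDiff_const.mul hf.1, hf.2.1.mul_left, ?_⟩
  rw [integral_const_mul, hf.2.2, mul_zero]

/-- The characteristic functions of the smoothed heights converge to those of the Gaussian free
field. -/
def CharLim (P : Measure (Ori (ℤ × ℤ))) (κ : ℝ) : Prop :=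
  ∀ F : ℝ × ℝ → ℝ, Test F →
    Tendsto (fun δ : ℝ => ∫ ω, Complex.exp (Complex.I * (hint (pth ω) δ F : ℂ)) ∂P) (𝓝[>] 0)
      (𝓝 (Complex.exp (-(((κ / 2) * gffCov F F : ℝ) : ℂ))))

theorem anti_dif {P : Measure (Ori (ℤ × ℤ))} [IsProbabilityMeasure P] {κ : ℝ} (hκ : 0 < κ)
    (hice : ∀ᵐ ω ∂P, ∀ x y, Ice ω x y) (hch : CharLim P κ) (K ε : ℝ) (hε : 0 < ε) :
    ∃ M1 : ℕ, 1 ≤ M1 ∧ ∀ M : ℕ, M1 ≤ M → ∀ᶠ δ : ℝ in 𝓝[>] 0,
      P.real {ω | |hint (pth ω) δ (dif (2 * M))| ≤ K} ≤ ε := by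
  obtain ⟨a, ha⟩ := cov_dif
  set K' : ℝ := max K 1 with hK'
  have hK1 : 0 < K' := lt_of_lt_of_le one_pos (le_max_right _ _)
  set V : ℝ := (4 * K' / ε) ^ 2 / κ + 1 with hV
  refine ⟨⌈Real.exp (2 * Real.pi * (V - a))⌉₊ + 1, by omega, fun M hM => ?_⟩
  have hM1 : (1 : ℝ) ≤ M := by
    have : 1 ≤ M := by omega
    exact_mod_cast this
  have hl1 : (1 : ℝ) ≤ 2 * M := by linarith
  have hl0 : (0 : ℝ) < 2 * M := by linarith
  have hMe : Real.exp (2 * Real.pi * (V - a)) ≤ 2 * M := by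
    have h1 := Nat.le_ceil (Real.exp (2 * Real.pi * (V - a)))
    have h2 : ((⌈Real.exp (2 * Real.pi * (V - a))⌉₊ : ℕ) : ℝ) ≤ M := by
      have : ⌈Real.exp (2 * Real.pi * (V - a))⌉₊ ≤ M := by omega
      exact_mod_cast this
    linarith
  have hlog : 2 * Real.pi * (V - a) ≤ Real.log (2 * M) := by
    rw [← Real.log_exp (2 * Real.pi * (V - a))]
    exact Real.log_le_log (Real.exp_pos _) hMe
  have hcov : V ≤ gffCov (dif (2 * M)) (dif (2 * M)) := by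
    have h1 := ha (2 * M) hl1
    have h2 : V - a ≤ (2 * Real.pi)⁻¹ * Real.log (2 * M) := by
      have h3 := mul_le_mul_of_nonneg_left hlog pi_pos'.le
      have h4 : (2 * Real.pi)⁻¹ * (2 * Real.pi * (V - a)) = V - a := by
        have : (2 * Real.pi) ≠ 0 := by positivity
        field_simp
      linarith
    linarith
  have hVpos : 0 < V := by positivity
  have hTest : Test (dif (2 * M)) := dif_test hl0
  set v : ℝ := κ * gffCov (dif (2 * M)) (dif (2 * M)) with hv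
  have hv0 : 0 < v := mul_pos hκ (lt_of_lt_of_le hVpos hcov)
  have hvV : (4 * K' / ε) ^ 2 ≤ v := by
    have h1 : κ * V ≤ v := mul_le_mul_of_nonneg_left hcov hκ.le
    have h2 : κ * V = (4 * K' / ε) ^ 2 + κ := by
      rw [hV]
      field_simp
    linarith
  have hlim : ∀ t : ℝ, Tendsto (fun δ => ∫ ω, Complex.exp (Complex.I *
      ((t * hint (pth ω) δ (dif (2 * M)) : ℝ) : ℂ)) ∂P) (𝓝[>] 0)
      (𝓝 (Complex.exp (-((v / 2 * t ^ 2 : ℝ) : ℂ)))) := by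
    intro t
    have h1 := hch _ (test_smul hTest t)
    simp_rw [hint_smul, gffCov_smul] at h1
    have e : κ / 2 * (t ^ 2 * gffCov (dif (2 * M)) (dif (2 * M))) = v / 2 * t ^ 2 := by
      rw [hv]
      ring
    rw [e] at h1
    exact h1
  have hh : ∀ᵐ ω ∂P, Vale.Agent.P152.IsHeight ω (pth ω) := by
    filter_upwards [hice] with ω hω
    exact pth_isHeight hω
  have hmain := anti (P := P) (X := fun δ ω => hint (pth ω) δ (dif (2 * M)))
    (fun δ => hint_aemeasurable pth hh hTest δ) hv0 hlim hK1 (η := ε / 2) (by positivity)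
  filter_upwards [hmain] with δ hδ
  have h1 : 4 * K' / ε ≤ Real.sqrt v := by
    refine Real.le_sqrt_of_sq_le hvV
  have h2 : 0 < 4 * K' / ε := by positivity
  have h3 : 2 * K' / Real.sqrt v ≤ ε / 2 := by
    rw [div_le_div_iff₀ (lt_of_lt_of_le h2 h1) (by norm_num)]
    have h4 := mul_le_mul_of_nonneg_left h1 hε.le
    have h5 : ε * (4 * K' / ε) = 4 * K' := by field_simp
    linarith
  have h4 : P.real {ω | |hint (pth ω) δ (dif (2 * M))| ≤ K} ≤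
      P.real {ω | |hint (pth ω) δ (dif (2 * M))| ≤ K'} := by
    refine measureReal_mono fun ω hω => ?_
    have hω' : |hint (pth ω) δ (dif (2 * M))| ≤ K := hω
    exact hω'.trans (le_max_left _ _)
  linarith

/-! ### The statement -/

/-- Bounded second moments at comparable scales, and anti-concentration between the scales `s` and
`2 M s`. The faces are those of the six-vertex lattice, `q.1 + q.2` and `q.1 - q.2` are the
coordinates of the fine lattice. -/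
def Stmt (P : Measure (Ori (ℤ × ℤ))) : Prop :=
  ∃ C : ℝ, ∀ K ε : ℝ, 0 < ε → ∃ M1 : ℕ, 1 ≤ M1 ∧ ∀ M : ℕ, M1 ≤ M → ∃ s0 : ℕ, 1 ≤ s0 ∧
    ∀ s : ℕ, s0 ≤ s → ∃ r1 o1 r2 o2 : (ℤ × ℤ) →₀ ℝ,
      ((r1.sum fun _ a => a) = 1 ∧ (o1.sum fun _ a => a) = 1 ∧ (r2.sum fun _ a => a) = 1 ∧
        (o2.sum fun _ a => a) = 1) ∧
      (∀ q ∈ r1.support, |q.1 + q.2| < 2 * s ∧ |q.1 - q.2| < 2 * s) ∧
      (∀ q ∈ o1.support, 4 * s < q.1 + q.2) ∧
      (∀ q ∈ r2.support, |q.1 + q.2 - 6 * (2 * M * s)| < 2 * (2 * M * s) ∧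
        |q.1 - q.2| < 2 * (2 * M * s)) ∧
      (∀ q ∈ o2.support, 4 * (2 * M * s) < q.1 + q.2 - 6 * (2 * M * s)) ∧
      ∫ ω, (ev r1 (pth ω) - ev o1 (pth ω)) ^ 2 ∂P ≤ C ∧
      ∫ ω, (ev r2 (pth ω) - ev o2 (pth ω)) ^ 2 ∂P ≤ C ∧
      P.real {ω | |ev r1 (pth ω) - ev r2 (pth ω)| ≤ K} ≤ ε

theorem main {P : Measure (Ori (ℤ × ℤ))} [IsProbabilityMeasure P] {C κ : ℝ} (hC : 0 ≤ C)
    (hGD : GD P C) (hice : ∀ᵐ ω ∂P, ∀ x y, Ice ω x y) (hκ : 0 < κ) (hch : CharLim P κ) :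
    Stmt P := by
  obtain ⟨D1, hD1⟩ := second hC hGD hice (0, 0) 6
  obtain ⟨D2, hD2⟩ := second hC hGD hice (3, 3) 6
  refine ⟨max D1 D2, fun K ε hε => ?_⟩
  obtain ⟨M1, hM1, hM⟩ := anti_dif hκ hice hch K ε hε
  refine ⟨M1, hM1, fun M hMM => ?_⟩
  have hMpos : 1 ≤ M := le_trans hM1 hMM
  have hMr : (1 : ℝ) ≤ M := by exact_mod_cast hMpos
  have t1 : Tendsto (fun s : ℕ => 1 / (s : ℝ)) atTop (𝓝[>] 0) := by
    rw [tendsto_nhdsWithin_iff]
    refine ⟨tendsto_one_div_atTop_nhds_zero_nat, ?_⟩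
    filter_upwards [eventually_gt_atTop 0] with s hs
    have : (0 : ℝ) < s := by exact_mod_cast hs
    exact one_div_pos.2 this
  have t2 : Tendsto (fun s : ℕ => 1 / ((2 * M * s : ℕ) : ℝ)) atTop (𝓝[>] 0) := by
    refine t1.comp ?_
    refine tendsto_atTop_mono (fun s => ?_) tendsto_id
    show s ≤ 2 * M * s
    nlinarith
  have ev1 := t1.eventually hD1
  have ev2 := t2.eventually hD2
  have ev3 := t1.eventually (hM M hMM)
  obtain ⟨s0, hs0⟩ := Filter.eventually_atTop.1 (ev1.and (ev2.and ev3))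
  refine ⟨max s0 4, by omega, fun s hs => ?_⟩
  have hs4 : 4 ≤ s := le_trans (le_max_right _ _) hs
  obtain ⟨h1, h2, h3⟩ := hs0 s (le_trans (le_max_left _ _) hs)
  have hspos : 0 < s := by omega
  have hRpos : 0 < 2 * M * s := by positivity
  have hsr : (4 : ℝ) ≤ s := by exact_mod_cast hs4
  have hRr : (4 : ℝ) ≤ ((2 * M * s : ℕ) : ℝ) := by
    have : 4 ≤ 2 * M * s := by nlinarith
    exact_mod_cast this
  refine ⟨bw (0, 0) s, bw (6, 0) s, bw (3, 3) (2 * M * s), bw (9, 3) (2 * M * s),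
    ⟨mass_bw _ hspos, mass_bw _ hspos, mass_bw _ hRpos, mass_bw _ hRpos⟩, ?_, ?_, ?_, ?_, ?_, ?_, ?_⟩
  · intro q hq
    obtain ⟨⟨a1, a2⟩, ⟨a3, a4⟩⟩ := supp_bw _ hspos hq
    simp only [mul_zero] at a1 a2 a3 a4
    rw [abs_lt, abs_lt]
    refine ⟨⟨?_, ?_⟩, ⟨?_, ?_⟩⟩ <;>
    · have : (0 : ℝ) < (s : ℝ) := by linarith
      rify
      linarith
  · intro q hq
    obtain ⟨⟨a1, a2⟩, ⟨a3, a4⟩⟩ := supp_bw _ hspos hq
    simp only at a1 a2 a3 a4
    rify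
    linarith
  · intro q hq
    obtain ⟨⟨a1, a2⟩, ⟨a3, a4⟩⟩ := supp_bw _ hRpos hq
    simp only at a1 a2 a3 a4
    push_cast at a1 a2 a3 a4 hRr
    rw [abs_lt, abs_lt]
    refine ⟨⟨?_, ?_⟩, ⟨?_, ?_⟩⟩ <;>
    · rify
      linarith
  · intro q hq
    obtain ⟨⟨a1, a2⟩, ⟨a3, a4⟩⟩ := supp_bw _ hRpos hq
    simp only at a1 a2 a3 a4
    push_cast at a1 a2 a3 a4 hRr
    rify
    linarith
  · refine le_trans ?_ (le_max_left _ _)
    simp_rw [ev_bw _ hspos]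
    have e : ((0 : ℝ) + 6, (0 : ℝ)) = (6, 0) := by norm_num
    simpa only [e] using h1
  · refine le_trans ?_ (le_max_right _ _)
    simp_rw [ev_bw _ hRpos]
    have e : ((3 : ℝ) + 6, (3 : ℝ)) = (9, 3) := by norm_num
    simpa only [e] using h2
  · have hl0 : (0 : ℝ) < 2 * M := by linarith
    have e : ∀ ω : Ori (ℤ × ℤ), ev (bw (0, 0) s) (pth ω) - ev (bw (3, 3) (2 * M * s)) (pth ω) =
        hint (pth ω) (1 / s) (dif (2 * M)) := by
      intro ω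
      have hs1 : (0 : ℝ) < 1 / s := by positivity
      have e1 : (1 : ℝ) / ((2 * M * s : ℕ) : ℝ) = 1 / s / (2 * M) := by
        push_cast
        field_simp
      have e2 := hint_sub (pth ω) hs1 (phi_cont (0, 0)) (phi_compact _)
        (psi_smooth (2 * M) (3, 3)).continuous (psi_compact hl0 _)
      rw [ev_bw _ hspos, ev_bw _ hRpos, e1, ← hint_scale (pth ω) hl0, ← e2]
      rfl
    simp_rw [e]
    exact h3

end Vale.Agent.P145.FB.AC
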