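import Vale.Agent.P145.FB.MomA
import Vale.Agent.P145.FA.RpG
import Vale.Agent.P152.GFF.E2.OutGd
import Vale.Agent.P152.GFF.E2.GDn

/-!
P145, block F-B: exponential moments of the vertex averages of the arrows, `0 < c ≤ 2`.
-/

namespace Vale.Agent.P145.FB.Mom

open Finset Filter Topology MeasureTheory
open Vale.Agent.P152 Vale.Agent.P152.GFF Vale.Agent.P152.GFF.B3 Vale.Agent.P152.GFF.E2
open Vale.Agent.P152.GFF.S (ar)
open Vale.Agent.P145.FA (rg_evn)

lemma mh_tr (w : Pairing → ℝ) (m r : ℕ) (φ : (BE m r → ZMod 2) → ℝ) :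
    mu w m r φ = mu w r m (fun x => φ (fun e => x (sw m r e))) := by
  unfold mu muI
  congr 1
  funext q
  rw [ts_insW_box m r (q + m + q) (q + r + q) q q (by omega) (by omega) w,
    (ts_isTr_box (q + m + q) (q + r + q)).ar_eq w (fun _ => 1)]
  congr 2
  funext x
  have h1 := (ts_isTr_box m r).W6_eq w x
  simp only [tsE_apply] at h1
  rw [h1]

/-- Exponential moments in the infinite-volume state. -/
theorem mexpH {c : ℝ} (hu : UqC c) (w : Pairing → ℝ) (hwc : w = wc c) (hw : ∀ q, 0 ≤ w q)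
    (hw12 : w Pairing.t1 = w Pairing.t2) (hA : A6 w) :
    ∃ C > 0, ∃ γ > 0, ∀ (m r : ℕ) (g : ℕ → ℕ → ℝ), 1 ≤ m → 1 ≤ r → Even m → Even r →
      (∀ i j, |g i j| ≤ γ) →
      mu w m r (fun x => Real.exp (fieldY m r g x)) ≤
        Real.exp (C * ∑ i ∈ range m, ∑ j ∈ range r, g i j ^ 2) := by
  obtain ⟨C0, hC0, γ0, hγ0, hG⟩ := m_GD0 w hw hw12 hA
  refine ⟨C0, hC0, γ0, hγ0, fun m r g hm hr hme hre hgb => ?_⟩
  set S : ℝ := ∑ i ∈ range m, ∑ j ∈ range r, g i j ^ 2 with hS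
  have hbd : ∀ p n i j, |secg m r p n 1 g i j| ≤ γ0 := by
    intro p n i j
    unfold secg
    split_ifs with h
    · rw [one_mul]
      exact hgb _ _
    · rw [abs_zero]
      exact hγ0.le
  -- the main estimate
  have key : ∀ ε : ℝ, 0 < ε → mu w m r (fun x => Real.exp (fieldY m r g x)) ≤
      Real.exp (C0 * S + ε) + ε := by
    intro ε hε
    obtain ⟨q0, hq0⟩ := hu.box m r hm hr
      (fun x => Real.exp (fieldY m r g x) * (boxNet m r).W6 w x)
      (rg_evn m r hm hr w (fun x => Real.exp (fieldY m r g x))) ε hε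
    rw [← hwc] at hq0
    have hl2 : 0 < Real.log 2 := Real.log_pos (by norm_num)
    obtain ⟨p0, hp0⟩ := exists_nat_ge ((r : ℝ) * m * Real.log 2 / ε)
    obtain ⟨p, hp⟩ : ∃ p, p = max (max q0 1) p0 := ⟨_, rfl⟩
    obtain ⟨n0, hn0⟩ := exists_nat_ge ((r : ℝ) * (2 * p + m) * Real.log 2 / ε)
    obtain ⟨n, hn⟩ : ∃ n, n = max (max q0 1) n0 := ⟨_, rfl⟩
    have hp1 : 1 ≤ p := by omega
    have hn1 : 1 ≤ n := by omega
    have hpq : q0 ≤ p := by omega
    have hnq : q0 ≤ n := by omega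
    have hp2 : (p0 : ℝ) ≤ p := by exact_mod_cast (by omega : p0 ≤ p)
    have hn2 : (n0 : ℝ) ≤ n := by exact_mod_cast (by omega : n0 ≤ n)
    have hp3 : (0 : ℝ) < p := by exact_mod_cast hp1
    have hn3 : (0 : ℝ) < n := by exact_mod_cast hn1
    have e1 : (r : ℝ) * m * Real.log 2 / (2 * p) ≤ ε / 2 := by
      have h1 : (r : ℝ) * m * Real.log 2 / ε ≤ p := le_trans hp0 hp2
      rw [div_le_iff₀ hε] at h1
      rw [div_le_iff₀ (by positivity)]
      linarith
    have e2 : (r : ℝ) * (2 * p + m) * Real.log 2 / (2 * n) ≤ ε / 2 := by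
      have h1 : (r : ℝ) * (2 * p + m) * Real.log 2 / ε ≤ n := le_trans hn0 hn2
      rw [div_le_iff₀ hε] at h1
      rw [div_le_iff₀ (by positivity)]
      linarith
    have hx : p + m ≤ p + m + p := by omega
    have hy : n + r ≤ n + r + n := by omega
    have he : IsEmb (boxNet m r) (boxNet (p + m + p) (n + r + n)) (bxf p n hx hy)
        (bxg p n hx hy) := m_emb.2.2.1 m r _ _ p n hx hy
    have hE : (boxNet (p + m + p) (n + r + n)).Ea w
        (fun k => Real.exp (fieldY m r g (fun e => k (bxg p n hx hy e)))) ≤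
        Real.exp (C0 * S + ε) := by
      have h1 := hG p m n r (secg m r p n 1 g) hp1 hme hn1 hre
        (fun i j h => secg_out 1 g h) (hbd p n)
      have h2 : (fun k : BE (p + m + p) (n + r + n) → ZMod 2 =>
          Real.exp (fieldY (p + m + p) (n + r + n) (secg m r p n 1 g) k)) =
          fun k => Real.exp (fieldY m r g (fun e => k (bxg p n hx hy e))) := by
        funext k
        rw [secg_field hx hy 1 g he, one_mul]
      rw [h2, secg_sq hx hy] at h1
      refine le_trans h1 (Real.exp_le_exp.2 ?_)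
      rw [← hS, one_pow, one_mul]
      linarith
    have h2 := hq0 (p + m + p) (n + r + n) p n hx hy hpq hnq (by omega) (by omega)
    have h3 := m_loc _ _ _ _ (boxNet m r) (boxNet (p + m + p) (n + r + n)) (bxf p n hx hy)
      (bxg p n hx hy) w he (fun x => Real.exp (fieldY m r g x))
    unfold Net.Ea at hE
    rw [← h3] at h2
    have h4 := (abs_le.1 h2).1
    unfold mu
    linarith
  have hlim : Tendsto (fun ε : ℝ => Real.exp (C0 * S + ε) + ε)
      (𝓝[>] 0) (𝓝 (Real.exp (C0 * S + 0) + 0)) := by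
    refine Tendsto.mono_left ?_ nhdsWithin_le_nhds
    have hc : Continuous (fun ε : ℝ => Real.exp (C0 * S + ε) + ε) := by fun_prop
    exact hc.tendsto 0
  have h5 : mu w m r (fun x => Real.exp (fieldY m r g x)) ≤ Real.exp (C0 * S + 0) + 0 :=
    ge_of_tendsto hlim (eventually_nhdsWithin_of_forall fun ε hε => key ε hε)
  rwa [add_zero, add_zero] at h5

/-- The same for the vertical arrows. -/
theorem mexpVH {c : ℝ} (hu : UqC c) (w : Pairing → ℝ) (hwc : w = wc c) (hw : ∀ q, 0 ≤ w q)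
    (hw12 : w Pairing.t1 = w Pairing.t2) (hA : A6 w) :
    ∃ C > 0, ∃ γ > 0, ∀ (m r : ℕ) (g : ℕ → ℕ → ℝ), 1 ≤ m → 1 ≤ r → Even m → Even r →
      (∀ i j, |g i j| ≤ γ) →
      mu w m r (fun x => Real.exp (fieldY m r g x)) ≤
        Real.exp (C * ∑ i ∈ range m, ∑ j ∈ range r, g i j ^ 2) ∧
      mu w m r (fun x => Real.exp (∑ v : Fin m × Fin r, g v.1 v.2 / 2 *
        (sg (x (Sum.inr (v.1, v.2.castSucc))) + sg (x (Sum.inr (v.1, v.2.succ)))))) ≤
        Real.exp (C * ∑ i ∈ range m, ∑ j ∈ range r, g i j ^ 2) := by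
  obtain ⟨C, hC, γ, hγ, h⟩ := mexpH hu w hwc hw hw12 hA
  refine ⟨C, hC, γ, hγ, fun m r g hm hr hme hre hg => ⟨h m r g hm hr hme hre hg, ?_⟩⟩
  rw [mh_tr w m r]
  have h1 := h r m (fun i j => g j i) hr hm hre hme (fun i j => hg j i)
  have h2 : (fun x : BE r m → ZMod 2 => Real.exp (∑ v : Fin m × Fin r, g v.1 v.2 / 2 *
      (sg ((fun e => x (sw m r e)) (Sum.inr (v.1, v.2.castSucc))) +
        sg ((fun e => x (sw m r e)) (Sum.inr (v.1, v.2.succ)))))) =
      fun x => Real.exp (fieldY r m (fun i j => g j i) x) := by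
    funext x
    congr 1
    unfold fieldY
    rw [← Equiv.sum_comp (Equiv.prodComm (Fin m) (Fin r))]
    rfl
  rw [h2]
  refine le_trans h1 (le_of_eq ?_)
  rw [Finset.sum_comm]

/-- Gaussian domination (exponential moments) for vertex averages. -/
theorem egd_hi {c : ℝ} (hc : 0 < c) (hc2 : c ≤ 2) (hu : UqC c) (hA : A6 (wc c)) :
    ∃ C > 0, ∃ γ > 0, ∀ P : Measure (Ori (ℤ × ℤ)), IsP c P → EGD P C γ := by
  obtain ⟨C, hC, γ, hγ, hb⟩ := mexpVH hu (wc c) rfl (wc_nonneg2 hc hc2) rfl hA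
  refine ⟨C, hC, γ, hγ, fun P hP s g hg => ?_⟩
  classical
  set N : ℕ := ∑ v ∈ s, (v.1.natAbs + v.2.natAbs) with hNdef
  have hN : ∀ v ∈ s, v.1.natAbs + v.2.natAbs ≤ N := fun v hv =>
    Finset.single_le_sum (f := fun v : ℤ × ℤ => v.1.natAbs + v.2.natAbs)
      (fun _ _ => Nat.zero_le _) hv
  set G : ℕ → ℕ → ℝ := fun i j =>
    if ((i : ℤ) - N, (j : ℤ) - N) ∈ s then g ((i : ℤ) - N, (j : ℤ) - N) else 0 with hG
  have hGb : ∀ i j, |G i j| ≤ γ := by
    intro i j
    simp only [hG]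
    split_ifs
    · exact hg _
    · rw [abs_zero]
      exact hγ.le
  have hsq : ∑ i ∈ range (2 * N + 2), ∑ j ∈ range (2 * N + 2), G i j ^ 2 = ∑ v ∈ s, g v ^ 2 := by
    rw [win_sum s N hN (fun v => g v ^ 2), Fintype.sum_prod_type, Finset.sum_range]
    refine Finset.sum_congr rfl fun i _ => ?_
    rw [Finset.sum_range]
    refine Finset.sum_congr rfl fun j _ => ?_
    simp only [hG]
    split_ifs <;> simp
  obtain ⟨hb1, hb2⟩ := hb (2 * N + 2) (2 * N + 2) G (by omega) (by omega) ⟨N + 1, by ring⟩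
    ⟨N + 1, by ring⟩ hGb
  rw [hsq] at hb1 hb2
  have hx : ∀ a : ℤ, -(N : ℤ) + a = a - N := fun a => by ring
  constructor
  · refine le_trans (le_of_eq ?_) hb1
    rw [← hP.2.2 (2 * N + 2) (2 * N + 2) (by omega) (by omega)
      (fun x => Real.exp (fieldY (2 * N + 2) (2 * N + 2) G x)) (-(N : ℤ)) (-(N : ℤ))]
    refine integral_congr_ae (Filter.Eventually.of_forall fun ω => ?_)
    beta_reduce
    congr 1
    rw [win_sum s N hN]
    unfold fieldY
    refine Finset.sum_congr rfl fun v _ => ?_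
    rw [sg_rd_inl, sg_rd_inl]
    simp only [hG, hx, Fin.val_castSucc, Fin.val_succ]
    split_ifs with h
    · have e2 : (((v.1 : ℕ) + 1 : ℕ) : ℤ) - N - 1 = ((v.1 : ℕ) : ℤ) - N := by push_cast; ring
      rw [e2]
      ring
    · ring
  · refine le_trans (le_of_eq ?_) hb2
    rw [← hP.2.2 (2 * N + 2) (2 * N + 2) (by omega) (by omega)
      (fun x => Real.exp (∑ v : Fin (2 * N + 2) × Fin (2 * N + 2), G v.1 v.2 / 2 *
        (sg (x (Sum.inr (v.1, v.2.castSucc))) + sg (x (Sum.inr (v.1, v.2.succ))))))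
      (-(N : ℤ)) (-(N : ℤ))]
    refine integral_congr_ae (Filter.Eventually.of_forall fun ω => ?_)
    beta_reduce
    congr 1
    rw [win_sum s N hN]
    refine Finset.sum_congr rfl fun v _ => ?_
    rw [sg_rd_inr, sg_rd_inr]
    simp only [hG, hx, Fin.val_castSucc, Fin.val_succ]
    split_ifs with h
    · have e2 : (((v.2 : ℕ) + 1 : ℕ) : ℤ) - N - 1 = ((v.2 : ℕ) : ℤ) - N := by push_cast; ring
      rw [e2]
      ring
    · ring

end Vale.Agent.P145.FB.Mom
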