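import Vale.Agent.P145.FA.Stmt
import Vale.Agent.P145.FP.Torus

/-!
P145, block F-B: the swap property (Gibbs property) of the plane measure on the arrows, from the
iterated limit of the tori.
-/

namespace Vale.Agent.P145.FB

open Finset Filter Topology MeasureTheory
open Vale.Agent.P152 Vale.Agent.P145.FA

/-- Swap property (Gibbs property) of the arrows. -/
def Swap (c : ℝ) (P : Measure (Ori (ℤ × ℤ))) : Prop :=
  ∀ (E : Finset (Edge (ℤ × ℤ))) (V : Finset (ℤ × ℤ)) (ξ ξ' : Ori (ℤ × ℤ)),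
    (∀ v ∈ V, FP.star v ⊆ E) → (∀ e ∈ E, ξ e ≠ ξ' e → FP.Ends V e) →
    P.real (cyl E ξ) * ∏ v ∈ V, FP.vwt c ξ' v = P.real (cyl E ξ') * ∏ v ∈ V, FP.vwt c ξ v

/-- `P` is the iterated limit of the tori. -/
def TorL (c : ℝ) (P : Measure (Ori (ℤ × ℤ))) : Prop :=
  ∀ (Λ : Finset (Edge (ℤ × ℤ))) (f : Ori (ℤ × ℤ) → ℝ),
    (∀ ω ω', (∀ e ∈ Λ, ω e = ω' e) → f ω = f ω') → ∀ ε > 0, ∃ q0 : ℕ, ∀ l : ℕ, q0 ≤ l →
    ∀ᶠ M : ℕ in atTop, |torA c (M + 1) (2 * (l + 1)) f - ∫ ω, f ω ∂P| ≤ ε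

lemma measurableSet_cylE (Λ : Finset (Edge (ℤ × ℤ))) (ξ : Ori (ℤ × ℤ)) :
    MeasurableSet (cyl Λ ξ) := by
  have h1 : cyl Λ ξ = ⋂ e ∈ Λ, (fun x : Ori (ℤ × ℤ) => x e) ⁻¹' {ξ e} := by
    ext x; simp [cyl]
  rw [h1]
  exact Finset.measurableSet_biInter _ fun e _ =>
    (measurable_pi_apply e) (measurableSet_singleton _)

theorem swap_of_torL {c : ℝ} {P : Measure (Ori (ℤ × ℤ))} (hT : TorL c P) : Swap c P := by
  intro E V ξ ξ' hin hout
  -- the cylinder probabilities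
  have hC : ∀ Λ ξ, ∀ ε > 0, ∃ q0 : ℕ, ∀ l : ℕ, q0 ≤ l → ∀ᶠ M : ℕ in atTop,
      |torA c (M + 1) (2 * (l + 1)) ((cyl Λ ξ).indicator (fun _ => (1 : ℝ))) -
        P.real (cyl Λ ξ)| ≤ ε := by
    intro Λ ξ ε hε
    have h1 := hT Λ ((cyl Λ ξ).indicator (fun _ => (1 : ℝ))) (by
      intro ω ω' hω
      have : (ω ∈ cyl Λ ξ) ↔ (ω' ∈ cyl Λ ξ) := by
        constructor
        · intro h e he; rw [← hω e he]; exact h e he
        · intro h e he; rw [hω e he]; exact h e he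
      by_cases h2 : ω ∈ cyl Λ ξ
      · rw [Set.indicator_of_mem h2, Set.indicator_of_mem (this.1 h2)]
      · rw [Set.indicator_of_notMem h2, Set.indicator_of_notMem (fun h3 => h2 (this.2 h3))]) ε hε
    have h2 : ∫ ω, (cyl Λ ξ).indicator (fun _ => (1 : ℝ)) ω ∂P = P.real (cyl Λ ξ) :=
      integral_indicator_one (measurableSet_cylE Λ ξ)
    rw [h2] at h1
    exact h1
  set K : ℤ := (∑ v ∈ V, (|v.1| + |v.2|)) +
    ∑ e ∈ E, (Sum.elim (fun v : ℤ × ℤ => |v.1| + |v.2|) (fun v => |v.1| + |v.2|) e) with hK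
  have hnn : ∀ e : Edge (ℤ × ℤ),
      0 ≤ Sum.elim (fun v : ℤ × ℤ => |v.1| + |v.2|) (fun v => |v.1| + |v.2|) e := by
    rintro (v | v) <;> simp only [Sum.elim_inl, Sum.elim_inr] <;> positivity
  have hnv : ∀ v : ℤ × ℤ, 0 ≤ |v.1| + |v.2| := fun v => by positivity
  have hE : ∀ v, (Sum.inl v ∈ E ∨ Sum.inr v ∈ E) → |v.1| ≤ K ∧ |v.2| ≤ K := by
    intro v hv
    have h0 : 0 ≤ ∑ v ∈ V, (|v.1| + |v.2|) := Finset.sum_nonneg fun v _ => hnv v
    rcases hv with hv | hv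
    · have := Finset.single_le_sum (fun e _ => hnn e) hv
      simp only [Sum.elim_inl] at this
      have h1 := abs_nonneg v.1
      have h2 := abs_nonneg v.2
      constructor <;> omega
    · have := Finset.single_le_sum (fun e _ => hnn e) hv
      simp only [Sum.elim_inr] at this
      have h1 := abs_nonneg v.1
      have h2 := abs_nonneg v.2
      constructor <;> omega
  have hV : ∀ v ∈ V, |v.1| ≤ K ∧ |v.2| ≤ K := by
    intro v hv
    have h0 : 0 ≤ ∑ e ∈ E, (Sum.elim (fun v : ℤ × ℤ => |v.1| + |v.2|)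
        (fun v => |v.1| + |v.2|) e) := Finset.sum_nonneg fun e _ => hnn e
    have := Finset.single_le_sum (fun v _ => hnv v) hv
    have h1 := abs_nonneg v.1
    have h2 := abs_nonneg v.2
    constructor <;> omega
  set a := ∏ v ∈ V, FP.vwt c ξ' v with ha
  set b := ∏ v ∈ V, FP.vwt c ξ v with hb
  -- the identity up to an arbitrary error
  have key : ∀ ε > 0, |P.real (cyl E ξ) * a - P.real (cyl E ξ') * b| ≤ ε * (|a| + |b|) := by
    intro ε hε
    obtain ⟨q1, h1⟩ := hC E ξ ε hε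
    obtain ⟨q2, h2⟩ := hC E ξ' ε hε
    set l := max (max q1 q2) (2 * K).toNat with hl
    have e1 := h1 l (le_trans (le_max_left _ _) (le_max_left _ _))
    have e2 := h2 l (le_trans (le_max_right _ _) (le_max_left _ _))
    have hlK : (2 * K).toNat ≤ l := le_max_right _ _
    obtain ⟨M, ⟨hM1, hM2⟩, hM3⟩ := ((e1.and e2).and
      (eventually_ge_atTop (2 * K).toNat)).exists
    have a1 : 2 * K < ((M + 1 : ℕ) : ℤ) := by omega
    have a2 : 2 * K < ((2 * (l + 1) : ℕ) : ℤ) := by omega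
    have e3 := FP.torus_swap (M := M + 1) (L := 2 * (l + 1)) c (FP.pr_inj a1 a2 hE)
      (FP.prV_inj a1 a2 hV) hin hout
    have e4 : torA c (M + 1) (2 * (l + 1)) ((cyl E ξ).indicator (fun _ => (1 : ℝ))) * a =
        torA c (M + 1) (2 * (l + 1)) ((cyl E ξ').indicator (fun _ => (1 : ℝ))) * b := by
      unfold torA
      rw [div_mul_eq_mul_div, div_mul_eq_mul_div, e3]
    set x := torA c (M + 1) (2 * (l + 1)) ((cyl E ξ).indicator (fun _ => (1 : ℝ)))
    set y := torA c (M + 1) (2 * (l + 1)) ((cyl E ξ').indicator (fun _ => (1 : ℝ)))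
    have e5 : P.real (cyl E ξ) * a - P.real (cyl E ξ') * b =
        -((x - P.real (cyl E ξ)) * a) + (y - P.real (cyl E ξ')) * b := by linarith
    rw [e5]
    calc |-((x - P.real (cyl E ξ)) * a) + (y - P.real (cyl E ξ')) * b|
        ≤ |-((x - P.real (cyl E ξ)) * a)| + |(y - P.real (cyl E ξ')) * b| := abs_add_le _ _
      _ = |x - P.real (cyl E ξ)| * |a| + |y - P.real (cyl E ξ')| * |b| := by
          rw [abs_neg, abs_mul, abs_mul]
      _ ≤ ε * |a| + ε * |b| := add_le_add (mul_le_mul_of_nonneg_right hM1 (abs_nonneg _))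
          (mul_le_mul_of_nonneg_right hM2 (abs_nonneg _))
      _ = _ := by ring
  have h0 : |P.real (cyl E ξ) * a - P.real (cyl E ξ') * b| ≤ 0 := by
    refine le_of_forall_pos_le_add fun δ hδ => ?_
    have hs : 0 < |a| + |b| + 1 := by positivity
    have h1 := key (δ / (|a| + |b| + 1)) (div_pos hδ hs)
    have h2 : δ / (|a| + |b| + 1) * (|a| + |b|) ≤ δ := by
      rw [div_mul_eq_mul_div, div_le_iff₀ hs]
      nlinarith [abs_nonneg a, abs_nonneg b]
    linarith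
  have := abs_nonpos_iff.1 h0
  linarith

end Vale.Agent.P145.FB
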