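import Vale.Agent.P152.GFF.B3.SymP
import Vale.Agent.P145.FP.Meas

/-!
# P145, block F-B: symmetries of the six-vertex plane measure and of the height function

The even faces of the six-vertex lattice are the vertices of the Ashkin-Teller lattice: the vertex
`(i, j)` is the face `(i - j, i + j)`. The translation of the Ashkin-Teller lattice by `(a, b)` and its
reflections `(i, j) ↦ (j, i)`, `(i, j) ↦ (-i, j)`, `(i, j) ↦ (i, -j)`, as maps of the arrows.
-/

namespace Vale.Agent.P145.FB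

open Finset Filter Topology MeasureTheory
open Vale.Agent.P152 (Edge Ori Ice sgb pth pth_isHeight IsHeight height_eq_pth)
open Vale.Agent.P152.GFF.B3 (shO trO reO IsP symP)

/-- Reflection `q ↦ (-q.1, q.2)` of the faces. -/
def swA (ω : Ori (ℤ × ℤ)) : Ori (ℤ × ℤ)
  | Sum.inl v => ω (Sum.inl (-v.1, v.2))
  | Sum.inr v => !(ω (Sum.inr (1 - v.1, v.2)))

/-- Reflection `q ↦ (q.2, q.1)` of the faces. -/
def ryA (ω : Ori (ℤ × ℤ)) : Ori (ℤ × ℤ)
  | Sum.inl v => !(ω (Sum.inr (v.2, v.1)))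
  | Sum.inr v => !(ω (Sum.inl (v.2, v.1)))

/-- Reflection `q ↦ (-q.2, -q.1)` of the faces. -/
def rxA (ω : Ori (ℤ × ℤ)) : Ori (ℤ × ℤ)
  | Sum.inl v => ω (Sum.inr (1 - v.2, -v.1))
  | Sum.inr v => ω (Sum.inl (-v.2, 1 - v.1))

/-- Reflection `q ↦ (q.1, -q.2)` of the faces. -/
def szA (ω : Ori (ℤ × ℤ)) : Ori (ℤ × ℤ)
  | Sum.inl v => !(ω (Sum.inl (v.1, 1 - v.2)))
  | Sum.inr v => ω (Sum.inr (v.1, -v.2))

theorem szA_eq (ω : Ori (ℤ × ℤ)) : szA ω = ryA (swA (ryA ω)) := by
  funext e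
  rcases e with ⟨i, j⟩ | ⟨i, j⟩
  · show (!ω (Sum.inl (i, 1 - j))) = !(!(!ω (Sum.inl (i, 1 - j))))
    rw [Bool.not_not]
  · show ω (Sum.inr (i, -j)) = !(!ω (Sum.inr (i, -j)))
    rw [Bool.not_not]

theorem swA_eq (ω : Ori (ℤ × ℤ)) : swA ω = shO (-1) 0 (reO ω) := by
  funext e
  rcases e with ⟨i, j⟩ | ⟨i, j⟩
  · show ω (Sum.inl (-i, j)) = ω (Sum.inl (-(i + -1) - 1, j + 0))
    rw [show -(i + -1) - 1 = -i by ring, add_zero]
  · show (!ω (Sum.inr (1 - i, j))) = !ω (Sum.inr (-(i + -1), j + 0))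
    rw [show -(i + -1) = 1 - i by ring, add_zero]

theorem ryA_eq (ω : Ori (ℤ × ℤ)) : ryA ω = fun e => !(trO ω e) := by
  funext e
  rcases e with ⟨i, j⟩ | ⟨i, j⟩ <;> rfl

theorem rxA_eq (ω : Ori (ℤ × ℤ)) : rxA ω = swA (ryA (swA ω)) := by
  funext e
  rcases e with ⟨i, j⟩ | ⟨i, j⟩
  · show ω (Sum.inr (1 - j, -i)) = !(!ω (Sum.inr (1 - j, -i)))
    rw [Bool.not_not]
  · show ω (Sum.inl (-j, 1 - i)) = !(!ω (Sum.inl (-j, 1 - i)))
    rw [Bool.not_not]

theorem sh_meas (a b : ℤ) : Measurable (shO a b) := by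
  refine measurable_pi_lambda _ (fun e => ?_)
  rcases e with e | e <;> exact measurable_pi_apply _

theorem bnot_meas : Measurable (fun b : Bool => !b) := measurable_of_countable _

theorem swA_meas : Measurable swA := by
  refine measurable_pi_lambda _ (fun e => ?_)
  rcases e with e | e
  · exact measurable_pi_apply _
  · exact bnot_meas.comp (measurable_pi_apply _)

theorem ryA_meas : Measurable ryA := by
  refine measurable_pi_lambda _ (fun e => ?_)
  rcases e with e | e <;> exact bnot_meas.comp (measurable_pi_apply _)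

theorem szA_meas : Measurable szA := by
  refine measurable_pi_lambda _ (fun e => ?_)
  rcases e with e | e
  · exact bnot_meas.comp (measurable_pi_apply _)
  · exact measurable_pi_apply _

theorem rxA_meas : Measurable rxA := by
  refine measurable_pi_lambda _ (fun e => ?_)
  rcases e with e | e <;> exact measurable_pi_apply _

section

variable {P : Measure (Ori (ℤ × ℤ))}

/-- The symmetries of the measure used below. -/
structure SymM (P : Measure (Ori (ℤ × ℤ))) : Prop where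
  sh : ∀ a b : ℤ, P.map (shO a b) = P
  tr : P.map trO = P
  rev : P.map (fun ω e => !(ω e)) = P
  re : P.map reO = P

theorem symM_of_isP {c : ℝ} (hc : 0 < c) (hc2 : c ^ 2 ≤ 2) (hP : IsP c P) : SymM P := by
  obtain ⟨h1, h2, h3, h4⟩ := symP c hc hc2 P hP
  exact ⟨h1, h2, h3, h4⟩

theorem trO_meas : Measurable trO := by
  refine measurable_pi_lambda _ (fun e => ?_)
  rcases e with e | e <;> exact measurable_pi_apply _

theorem reO_meas : Measurable reO := by
  refine measurable_pi_lambda _ (fun e => ?_)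
  rcases e with e | e
  · exact measurable_pi_apply _
  · exact bnot_meas.comp (measurable_pi_apply _)

theorem revO_meas : Measurable (fun (ω : Ori (ℤ × ℤ)) e => !(ω e)) :=
  measurable_pi_lambda _ (fun e => bnot_meas.comp (measurable_pi_apply e))

theorem map_sw (h : SymM P) : P.map swA = P := by
  have e : swA = shO (-1) 0 ∘ reO := funext swA_eq
  rw [e, ← Measure.map_map (sh_meas _ _) reO_meas, h.re, h.sh]

theorem map_ry (h : SymM P) : P.map ryA = P := by
  have e : ryA = (fun (ω : Ori (ℤ × ℤ)) e => !(ω e)) ∘ trO := funext ryA_eq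
  rw [e, ← Measure.map_map revO_meas trO_meas, h.tr, h.rev]

theorem map_sz (h : SymM P) : P.map szA = P := by
  have e : szA = ryA ∘ (swA ∘ ryA) := funext szA_eq
  rw [e, ← Measure.map_map ryA_meas (swA_meas.comp ryA_meas),
    ← Measure.map_map swA_meas ryA_meas, map_ry h, map_sw h, map_ry h]

theorem map_rx (h : SymM P) : P.map rxA = P := by
  have e : rxA = swA ∘ (ryA ∘ swA) := funext rxA_eq
  rw [e, ← Measure.map_map swA_meas (ryA_meas.comp swA_meas),
    ← Measure.map_map ryA_meas swA_meas, map_sw h, map_ry h, map_sw h]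

end

/-! ### The height function -/

theorem hstep_v {ω : Ori (ℤ × ℤ)} (h : ∀ x y, Ice ω x y) (x y : ℤ) :
    pth ω (x, y) - pth ω (x, y - 1) = sgb (ω (Sum.inl (x, y))) :=
  (FP.isHeight_pth h x y).1

theorem hstep_h {ω : Ori (ℤ × ℤ)} (h : ∀ x y, Ice ω x y) (x y : ℤ) :
    pth ω (x - 1, y) - pth ω (x, y) = sgb (ω (Sum.inr (x, y))) :=
  (FP.isHeight_pth h x y).2

theorem sgb_not (b : Bool) : sgb (!b) = - sgb b := by cases b <;> rfl

theorem ht_sw {ω : Ori (ℤ × ℤ)} (h : ∀ x y, Ice ω x y) :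
    IsHeight (swA ω) (fun q => pth ω (-q.1, q.2)) := by
  intro x y
  constructor
  · exact hstep_v h (-x) y
  · have h1 := hstep_h h (1 - x) y
    show pth ω (-(x - 1), y) - pth ω (-x, y) = sgb (!(ω (Sum.inr (1 - x, y))))
    rw [sgb_not, ← h1, show -(x - 1) = 1 - x by ring, show 1 - x - 1 = -x by ring]
    ring

theorem pth_sw {ω : Ori (ℤ × ℤ)} (h : ∀ x y, Ice ω x y) (q : ℤ × ℤ) :
    pth (swA ω) q = pth ω (-q.1, q.2) := by
  have h2 := height_eq_pth (ht_sw h) q
  simp only [Prod.fst_zero, Prod.snd_zero, neg_zero] at h2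
  rw [← h2, show ((0 : ℤ), (0 : ℤ)) = 0 from rfl, P152.pth_zero, sub_zero]

theorem ht_ry {ω : Ori (ℤ × ℤ)} (h : ∀ x y, Ice ω x y) :
    IsHeight (ryA ω) (fun q => pth ω (q.2, q.1)) := by
  intro x y
  constructor
  · have h1 := hstep_h h y x
    show pth ω (y, x) - pth ω (y - 1, x) = sgb (!(ω (Sum.inr (y, x))))
    rw [sgb_not, ← h1]
    ring
  · have h1 := hstep_v h y x
    show pth ω (y, x - 1) - pth ω (y, x) = sgb (!(ω (Sum.inl (y, x))))
    rw [sgb_not, ← h1]
    ring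

theorem pth_ry {ω : Ori (ℤ × ℤ)} (h : ∀ x y, Ice ω x y) (q : ℤ × ℤ) :
    pth (ryA ω) q = pth ω (q.2, q.1) := by
  have h2 := height_eq_pth (ht_ry h) q
  simp only [Prod.fst_zero, Prod.snd_zero] at h2
  rw [← h2, show ((0 : ℤ), (0 : ℤ)) = 0 from rfl, P152.pth_zero, sub_zero]

theorem ht_rx {ω : Ori (ℤ × ℤ)} (h : ∀ x y, Ice ω x y) :
    IsHeight (rxA ω) (fun q => pth ω (-q.2, -q.1)) := by
  intro x y
  constructor
  · have h1 := hstep_h h (1 - y) (-x)
    show pth ω (-y, -x) - pth ω (-(y - 1), -x) = sgb (ω (Sum.inr (1 - y, -x)))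
    rw [← h1, show -(y - 1) = 1 - y by ring, show 1 - y - 1 = -y by ring]
  · have h1 := hstep_v h (-y) (1 - x)
    show pth ω (-y, -(x - 1)) - pth ω (-y, -x) = sgb (ω (Sum.inl (-y, 1 - x)))
    rw [← h1, show -(x - 1) = 1 - x by ring, show 1 - x - 1 = -x by ring]

theorem pth_rx {ω : Ori (ℤ × ℤ)} (h : ∀ x y, Ice ω x y) (q : ℤ × ℤ) :
    pth (rxA ω) q = pth ω (-q.2, -q.1) := by
  have h2 := height_eq_pth (ht_rx h) q
  simp only [Prod.fst_zero, Prod.snd_zero, neg_zero] at h2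
  rw [← h2, show ((0 : ℤ), (0 : ℤ)) = 0 from rfl, P152.pth_zero, sub_zero]

theorem ht_sz {ω : Ori (ℤ × ℤ)} (h : ∀ x y, Ice ω x y) :
    IsHeight (szA ω) (fun q => pth ω (q.1, -q.2)) := by
  intro x y
  constructor
  · have h1 := hstep_v h x (1 - y)
    show pth ω (x, -y) - pth ω (x, -(y - 1)) = sgb (!(ω (Sum.inl (x, 1 - y))))
    rw [sgb_not, ← h1, show -(y - 1) = 1 - y by ring, show 1 - y - 1 = -y by ring]
    ring
  · exact hstep_h h x (-y)

theorem ht_sh {ω : Ori (ℤ × ℤ)} (h : ∀ x y, Ice ω x y) (a b : ℤ) :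
    IsHeight (shO a b ω) (fun q => pth ω (q.1 + a, q.2 + b)) := by
  intro x y
  constructor
  · have h1 := hstep_v h (x + a) (y + b)
    show pth ω (x + a, y + b) - pth ω (x + a, y - 1 + b) = sgb (ω (Sum.inl (x + a, y + b)))
    rw [← h1, show y - 1 + b = y + b - 1 by ring]
  · have h1 := hstep_h h (x + a) (y + b)
    show pth ω (x - 1 + a, y + b) - pth ω (x + a, y + b) = sgb (ω (Sum.inr (x + a, y + b)))
    rw [← h1, show x - 1 + a = x + a - 1 by ring]

theorem pth_sh {ω : Ori (ℤ × ℤ)} (h : ∀ x y, Ice ω x y) (a b : ℤ) (q : ℤ × ℤ) :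
    pth (shO a b ω) q = pth ω (q.1 + a, q.2 + b) - pth ω (a, b) := by
  have h2 := height_eq_pth (ht_sh h a b) q
  simp only [Prod.fst_zero, Prod.snd_zero, zero_add] at h2
  rw [← h2]

/-! ### The ice rule is invariant -/

theorem ice_sh {ω : Ori (ℤ × ℤ)} (h : ∀ x y, Ice ω x y) (a b : ℤ) :
    ∀ x y, Ice (shO a b ω) x y := by
  intro x y
  have h1 := h (x + a) (y + b)
  unfold Ice at h1 ⊢
  show (ω (Sum.inl (x - 1 + a, y + b))).toNat + (ω (Sum.inr (x + a, y - 1 + b))).toNat =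
    (ω (Sum.inl (x + a, y + b))).toNat + (ω (Sum.inr (x + a, y + b))).toNat
  rw [show x - 1 + a = x + a - 1 by ring, show y - 1 + b = y + b - 1 by ring]
  exact h1

end Vale.Agent.P145.FB
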