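import Mathlib.Analysis.SpecialFunctions.Gaussian.FourierTransform
import Mathlib.MeasureTheory.Integral.Prod

/-!
P145, block F-B: anti-concentration from characteristic functions.
-/

namespace Vale.Agent.P145.FB.AC

open MeasureTheory Filter Topology

/-- The Gaussian as a superposition of characters. -/
lemma gauss_rep {K : ℝ} (hK : 0 < K) (x : ℝ) :
    ((Real.exp (-(x ^ 2 / (2 * K ^ 2))) : ℝ) : ℂ) =
      ((K / Real.sqrt (2 * Real.pi) : ℝ) : ℂ) * ∫ t : ℝ, Complex.exp (Complex.I * (x : ℂ) * t) *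
        Complex.exp (-((K ^ 2 / 2 : ℝ) : ℂ) * (t : ℂ) ^ 2) := by
  have hb : 0 < (((K ^ 2 / 2 : ℝ) : ℂ)).re := by
    rw [Complex.ofReal_re]
    positivity
  rw [fourierIntegral_gaussian hb]
  have hpi : (0 : ℝ) ≤ Real.pi / (K ^ 2 / 2) := by positivity
  have e1 : ((Real.pi : ℂ) / ((K ^ 2 / 2 : ℝ) : ℂ)) ^ (1 / 2 : ℂ) =
      ((Real.sqrt (Real.pi / (K ^ 2 / 2)) : ℝ) : ℂ) := by
    rw [Real.sqrt_eq_rpow, Complex.ofReal_cpow hpi]
    push_cast
    rfl
  rw [e1]
  have e2 : Real.sqrt (Real.pi / (K ^ 2 / 2)) = Real.sqrt (2 * Real.pi) / K := by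
    rw [show Real.pi / (K ^ 2 / 2) = (2 * Real.pi) / K ^ 2 by field_simp, Real.sqrt_div' _ (by positivity),
      Real.sqrt_sq hK.le]
  rw [e2]
  have e3 : Complex.exp (-(x : ℂ) ^ 2 / (4 * ((K ^ 2 / 2 : ℝ) : ℂ))) =
      ((Real.exp (-(x ^ 2 / (2 * K ^ 2))) : ℝ) : ℂ) := by
    rw [Complex.ofReal_exp]
    congr 1
    push_cast
    have hK' : (K : ℂ) ≠ 0 := by exact_mod_cast hK.ne'
    field_simp
    ring
  rw [e3, ← mul_assoc, ← Complex.ofReal_mul]
  have hs : Real.sqrt (2 * Real.pi) ≠ 0 := by positivity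
  have e4 : K / Real.sqrt (2 * Real.pi) * (Real.sqrt (2 * Real.pi) / K) = 1 := by
    field_simp
  rw [e4, Complex.ofReal_one, one_mul]

variable {Ω : Type*} [MeasurableSpace Ω] {P : Measure Ω} [IsProbabilityMeasure P]

lemma norm_char (a : ℝ) : ‖Complex.exp (Complex.I * (a : ℂ))‖ = 1 := by
  rw [Complex.norm_exp]
  simp

lemma exp_real (K t : ℝ) : Complex.exp (-((K ^ 2 / 2 : ℝ) : ℂ) * (t : ℂ) ^ 2) =
    ((Real.exp (-(K ^ 2 / 2) * t ^ 2) : ℝ) : ℂ) := by
  rw [Complex.ofReal_exp]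
  push_cast
  rfl

/-- The expectation of a Gaussian of `X` in terms of its characteristic function. -/
lemma exp_gauss {K : ℝ} (hK : 0 < K) {X : Ω → ℝ} (hX : AEMeasurable X P) :
    ((∫ ω, Real.exp (-(X ω ^ 2 / (2 * K ^ 2))) ∂P : ℝ) : ℂ) =
      ((K / Real.sqrt (2 * Real.pi) : ℝ) : ℂ) *
        ∫ t : ℝ, ((Real.exp (-(K ^ 2 / 2) * t ^ 2) : ℝ) : ℂ) *
          ∫ ω, Complex.exp (Complex.I * ((t * X ω : ℝ) : ℂ)) ∂P := by
  rw [← integral_complex_ofReal]
  have e1 : ∀ ω, ((Real.exp (-(X ω ^ 2 / (2 * K ^ 2))) : ℝ) : ℂ) =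
      ((K / Real.sqrt (2 * Real.pi) : ℝ) : ℂ) * ∫ t : ℝ,
        ((Real.exp (-(K ^ 2 / 2) * t ^ 2) : ℝ) : ℂ) *
          Complex.exp (Complex.I * ((t * X ω : ℝ) : ℂ)) := by
    intro ω
    rw [gauss_rep hK (X ω)]
    congr 1
    refine integral_congr_ae (Eventually.of_forall fun t => ?_)
    simp only
    rw [exp_real, mul_comm]
    congr 2
    push_cast
    ring
  simp_rw [e1]
  rw [integral_const_mul]
  congr 1
  have hg : Integrable (fun t : ℝ => Real.exp (-(K ^ 2 / 2) * t ^ 2)) :=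
    integrable_exp_neg_mul_sq (by positivity)
  have hg' : Integrable (fun p : Ω × ℝ => Real.exp (-(K ^ 2 / 2) * p.2 ^ 2)) (P.prod volume) := by
    have := (integrable_const (1 : ℝ) (μ := P)).mul_prod hg
    simpa using this
  have hint : Integrable (fun p : Ω × ℝ => ((Real.exp (-(K ^ 2 / 2) * p.2 ^ 2) : ℝ) : ℂ) *
      Complex.exp (Complex.I * ((p.2 * X p.1 : ℝ) : ℂ))) (P.prod volume) := by
    refine hg'.mono' ?_ (Eventually.of_forall fun p => ?_)
    · refine AEStronglyMeasurable.mul ?_ ?_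
      · exact (Complex.continuous_ofReal.measurable.comp
          (Real.measurable_exp.comp ((measurable_snd.pow_const 2).const_mul _))).aestronglyMeasurable
      · have h1 : AEMeasurable (fun p : Ω × ℝ => p.2 * X p.1) (P.prod volume) :=
          measurable_snd.aemeasurable.mul (hX.comp_quasiMeasurePreserving
            Measure.quasiMeasurePreserving_fst)
        have h2 : AEMeasurable (fun p : Ω × ℝ =>
            Complex.exp (Complex.I * ((p.2 * X p.1 : ℝ) : ℂ))) (P.prod volume) :=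
          Complex.measurable_exp.comp_aemeasurable
            ((Complex.continuous_ofReal.measurable.comp_aemeasurable h1).const_mul _)
        exact h2.aestronglyMeasurable
    · rw [norm_mul, norm_char, mul_one, Complex.norm_real, Real.norm_eq_abs, abs_of_pos (Real.exp_pos _)]
  rw [integral_integral_swap hint]
  refine integral_congr_ae (Eventually.of_forall fun t => ?_)
  simp only
  rw [integral_const_mul]

/-- **Anti-concentration in the limit.** If the characteristic functions of `X δ` converge to that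
of a Gaussian of variance `v`, then `P(|X δ| ≤ K) ≤ 2 K / √v + η` for small `δ`. -/
theorem anti {X : ℝ → Ω → ℝ} (hX : ∀ δ, AEMeasurable (X δ) P) {v : ℝ} (hv : 0 < v)
    (hlim : ∀ t : ℝ, Tendsto (fun δ => ∫ ω, Complex.exp (Complex.I * ((t * X δ ω : ℝ) : ℂ)) ∂P)
      (𝓝[>] 0) (𝓝 (Complex.exp (-((v / 2 * t ^ 2 : ℝ) : ℂ))))) {K : ℝ} (hK : 0 < K) {η : ℝ}
    (hη : 0 < η) :
    ∀ᶠ δ : ℝ in 𝓝[>] 0, P.real {ω | |X δ ω| ≤ K} ≤ 2 * K / Real.sqrt v + η := by
  have hg : Integrable (fun t : ℝ => Real.exp (-(K ^ 2 / 2) * t ^ 2)) :=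
    integrable_exp_neg_mul_sq (by positivity)
  have h1 : Tendsto (fun δ => ∫ t : ℝ, ((Real.exp (-(K ^ 2 / 2) * t ^ 2) : ℝ) : ℂ) *
          ∫ ω, Complex.exp (Complex.I * ((t * X δ ω : ℝ) : ℂ)) ∂P) (𝓝[>] 0)
      (𝓝 (∫ t : ℝ, ((Real.exp (-(K ^ 2 / 2) * t ^ 2) : ℝ) : ℂ) *
        Complex.exp (-((v / 2 * t ^ 2 : ℝ) : ℂ)))) := by
    refine tendsto_integral_filter_of_dominated_convergence
      (fun t : ℝ => Real.exp (-(K ^ 2 / 2) * t ^ 2)) (Eventually.of_forall fun δ => ?_)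
      (Eventually.of_forall fun δ => Eventually.of_forall fun t => ?_) hg
      (Eventually.of_forall fun t => (hlim t).const_mul _)
    · refine AEStronglyMeasurable.mul ?_ ?_
      · exact (Complex.continuous_ofReal.measurable.comp
          (Real.measurable_exp.comp ((measurable_id.pow_const 2).const_mul _))).aestronglyMeasurable
      · have h1 : AEMeasurable (fun p : ℝ × Ω => p.1 * X δ p.2) (volume.prod P) :=
          measurable_fst.aemeasurable.mul ((hX δ).comp_quasiMeasurePreserving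
            Measure.quasiMeasurePreserving_snd)
        have h2 : AEMeasurable (fun p : ℝ × Ω =>
            Complex.exp (Complex.I * ((p.1 * X δ p.2 : ℝ) : ℂ))) (volume.prod P) :=
          Complex.measurable_exp.comp_aemeasurable
            ((Complex.continuous_ofReal.measurable.comp_aemeasurable h1).const_mul _)
        exact h2.aestronglyMeasurable.integral_prod_right'
    · rw [norm_mul, Complex.norm_real, Real.norm_eq_abs, abs_of_pos (Real.exp_pos _)]
      refine mul_le_of_le_one_right (Real.exp_pos _).le ?_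
      refine (norm_integral_le_integral_norm _).trans ?_
      simp_rw [norm_char]
      simp
  have h2 : (∫ t : ℝ, ((Real.exp (-(K ^ 2 / 2) * t ^ 2) : ℝ) : ℂ) *
        Complex.exp (-((v / 2 * t ^ 2 : ℝ) : ℂ))) =
      ((Real.sqrt (Real.pi / ((K ^ 2 + v) / 2)) : ℝ) : ℂ) := by
    rw [← integral_gaussian, ← integral_complex_ofReal]
    refine integral_congr_ae (Eventually.of_forall fun t => ?_)
    simp only
    rw [show -((v / 2 * t ^ 2 : ℝ) : ℂ) = ((-(v / 2 * t ^ 2) : ℝ) : ℂ) by push_cast; ring,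
      ← Complex.ofReal_exp, ← Complex.ofReal_mul, ← Real.exp_add]
    congr 2
    ring
  rw [h2] at h1
  have h3 := h1.const_mul ((K / Real.sqrt (2 * Real.pi) : ℝ) : ℂ)
  simp_rw [← exp_gauss hK (hX _)] at h3
  rw [← Complex.ofReal_mul] at h3
  have h4 : Tendsto (fun δ => ∫ ω, Real.exp (-(X δ ω ^ 2 / (2 * K ^ 2))) ∂P) (𝓝[>] 0)
      (𝓝 (K / Real.sqrt (2 * Real.pi) * Real.sqrt (Real.pi / ((K ^ 2 + v) / 2)))) := by
    have := (Complex.continuous_re.tendsto _).comp h3
    simpa only [Function.comp_def, Complex.ofReal_re] using this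
  have h5 : K / Real.sqrt (2 * Real.pi) * Real.sqrt (Real.pi / ((K ^ 2 + v) / 2)) ≤
      K / Real.sqrt v := by
    rw [show Real.pi / ((K ^ 2 + v) / 2) = (2 * Real.pi) / (K ^ 2 + v) by field_simp,
      Real.sqrt_div' _ (by positivity)]
    have hs : (0 : ℝ) < Real.sqrt (2 * Real.pi) := by positivity
    have hsv : (0 : ℝ) < Real.sqrt v := Real.sqrt_pos.2 hv
    have hle : Real.sqrt v ≤ Real.sqrt (K ^ 2 + v) := Real.sqrt_le_sqrt (by nlinarith [sq_nonneg K])
    have e : K / Real.sqrt (2 * Real.pi) * (Real.sqrt (2 * Real.pi) / Real.sqrt (K ^ 2 + v)) =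
        K / Real.sqrt (K ^ 2 + v) := by field_simp
    rw [e]
    exact div_le_div_of_nonneg_left hK.le hsv hle
  have h6 : ∀ᶠ δ : ℝ in 𝓝[>] 0, ∫ ω, Real.exp (-(X δ ω ^ 2 / (2 * K ^ 2))) ∂P <
      K / Real.sqrt v + η / 2 := by
    refine h4.eventually_lt_const (lt_of_le_of_lt h5 ?_)
    linarith
  filter_upwards [h6] with δ hδ
  -- Markov
  set Y : Ω → ℝ := fun ω => Real.exp (-(X δ ω ^ 2 / (2 * K ^ 2))) with hY
  have hY0 : ∀ ω, 0 ≤ Y ω := fun ω => (Real.exp_pos _).le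
  have hYm : AEStronglyMeasurable Y P :=
    (Real.measurable_exp.comp_aemeasurable
      (((hX δ).pow_const 2).div_const _).neg).aestronglyMeasurable
  have hYi : Integrable Y P := by
    refine Integrable.of_bound hYm 1 (Eventually.of_forall fun ω => ?_)
    rw [Real.norm_eq_abs, abs_of_nonneg (hY0 ω), hY]
    simp only
    rw [Real.exp_le_one_iff]
    have : 0 ≤ X δ ω ^ 2 / (2 * K ^ 2) := by positivity
    linarith
  have hsub : {ω | |X δ ω| ≤ K} ⊆ {ω | (1 / 2 : ℝ) ≤ Y ω} := by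
    intro ω hω
    have hω' : |X δ ω| ≤ K := hω
    have hsq : X δ ω ^ 2 ≤ K ^ 2 := by
      rw [← sq_abs]
      exact pow_le_pow_left₀ (abs_nonneg _) hω' 2
    have hq : X δ ω ^ 2 / (2 * K ^ 2) ≤ 1 / 2 := by
      rw [div_le_div_iff₀ (by positivity) (by norm_num)]
      nlinarith
    show (1 / 2 : ℝ) ≤ Real.exp (-(X δ ω ^ 2 / (2 * K ^ 2)))
    have := Real.add_one_le_exp (-(X δ ω ^ 2 / (2 * K ^ 2)))
    linarith
  have hmark := mul_meas_ge_le_integral_of_nonneg (Eventually.of_forall hY0) hYi (1 / 2)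
  have hmono : P.real {ω | |X δ ω| ≤ K} ≤ P.real {ω | (1 / 2 : ℝ) ≤ Y ω} :=
    measureReal_mono hsub
  have e2 : 2 * K / Real.sqrt v = 2 * (K / Real.sqrt v) := by ring
  rw [e2]
  have hδ' : ∫ ω, Y ω ∂P < K / Real.sqrt v + η / 2 := hδ
  have h7 : 1 / 2 * P.real {ω | (1 / 2 : ℝ) ≤ Y ω} ≤ ∫ ω, Y ω ∂P := hmark
  linarith

end Vale.Agent.P145.FB.AC
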