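import Mathlib.MeasureTheory.Integral.Bochner.Set
import Mathlib.MeasureTheory.Integral.Bochner.Basic
import Mathlib.MeasureTheory.Function.L1Space.Integrable

/-!
P145, block F-B, (ARM), abstract part: on each piece `A i` of a family of disjoint events, a flip
which preserves the restricted measure, maps `X - l i` to its negative and fixes `O - l i` makes the
cross term vanish, so the second moments of `X - l i` on the pieces sum to at most the second moment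
of `X - O`. Two such flips with the same level bound the probability of the union by an
anti-concentration probability.
-/

namespace Vale.Agent.P145.FB

open MeasureTheory Set

variable {Ω : Type*} [MeasurableSpace Ω]

lemma integrable_of_bdd {μ : Measure Ω} [IsFiniteMeasure μ] {f : Ω → ℝ} (hf : Measurable f)
    {B : ℝ} (hB : ∀ᵐ ω ∂μ, |f ω| ≤ B) : Integrable f μ :=
  Integrable.mono' (integrable_const B) hf.aestronglyMeasurable
    (hB.mono fun ω h => by rwa [Real.norm_eq_abs])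

/-- One piece, one flip: the second moment of `X - l` is at most the second moment of `X - O`. -/
theorem flip_piece {ν : Measure Ω} [IsFiniteMeasure ν] {X O l : Ω → ℝ} (hX : Measurable X)
    (hO : Measurable O) (hl : Measurable l) {Φ : Ω → Ω} (hΦ : Measurable Φ)
    {B : ℝ} (hB : ∀ᵐ ω ∂ν, |X ω| ≤ B ∧ |O ω| ≤ B ∧ |l ω| ≤ B)
    (hm : ν.map Φ = ν)
    (h1 : ∀ᵐ ω ∂ν, X (Φ ω) - l (Φ ω) = -(X ω - l ω) ∧ O (Φ ω) - l (Φ ω) = O ω - l ω) :
    Integrable (fun ω => (X ω - l ω) ^ 2) ν ∧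
      ∫ ω, (X ω - l ω) ^ 2 ∂ν ≤ ∫ ω, (X ω - O ω) ^ 2 ∂ν := by
  have i1 : Integrable (fun ω => (X ω - l ω) ^ 2) ν := by
    refine integrable_of_bdd ((hX.sub hl).pow_const 2) (B := (2 * B) ^ 2) ?_
    filter_upwards [hB] with ω h
    have h2 : |X ω - l ω| ≤ 2 * B := (abs_sub _ _).trans (by linarith [h.1, h.2.2])
    rw [abs_pow]
    exact pow_le_pow_left₀ (abs_nonneg _) h2 2
  have i2 : Integrable (fun ω => (l ω - O ω) ^ 2) ν := by
    refine integrable_of_bdd ((hl.sub hO).pow_const 2) (B := (2 * B) ^ 2) ?_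
    filter_upwards [hB] with ω h
    have h2 : |l ω - O ω| ≤ 2 * B := (abs_sub _ _).trans (by linarith [h.2.1, h.2.2])
    rw [abs_pow]
    exact pow_le_pow_left₀ (abs_nonneg _) h2 2
  have i3 : Integrable (fun ω => (X ω - l ω) * (l ω - O ω)) ν := by
    refine integrable_of_bdd ((hX.sub hl).mul (hl.sub hO)) (B := (2 * B) * (2 * B)) ?_
    filter_upwards [hB] with ω h
    have h2 : |X ω - l ω| ≤ 2 * B := (abs_sub _ _).trans (by linarith [h.1, h.2.2])
    have h3 : |l ω - O ω| ≤ 2 * B := (abs_sub _ _).trans (by linarith [h.2.1, h.2.2])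
    rw [abs_mul]
    exact mul_le_mul h2 h3 (abs_nonneg _) ((abs_nonneg _).trans h2)
  refine ⟨i1, ?_⟩
  have hcross : ∫ ω, (X ω - l ω) * (l ω - O ω) ∂ν = 0 := by
    have e1 : ∫ ω, (X ω - l ω) * (l ω - O ω) ∂ν =
        ∫ ω, (X (Φ ω) - l (Φ ω)) * (l (Φ ω) - O (Φ ω)) ∂ν := by
      conv_lhs => rw [← hm]
      exact integral_map hΦ.aemeasurable
        ((hX.sub hl).mul (hl.sub hO)).aestronglyMeasurable
    have e2 : ∫ ω, (X (Φ ω) - l (Φ ω)) * (l (Φ ω) - O (Φ ω)) ∂ν =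
        ∫ ω, -((X ω - l ω) * (l ω - O ω)) ∂ν := by
      refine integral_congr_ae ?_
      filter_upwards [h1] with ω h
      have h3 : l (Φ ω) - O (Φ ω) = l ω - O ω := by linarith [h.2]
      rw [h.1, h3]
      ring
    rw [integral_neg] at e2
    linarith
  have e3 : ∫ ω, (X ω - O ω) ^ 2 ∂ν =
      ∫ ω, (X ω - l ω) ^ 2 ∂ν + 2 * ∫ ω, (X ω - l ω) * (l ω - O ω) ∂ν +
        ∫ ω, (l ω - O ω) ^ 2 ∂ν := by
    have e4 : ∀ ω, (X ω - O ω) ^ 2 =
        ((X ω - l ω) ^ 2 + 2 * ((X ω - l ω) * (l ω - O ω))) + (l ω - O ω) ^ 2 := fun ω => by ring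
    have i4 : Integrable (fun ω => (X ω - l ω) ^ 2 + 2 * ((X ω - l ω) * (l ω - O ω))) ν :=
      i1.add (i3.const_mul 2)
    simp only [e4]
    rw [integral_add i4 i2, integral_add i1 (i3.const_mul 2), integral_const_mul]
  have h0 : 0 ≤ ∫ ω, (l ω - O ω) ^ 2 ∂ν := integral_nonneg fun ω => sq_nonneg _
  rw [e3, hcross]
  linarith

/-- Chebyshev on a piece. -/
lemma cheb_piece {ν : Measure Ω} [IsFiniteMeasure ν] {f : Ω → ℝ}
    (hi : Integrable (fun ω => f ω ^ 2) ν) {T : ℝ} (hT : 0 < T) :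
    ν.real {ω | T < |f ω|} ≤ (∫ ω, f ω ^ 2 ∂ν) / T ^ 2 := by
  have hT2 : 0 < T ^ 2 := by positivity
  rw [le_div_iff₀ hT2, mul_comm]
  have h1 := mul_meas_ge_le_integral_of_nonneg
    (μ := ν) (f := fun ω => f ω ^ 2) (Filter.Eventually.of_forall fun ω => sq_nonneg _) hi (T ^ 2)
  refine le_trans (mul_le_mul_of_nonneg_left (measureReal_mono ?_) hT2.le) h1
  intro ω hω
  simp only [mem_ofPred_eq] at hω ⊢
  calc T ^ 2 ≤ |f ω| ^ 2 := pow_le_pow_left₀ hT.le (le_of_lt hω) 2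
    _ = f ω ^ 2 := sq_abs _

/-- Pieces summed, one flip. -/
theorem flip_sum {μ : Measure Ω} [IsFiniteMeasure μ] {ι : Type*} (I : Finset ι)
    (A : ι → Set Ω) (hA : ∀ i ∈ I, MeasurableSet (A i)) (hd : (I : Set ι).PairwiseDisjoint A)
    {X O : Ω → ℝ} (hX : Measurable X) (hO : Measurable O)
    (l : ι → Ω → ℝ) (hl : ∀ i ∈ I, Measurable (l i))
    (Φ : ι → Ω → Ω) (hΦ : ∀ i ∈ I, Measurable (Φ i))
    (B : ℝ) (hB : ∀ᵐ ω ∂μ, |X ω| ≤ B ∧ |O ω| ≤ B ∧ ∀ i ∈ I, |l i ω| ≤ B)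
    (hm : ∀ i ∈ I, (μ.restrict (A i)).map (Φ i) = μ.restrict (A i))
    (h1 : ∀ i ∈ I, ∀ᵐ ω ∂(μ.restrict (A i)), X (Φ i ω) - l i (Φ i ω) = -(X ω - l i ω) ∧
      O (Φ i ω) - l i (Φ i ω) = O ω - l i ω)
    {V : ℝ} (hV : ∫ ω, (X ω - O ω) ^ 2 ∂μ ≤ V) {T : ℝ} (hT : 0 < T) :
    ∑ i ∈ I, (μ.restrict (A i)).real {ω | T < |X ω - l i ω|} ≤ V / T ^ 2 := by
  have hT2 : 0 < T ^ 2 := by positivity
  have hBi : ∀ i ∈ I, ∀ᵐ ω ∂(μ.restrict (A i)), |X ω| ≤ B ∧ |O ω| ≤ B ∧ |l i ω| ≤ B :=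
    fun i hi => (ae_restrict_of_ae hB).mono fun ω h => ⟨h.1, h.2.1, h.2.2 i hi⟩
  have hXO : Integrable (fun ω => (X ω - O ω) ^ 2) μ := by
    refine integrable_of_bdd ((hX.sub hO).pow_const 2) (B := (2 * B) ^ 2) ?_
    filter_upwards [hB] with ω h
    have h2 : |X ω - O ω| ≤ 2 * B := (abs_sub _ _).trans (by linarith [h.1, h.2.1])
    rw [abs_pow]
    exact pow_le_pow_left₀ (abs_nonneg _) h2 2
  have hstep : ∀ i ∈ I, (μ.restrict (A i)).real {ω | T < |X ω - l i ω|} ≤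
      (∫ ω in A i, (X ω - O ω) ^ 2 ∂μ) / T ^ 2 := by
    intro i hi
    obtain ⟨a1, a2⟩ := flip_piece hX hO (hl i hi) (hΦ i hi) (hBi i hi) (hm i hi) (h1 i hi)
    refine (cheb_piece a1 hT).trans ?_
    gcongr
  refine (Finset.sum_le_sum hstep).trans ?_
  rw [← Finset.sum_div]
  gcongr
  have hU : ∫ ω in ⋃ i ∈ I, A i, (X ω - O ω) ^ 2 ∂μ = ∑ i ∈ I, ∫ ω in A i, (X ω - O ω) ^ 2 ∂μ :=
    integral_biUnion_finset I hA hd fun i _ => hXO.integrableOn
  rw [← hU]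
  exact (setIntegral_le_integral hXO (Filter.Eventually.of_forall fun ω => sq_nonneg _)).trans hV

/-- The abstract arm bound. -/
theorem abs_arm (μ : Measure Ω) [IsProbabilityMeasure μ] {ι : Type*}
    (I : Finset ι) (A : ι → Set Ω) (hA : ∀ i ∈ I, MeasurableSet (A i))
    (hd : (I : Set ι).PairwiseDisjoint A) (X O X' O' : Ω → ℝ) (hX : Measurable X)
    (hO : Measurable O) (hX' : Measurable X') (hO' : Measurable O') (l : ι → Ω → ℝ)
    (hl : ∀ i ∈ I, Measurable (l i)) (Φ Φ' : ι → Ω → Ω) (hΦ : ∀ i ∈ I, Measurable (Φ i))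
    (hΦ' : ∀ i ∈ I, Measurable (Φ' i)) (B : ℝ)
    (hB : ∀ᵐ ω ∂μ, |X ω| ≤ B ∧ |O ω| ≤ B ∧ |X' ω| ≤ B ∧ |O' ω| ≤ B ∧ ∀ i ∈ I, |l i ω| ≤ B)
    (hm : ∀ i ∈ I, (μ.restrict (A i)).map (Φ i) = μ.restrict (A i))
    (hm' : ∀ i ∈ I, (μ.restrict (A i)).map (Φ' i) = μ.restrict (A i))
    (h1 : ∀ i ∈ I, ∀ᵐ ω ∂(μ.restrict (A i)), X (Φ i ω) - l i (Φ i ω) = -(X ω - l i ω) ∧
      O (Φ i ω) - l i (Φ i ω) = O ω - l i ω)
    (h1' : ∀ i ∈ I, ∀ᵐ ω ∂(μ.restrict (A i)), X' (Φ' i ω) - l i (Φ' i ω) = -(X' ω - l i ω) ∧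
      O' (Φ' i ω) - l i (Φ' i ω) = O' ω - l i ω)
    (V : ℝ) (hV : ∫ ω, (X ω - O ω) ^ 2 ∂μ ≤ V) (hV' : ∫ ω, (X' ω - O' ω) ^ 2 ∂μ ≤ V)
    (T : ℝ) (hT : 0 < T) :
    μ.real (⋃ i ∈ I, A i) ≤ μ.real {ω | |X ω - X' ω| ≤ 2 * T} + 2 * V / T ^ 2 := by
  have s1 := flip_sum I A hA hd hX hO l hl Φ hΦ B
    (hB.mono fun ω h => ⟨h.1, h.2.1, h.2.2.2.2⟩) hm h1 hV hT
  have s2 := flip_sum I A hA hd hX' hO' l hl Φ' hΦ' B
    (hB.mono fun ω h => ⟨h.2.2.1, h.2.2.2.1, h.2.2.2.2⟩) hm' h1' hV' hT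
  set G : Set Ω := {ω | |X ω - X' ω| ≤ 2 * T} with hG
  have habs : ∀ {f : Ω → ℝ}, Measurable f → Measurable fun ω => |f ω| := fun hf =>
    continuous_abs.measurable.comp hf
  have hGm : MeasurableSet G := measurableSet_le (habs (hX.sub hX')) measurable_const
  have e1 : μ.real (⋃ i ∈ I, A i) = ∑ i ∈ I, μ.real (A i) :=
    measureReal_biUnion_finset hd hA
  have e2 : ∑ i ∈ I, μ.real (A i ∩ G) ≤ μ.real G := by
    have hd' : (I : Set ι).PairwiseDisjoint fun i => A i ∩ G := fun i hi j hj hij =>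
      (hd hi hj hij).mono inter_subset_left inter_subset_left
    rw [← measureReal_biUnion_finset hd' fun i hi => (hA i hi).inter hGm]
    exact measureReal_mono (iUnion₂_subset fun i _ => inter_subset_right)
  have e3 : ∀ i ∈ I, μ.real (A i) ≤ μ.real (A i ∩ G) +
      ((μ.restrict (A i)).real {ω | T < |X ω - l i ω|} +
        (μ.restrict (A i)).real {ω | T < |X' ω - l i ω|}) := by
    intro i hi
    have m1 : MeasurableSet {ω | T < |X ω - l i ω|} :=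
      measurableSet_lt measurable_const (habs (hX.sub (hl i hi)))
    have m2 : MeasurableSet {ω | T < |X' ω - l i ω|} :=
      measurableSet_lt measurable_const (habs (hX'.sub (hl i hi)))
    rw [measureReal_restrict_apply m1, measureReal_restrict_apply m2]
    have hsub : A i ⊆ (A i ∩ G) ∪ (({ω | T < |X ω - l i ω|} ∩ A i) ∪
        ({ω | T < |X' ω - l i ω|} ∩ A i)) := by
      intro ω hω
      by_cases hg : ω ∈ G
      · exact Or.inl ⟨hω, hg⟩
      · refine Or.inr ?_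
        by_cases h2 : T < |X ω - l i ω|
        · exact Or.inl ⟨h2, hω⟩
        · refine Or.inr ⟨?_, hω⟩
          simp only [hG, mem_ofPred_eq, not_le] at hg
          push Not at h2
          simp only [mem_ofPred_eq]
          have h3 : |X ω - X' ω| ≤ |X ω - l i ω| + |X' ω - l i ω| := by
            have h4 : X ω - X' ω = (X ω - l i ω) - (X' ω - l i ω) := by ring
            rw [h4]
            exact abs_sub _ _
          linarith
    exact (measureReal_mono hsub).trans ((measureReal_union_le _ _).trans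
      (add_le_add le_rfl (measureReal_union_le _ _)))
  rw [e1]
  refine (Finset.sum_le_sum e3).trans ?_
  rw [Finset.sum_add_distrib, Finset.sum_add_distrib]
  have e4 : 2 * V / T ^ 2 = V / T ^ 2 + V / T ^ 2 := by ring
  rw [e4]
  exact add_le_add e2 (add_le_add s1 s2)

end Vale.Agent.P145.FB
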