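import Vale.Agent.P145.FB.ArmX
import Vale.Agent.P145.FB.ArmAbs
import Vale.Agent.P145.FB.AntiConc

/-!
# P145, block F-B: the arm event has small probability

On the event `J2 s R S` one cluster of `S = SP x` cuts the annuli around `(0, 0)` (scale `s`) and
`(3R, 0)` (scale `R`). The heights enclosed by the cluster are reflected at its level, so the bump
averages at both places are close to the level, hence to each other; for `R = 2 M s` and `M` large
this has small probability.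
-/

namespace Vale.Agent.P145.FB

open MeasureTheory Relation
open Vale.Agent.P152 Vale.Agent.P145.FA

/-- One cluster of `S` cuts the annuli around `(0, 0)` and around `(3R, 0)`. -/
def J2 (s R : ℤ) (S : Set Pt) : Prop :=
  ∃ o ∈ S ∩ bigB R, Cut (clu (S ∩ bigB R) o) 0 0 s ∧ Cut (clu (S ∩ bigB R) o) (3 * R) 0 R

theorem bigB_fin (R : ℤ) : (bigB R).Finite := by
  have h1 : bigB R ⊆ Set.Icc (2 * (-(4 * R))) (2 * (5 * R)) ×ˢ
      Set.Icc (2 * (-(4 * R))) (2 * (4 * R)) := by
    rintro z ⟨h1, h2, h3, h4⟩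
    exact ⟨⟨h1, h2⟩, ⟨h3, h4⟩⟩
  exact ((Set.finite_Icc _ _).prod (Set.finite_Icc _ _)).subset h1

open Classical in
/-- The possible values of `SP x ∩ bigB R`. -/
noncomputable def idx (s R : ℤ) : Finset (Finset Pt) :=
  (bigB_fin R).toFinset.powerset.filter fun T =>
    ∃ o ∈ T, Cut (clu (T : Set Pt) o) 0 0 s ∧ Cut (clu (T : Set Pt) o) (3 * R) 0 R

/-- The event that `SP x ∩ bigB R` is `T`. -/
def pc (R : ℤ) (T : Finset Pt) : Set (Hgt × Mk) := {x | SP x ∩ bigB R = (T : Set Pt)}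

theorem measurableSet_pc (R : ℤ) (T : Finset Pt) : MeasurableSet (pc R T) := by
  have h1 : pc R T = ⋂ p : Pt, {x | (p ∈ SP x ∧ p ∈ bigB R) ↔ p ∈ T} := by
    ext x
    simp only [pc, Set.mem_iInter, Set.mem_ofPred_eq, Set.ext_iff, Set.mem_inter_iff,
      Finset.mem_coe]
  rw [h1]
  refine MeasurableSet.iInter fun p => ?_
  by_cases h2 : p ∈ bigB R <;> by_cases h3 : p ∈ T <;> simp only [h2, h3, and_true, and_false,
    iff_true, iff_false]
  · exact measurableSet_SP p
  · exact (measurableSet_SP p).compl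
  · exact MeasurableSet.const _
  · exact MeasurableSet.const _

theorem mem_idx {s R : ℤ} {x : Hgt × Mk} (h : J2 s R (SP x)) : ∃ T ∈ idx s R, x ∈ pc R T := by
  classical
  have hfin : (SP x ∩ bigB R).Finite := (bigB_fin R).subset Set.inter_subset_right
  refine ⟨hfin.toFinset, ?_, by simp [pc]⟩
  rw [idx, Finset.mem_filter, Finset.mem_powerset]
  constructor
  · intro p hp
    rw [Set.Finite.mem_toFinset] at hp ⊢
    exact hp.2
  · obtain ⟨o, ho, h1, h2⟩ := h
    refine ⟨o, by rwa [Set.Finite.mem_toFinset], ?_, ?_⟩ <;> rw [Set.Finite.coe_toFinset]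
    · exact h1
    · exact h2

open Classical in
/-- A point of the cluster. -/
noncomputable def pick (s R : ℤ) (T : Finset Pt) : Pt :=
  if h : ∃ o ∈ T, Cut (clu (T : Set Pt) o) 0 0 s ∧ Cut (clu (T : Set Pt) o) (3 * R) 0 R then
    Classical.choose h else (0, 0)

theorem pick_spec {s R : ℤ} {T : Finset Pt} (h : T ∈ idx s R) : pick s R T ∈ T ∧
    Cut (clu (T : Set Pt) (pick s R T)) 0 0 s ∧
    Cut (clu (T : Set Pt) (pick s R T)) (3 * R) 0 R := by
  classical
  have h1 := (Finset.mem_filter.1 h).2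
  unfold pick
  rw [dif_pos h1]
  exact Classical.choose_spec h1

/-- The flip preserves the law of the configuration restricted to `pc R T`. -/
theorem pc_flip {t : ℝ} {P : Measure (Ori (ℤ × ℤ))} (hflip : FlipLaw t P)
    (hgood : ∀ᵐ x ∂(J t P), GoodX x) {s R : ℤ} {T : Finset Pt} (hT : T ∈ idx s R) (p q r : ℤ) :
    ((J t P).restrict (pc R T)).map (flipR (Uf (clu (T : Set Pt) (pick s R T)) p q r)
      (bf (pick s R T))) = (J t P).restrict (pc R T) := by
  set U := Uf (clu (T : Set Pt) (pick s R T)) p q r with hU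
  set b := bf (pick s R T) with hb
  have hpick := (pick_spec hT).1
  by_cases hbe : Even (b.1 + b.2)
  · refine restr_map (J t P) (measurable_flipR U b) (measurableSet_pc R T)
      (hflip U (fun f hf => Uf_odd hf) b hbe) ?_ ?_
    · filter_upwards [hgood] with x hx hxT
      have h1 : (T : Set Pt) ⊆ SP x := by
        have : SP x ∩ bigB R = (T : Set Pt) := hxT
        rw [← this]; exact Set.inter_subset_left
      exact flipQ_mem hx h1 p q r
    · filter_upwards [hgood] with x hx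
      unfold pc
      simp only [Set.mem_ofPred_eq]
      rw [SP_flip hx hbe]
  · -- the event is empty
    have h1 : pc R T = ∅ := by
      rw [Set.eq_empty_iff_forall_notMem]
      intro x hx
      apply hbe
      have h2 : pick s R T ∈ SP x ∩ bigB R := by
        have : SP x ∩ bigB R = (T : Set Pt) := hx
        rw [this]; exact hpick
      exact bf_even h2.1
    rw [h1]
    simp

/-- The bound of a height average. -/
noncomputable def bX (r : (ℤ × ℤ) →₀ ℝ) : ℝ :=
  ∑ q ∈ r.support, |r q| * ((|q.1| + |q.2| + 2 : ℤ) : ℝ)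

theorem bd_nonneg (q : Pt) : (0 : ℝ) ≤ ((|q.1| + |q.2| + 2 : ℤ) : ℝ) := by
  have h1 := abs_nonneg q.1
  have h2 := abs_nonneg q.2
  have : (0 : ℤ) ≤ |q.1| + |q.2| + 2 := by omega
  exact_mod_cast this

theorem bX_nonneg (r : (ℤ × ℤ) →₀ ℝ) : 0 ≤ bX r :=
  Finset.sum_nonneg fun q _ => mul_nonneg (abs_nonneg _) (bd_nonneg q)

theorem ev_le_bX {x : Hgt × Mk} (hx : ∀ q : ℤ × ℤ, |x.1 q| ≤ |q.1| + |q.2| + 2)
    (r : (ℤ × ℤ) →₀ ℝ) : |FA.ev r x.1| ≤ bX r := by
  unfold FA.ev Finsupp.sum bX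
  refine (Finset.abs_sum_le_sum_abs _ _).trans (Finset.sum_le_sum fun q _ => ?_)
  rw [abs_mul]
  refine mul_le_mul_of_nonneg_left ?_ (abs_nonneg _)
  have := hx q
  rw [← Int.cast_abs]
  exact_mod_cast this

/-- One scale: the probability of the arm event is bounded by an anti-concentration probability. -/
theorem arm_one {t : ℝ} {P : Measure (Ori (ℤ × ℤ))} [IsProbabilityMeasure P]
    (hflip : FlipLaw t P) (hgood : ∀ᵐ x ∂(J t P), GoodX x) {s R : ℤ} (hs : 0 < s) (hR : 0 < R)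
    {r1 o1 r2 o2 : (ℤ × ℤ) →₀ ℝ}
    (m1 : (r1.sum fun _ a => a) = 1) (m2 : (o1.sum fun _ a => a) = 1)
    (m3 : (r2.sum fun _ a => a) = 1) (m4 : (o2.sum fun _ a => a) = 1)
    (s1 : ∀ q ∈ r1.support, fi q ∈ rc (0 - s) (0 + s) (0 - s) (0 + s))
    (s2 : ∀ q ∈ o1.support, fi q ∉ rc (0 - 2 * s) (0 + 2 * s) (0 - 2 * s) (0 + 2 * s))
    (s3 : ∀ q ∈ r2.support, fi q ∈ rc (3 * R - R) (3 * R + R) (0 - R) (0 + R))
    (s4 : ∀ q ∈ o2.support,
      fi q ∉ rc (3 * R - 2 * R) (3 * R + 2 * R) (0 - 2 * R) (0 + 2 * R)) {V : ℝ}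
    (v1 : ∫ ω, (FA.ev r1 (pth ω) - FA.ev o1 (pth ω)) ^ 2 ∂P ≤ V)
    (v2 : ∫ ω, (FA.ev r2 (pth ω) - FA.ev o2 (pth ω)) ^ 2 ∂P ≤ V) {T : ℝ} (hT : 0 < T) :
    (J t P).real {x | J2 s R (SP x)} ≤
      P.real {ω | |FA.ev r1 (pth ω) - FA.ev r2 (pth ω)| ≤ 2 * T} + 2 * V / T ^ 2 := by
  classical
  have hJ : IsProbabilityMeasure (J t P) := J_prob t P
  have hsub : {x | J2 s R (SP x)} ⊆ ⋃ i ∈ idx s R, pc R i := by
    intro x hx
    obtain ⟨T, hT, hxT⟩ := mem_idx hx
    simp only [Set.mem_iUnion]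
    exact ⟨T, hT, hxT⟩
  refine (measureReal_mono hsub (measure_ne_top _ _)).trans ?_
  -- the two second moments and the probability under `J`
  have e1 : ∫ x, (FA.ev r1 x.1 - FA.ev o1 x.1) ^ 2 ∂(J t P) ≤ V := by
    have h := J_integral (t := t) (P := P) (G := fun x => (FA.ev r1 x.1 - FA.ev o1 x.1) ^ 2)
      (F := fun ω => (FA.ev r1 (pth ω) - FA.ev o1 (pth ω)) ^ 2)
      (((measurable_ev r1).sub (measurable_ev o1)).pow_const 2)
      (((measurable_ev' r1).sub (measurable_ev' o1)).pow_const 2) (by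
        intro k y
        rw [ev_hk r1 m1, ev_hk o1 m2]
        ring)
    rw [h]
    exact v1
  have e2 : ∫ x, (FA.ev r2 x.1 - FA.ev o2 x.1) ^ 2 ∂(J t P) ≤ V := by
    have h := J_integral (t := t) (P := P) (G := fun x => (FA.ev r2 x.1 - FA.ev o2 x.1) ^ 2)
      (F := fun ω => (FA.ev r2 (pth ω) - FA.ev o2 (pth ω)) ^ 2)
      (((measurable_ev r2).sub (measurable_ev o2)).pow_const 2)
      (((measurable_ev' r2).sub (measurable_ev' o2)).pow_const 2) (by
        intro k y
        rw [ev_hk r2 m3, ev_hk o2 m4]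
        ring)
    rw [h]
    exact v2
  have e3 : (J t P).real {x | |FA.ev r1 x.1 - FA.ev r2 x.1| ≤ 2 * T} =
      P.real {ω | |FA.ev r1 (pth ω) - FA.ev r2 (pth ω)| ≤ 2 * T} := by
    refine J_real (s := Set.Iic (2 * T)) (G := fun x => |FA.ev r1 x.1 - FA.ev r2 x.1|)
      (F := fun ω => |FA.ev r1 (pth ω) - FA.ev r2 (pth ω)|)
      (((measurable_ev r1).sub (measurable_ev r2)).abs)
      (((measurable_ev' r1).sub (measurable_ev' r2)).abs) ?_ measurableSet_Iic
    intro k y
    rw [ev_hk r1 m1, ev_hk r2 m3]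
    congr 1
    ring
  rw [← e3]
  set l : Finset Pt → Hgt × Mk → ℝ := fun i x => (x.1 (bf (pick s R i)) : ℝ) with hl
  set bd : Finset Pt → ℝ := fun i =>
    ((|(bf (pick s R i)).1| + |(bf (pick s R i)).2| + 2 : ℤ) : ℝ) with hbd
  refine abs_arm (J t P) (idx s R) (pc R) (fun i _ => measurableSet_pc R i) ?_
    (fun x => FA.ev r1 x.1) (fun x => FA.ev o1 x.1) (fun x => FA.ev r2 x.1)
    (fun x => FA.ev o2 x.1) (measurable_ev r1) (measurable_ev o1) (measurable_ev r2)
    (measurable_ev o2) l (fun i _ => ?_)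
    (fun i => flipR (Uf (clu (i : Set Pt) (pick s R i)) 0 0 s) (bf (pick s R i)))
    (fun i => flipR (Uf (clu (i : Set Pt) (pick s R i)) (3 * R) 0 R) (bf (pick s R i)))
    (fun i _ => measurable_flipR _ _) (fun i _ => measurable_flipR _ _)
    (bX r1 + bX o1 + bX r2 + bX o2 + ∑ i ∈ idx s R, bd i) ?_
    (fun i hi => pc_flip hflip hgood hi _ _ _) (fun i hi => pc_flip hflip hgood hi _ _ _)
    ?_ ?_ V e1 e2 T hT
  · intro i _ j _ hij
    rw [Function.onFun, Set.disjoint_left]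
    intro x hx hx'
    apply hij
    have h1 : SP x ∩ bigB R = (i : Set Pt) := hx
    have h2 : SP x ∩ bigB R = (j : Set Pt) := hx'
    exact Finset.coe_injective (h1.symm.trans h2)
  · exact (measurable_of_countable (fun n : ℤ => (n : ℝ))).comp (measurable_hap _)
  · filter_upwards [bdd_J t P] with x hx
    have hs0 : 0 ≤ ∑ i ∈ idx s R, bd i := Finset.sum_nonneg fun i _ => bd_nonneg _
    have b1 := bX_nonneg r1
    have b2 := bX_nonneg o1
    have b3 := bX_nonneg r2
    have b4 := bX_nonneg o2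
    refine ⟨(ev_le_bX hx r1).trans (by linarith), (ev_le_bX hx o1).trans (by linarith),
      (ev_le_bX hx r2).trans (by linarith), (ev_le_bX hx o2).trans (by linarith), ?_⟩
    intro i hi
    have h1 : |l i x| ≤ bd i := by
      have := hx (bf (pick s R i))
      simp only [hl, hbd]
      rw [← Int.cast_abs]
      exact_mod_cast this
    have h2 : bd i ≤ ∑ i ∈ idx s R, bd i :=
      Finset.single_le_sum (f := bd) (fun j _ => bd_nonneg _) hi
    linarith
  · intro i hi
    refine Filter.Eventually.of_forall fun x => ?_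
    have hp := pick_spec hi
    exact ⟨ev_flip_in x m1 fun q hq => nb_in hs hp.2.1 (s1 q hq),
      ev_flip_out x m2 fun q hq => nb_out (s2 q hq)⟩
  · intro i hi
    refine Filter.Eventually.of_forall fun x => ?_
    have hp := pick_spec hi
    exact ⟨ev_flip_in x m3 fun q hq => nb_in hR hp.2.2 (s3 q hq),
      ev_flip_out x m4 fun q hq => nb_out (s4 q hq)⟩

/-- **The arm event has small probability.** -/
theorem arm_small {t : ℝ} {P : Measure (Ori (ℤ × ℤ))} [IsProbabilityMeasure P]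
    (hflip : FlipLaw t P) (hgood : ∀ᵐ x ∂(J t P), GoodX x) (hac : AC.Stmt P) :
    ∀ c > 0, ∀ M0 : ℤ, ∃ M : ℤ, M0 ≤ M ∧ ∃ s0 : ℤ, ∀ s : ℤ, s0 ≤ s →
      (J t P).real {x | J2 s (2 * M * s) (SP x)} < c := by
  intro c hc M0
  obtain ⟨C, hC⟩ := hac
  set V : ℝ := max C 1 with hV
  have hV1 : 1 ≤ V := le_max_right _ _
  set T : ℝ := 1 + 8 * V / c with hT
  have h8 : 0 < 8 * V / c := by positivity
  have hT0 : 0 < T := by linarith
  obtain ⟨M1, hM1, h1⟩ := hC (2 * T) (c / 4) (by positivity)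
  set M : ℕ := max M1 M0.toNat with hM
  obtain ⟨s0, hs0, h2⟩ := h1 M (le_max_left _ _)
  have hMpos : 1 ≤ M := hM1.trans (le_max_left _ _)
  refine ⟨M, ?_, s0, fun s hs => ?_⟩
  · have : M0.toNat ≤ M := le_max_right _ _
    omega
  obtain ⟨k, rfl⟩ : ∃ k : ℕ, s = k := ⟨s.toNat, by omega⟩
  have hk : s0 ≤ k := by exact_mod_cast hs
  obtain ⟨r1, o1, r2, o2, ⟨m1, m2, m3, m4⟩, s1, s2, s3, s4, v1, v2, hp⟩ := h2 k hk
  have hk0 : (0 : ℤ) < k := by omega
  have hM0 : (0 : ℤ) < M := by exact_mod_cast hMpos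
  have hR0 : (0 : ℤ) < 2 * M * k := by positivity
  have key := arm_one hflip hgood hk0 hR0 m1 m2 m3 m4 (V := V) (T := T)
    (fun q hq => by
      have := s1 q hq
      rw [abs_lt, abs_lt] at this
      unfold rc fi
      exact ⟨by dsimp only; linarith, by dsimp only; linarith, by dsimp only; linarith,
        by dsimp only; linarith⟩)
    (fun q hq hin => by
      have := s2 q hq
      have h3 := hin.2.1
      unfold fi at h3
      dsimp only at h3
      linarith)
    (fun q hq => by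
      have := s3 q hq
      rw [abs_lt, abs_lt] at this
      unfold rc fi
      exact ⟨by dsimp only; linarith, by dsimp only; linarith, by dsimp only; linarith,
        by dsimp only; linarith⟩)
    (fun q hq hin => by
      have := s4 q hq
      have h3 := hin.2.1
      unfold fi at h3
      dsimp only at h3
      linarith)
    (v1.trans (le_max_left _ _)) (v2.trans (le_max_left _ _)) hT0
  have h4 : 2 * V / T ^ 2 ≤ c / 4 := by
    have hTT : T ≤ T ^ 2 := by nlinarith
    have h5 : 2 * V / T ^ 2 ≤ 2 * V / T := by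
      apply div_le_div_of_nonneg_left (by linarith) hT0 hTT
    have h6 : 2 * V / T ≤ c / 4 := by
      rw [div_le_iff₀ hT0, hT]
      have : c / 4 * (1 + 8 * V / c) = c / 4 + 2 * V := by field_simp; ring
      rw [this]; linarith
    linarith
  linarith

/-- The arm event of the crossing theorem. -/
theorem harm {t : ℝ} {P : Measure (Ori (ℤ × ℤ))} [IsProbabilityMeasure P]
    (hflip : FlipLaw t P) (hgood : ∀ᵐ x ∂(J t P), GoodX x) (hac : AC.Stmt P) :
    ∀ c > 0, ∀ M0 : ℤ, ∃ M : ℤ, M0 ≤ M ∧ ∃ s0 : ℤ, ∀ s : ℤ, s0 ≤ s →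
      (J t P).real {x | Arm s (2 * M * s) (SP x)} < c := by
  intro c hc M0
  obtain ⟨M, hM, s0, h⟩ := arm_small hflip hgood hac c hc (max M0 1)
  refine ⟨M, (le_max_left _ _).trans hM, max s0 1, fun s hs => ?_⟩
  have hs1 : 1 ≤ s := (le_max_right _ _).trans hs
  have hM1 : 1 ≤ M := (le_max_right _ _).trans hM
  have hJ : IsProbabilityMeasure (J t P) := J_prob t P
  refine lt_of_le_of_lt (measureReal_mono ?_) (h s ((le_max_left _ _).trans hs))
  intro x hx
  refine arm_cut (by omega) (by nlinarith) ?_ hx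
  intro z hz hodd
  rcases hz with h1 | h1
  · exact (Int.not_even_iff_odd.2 hodd.1) h1.1
  · exact (Int.not_even_iff_odd.2 h1.1) (hodd.1.add_odd hodd.2)

/-! ### The hypotheses on the plane measure -/

theorem GoodH.goodX {x : Hgt × Mk} (h : GoodH x) : GoodX x := by
  refine ⟨fun q hq => ?_, h.opn⟩
  obtain ⟨k, hk⟩ := h.par q
  obtain ⟨l, hl⟩ := hq
  exact ⟨k + l, by omega⟩

theorem goodX_ae {t : ℝ} {P : Measure (Ori (ℤ × ℤ))} [IsProbabilityMeasure P]
    (hice : ∀ᵐ a ∂P, ∀ x y, Ice a x y) : ∀ᵐ x ∂(J t P), GoodX x :=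
  (J_goodH hice).mono fun _ hx => hx.goodX

/-- **The cluster event has small probability**, plane measures with the swap property. -/
theorem arm_small_of {c t : ℝ} (hc : 0 < c) (hct : c * t = 1) (ht1 : t ≤ 1)
    {P : Measure (Ori (ℤ × ℤ))} [IsProbabilityMeasure P] (hice : ∀ᵐ a ∂P, ∀ x y, Ice a x y)
    (hS : Swap c P) (hac : AC.Stmt P) :
    ∀ ε > 0, ∀ M0 : ℤ, ∃ M : ℤ, M0 ≤ M ∧ ∃ s0 : ℤ, ∀ s : ℤ, s0 ≤ s →
      (J t P).real {x | J2 s (2 * M * s) (SP x)} < ε :=
  arm_small (flipLaw_of_swap hc hct ht1 hice hS) (goodX_ae hice) hac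

/-- **The arm event has small probability**, plane measures with the swap property. -/
theorem harm_of {c t : ℝ} (hc : 0 < c) (hct : c * t = 1) (ht1 : t ≤ 1)
    {P : Measure (Ori (ℤ × ℤ))} [IsProbabilityMeasure P] (hice : ∀ᵐ a ∂P, ∀ x y, Ice a x y)
    (hS : Swap c P) (hac : AC.Stmt P) :
    ∀ ε > 0, ∀ M0 : ℤ, ∃ M : ℤ, M0 ≤ M ∧ ∃ s0 : ℤ, ∀ s : ℤ, s0 ≤ s →
      (J t P).real {x | Arm s (2 * M * s) (SP x)} < ε :=
  harm (flipLaw_of_swap hc hct ht1 hice hS) (goodX_ae hice) hac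

end Vale.Agent.P145.FB
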