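import Vale.Agent.P145.FB.Space

/-!
# P145, block F-B: the flip, definitions

`U` is a finite set of odd faces and `b` an even face. On the event `FlipQ U b` all bonds between
`U` and its complement are open and at the height of `b`; `flipR U b` reflects the heights of `U`
(and of the even faces next to `U`) at the height of `b`.
-/

namespace Vale.Agent.P145.FB

open MeasureTheory
open Vale.Agent.P152 Vale.Agent.P145.FA

/-- Faces of `U` and even faces next to a face of `U`. -/
def nb (U : Finset Pt) (q : Pt) : Prop :=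
  q ∈ U ∨ (Even (q.1 + q.2) ∧
    (q + (1, 0) ∈ U ∨ q - (1, 0) ∈ U ∨ q + (0, 1) ∈ U ∨ q - (0, 1) ∈ U))

/-- All bonds between `U` and its complement are open and at the height of `b`. -/
def FlipQ (U : Finset Pt) (b : Pt) : Set (Hgt × Mk) :=
  {x | ∀ w : Pt, ((o1 w ∈ U ∧ o2 w ∉ U) ∨ (o2 w ∈ U ∧ o1 w ∉ U)) →
    x.2 w = true ∧ x.1 (e1 w) = x.1 b ∧ x.1 (e2 w) = x.1 b}

open Classical in
/-- The heights of the faces of `nb U` reflected at the height of `b`. -/
noncomputable def refl0 (U : Finset Pt) (b : Pt) (h : Hgt) : Hgt :=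
  fun q => if nb U q then 2 * h b - h q else h q

/-- The reflection, normalised such that the height of the face `0` does not change. -/
noncomputable def flipR (U : Finset Pt) (b : Pt) (x : Hgt × Mk) : Hgt × Mk :=
  (fun q => refl0 U b x.1 q - refl0 U b x.1 0 + x.1 0, x.2)

/-- The flip law. -/
def FlipLaw (t : ℝ) (P : Measure (Ori (ℤ × ℤ))) : Prop :=
  ∀ U : Finset Pt, (∀ f ∈ U, Odd (f.1 + f.2)) → ∀ b : Pt, Even (b.1 + b.2) →
    ((J t P).restrict (FlipQ U b)).map (flipR U b) = (J t P).restrict (FlipQ U b)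

end Vale.Agent.P145.FB
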