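import Vale.Agent.P145.FB.ArmGeo
import Vale.Agent.P145.FB.FlipDef

/-!
# P145, block F-B: the regions enclosed by the cluster of the arm event

On the event `Arm s R` one cluster of the fine-lattice set separates the inner box from the outer
box in the annuli around `(0, 0)` and `(3R, 0)`. The set `Uf C p q t` consists of the odd faces of
the outer box which are not joined to its complement by dual paths avoiding the cluster `C`.
-/

namespace Vale.Agent.P145.FB

open Relation Vale.Agent.P153 Vale.Agent.P153.Topo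

/-- The big box. -/
def bigB (R : ℤ) : Set Pt := rc (-(4 * R)) (5 * R) (-(4 * R)) (4 * R)

/-- The cluster of `x` in `T`. -/
def clu (T : Set Pt) (x : Pt) : Set Pt := {y | NC T x y}

theorem clu_sub {T : Set Pt} {x : Pt} : clu T x ⊆ T := fun _ h => h.right_mem

/-- A step between two dual points through an edge point outside `C`. -/
def DS (C : Set Pt) (f g : Pt) : Prop := ∃ e : Pt, NN f e ∧ NN e g ∧ e ∉ C ∧ e - f = g - e

/-- Strictly inside the box with centre `(p, q)` and half side `2t`. -/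
def inB (p q t : ℤ) (g : Pt) : Prop :=
  2 * (p - 2 * t) < g.1 ∧ g.1 < 2 * (p + 2 * t) ∧ 2 * (q - 2 * t) < g.2 ∧ g.2 < 2 * (q + 2 * t)

/-- Dual paths which avoid `C` and start in the box with centre `(p, q)` and half side `t` stay
strictly inside the box with half side `2t`. -/
def Cut (C : Set Pt) (p q t : ℤ) : Prop :=
  ∀ f g : Pt, Odd f.1 → Odd f.2 → f ∈ rc (p - t) (p + t) (q - t) (q + t) →
    ReflTransGen (DS C) f g → inB p q t g

theorem DS.symm {C : Set Pt} {f g : Pt} (h : DS C f g) : DS C g f := by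
  obtain ⟨e, h1, h2, h3, h4⟩ := h
  refine ⟨e, h2.symm, h1.symm, h3, ?_⟩
  rw [← neg_sub g e, ← neg_sub e f, h4]

theorem DS.odd {C : Set Pt} {f g : Pt} (h : DS C f g) (hf : Odd f.1 ∧ Odd f.2) :
    Odd g.1 ∧ Odd g.2 := by
  obtain ⟨e, h1, h2, -, h4⟩ := h
  have h41 : e.1 - f.1 = g.1 - e.1 := congrArg Prod.fst h4
  have h42 : e.2 - f.2 = g.2 - e.2 := congrArg Prod.snd h4
  obtain ⟨⟨a, ha⟩, ⟨b, hb⟩⟩ := hf
  exact ⟨⟨e.1 - a - 1, by omega⟩, ⟨e.2 - b - 1, by omega⟩⟩

theorem cut_of_sep {C : Set Pt} {p q t : ℤ} (h : Sep C p q t)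
    (hC : ∀ z ∈ C, ¬ (Odd z.1 ∧ Odd z.2)) : Cut C p q t := by
  intro f g hf1 hf2 hf hfg
  by_contra hg
  let D : Set Pt := {z | (Odd z.1 ∧ Odd z.2) ∨ z ∉ C}
  have key : ∀ w, ReflTransGen (DS C) f w → NC D f w ∧ Odd w.1 ∧ Odd w.2 := by
    intro w hw
    induction hw with
    | refl => exact ⟨NC.refl (Or.inl ⟨hf1, hf2⟩), hf1, hf2⟩
    | @tail b c hab hbc ih =>
      have hc := hbc.odd ih.2
      obtain ⟨e, e1, e2, e3, -⟩ := hbc
      refine ⟨(ih.1.tail e1 (Or.inr e3)).tail e2 (Or.inl hc), hc⟩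
  obtain ⟨z, hz1, hz2⟩ := h D f g (key g hfg).1.conn hf (by unfold inB at hg; omega)
  rcases hz1 with h1 | h1
  · exact hC z hz2 h1
  · exact h1 hz2

/-- The arm event gives one cluster which cuts both annuli. -/
theorem arm_cut {s R : ℤ} (hs : 0 < s) (hsR : s ≤ 2 * R) {S : Set Pt}
    (hodd : ∀ z ∈ S, ¬ (Odd z.1 ∧ Odd z.2)) (h : Arm s R S) :
    ∃ o ∈ S ∩ bigB R, Cut (clu (S ∩ bigB R) o) 0 0 s ∧
      Cut (clu (S ∩ bigB R) o) (3 * R) 0 R := by
  obtain ⟨o, ho, h1, -, h3⟩ := h.joined hs hsR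
  have hc : ∀ z ∈ clu (S ∩ bigB R) o, ¬ (Odd z.1 ∧ Odd z.2) := fun z hz =>
    hodd z (clu_sub hz).1
  exact ⟨o, ho, cut_of_sep h1 hc, cut_of_sep h3 hc⟩

/-! ### Faces -/

/-- The fine point of a face. -/
def fi (q : Pt) : Pt := (q.1 + q.2, q.1 - q.2)

/-- The fine point of a vertex. -/
def ep (w : Pt) : Pt := (w.1 + w.2 - 1, w.1 - w.2)

theorem vx_ep (w : Pt) : vx (ep w) = w := by
  unfold vx ep; ext <;> dsimp only <;> omega

theorem ep_odd (w : Pt) : Odd ((ep w).1 + (ep w).2) := by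
  unfold ep; exact ⟨w.1 - 1, by dsimp only; ring⟩

theorem fc_fi (q : Pt) : fc (fi q) = q := by
  unfold fc fi; ext <;> dsimp only <;> omega

/-- The odd faces of the box with centre `(p, q)` and half side `2t` which are not joined to the
complement of the box by a dual path avoiding `C`. -/
def UU (C : Set Pt) (p q t : ℤ) : Set Pt :=
  {f | Odd (f.1 + f.2) ∧ ∀ g, ReflTransGen (DS C) (fi f) g → inB p q t g}

theorem UU_fin (C : Set Pt) (p q t : ℤ) : (UU C p q t).Finite := by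
  have h1 : UU C p q t ⊆ fi ⁻¹' (Set.Icc (2 * (p - 2 * t)) (2 * (p + 2 * t)) ×ˢ
      Set.Icc (2 * (q - 2 * t)) (2 * (q + 2 * t))) := by
    intro f hf
    have := hf.2 (fi f) ReflTransGen.refl
    unfold inB at this
    rw [Set.mem_preimage, Set.mem_prod, Set.mem_Icc, Set.mem_Icc]
    exact ⟨⟨this.1.le, this.2.1.le⟩, ⟨this.2.2.1.le, this.2.2.2.le⟩⟩
  refine Set.Finite.subset (Set.Finite.preimage ?_ ((Set.finite_Icc _ _).prod
    (Set.finite_Icc _ _))) h1
  intro a _ b _ hab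
  rw [← fc_fi a, ← fc_fi b, hab]

/-- `UU` as a finite set. -/
noncomputable def Uf (C : Set Pt) (p q t : ℤ) : Finset Pt := (UU_fin C p q t).toFinset

theorem mem_Uf {C : Set Pt} {p q t : ℤ} {f : Pt} :
    f ∈ Uf C p q t ↔ Odd (f.1 + f.2) ∧ ∀ g, ReflTransGen (DS C) (fi f) g → inB p q t g := by
  unfold Uf; rw [Set.Finite.mem_toFinset]; rfl

theorem Uf_odd {C : Set Pt} {p q t : ℤ} {f : Pt} (h : f ∈ Uf C p q t) : Odd (f.1 + f.2) :=
  (mem_Uf.1 h).1

theorem fi_odd {f : Pt} (h : Odd (f.1 + f.2)) : Odd (fi f).1 ∧ Odd (fi f).2 := by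
  obtain ⟨k, hk⟩ := h
  exact ⟨⟨k, hk⟩, ⟨k - f.2, by unfold fi; dsimp only; omega⟩⟩

theorem Uf_step {C : Set Pt} {p q t : ℤ} {f g : Pt} (h : f ∈ Uf C p q t) (hg : Odd (g.1 + g.2))
    (hfg : DS C (fi f) (fi g)) : g ∈ Uf C p q t :=
  mem_Uf.2 ⟨hg, fun _ hk => (mem_Uf.1 h).2 _ (ReflTransGen.head hfg hk)⟩

theorem o1_odd (w : Pt) : Odd ((o1 w).1 + (o1 w).2) := by
  unfold o1
  split_ifs with h
  · obtain ⟨k, hk⟩ := h
    exact ⟨k - 1, by dsimp only; omega⟩
  · rwa [Int.not_even_iff_odd] at h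

theorem o2_odd (w : Pt) : Odd ((o2 w).1 + (o2 w).2) := by
  unfold o2
  split_ifs with h
  · obtain ⟨k, hk⟩ := h
    exact ⟨k - 1, by dsimp only; omega⟩
  · rw [Int.not_even_iff_odd] at h
    obtain ⟨k, hk⟩ := h
    exact ⟨k - 1, by dsimp only; omega⟩

theorem DS_o {C : Set Pt} {w : Pt} (h : ep w ∉ C) : DS C (fi (o1 w)) (fi (o2 w)) := by
  refine ⟨ep w, ?_, ?_, h, ?_⟩
  · unfold NN fi ep o1
    split_ifs <;> dsimp only <;> omega
  · unfold NN fi ep o2
    split_ifs <;> dsimp only <;> omega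
  · unfold fi ep o1 o2
    split_ifs <;> ext <;> dsimp only [Prod.fst_sub, Prod.snd_sub] <;> omega

/-- The boundary of `Uf` belongs to `C`. -/
theorem Uf_bd {C : Set Pt} {p q t : ℤ} {w : Pt}
    (h : (o1 w ∈ Uf C p q t ∧ o2 w ∉ Uf C p q t) ∨ (o2 w ∈ Uf C p q t ∧ o1 w ∉ Uf C p q t)) :
    ep w ∈ C := by
  by_contra hw
  have h1 := DS_o hw
  rcases h with h | h
  · exact h.2 (Uf_step h.1 (o2_odd w) h1)
  · exact h.2 (Uf_step h.1 (o1_odd w) h1.symm)

theorem Uf_in {C : Set Pt} {p q t : ℤ} (hcut : Cut C p q t) {f : Pt} (hf : Odd (f.1 + f.2))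
    (hin : fi f ∈ rc (p - t) (p + t) (q - t) (q + t)) : f ∈ Uf C p q t :=
  mem_Uf.2 ⟨hf, fun g hg => hcut _ g (fi_odd hf).1 (fi_odd hf).2 hin hg⟩

/-- Faces of the inner box are reflected. -/
theorem nb_in {C : Set Pt} {p q t : ℤ} (ht : 0 < t) (hcut : Cut C p q t) {f : Pt}
    (hin : fi f ∈ rc (p - t) (p + t) (q - t) (q + t)) : nb (Uf C p q t) f := by
  by_cases hf : Even (f.1 + f.2)
  · right
    refine ⟨hf, ?_⟩
    obtain ⟨h1, h2, h3, h4⟩ := hin
    unfold fi at h1 h2 h3 h4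
    dsimp only at h1 h2 h3 h4
    obtain ⟨k, hk⟩ := hf
    by_cases c1 : f.1 + f.2 + 1 ≤ 2 * (p + t) <;> by_cases c2 : f.1 - f.2 + 1 ≤ 2 * (q + t)
    · left
      refine Uf_in hcut ⟨k, by simp only [Prod.fst_add, Prod.snd_add]; omega⟩ ?_
      unfold rc fi
      simp only [Prod.fst_add, Prod.snd_add]
      exact ⟨by omega, by omega, by omega, by omega⟩
    · right; right; left
      refine Uf_in hcut ⟨k, by simp only [Prod.fst_add, Prod.snd_add]; omega⟩ ?_
      unfold rc fi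
      simp only [Prod.fst_add, Prod.snd_add]
      exact ⟨by omega, by omega, by omega, by omega⟩
    · right; right; right
      refine Uf_in hcut ⟨k - 1, by simp only [Prod.fst_sub, Prod.snd_sub]; omega⟩ ?_
      unfold rc fi
      simp only [Prod.fst_sub, Prod.snd_sub]
      exact ⟨by omega, by omega, by omega, by omega⟩
    · right; left
      refine Uf_in hcut ⟨k - 1, by simp only [Prod.fst_sub, Prod.snd_sub]; omega⟩ ?_
      unfold rc fi
      simp only [Prod.fst_sub, Prod.snd_sub]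
      exact ⟨by omega, by omega, by omega, by omega⟩
  · left
    rw [Int.not_even_iff_odd] at hf
    exact Uf_in hcut hf hin

/-- Faces outside the outer box are not reflected. -/
theorem nb_out {C : Set Pt} {p q t : ℤ} {f : Pt}
    (hout : fi f ∉ rc (p - 2 * t) (p + 2 * t) (q - 2 * t) (q + 2 * t)) :
    ¬ nb (Uf C p q t) f := by
  have key : ∀ g : Pt, |(fi g).1 - (fi f).1| ≤ 1 → |(fi g).2 - (fi f).2| ≤ 1 →
      g ∉ Uf C p q t := by
    intro g h1 h2 hg
    have := (mem_Uf.1 hg).2 _ ReflTransGen.refl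
    unfold inB at this
    rw [abs_le] at h1 h2
    apply hout
    exact ⟨by omega, by omega, by omega, by omega⟩
  rintro (h | ⟨-, h | h | h | h⟩)
  · exact key f (by simp) (by simp) h
  all_goals
    refine key _ ?_ ?_ h <;> unfold fi <;>
      simp only [Prod.fst_add, Prod.snd_add, Prod.fst_sub, Prod.snd_sub] <;> rw [abs_le] <;>
      constructor <;> omega

end Vale.Agent.P145.FB
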