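import Vale.Agent.P145.FB.Flip
import Vale.Agent.P145.FB.FlipDef

/-!
P145, block F-B: the flip law for the heights.
-/

namespace Vale.Agent.P145.FB

open Finset Filter Topology MeasureTheory
open Vale.Agent.P152 Vale.Agent.P145.FA

/-! ### General flips of the arrows -/

/-- The flip at a set depending on the bonds. -/
noncomputable def flS (S : Mk → Set Pt) (x : Ori (ℤ × ℤ) × Mk) : Ori (ℤ × ℤ) × Mk :=
  (flA (S x.2) x.1, x.2)

lemma flS_flS (S : Mk → Set Pt) (x : Ori (ℤ × ℤ) × Mk) : flS S (flS S x) = x := by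
  simp [flS, flA_flA]

lemma measurable_flS {S : Mk → Set Pt} (D : Finset Pt)
    (hloc : ∀ o o' : Mk, (∀ w ∈ VD D, o w = o' w) → S o = S o') : Measurable (flS S) := by
  classical
  refine Measurable.prodMk (measurable_pi_lambda _ fun e => ?_) measurable_snd
  have h0 : MeasurableSet {o : Mk | fo e ∈ S o} := by
    have h1 : {o : Mk | fo e ∈ S o} = (VD D).restrict (π := fun _ : Pt => Bool) ⁻¹'
        {η | fo e ∈ S (fun w => if h : w ∈ VD D then η ⟨w, h⟩ else true)} := by
      ext o
      simp only [Set.mem_preimage, Set.mem_ofPred_eq]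
      rw [hloc o (fun w => if h : w ∈ VD D then
        (VD D).restrict (π := fun _ : Pt => Bool) o ⟨w, h⟩ else true)]
      intro w hw
      simp [hw]
    rw [h1]
    exact (Finset.measurable_restrict (VD D)) (Set.toFinite _).measurableSet
  have h1 : MeasurableSet {x : Ori (ℤ × ℤ) × Mk | fo e ∈ S x.2} := measurable_snd h0
  have h2 : Measurable fun x : Ori (ℤ × ℤ) × Mk => decide (fo e ∈ S x.2) := by
    refine measurable_to_bool ?_
    convert h1 using 1
    ext x
    simp
  have h3 : Measurable fun x : Ori (ℤ × ℤ) × Mk => x.1 e :=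
    (measurable_pi_apply e).comp measurable_fst
  exact (measurable_of_finite (fun p : Bool × Bool => xor p.1 p.2)).comp (h3.prodMk h2)

theorem flS_mp {c t : ℝ} (hc : 0 < c) (hct : c * t = 1) (ht1 : t ≤ 1)
    {P : Measure (Ori (ℤ × ℤ))} [IsProbabilityMeasure P] (hice : ∀ᵐ a ∂P, ∀ x y, Ice a x y)
    (hsw : Swap c P) (D : Finset Pt) (S : Mk → Set Pt) (hSD0 : ∀ o, S o ⊆ (D : Set Pt))
    (hloc : ∀ o o' : Mk, (∀ w ∈ VD D, o w = o' w) → S o = S o')
    (hcl : ∀ (o : Mk) (w : Pt), o w = false → (o1 w ∈ S o ↔ o2 w ∈ S o)) :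
    (JO t P).map (flS S) = JO t P := by
  classical
  have ht0 : 0 ≤ t := by
    by_contra h
    push Not at h
    nlinarith
  have hmf := measurable_flS D hloc
  have hfin : IsProbabilityMeasure ((JO t P).map (flS S)) :=
    Measure.isProbabilityMeasure_map hmf.aemeasurable
  refine ext_cylO (fun E W => VD D ⊆ W ∧ ∀ w ∈ W, FP.star w ⊆ E) (fun E W => ?_) ?_
  · refine ⟨E ∪ (W ∪ VD D).biUnion FP.star, W ∪ VD D, Finset.subset_union_left,
      Finset.subset_union_left, Finset.subset_union_right, fun w hw => ?_⟩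
    exact (Finset.subset_biUnion_of_mem FP.star hw).trans Finset.subset_union_right
  · rintro E W ⟨hDW, hE⟩ a o
    have hmc : MeasurableSet (cylO E W a o) := by
      have h1 : cylO E W a o = (⋂ e ∈ E, (fun x : Ori (ℤ × ℤ) × Mk => x.1 e) ⁻¹' {a e}) ∩
          ⋂ w ∈ W, (fun x : Ori (ℤ × ℤ) × Mk => x.2 w) ⁻¹' {o w} := by
        ext x; simp [cylO]
      rw [h1]
      refine MeasurableSet.inter (Finset.measurableSet_biInter _ fun e _ => ?_)
        (Finset.measurableSet_biInter _ fun w _ => ?_)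
      · exact ((measurable_pi_apply e).comp measurable_fst) (measurableSet_singleton _)
      · exact ((measurable_pi_apply w).comp measurable_snd) (measurableSet_singleton _)
    have hpre : flS S ⁻¹' (cylO E W a o) = cylO E W (flA (S o) a) o := by
      ext x
      simp only [Set.mem_preimage, cylO, flS, Set.mem_ofPred_eq]
      constructor
      · rintro ⟨h1, h2⟩
        refine ⟨fun e he => ?_, h2⟩
        have hU : S x.2 = S o := hloc _ _ fun w hw => h2 w (hDW hw)
        rw [hU] at h1
        have := h1 e he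
        rw [flA] at this ⊢
        rw [← this]
        simp
      · rintro ⟨h1, h2⟩
        refine ⟨fun e he => ?_, h2⟩
        have hU : S x.2 = S o := hloc _ _ fun w hw => h2 w (hDW hw)
        rw [hU]
        have := h1 e he
        rw [flA] at this ⊢
        rw [this]
        simp
    rw [Measure.map_apply hmf hmc, hpre]
    have hSD : ∀ f, f ∈ S o → f ∈ D := fun f hf => hSD0 o hf
    have main : (JO t P).real (cylO E W (flA (S o) a) o) = (JO t P).real (cylO E W a o) := by
      rw [JO_cyl ht0 ht1 P hE, JO_cyl ht0 ht1 P hE, ← Finset.prod_sdiff hDW,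
        ← Finset.prod_sdiff (s₁ := VD D) (s₂ := W) (f := fun w => kap t a w (o w)) hDW]
      have hrest : ∏ w ∈ W \ VD D, kap t (flA (S o) a) w (o w) =
          ∏ w ∈ W \ VD D, kap t a w (o w) := by
        refine Finset.prod_congr rfl fun w hw => kap_congr (fun e he => ?_) _
        rw [Finset.mem_sdiff] at hw
        have : fo e ∉ S o := by
          intro h
          rcases fo_star he with h1 | h1
          · exact hw.2 (mem_VD_o1 (by rw [← h1]; exact hSD _ h))
          · exact hw.2 (mem_VD_o2 (by rw [← h1]; exact hSD _ h))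
        simp [flA, this]
      have hin : ∀ v ∈ VD D, FP.star v ⊆ E := fun v hv => hE v (hDW hv)
      have hswap := hsw E (VD D) a (flA (S o) a) hin (fun e _ hne => by
        apply ends_of_fo
        apply hSD
        by_contra h
        apply hne
        simp [flA, h])
      have hwk : (∏ v ∈ VD D, FP.vwt c (flA (S o) a) v) * ∏ v ∈ VD D, kap t (flA (S o) a) v (o v) =
          (∏ v ∈ VD D, FP.vwt c a v) * ∏ v ∈ VD D, kap t a v (o v) := by
        rw [← Finset.prod_mul_distrib, ← Finset.prod_mul_distrib]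
        refine Finset.prod_congr rfl fun v _ => wgt_flip hct (S o) a v (o v) ?_
        by_cases ho : o v = true
        · exact Or.inr ho
        · left
          exact hcl o v (by simpa using ho)
      rw [hrest]
      set A := P.real (cyl E a)
      set A' := P.real (cyl E (flA (S o) a))
      set w0 := ∏ v ∈ VD D, FP.vwt c a v with hw0
      set w1 := ∏ v ∈ VD D, FP.vwt c (flA (S o) a) v with hw1
      set k0 := ∏ v ∈ VD D, kap t a v (o v)
      set k1 := ∏ v ∈ VD D, kap t (flA (S o) a) v (o v)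
      have goal : A' * k1 = A * k0 := by
        by_cases hz : w0 = 0
        · have hA : A = 0 := by
            obtain ⟨v, hv, hv0⟩ := Finset.prod_eq_zero_iff.1 hz
            exact cyl_zero hc hice (hin v hv) hv0
          rw [hz, zero_mul] at hwk
          rw [hA, zero_mul]
          rcases mul_eq_zero.1 hwk with h | h
          · have hA' : A' = 0 := by
              obtain ⟨v, hv, hv0⟩ := Finset.prod_eq_zero_iff.1 h
              exact cyl_zero hc hice (hin v hv) hv0
            rw [hA', zero_mul]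
          · rw [h, mul_zero]
        · have : (A' * k1) * w0 = (A * k0) * w0 := by
            calc (A' * k1) * w0 = (A' * w0) * k1 := by ring
              _ = (A * w1) * k1 := by rw [hswap]
              _ = A * (w1 * k1) := by ring
              _ = A * (w0 * k0) := by rw [hwk]
              _ = (A * k0) * w0 := by ring
          exact mul_right_cancel₀ hz this
      calc A' * ((∏ w ∈ W \ VD D, kap t a w (o w)) * k1) =
          (∏ w ∈ W \ VD D, kap t a w (o w)) * (A' * k1) := by ring
        _ = (∏ w ∈ W \ VD D, kap t a w (o w)) * (A * k0) := by rw [goal]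
        _ = A * ((∏ w ∈ W \ VD D, kap t a w (o w)) * k0) := by ring
    rw [Measure.real, Measure.real] at main
    exact (ENNReal.toReal_eq_toReal_iff' (measure_ne_top _ _) (measure_ne_top _ _)).1 main

/-! ### The height function of the flipped arrows -/

lemma iff_of_not {A B : Prop} (h : (A ∧ ¬ B) ∨ (B ∧ ¬ A) → False) : A ↔ B :=
  ⟨fun ha => by_contra fun hb => h (Or.inl ⟨ha, hb⟩),
    fun hb => by_contra fun ha => h (Or.inr ⟨hb, ha⟩)⟩

lemma bd_height {U : Finset Pt} {b : Pt} {h : Hgt}
    (hbd : ∀ w, ((o1 w ∈ U ∧ o2 w ∉ U) ∨ (o2 w ∈ U ∧ o1 w ∉ U)) → h (e1 w) = h b ∧ h (e2 w) = h b)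
    {x y : ℤ} (hq : Even (x + y)) (hne : h (x, y) ≠ h b) :
    ((x - 1, y) ∈ U ↔ (x, y - 1) ∈ U) ∧ ((x + 1, y) ∈ U ↔ (x, y - 1) ∈ U) ∧
      ((x, y + 1) ∈ U ↔ (x - 1, y) ∈ U) ∧ ((x, y + 1) ∈ U ↔ (x + 1, y) ∈ U) := by
  have n2 : ¬ Even (x + 1 + y) := by rw [Int.even_iff] at hq ⊢; omega
  have n3 : ¬ Even (x + (y + 1)) := by rw [Int.even_iff] at hq ⊢; omega
  have n4 : Even (x + 1 + (y + 1)) := by rw [Int.even_iff] at hq ⊢; omega
  have k1 := hbd (x, y)
  have k2 := hbd (x + 1, y)
  have k3 := hbd (x, y + 1)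
  have k4 := hbd (x + 1, y + 1)
  simp only [o1, o2, e1, e2, hq, n2, n3, n4, if_true, if_false, add_sub_cancel_right] at k1 k2 k3 k4
  exact ⟨iff_of_not fun h1 => hne (k1 h1).1, iff_of_not fun h1 => hne (k2 h1).1,
    iff_of_not fun h1 => hne (k3 h1).2, iff_of_not fun h1 => hne (k4 h1).2⟩

theorem isHeight_flip {a : Ori (ℤ × ℤ)} {h : Hgt} (hh : IsHeight a h) {U : Finset Pt}
    (hU : ∀ f ∈ U, Odd (f.1 + f.2)) {b : Pt}
    (hbd : ∀ w, ((o1 w ∈ U ∧ o2 w ∉ U) ∨ (o2 w ∈ U ∧ o1 w ∉ U)) → h (e1 w) = h b ∧ h (e2 w) = h b)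
    (h' : Hgt) (h'1 : ∀ q, nb U q → h' q = 2 * h b - h q) (h'2 : ∀ q, ¬ nb U q → h' q = h q) :
    IsHeight (flA (U : Set Pt) a) h' := by
  have hodd : ∀ q : Pt, ¬ Even (q.1 + q.2) → (nb U q ↔ q ∈ U) := by
    intro q hq
    unfold nb
    tauto
  have heq : ∀ q : Pt, h q = h b → h' q = h q := by
    intro q hq
    by_cases hn : nb U q
    · rw [h'1 q hn]; omega
    · exact h'2 q hn
  intro x y
  have H := hh x y
  refine ⟨?_, ?_⟩
  · have H1 := H.1
    by_cases hq : Even (x + y)
    · have nr : ¬ Even (x + (y - 1)) := by rw [Int.even_iff] at hq ⊢; omega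
      have hfo : fo (Sum.inl (x, y)) = (x, y - 1) := by simp [fo, hq]
      by_cases hr : (x, y - 1) ∈ U
      · have nq : nb U (x, y) := Or.inr ⟨hq, Or.inr (Or.inr (Or.inr (by simpa using hr)))⟩
        rw [h'1 _ nq, h'1 _ ((hodd _ nr).2 hr)]
        have : flA (U : Set Pt) a (Sum.inl (x, y)) = !(a (Sum.inl (x, y))) := by
          simp [flA, hfo, hr]
        rw [this]
        cases h3 : a (Sum.inl (x, y)) <;> simp only [h3, Bool.not_true, Bool.not_false,
          Bool.false_eq_true, if_false, if_true] at H1 ⊢ <;> omega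
      · have : flA (U : Set Pt) a (Sum.inl (x, y)) = a (Sum.inl (x, y)) := by
          simp [flA, hfo, hr]
        rw [this, ← H1, h'2 _ (fun hn => hr ((hodd _ nr).1 hn))]
        have : h' (x, y) = h (x, y) := by
          by_cases hb : h (x, y) = h b
          · exact heq _ hb
          · have k := bd_height hbd hq hb
            refine h'2 _ ?_
            intro hn
            rcases hn with hn | ⟨_, hn⟩
            · have := hU _ hn
              exact (Int.not_even_iff_odd.2 this) hq
            · simp only [Prod.mk_add_mk, Prod.mk_sub_mk, add_zero, sub_zero] at hn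
              tauto
        rw [this]
    · have nr : Even (x + (y - 1)) := by rw [Int.even_iff] at hq ⊢; omega
      have hfo : fo (Sum.inl (x, y)) = (x, y) := by simp [fo, hq]
      by_cases hr : (x, y) ∈ U
      · have nq : nb U (x, y - 1) := Or.inr ⟨nr, Or.inr (Or.inr (Or.inl (by simpa using hr)))⟩
        rw [h'1 _ nq, h'1 _ ((hodd _ hq).2 hr)]
        have : flA (U : Set Pt) a (Sum.inl (x, y)) = !(a (Sum.inl (x, y))) := by
          simp [flA, hfo, hr]
        rw [this]
        cases h3 : a (Sum.inl (x, y)) <;> simp only [h3, Bool.not_true, Bool.not_false,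
          Bool.false_eq_true, if_false, if_true] at H1 ⊢ <;> omega
      · have : flA (U : Set Pt) a (Sum.inl (x, y)) = a (Sum.inl (x, y)) := by
          simp [flA, hfo, hr]
        rw [this, ← H1, h'2 _ (fun hn => hr ((hodd _ hq).1 hn))]
        have : h' (x, y - 1) = h (x, y - 1) := by
          by_cases hb : h (x, y - 1) = h b
          · exact heq _ hb
          · have k := bd_height hbd nr hb
            simp only [sub_add_cancel] at k
            refine h'2 _ ?_
            intro hn
            rcases hn with hn | ⟨_, hn⟩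
            · have := hU _ hn
              exact (Int.not_even_iff_odd.2 this) nr
            · simp only [Prod.mk_add_mk, Prod.mk_sub_mk, add_zero, sub_zero, sub_add_cancel] at hn
              tauto
        rw [this]
  · have H1 := H.2
    by_cases hq : Even (x + y)
    · have nr : ¬ Even (x - 1 + y) := by rw [Int.even_iff] at hq ⊢; omega
      have hfo : fo (Sum.inr (x, y)) = (x - 1, y) := by simp [fo, hq]
      by_cases hr : (x - 1, y) ∈ U
      · have nq : nb U (x, y) := Or.inr ⟨hq, Or.inr (Or.inl (by simpa using hr))⟩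
        rw [h'1 _ nq, h'1 _ ((hodd _ nr).2 hr)]
        have : flA (U : Set Pt) a (Sum.inr (x, y)) = !(a (Sum.inr (x, y))) := by
          simp [flA, hfo, hr]
        rw [this]
        cases h3 : a (Sum.inr (x, y)) <;> simp only [h3, Bool.not_true, Bool.not_false,
          Bool.false_eq_true, if_false, if_true] at H1 ⊢ <;> omega
      · have : flA (U : Set Pt) a (Sum.inr (x, y)) = a (Sum.inr (x, y)) := by
          simp [flA, hfo, hr]
        rw [this, ← H1, h'2 _ (fun hn => hr ((hodd _ nr).1 hn))]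
        have : h' (x, y) = h (x, y) := by
          by_cases hb : h (x, y) = h b
          · exact heq _ hb
          · have k := bd_height hbd hq hb
            refine h'2 _ ?_
            intro hn
            rcases hn with hn | ⟨_, hn⟩
            · have := hU _ hn
              exact (Int.not_even_iff_odd.2 this) hq
            · simp only [Prod.mk_add_mk, Prod.mk_sub_mk, add_zero, sub_zero] at hn
              tauto
        rw [this]
    · have nr : Even (x - 1 + y) := by rw [Int.even_iff] at hq ⊢; omega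
      have hfo : fo (Sum.inr (x, y)) = (x, y) := by simp [fo, hq]
      by_cases hr : (x, y) ∈ U
      · have nq : nb U (x - 1, y) := Or.inr ⟨nr, Or.inl (by simpa using hr)⟩
        rw [h'1 _ nq, h'1 _ ((hodd _ hq).2 hr)]
        have : flA (U : Set Pt) a (Sum.inr (x, y)) = !(a (Sum.inr (x, y))) := by
          simp [flA, hfo, hr]
        rw [this]
        cases h3 : a (Sum.inr (x, y)) <;> simp only [h3, Bool.not_true, Bool.not_false,
          Bool.false_eq_true, if_false, if_true] at H1 ⊢ <;> omega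
      · have : flA (U : Set Pt) a (Sum.inr (x, y)) = a (Sum.inr (x, y)) := by
          simp [flA, hfo, hr]
        rw [this, ← H1, h'2 _ (fun hn => hr ((hodd _ hq).1 hn))]
        have : h' (x - 1, y) = h (x - 1, y) := by
          by_cases hb : h (x - 1, y) = h b
          · exact heq _ hb
          · have k := bd_height hbd nr hb
            simp only [sub_add_cancel] at k
            refine h'2 _ ?_
            intro hn
            rcases hn with hn | ⟨_, hn⟩
            · have := hU _ hn
              exact (Int.not_even_iff_odd.2 this) nr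
            · simp only [Prod.mk_add_mk, Prod.mk_sub_mk, add_zero, sub_zero, sub_add_cancel] at hn
              tauto
        rw [this]

/-! ### Almost sure properties -/

lemma measurable_evod (w : Pt) :
    Measurable (fun x : Ori (ℤ × ℤ) × Mk => (x.2 w, ev x.1 w, od x.1 w)) := by
  have h1 : Measurable fun x : Ori (ℤ × ℤ) × Mk =>
      (x.1 (Sum.inl w), x.1 (Sum.inr w), x.1 (Sum.inr (w.1, w.2 - 1)), x.2 w) := by
    refine ((measurable_pi_apply _).comp measurable_fst).prodMk
      (((measurable_pi_apply _).comp measurable_fst).prodMk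
        (((measurable_pi_apply _).comp measurable_fst).prodMk
          ((measurable_pi_apply _).comp measurable_snd)))
  by_cases hw : Even (w.1 + w.2)
  · have h2 : (fun x : Ori (ℤ × ℤ) × Mk => (x.2 w, ev x.1 w, od x.1 w)) =
        (fun y : Bool × Bool × Bool × Bool => (y.2.2.2, y.1 == y.2.2.1, y.1 != y.2.1)) ∘
        fun x => (x.1 (Sum.inl w), x.1 (Sum.inr w), x.1 (Sum.inr (w.1, w.2 - 1)), x.2 w) := by
      funext x
      simp [ev, od, ag, dg, hw]
    rw [h2]
    exact (measurable_of_finite _).comp h1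
  · have h2 : (fun x : Ori (ℤ × ℤ) × Mk => (x.2 w, ev x.1 w, od x.1 w)) =
        (fun y : Bool × Bool × Bool × Bool => (y.2.2.2, y.1 != y.2.1, y.1 == y.2.2.1)) ∘
        fun x => (x.1 (Sum.inl w), x.1 (Sum.inr w), x.1 (Sum.inr (w.1, w.2 - 1)), x.2 w) := by
      funext x
      simp [ev, od, ag, dg, hw]
    rw [h2]
    exact (measurable_of_finite _).comp h1

/-- The bonds fit to the arrows. -/
def GdJ (x : Ori (ℤ × ℤ) × Mk) : Prop :=
  (∀ i j, Ice x.1 i j) ∧ ∀ w, (x.2 w = true → ev x.1 w = true ∨ od x.1 w = false) ∧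
    (x.2 w = false → od x.1 w = true)

lemma measurableSet_Good : MeasurableSet {x | GdJ x} := by
  have h0 : {x | GdJ x} = (⋂ i : ℤ, ⋂ j : ℤ, {x | Ice x.1 i j}) ∩
      ⋂ w : Pt, (fun x : Ori (ℤ × ℤ) × Mk => (x.2 w, ev x.1 w, od x.1 w)) ⁻¹'
        {y | (y.1 = true → y.2.1 = true ∨ y.2.2 = false) ∧ (y.1 = false → y.2.2 = true)} := by
    ext x
    simp [GdJ]
  rw [h0]
  refine MeasurableSet.inter (MeasurableSet.iInter fun i => MeasurableSet.iInter fun j => ?_)
    (MeasurableSet.iInter fun w => measurable_evod w (Set.toFinite _).measurableSet)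
  have h1 : ∀ e : Edge (ℤ × ℤ), Measurable fun x : Ori (ℤ × ℤ) × Mk => (x.1 e).toNat := fun e =>
    (measurable_of_finite Bool.toNat).comp ((measurable_pi_apply e).comp measurable_fst)
  exact measurableSet_eq_fun ((h1 _).add (h1 _)) ((h1 _).add (h1 _))

lemma JO_good {t : ℝ} {P : Measure (Ori (ℤ × ℤ))} [IsProbabilityMeasure P]
    (hice : ∀ᵐ a ∂P, ∀ x y, Ice a x y) : ∀ᵐ x ∂(JO t P), GdJ x := by
  unfold JO
  rw [ae_map_iff measurable_oma.aemeasurable measurableSet_Good]
  have h1 : ∀ᵐ x ∂(P.prod (mkm t)), ∀ i j, Ice x.1 i j :=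
    Measure.quasiMeasurePreserving_fst.ae hice
  filter_upwards [h1] with x hx
  refine ⟨hx, fun w => ⟨?_, ?_⟩⟩
  · intro h
    simp only [oma] at h
    cases h2 : od x.1 w
    · exact Or.inr rfl
    · left
      rw [h2] at h
      simp only [Bool.not_true, Bool.false_or, Bool.and_eq_true] at h
      exact h.1
  · intro h
    simp only [oma] at h
    cases h2 : od x.1 w
    · rw [h2] at h; simp at h
    · rfl

/-- Height functions with bonds that fit. -/
structure GoodH (x : Hgt × Mk) : Prop where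
  par : ∀ q : Pt, (2 : ℤ) ∣ x.1 q - (q.1 + q.2)
  stepx : ∀ q : Pt, |x.1 (q + (1, 0)) - x.1 q| = 1
  stepy : ∀ q : Pt, |x.1 (q + (0, 1)) - x.1 q| = 1
  opn : ∀ w : Pt, x.2 w = true → x.1 (e1 w) = x.1 (e2 w)
  cls : ∀ w : Pt, x.2 w = false → x.1 (o1 w) = x.1 (o2 w)

lemma ev_or_od {a : Ori (ℤ × ℤ)} (h : ∀ x y, Ice a x y) (w : Pt) :
    ev a w = true ∨ od a w = true := by
  have h1 := h w.1 w.2
  unfold Ice at h1
  unfold ev od dg ag
  rw [Prod.mk.eta] at h1
  split_ifs <;> cases h2 : a (Sum.inl (w.1 - 1, w.2)) <;> cases h3 : a (Sum.inl w) <;>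
    cases h4 : a (Sum.inr (w.1, w.2 - 1)) <;> cases h5 : a (Sum.inr w) <;>
    simp_all

lemma par_of_step {h : Hgt} (h0 : (2 : ℤ) ∣ h (0, 0))
    (hx : ∀ q : Pt, |h (q + (1, 0)) - h q| = 1) (hy : ∀ q : Pt, |h (q + (0, 1)) - h q| = 1)
    (q : Pt) : (2 : ℤ) ∣ h q - (q.1 + q.2) := by
  have hx' : ∀ x y : ℤ, h (x + 1, y) - h (x, y) = 1 ∨ h (x + 1, y) - h (x, y) = -1 := by
    intro x y
    have := hx (x, y)
    simp only [Prod.mk_add_mk, add_zero] at this
    exact (abs_eq zero_le_one).1 this
  have hy' : ∀ x y : ℤ, h (x, y + 1) - h (x, y) = 1 ∨ h (x, y + 1) - h (x, y) = -1 := by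
    intro x y
    have := hy (x, y)
    simp only [Prod.mk_add_mk, add_zero] at this
    exact (abs_eq zero_le_one).1 this
  have hcol : ∀ y : ℤ, (2 : ℤ) ∣ h (0, y) - y := by
    intro y
    induction y using Int.induction_on with
    | zero => simpa using h0
    | succ i ih => have := hy' 0 i; omega
    | pred i ih =>
      have := hy' 0 (-i - 1)
      rw [sub_add_cancel] at this
      omega
  obtain ⟨x, y⟩ := q
  show (2 : ℤ) ∣ h (x, y) - (x + y)
  induction x using Int.induction_on with
  | zero => simpa using hcol y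
  | succ i ih => have := hx' i y; omega
  | pred i ih =>
    have := hx' (-i - 1) y
    rw [sub_add_cancel] at this
    omega

lemma goodH_hk {x : Ori (ℤ × ℤ) × Mk} (hx : GdJ x) (k : ℤ) : GoodH (hk k x) := by
  have hh := pth_isHeight hx.1
  have sx : ∀ q : Pt, |(hk k x).1 (q + (1, 0)) - (hk k x).1 q| = 1 := by
    rintro ⟨i, j⟩
    have := (hh (i + 1) j).2
    rw [add_sub_cancel_right] at this
    simp only [hk, Prod.mk_add_mk, add_zero]
    split_ifs at this <;> [skip; skip] <;> rw [abs_eq zero_le_one] <;> omega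
  have sy : ∀ q : Pt, |(hk k x).1 (q + (0, 1)) - (hk k x).1 q| = 1 := by
    rintro ⟨i, j⟩
    have := (hh i (j + 1)).1
    rw [add_sub_cancel_right] at this
    simp only [hk, Prod.mk_add_mk, add_zero]
    split_ifs at this <;> [skip; skip] <;> rw [abs_eq zero_le_one] <;> omega
  have h0 : (hk k x).1 (0, 0) = 2 * k := by
    have := pth_zero x.1
    have e : ((0 : ℤ), (0 : ℤ)) = 0 := rfl
    simp only [hk, e, this, zero_add]
  refine ⟨par_of_step (by rw [h0]; exact dvd_mul_right _ _) sx sy, sx, sy, fun w hw => ?_,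
    fun w hw => ?_⟩
  · have h1 : ev x.1 w = true := by
      rcases (hx.2 w).1 hw with h1 | h1
      · exact h1
      · rcases ev_or_od hx.1 w with h2 | h2
        · exact h2
        · rw [h1] at h2; exact absurd h2 (by simp)
    rw [ev_iff hh, decide_eq_true_iff] at h1
    simp only [hk, h1]
  · have h1 := (hx.2 w).2 hw
    rw [od_iff hh, decide_eq_true_iff] at h1
    simp only [hk, h1]

lemma J_apply {t : ℝ} {P : Measure (Ori (ℤ × ℤ))} {A : Set (Hgt × Mk)} (hA : MeasurableSet A) :
    J t P A = (2 : ENNReal)⁻¹ * JO t P (hk 0 ⁻¹' A) + (2 : ENNReal)⁻¹ * JO t P (hk 1 ⁻¹' A) := by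
  simp only [J, Measure.coe_add, Measure.coe_smul, Pi.add_apply, Pi.smul_apply, smul_eq_mul]
  rw [Measure.map_apply (measurable_hk 0) hA, Measure.map_apply (measurable_hk 1) hA]

lemma J_ae {t : ℝ} {P : Measure (Ori (ℤ × ℤ))} {p : Hgt × Mk → Prop} (hp : MeasurableSet {x | p x})
    (h : ∀ k, ∀ᵐ x ∂(JO t P), p (hk k x)) : ∀ᵐ x ∂(J t P), p x := by
  rw [ae_iff]
  have h1 : {x | ¬ p x} = {x | p x}ᶜ := rfl
  rw [h1, J_apply hp.compl]
  have h2 : ∀ k, JO t P (hk k ⁻¹' {x | p x}ᶜ) = 0 := fun k => ae_iff.1 (h k)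
  rw [h2, h2]
  simp

lemma measurableSet_GoodH : MeasurableSet {x : Hgt × Mk | GoodH x} := by
  have hc : ∀ q : Pt, Measurable fun x : Hgt × Mk => x.1 q := fun q =>
    (measurable_pi_apply q).comp measurable_fst
  have hb : ∀ w : Pt, Measurable fun x : Hgt × Mk => x.2 w := fun q =>
    (measurable_pi_apply q).comp measurable_snd
  have h0 : {x : Hgt × Mk | GoodH x} =
      (⋂ q : Pt, (fun x : Hgt × Mk => x.1 q) ⁻¹' {z | (2 : ℤ) ∣ z - (q.1 + q.2)}) ∩
      ((⋂ q : Pt, {x | x.1 (q + (1, 0)) - x.1 q ∈ ({1, -1} : Set ℤ)}) ∩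
      ((⋂ q : Pt, {x | x.1 (q + (0, 1)) - x.1 q ∈ ({1, -1} : Set ℤ)}) ∩
      ((⋂ w : Pt, ({x | x.2 w = false} ∪ {x | x.1 (e1 w) = x.1 (e2 w)})) ∩
      (⋂ w : Pt, ({x | x.2 w = true} ∪ {x | x.1 (o1 w) = x.1 (o2 w)}))))) := by
    ext x
    simp only [Set.mem_inter_iff, Set.mem_iInter, Set.mem_union, Set.mem_preimage,
      Set.mem_ofPred_eq, Set.mem_insert_iff, Set.mem_singleton_iff]
    constructor
    · rintro ⟨h1, h2, h3, h4, h5⟩
      refine ⟨h1, fun q => (abs_eq zero_le_one).1 (h2 q), fun q => (abs_eq zero_le_one).1 (h3 q),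
        fun w => ?_, fun w => ?_⟩
      · cases h6 : x.2 w
        · exact Or.inl rfl
        · exact Or.inr (h4 w h6)
      · cases h6 : x.2 w
        · exact Or.inr (h5 w h6)
        · exact Or.inl rfl
    · rintro ⟨h1, h2, h3, h4, h5⟩
      refine ⟨h1, fun q => (abs_eq zero_le_one).2 (h2 q), fun q => (abs_eq zero_le_one).2 (h3 q),
        fun w hw => ?_, fun w hw => ?_⟩
      · rcases h4 w with h6 | h6
        · rw [hw] at h6; exact absurd h6 (by simp)
        · exact h6
      · rcases h5 w with h6 | h6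
        · rw [hw] at h6; exact absurd h6 (by simp)
        · exact h6
  rw [h0]
  refine (MeasurableSet.iInter fun q => hc q (MeasurableSet.of_discrete)).inter
    ((MeasurableSet.iInter fun q => ((hc _).sub (hc _)) (MeasurableSet.of_discrete)).inter
    ((MeasurableSet.iInter fun q => ((hc _).sub (hc _)) (MeasurableSet.of_discrete)).inter
    ((MeasurableSet.iInter fun w => ?_).inter (MeasurableSet.iInter fun w => ?_))))
  · exact ((hb w) (measurableSet_singleton false)).union (measurableSet_eq_fun (hc _) (hc _))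
  · exact ((hb w) (measurableSet_singleton true)).union (measurableSet_eq_fun (hc _) (hc _))

/-- Almost surely the heights form a height function and the bonds fit. -/
theorem J_goodH {t : ℝ} {P : Measure (Ori (ℤ × ℤ))} [IsProbabilityMeasure P]
    (hice : ∀ᵐ a ∂P, ∀ x y, Ice a x y) : ∀ᵐ x ∂(J t P), GoodH x :=
  J_ae measurableSet_GoodH fun k => by
    filter_upwards [JO_good (t := t) hice] with x hx using goodH_hk hx k

/-! ### The flip law for the heights -/

lemma measurableSet_FlipQ (U : Finset Pt) (b : Pt) : MeasurableSet (FlipQ U b) := by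
  have hc : ∀ q : Pt, Measurable fun x : Hgt × Mk => x.1 q := fun q =>
    (measurable_pi_apply q).comp measurable_fst
  have hb : ∀ w : Pt, Measurable fun x : Hgt × Mk => x.2 w := fun q =>
    (measurable_pi_apply q).comp measurable_snd
  have h0 : FlipQ U b = ⋂ w : Pt, ⋂ _ : ((o1 w ∈ U ∧ o2 w ∉ U) ∨ (o2 w ∈ U ∧ o1 w ∉ U)),
      ({x : Hgt × Mk | x.2 w = true} ∩ ({x | x.1 (e1 w) = x.1 b} ∩ {x | x.1 (e2 w) = x.1 b})) := by
    ext x
    simp [FlipQ]
  rw [h0]
  exact MeasurableSet.iInter fun w => MeasurableSet.iInter fun _ =>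
    ((hb w) (measurableSet_singleton true)).inter
      ((measurableSet_eq_fun (hc _) (hc _)).inter (measurableSet_eq_fun (hc _) (hc _)))

lemma measurable_flipR (U : Finset Pt) (b : Pt) : Measurable (flipR U b) := by
  classical
  have hc : ∀ q : Pt, Measurable fun x : Hgt × Mk => x.1 q := fun q =>
    (measurable_pi_apply q).comp measurable_fst
  have h1 : ∀ q : Pt, Measurable fun x : Hgt × Mk =>
      (if nb U q then 2 * x.1 b - x.1 q else x.1 q) := by
    intro q
    by_cases h : nb U q
    · simp only [h, if_true]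
      exact ((hc b).const_mul 2).sub (hc q)
    · simp only [h, if_false]
      exact hc q
  unfold flipR refl0
  exact Measurable.prodMk (measurable_pi_lambda _ fun q => ((h1 q).sub (h1 0)).add (hc 0))
    measurable_snd

/-- All boundary bonds of `U` are open. -/
def QO (U : Finset Pt) (o : Mk) : Prop :=
  ∀ w, ((o1 w ∈ U ∧ o2 w ∉ U) ∨ (o2 w ∈ U ∧ o1 w ∉ U)) → o w = true

open Classical in
/-- `U` if its boundary bonds are open. -/
noncomputable def SU (U : Finset Pt) (o : Mk) : Set Pt := if QO U o then (U : Set Pt) else ∅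

lemma SU_sub (U : Finset Pt) (o : Mk) : SU U o ⊆ (U : Set Pt) := by
  unfold SU
  split_ifs
  · exact subset_rfl
  · exact Set.empty_subset _

lemma SU_loc (U : Finset Pt) (o o' : Mk) (h : ∀ w ∈ VD U, o w = o' w) : SU U o = SU U o' := by
  have key : ∀ o o' : Mk, (∀ w ∈ VD U, o w = o' w) → QO U o → QO U o' := by
    intro o o' h hq w hw
    rw [← h w]
    · exact hq w hw
    · rcases hw with hw | hw
      · exact mem_VD_o1 hw.1
      · exact mem_VD_o2 hw.1
  have h2 : QO U o ↔ QO U o' := ⟨key o o' h, key o' o fun w hw => (h w hw).symm⟩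
  unfold SU
  by_cases h3 : QO U o
  · rw [if_pos h3, if_pos (h2.1 h3)]
  · rw [if_neg h3, if_neg (fun h4 => h3 (h2.2 h4))]

lemma SU_cl (U : Finset Pt) (o : Mk) (w : Pt) (hw : o w = false) :
    o1 w ∈ SU U o ↔ o2 w ∈ SU U o := by
  unfold SU
  split_ifs with h
  · refine iff_of_not fun h1 => ?_
    have := h w (h1.imp (fun h => ⟨by simpa using h.1, by simpa using h.2⟩)
      (fun h => ⟨by simpa using h.1, by simpa using h.2⟩))
    rw [hw] at this
    exact absurd this (by simp)
  · simp

lemma flip_pt {U : Finset Pt} (hU : ∀ f ∈ U, Odd (f.1 + f.2)) (b : Pt)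
    {x : Ori (ℤ × ℤ) × Mk} (hx : ∀ i j, Ice x.1 i j) (k : ℤ) (hq : hk k x ∈ FlipQ U b) :
    hk k (flS (SU U) x) = flipR U b (hk k x) ∧ hk k (flS (SU U) x) ∈ FlipQ U b := by
  classical
  have hQ : QO U x.2 := fun w hw => (hq w hw).1
  have hS : SU U x.2 = (U : Set Pt) := by unfold SU; rw [if_pos hQ]
  have hh := pth_isHeight hx
  set h : Hgt := (hk k x).1 with hh0
  have hhk : IsHeight x.1 h := by
    intro i j
    have := hh i j
    simp only [hh0, hk]
    refine ⟨?_, ?_⟩
    · rw [← this.1]; ring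
    · rw [← this.2]; ring
  have hbd : ∀ w, ((o1 w ∈ U ∧ o2 w ∉ U) ∨ (o2 w ∈ U ∧ o1 w ∉ U)) →
      h (e1 w) = h b ∧ h (e2 w) = h b := fun w hw => (hq w hw).2
  set h' : Hgt := fun q => if nb U q then 2 * h b - h q else h q with hh'
  have hH : IsHeight (flA (U : Set Pt) x.1) h' :=
    isHeight_flip hhk hU hbd h' (fun q hn => by simp [hh', hn]) (fun q hn => by simp [hh', hn])
  have h0 : h 0 = 2 * k := by
    simp only [hh0, hk, pth_zero, zero_add]
  have e1' : hk k (flS (SU U) x) = flipR U b (hk k x) := by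
    have : (hk k (flS (SU U) x)).1 = fun q => h' q - h' 0 + h 0 := by
      funext q
      simp only [hk, flS, hS]
      rw [height_eq_pth hH, h0]
    exact Prod.ext this rfl
  refine ⟨e1', ?_⟩
  rw [e1']
  intro w hw
  have hb' : h' b = h b := by simp only [hh']; split_ifs <;> omega
  have key : ∀ q, h q = h b → h' q = h b := by
    intro q hq
    simp only [hh']; split_ifs <;> omega
  refine ⟨(hq w hw).1, ?_, ?_⟩
  · show h' (e1 w) - h' 0 + h 0 = h' b - h' 0 + h 0
    rw [hb', key _ (hbd w hw).1]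
  · show h' (e2 w) - h' 0 + h 0 = h' b - h' 0 + h 0
    rw [hb', key _ (hbd w hw).2]

/-- THE FLIP LAW: reflecting the heights inside `U` at the height of the boundary preserves the
joint law of the heights and the bonds. -/
theorem flip_law0 {c t : ℝ} (hc : 0 < c) (hct : c * t = 1) (ht1 : t ≤ 1)
    {P : Measure (Ori (ℤ × ℤ))} [IsProbabilityMeasure P]
    (hice : ∀ᵐ a ∂P, ∀ x y, Ice a x y) (hS : Swap c P) {U : Finset Pt}
    (hU : ∀ f ∈ U, Odd (f.1 + f.2))
    (b : Pt) : ((J t P).restrict (FlipQ U b)).map (flipR U b) = (J t P).restrict (FlipQ U b) := by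
  have hmf := measurable_flS (S := SU U) U (SU_loc U)
  have hmp := flS_mp hc hct ht1 hice hS U (SU U) (SU_sub U) (SU_loc U) (SU_cl U)
  have hg : ∀ᵐ x ∂(JO t P), GdJ x := JO_good hice
  have hg2 : ∀ᵐ x ∂(JO t P), GdJ (flS (SU U) x) := by
    have h1 : ∀ᵐ x ∂((JO t P).map (flS (SU U))), GdJ x := by rw [hmp]; exact hg
    exact ae_of_ae_map hmf.aemeasurable h1
  ext A hA
  rw [Measure.map_apply (measurable_flipR U b) hA,
    Measure.restrict_apply ((measurable_flipR U b) hA), Measure.restrict_apply hA,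
    J_apply (((measurable_flipR U b) hA).inter (measurableSet_FlipQ U b)),
    J_apply (hA.inter (measurableSet_FlipQ U b))]
  have key : ∀ k, JO t P (hk k ⁻¹' (flipR U b ⁻¹' A ∩ FlipQ U b)) =
      JO t P (hk k ⁻¹' (A ∩ FlipQ U b)) := by
    intro k
    have hC : MeasurableSet (hk k ⁻¹' (A ∩ FlipQ U b)) :=
      (measurable_hk k) (hA.inter (measurableSet_FlipQ U b))
    conv_rhs => rw [← hmp, Measure.map_apply hmf hC]
    refine measure_congr ?_
    filter_upwards [hg, hg2] with x hx hx2
    apply propext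
    show (hk k x ∈ flipR U b ⁻¹' A ∩ FlipQ U b) ↔ (hk k (flS (SU U) x) ∈ A ∩ FlipQ U b)
    constructor
    · rintro ⟨h1, h2⟩
      have h3 := flip_pt hU b hx.1 k h2
      refine ⟨?_, h3.2⟩
      rw [h3.1]; exact h1
    · rintro ⟨h1, h2⟩
      have h3 := flip_pt hU b hx2.1 k h2
      rw [flS_flS] at h3
      have h4 := flip_pt hU b hx.1 k h3.2
      refine ⟨?_, h3.2⟩
      show flipR U b (hk k x) ∈ A
      rw [← h4.1]; exact h1
  rw [key, key]

theorem flip_law {c t : ℝ} (hc : 0 < c) (hct : c * t = 1) (ht1 : t ≤ 1)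
    {P : Measure (Ori (ℤ × ℤ))} (hP : Pl c P) (hS : Swap c P) {U : Finset Pt}
    (hU : ∀ f ∈ U, Odd (f.1 + f.2)) (b : Pt) :
    ((J t P).restrict (FlipQ U b)).map (flipR U b) = (J t P).restrict (FlipQ U b) := by
  have := hP.prob
  exact flip_law0 hc hct ht1 hP.ice hS hU b

/-- The flip law from the ice rule and the swap property only. -/
theorem flipLaw_of_swap {c t : ℝ} (hc : 0 < c) (hct : c * t = 1) (ht1 : t ≤ 1)
    {P : Measure (Ori (ℤ × ℤ))} [IsProbabilityMeasure P] (hice : ∀ᵐ a ∂P, ∀ x y, Ice a x y)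
    (hS : Swap c P) : FlipLaw t P :=
  fun _ hU b _ => flip_law0 hc hct ht1 hice hS hU b

/-- The flip law, in the form of `FlipDef`. -/
theorem flipLaw_of_pl {c t : ℝ} (hc : 0 < c) (hct : c * t = 1) (ht1 : t ≤ 1)
    {P : Measure (Ori (ℤ × ℤ))} (hP : Pl c P) (hS : Swap c P) : FlipLaw t P :=
  fun _ hU b _ => flip_law hc hct ht1 hP hS hU b

end Vale.Agent.P145.FB
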