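import Vale.Agent.P145.FB.Space

/-!
# P145, block F-B: properties of the joint law of the heights and the bonds
-/

namespace Vale.Agent.P145.FB

open MeasureTheory Filter Topology Finset
open Vale.Agent.P152 Vale.Agent.P145.FA

theorem ae_J {t : ℝ} {P : Measure (Ori (ℤ × ℤ))} [IsProbabilityMeasure P]
    {p : Hgt × Mk → Prop} (hp : MeasurableSet {x | p x})
    (h : ∀ k : ℤ, (k = 0 ∨ k = 1) → ∀ᵐ y ∂(JO t P), p (hk k y)) : ∀ᵐ x ∂(J t P), p x := by
  have h1 : ∀ k : ℤ, (k = 0 ∨ k = 1) → ∀ᵐ x ∂((JO t P).map (hk k)), p x := fun k hk' => by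
    rw [ae_map_iff (measurable_hk k).aemeasurable hp]
    exact h k hk'
  rw [J, ae_add_measure_iff]
  exact ⟨Measure.ae_smul_measure (h1 0 (Or.inl rfl)) _, Measure.ae_smul_measure (h1 1 (Or.inr rfl)) _⟩

theorem JO_fst (t : ℝ) (P : Measure (Ori (ℤ × ℤ))) [IsProbabilityMeasure P] :
    (JO t P).map Prod.fst = P := by
  rw [JO, Measure.map_map measurable_fst measurable_oma]
  have : (Prod.fst ∘ fun x : Ori (ℤ × ℤ) × Mk => (x.1, oma x.1 x.2)) = Prod.fst := rfl
  rw [this]
  exact Measure.map_fst_prod.trans (by simp)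

/-- The law of a quantity which does not depend on the additive constant and on the bonds. -/
theorem J_map {t : ℝ} {P : Measure (Ori (ℤ × ℤ))} [IsProbabilityMeasure P] {α : Type*}
    [MeasurableSpace α] {G : Hgt × Mk → α} (hG : Measurable G) {F : Ori (ℤ × ℤ) → α}
    (hF : Measurable F) (h : ∀ k y, G (hk k y) = F y.1) : (J t P).map G = P.map F := by
  have h1 : ∀ k, ((JO t P).map (hk k)).map G = P.map F := by
    intro k
    rw [Measure.map_map hG (measurable_hk k)]
    have : G ∘ hk k = F ∘ Prod.fst := by funext y; exact h k y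
    rw [this, ← Measure.map_map hF measurable_fst, JO_fst]
  rw [J, Measure.map_add _ _ hG, Measure.map_smul, Measure.map_smul, h1, h1, ← add_smul,
    ENNReal.inv_two_add_inv_two, one_smul]

theorem J_integral {t : ℝ} {P : Measure (Ori (ℤ × ℤ))} [IsProbabilityMeasure P]
    {G : Hgt × Mk → ℝ} (hG : Measurable G) {F : Ori (ℤ × ℤ) → ℝ} (hF : Measurable F)
    (h : ∀ k y, G (hk k y) = F y.1) : ∫ x, G x ∂(J t P) = ∫ ω, F ω ∂P := by
  have h1 : ∫ x, G x ∂(J t P) = ∫ y, y ∂((J t P).map G) :=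
    (integral_map hG.aemeasurable (f := fun y : ℝ => y) measurable_id.aestronglyMeasurable).symm
  have h2 : ∫ ω, F ω ∂P = ∫ y, y ∂(P.map F) :=
    (integral_map hF.aemeasurable (f := fun y : ℝ => y) measurable_id.aestronglyMeasurable).symm
  rw [h1, h2, J_map hG hF h]

theorem J_real {t : ℝ} {P : Measure (Ori (ℤ × ℤ))} [IsProbabilityMeasure P]
    {G : Hgt × Mk → ℝ} (hG : Measurable G) {F : Ori (ℤ × ℤ) → ℝ} (hF : Measurable F)
    (h : ∀ k y, G (hk k y) = F y.1) {s : Set ℝ} (hs : MeasurableSet s) :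
    (J t P).real {x | G x ∈ s} = P.real {ω | F ω ∈ s} := by
  have h1 : (J t P) (G ⁻¹' s) = P (F ⁻¹' s) := by
    rw [← Measure.map_apply hG hs, ← Measure.map_apply hF hs, J_map hG hF h]
  exact congrArg ENNReal.toReal h1

theorem abs_sgb (b : Bool) : |sgb b| = 1 := by cases b <;> simp [sgb]

theorem abs_anti_sgb (f : ℤ → Bool) (n : ℤ) : |anti (fun i => sgb (f i)) n| ≤ |n| := by
  induction n using Int.induction_on with
  | zero => rw [anti_zero]
  | succ i ih =>
    have h1 := anti_step (fun i => sgb (f i)) ((i : ℤ) + 1)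
    rw [add_sub_cancel_right] at h1
    have h2 : anti (fun i => sgb (f i)) ((i : ℤ) + 1) =
        anti (fun i => sgb (f i)) (i : ℤ) + sgb (f ((i : ℤ) + 1)) := by linarith
    rw [h2]
    refine (abs_add_le _ _).trans ?_
    rw [abs_sgb, abs_of_nonneg (by omega : (0 : ℤ) ≤ (i : ℤ) + 1)]
    rw [abs_of_nonneg (by omega : (0 : ℤ) ≤ (i : ℤ))] at ih
    linarith
  | pred i ih =>
    have h1 := anti_step (fun i => sgb (f i)) (-(i : ℤ))
    have h2 : anti (fun i => sgb (f i)) (-(i : ℤ) - 1) =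
        anti (fun i => sgb (f i)) (-(i : ℤ)) - sgb (f (-(i : ℤ))) := by linarith
    rw [h2]
    refine (abs_sub _ _).trans ?_
    rw [abs_sgb, abs_of_nonpos (by omega : -(i : ℤ) - 1 ≤ 0)]
    rw [abs_of_nonpos (by omega : -(i : ℤ) ≤ 0)] at ih
    linarith

theorem abs_pth_le (ω : Ori (ℤ × ℤ)) (q : ℤ × ℤ) : |pth ω q| ≤ |q.1| + |q.2| := by
  unfold pth
  refine (abs_sub _ _).trans ?_
  have h1 := abs_anti_sgb (fun j => ω (Sum.inl (0, j))) q.2
  have h2 := abs_anti_sgb (fun i => ω (Sum.inr (i, q.2))) q.1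
  linarith

theorem measurable_hap (q : ℤ × ℤ) : Measurable fun x : Hgt × Mk => x.1 q :=
  (measurable_pi_apply q).comp measurable_fst

theorem bdd_J (t : ℝ) (P : Measure (Ori (ℤ × ℤ))) [IsProbabilityMeasure P] :
    ∀ᵐ x ∂(J t P), ∀ q : ℤ × ℤ, |x.1 q| ≤ |q.1| + |q.2| + 2 := by
  refine ae_J ?_ ?_
  · rw [Set.ofPred_forall]
    refine MeasurableSet.iInter fun q => ?_
    exact (measurable_hap q) (MeasurableSet.of_discrete (s := {n : ℤ | |n| ≤ |q.1| + |q.2| + 2}))
  · intro k hk'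
    refine Filter.Eventually.of_forall fun y q => ?_
    have h1 := abs_pth_le y.1 q
    have h2 : (hk k y).1 q = pth y.1 q + 2 * k := rfl
    rw [h2]
    refine (abs_add_le _ _).trans ?_
    rcases hk' with rfl | rfl
    · simp; linarith
    · simp; linarith

theorem measurable_ev (r : (ℤ × ℤ) →₀ ℝ) : Measurable fun x : Hgt × Mk => FA.ev r x.1 := by
  unfold FA.ev Finsupp.sum
  refine Finset.measurable_sum _ fun q _ => ?_
  exact measurable_const.mul ((measurable_of_countable (fun n : ℤ => (n : ℝ))).comp (measurable_hap q))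

theorem measurable_ev' (r : (ℤ × ℤ) →₀ ℝ) :
    Measurable fun ω : Ori (ℤ × ℤ) => FA.ev r (pth ω) := by
  unfold FA.ev Finsupp.sum
  refine Finset.measurable_sum _ fun q _ => ?_
  exact measurable_const.mul
    ((measurable_of_countable (fun n : ℤ => (n : ℝ))).comp (measurable_pth_apply q))

theorem ev_hk (r : (ℤ × ℤ) →₀ ℝ) (hr : (r.sum fun _ a => a) = 1) (k : ℤ)
    (y : Ori (ℤ × ℤ) × Mk) : FA.ev r (hk k y).1 = FA.ev r (pth y.1) + 2 * k := by
  unfold FA.ev Finsupp.sum at *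
  have h1 : ∀ q, r q * (((hk k y).1 q : ℤ) : ℝ) = r q * (pth y.1 q : ℝ) + r q * (2 * k) := by
    intro q
    have : (hk k y).1 q = pth y.1 q + 2 * k := rfl
    rw [this]; push_cast; ring
  simp only [h1]
  rw [Finset.sum_add_distrib, ← Finset.sum_mul, hr, one_mul]

end Vale.Agent.P145.FB
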