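import Vale.Agent.P145.FB.ArmCut
import Vale.Agent.P145.FB.JLaw
import Vale.Agent.P145.FB.Flip2

/-!
# P145, block F-B: clusters of `SP x` and the flip
-/

namespace Vale.Agent.P145.FB

open MeasureTheory Relation
open Vale.Agent.P152 Vale.Agent.P145.FA

/-- Almost sure properties of the configurations. -/
structure GoodX (x : Hgt × Mk) : Prop where
  par : ∀ q : Pt, Even (q.1 + q.2) → Even (x.1 q)
  op : ∀ w : Pt, x.2 w = true → x.1 (e1 w) = x.1 (e2 w)

/-- The face whose height is the height of the fine point. -/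
def bf (p : Pt) : Pt := if Even (p.1 + p.2) then fc p else e1 (vx p)

theorem e1_even (w : Pt) : Even ((e1 w).1 + (e1 w).2) := by
  unfold e1
  split_ifs with h
  · exact h
  · rw [Int.not_even_iff_odd] at h
    obtain ⟨k, hk⟩ := h
    exact ⟨k, by dsimp only; omega⟩

theorem fc_even {p : Pt} (h1 : Even p.1) (h2 : Even p.2) : Even ((fc p).1 + (fc p).2) := by
  obtain ⟨a, ha⟩ := h1
  obtain ⟨b, hb⟩ := h2
  exact ⟨p.1 / 2, by unfold fc; dsimp only; omega⟩

theorem nn_bf {u v : Pt} (h : NN u v) (h1 : Even u.1) (h2 : Even u.2) :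
    fc u = e1 (vx v) ∨ fc u = e2 (vx v) := by
  obtain ⟨a, ha⟩ := h1
  obtain ⟨b, hb⟩ := h2
  unfold NN at h
  unfold e1 e2 vx fc
  simp only [Prod.ext_iff, Int.even_iff]
  split_ifs with h3 <;> dsimp only at h3 ⊢ <;> omega

theorem SP_even {x : Hgt × Mk} {p : Pt} (h : p ∈ SP x) (hp : Even (p.1 + p.2)) :
    Even p.1 ∧ Even p.2 ∧ x.1 (fc p) % 4 = 0 := by
  rcases h with h | ⟨h, -⟩
  · exact h
  · exact absurd hp (Int.not_even_iff_odd.2 h)

theorem SP_odd {x : Hgt × Mk} {p : Pt} (h : p ∈ SP x) (hp : Odd (p.1 + p.2)) :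
    x.2 (vx p) = true ∧ x.1 (e1 (vx p)) % 4 = 0 := by
  rcases h with ⟨h1, h2, -⟩ | ⟨-, h⟩
  · exact absurd (h1.add h2) (Int.not_even_iff_odd.2 hp)
  · exact h

theorem bf_even {x : Hgt × Mk} {p : Pt} (h : p ∈ SP x) : Even ((bf p).1 + (bf p).2) := by
  unfold bf
  split_ifs with hp
  · have := SP_even h hp
    exact fc_even this.1 this.2.1
  · exact e1_even _

/-- The height is constant on the clusters. -/
theorem bf_step {x : Hgt × Mk} (hx : GoodX x) {u v : Pt} (h : NN u v) (hu : u ∈ SP x)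
    (hv : v ∈ SP x) : x.1 (bf u) = x.1 (bf v) := by
  by_cases hp : Even (u.1 + u.2)
  · have hq : ¬ Even (v.1 + v.2) := by
      rw [Int.not_even_iff_odd]
      obtain ⟨k, hk⟩ := hp
      unfold NN at h
      rw [Int.odd_iff]
      omega
    have h1 := SP_even hu hp
    have h2 := SP_odd hv (Int.not_even_iff_odd.1 hq)
    have h3 := hx.op _ h2.1
    unfold bf
    rw [if_pos hp, if_neg hq]
    rcases nn_bf h h1.1 h1.2.1 with h4 | h4
    · rw [h4]
    · rw [h4, h3]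
  · have hq : Even (v.1 + v.2) := by
      rw [Int.not_even_iff_odd] at hp
      obtain ⟨k, hk⟩ := hp
      unfold NN at h
      rw [Int.even_iff]
      omega
    have h1 := SP_even hv hq
    have h2 := SP_odd hu (Int.not_even_iff_odd.1 hp)
    have h3 := hx.op _ h2.1
    unfold bf
    rw [if_neg hp, if_pos hq]
    rcases nn_bf h.symm h1.1 h1.2.1 with h4 | h4
    · rw [h4]
    · rw [h4, h3]

theorem bf_clu {x : Hgt × Mk} (hx : GoodX x) {T : Set Pt} (hT : T ⊆ SP x) {u v : Pt}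
    (h : NC T u v) : x.1 (bf v) = x.1 (bf u) :=
  NC.ind (fun z => x.1 (bf z) = x.1 (bf u)) rfl
    (fun a b ha hab hb ih => by
      rw [← ih]; exact (bf_step hx hab (hT ha.right_mem) (hT hb)).symm) h

/-- The flip event holds for the region enclosed by a cluster. -/
theorem flipQ_mem {x : Hgt × Mk} (hx : GoodX x) {T : Set Pt} (hT : T ⊆ SP x) {o : Pt}
    (p q t : ℤ) : x ∈ FlipQ (Uf (clu T o) p q t) (bf o) := by
  intro w hw
  have h1 : NC T o (ep w) := Uf_bd hw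
  have h2 : ep w ∈ SP x := hT h1.right_mem
  have h3 := SP_odd h2 (ep_odd w)
  have h4 := bf_clu hx hT h1
  have h5 : bf (ep w) = e1 w := by
    unfold bf
    rw [if_neg (Int.not_even_iff_odd.2 (ep_odd w)), vx_ep]
  rw [vx_ep] at h3
  rw [h5] at h4
  exact ⟨h3.1, h4, by rw [← hx.op w h3.1, h4]⟩

/-! ### The flip -/

theorem refl0_base (U : Finset Pt) (b : Pt) (h : Hgt) : refl0 U b h b = h b := by
  unfold refl0
  split_ifs
  · ring
  · rfl

theorem refl0_mod {U : Finset Pt} {b : Pt} {h : Hgt} (hb : Even (h b)) {q : Pt}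
    (hq : Even (h q)) : (refl0 U b h q - h q) % 4 = 0 := by
  obtain ⟨k, hk⟩ := hb
  obtain ⟨l, hl⟩ := hq
  unfold refl0
  split_ifs <;> omega

theorem flipR_mod {x : Hgt × Mk} (hx : GoodX x) {U : Finset Pt} {b : Pt} (hb : Even (b.1 + b.2))
    {q : Pt} (hq : Even (q.1 + q.2)) : (flipR U b x).1 q % 4 = 0 ↔ x.1 q % 4 = 0 := by
  have h1 := refl0_mod (U := U) (hx.par b hb) (hx.par q hq)
  have h2 := refl0_mod (U := U) (hx.par b hb) (hx.par 0 (by simp))
  have h3 : (flipR U b x).1 q = refl0 U b x.1 q - refl0 U b x.1 0 + x.1 0 := rfl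
  rw [h3]
  omega

theorem SP_flip {x : Hgt × Mk} (hx : GoodX x) {U : Finset Pt} {b : Pt} (hb : Even (b.1 + b.2)) :
    SP (flipR U b x) = SP x := by
  ext p
  unfold SP
  simp only [Set.mem_ofPred_eq]
  have h1 : (flipR U b x).2 = x.2 := rfl
  rw [h1, flipR_mod hx hb (e1_even (vx p))]
  constructor
  · rintro (⟨h2, h3, h4⟩ | h2)
    · exact Or.inl ⟨h2, h3, (flipR_mod hx hb (fc_even h2 h3)).1 h4⟩
    · exact Or.inr h2
  · rintro (⟨h2, h3, h4⟩ | h2)
    · exact Or.inl ⟨h2, h3, (flipR_mod hx hb (fc_even h2 h3)).2 h4⟩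
    · exact Or.inr h2

theorem ev_flip_in {U : Finset Pt} {b : Pt} (x : Hgt × Mk) {r : (ℤ × ℤ) →₀ ℝ}
    (hr : (r.sum fun _ a => a) = 1) (h : ∀ q ∈ r.support, nb U q) :
    FA.ev r (flipR U b x).1 - ((flipR U b x).1 b : ℝ) = -(FA.ev r x.1 - (x.1 b : ℝ)) := by
  have h1 : FA.ev r (flipR U b x).1 = ∑ q ∈ r.support,
      (r q * (2 * (x.1 b : ℝ) - refl0 U b x.1 0 + x.1 0) - r q * (x.1 q : ℝ)) := by
    unfold FA.ev Finsupp.sum
    refine Finset.sum_congr rfl fun q hq => ?_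
    have h2 : (flipR U b x).1 q = 2 * x.1 b - x.1 q - refl0 U b x.1 0 + x.1 0 := by
      show refl0 U b x.1 q - refl0 U b x.1 0 + x.1 0 = _
      have : refl0 U b x.1 q = 2 * x.1 b - x.1 q := by unfold refl0; rw [if_pos (h q hq)]
      rw [this]
    beta_reduce
    rw [h2]; push_cast; ring
  have h3 : (flipR U b x).1 b = x.1 b - refl0 U b x.1 0 + x.1 0 := by
    show refl0 U b x.1 b - refl0 U b x.1 0 + x.1 0 = _
    rw [refl0_base]
  have h4 : ∑ q ∈ r.support, r q = 1 := hr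
  rw [h1, h3, Finset.sum_sub_distrib, ← Finset.sum_mul, h4]
  unfold FA.ev Finsupp.sum
  push_cast; ring

theorem ev_flip_out {U : Finset Pt} {b : Pt} (x : Hgt × Mk) {r : (ℤ × ℤ) →₀ ℝ}
    (hr : (r.sum fun _ a => a) = 1) (h : ∀ q ∈ r.support, ¬ nb U q) :
    FA.ev r (flipR U b x).1 - ((flipR U b x).1 b : ℝ) = FA.ev r x.1 - (x.1 b : ℝ) := by
  have h1 : FA.ev r (flipR U b x).1 = ∑ q ∈ r.support,
      (r q * (x.1 q : ℝ) + r q * (- (refl0 U b x.1 0 : ℝ) + x.1 0)) := by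
    unfold FA.ev Finsupp.sum
    refine Finset.sum_congr rfl fun q hq => ?_
    have h2 : (flipR U b x).1 q = x.1 q - refl0 U b x.1 0 + x.1 0 := by
      show refl0 U b x.1 q - refl0 U b x.1 0 + x.1 0 = _
      have : refl0 U b x.1 q = x.1 q := by unfold refl0; rw [if_neg (h q hq)]
      rw [this]
    beta_reduce
    rw [h2]; push_cast; ring
  have h3 : (flipR U b x).1 b = x.1 b - refl0 U b x.1 0 + x.1 0 := by
    show refl0 U b x.1 b - refl0 U b x.1 0 + x.1 0 = _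
    rw [refl0_base]
  have h4 : ∑ q ∈ r.support, r q = 1 := hr
  rw [h1, h3, Finset.sum_add_distrib, ← Finset.sum_mul, h4]
  unfold FA.ev Finsupp.sum
  push_cast; ring

theorem measurableSet_SP (p : Pt) : MeasurableSet {x : Hgt × Mk | p ∈ SP x} := by
  have h1 : Measurable fun x : Hgt × Mk => (x.1 (fc p), x.1 (e1 (vx p)), x.2 (vx p)) :=
    (measurable_hap _).prodMk ((measurable_hap _).prodMk
      ((measurable_pi_apply _).comp measurable_snd))
  have h2 : {x : Hgt × Mk | p ∈ SP x} =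
      (fun x : Hgt × Mk => (x.1 (fc p), x.1 (e1 (vx p)), x.2 (vx p))) ⁻¹'
      {y : ℤ × ℤ × Bool | (Even p.1 ∧ Even p.2 ∧ y.1 % 4 = 0) ∨
        (Odd (p.1 + p.2) ∧ y.2.2 = true ∧ y.2.1 % 4 = 0)} := rfl
  rw [h2]
  exact h1 (Set.to_countable _).measurableSet

/-- Restriction of a measure preserving map to an invariant event. -/
theorem restr_map {Ω : Type*} [MeasurableSpace Ω] (μ : Measure Ω) {Q A : Set Ω} {Φ : Ω → Ω}
    (hΦ : Measurable Φ) (hA : MeasurableSet A)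
    (h : (μ.restrict Q).map Φ = μ.restrict Q) (hAQ : ∀ᵐ x ∂μ, x ∈ A → x ∈ Q)
    (hinv : ∀ᵐ x ∂μ, (Φ x ∈ A ↔ x ∈ A)) : (μ.restrict A).map Φ = μ.restrict A := by
  ext S hS
  rw [Measure.map_apply hΦ hS, Measure.restrict_apply (hΦ hS), Measure.restrict_apply hS]
  have h1 : (μ.restrict Q).map Φ (S ∩ A) = μ.restrict Q (S ∩ A) := by rw [h]
  rw [Measure.map_apply hΦ (hS.inter hA), Measure.restrict_apply (hΦ (hS.inter hA)),
    Measure.restrict_apply (hS.inter hA)] at h1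
  have h2 : μ (Φ ⁻¹' S ∩ A) = μ (Φ ⁻¹' (S ∩ A) ∩ Q) := by
    refine measure_congr ?_
    filter_upwards [hAQ, hinv] with x h3 h4
    refine propext ⟨fun h5 => ⟨⟨h5.1, h4.2 h5.2⟩, h3 h5.2⟩, fun h5 => ⟨h5.1.1, h4.1 h5.1.2⟩⟩
  have h3 : μ (S ∩ A ∩ Q) = μ (S ∩ A) := by
    refine measure_congr ?_
    filter_upwards [hAQ] with x h3
    exact propext ⟨fun h5 => h5.1, fun h5 => ⟨h5, h3 h5.2⟩⟩
  rw [h2, h1, h3]

end Vale.Agent.P145.FB
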