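import Vale.Agent.P152.GFF.E2.AtDefs

/-!
P145, block F-B, (A): interface between the box with free arrows (AsBox) and the plane (AsPl).

`p, r : FB M R → ZMod 2` are the heights modulo `4` of the even and of the odd faces (`0` is the
spin plus), `o` are the bonds (`true` is open).
-/

set_option autoImplicit false

namespace Vale.Agent.P145.FB

open Finset
open Vale.Agent.P152.GFF.E2 (DG FB boxD)

/-- Joint weight of the differences `a` (even faces), `b` (odd faces) and of the bond `o` at a
vertex: the six-vertex weight, split according to the state of the bond. -/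
noncomputable def Ub (c : ℝ) (a b : ZMod 2) (o : Bool) : ℝ :=
  if o = true then (if a = 0 then 1 else 0)
  else if b = 0 then (if a = 0 then c - 1 else 1) else 0

/-- Sums over the box `M × R` with free arrows; the spins are `τ q = decide (p q = 0)`. -/
noncomputable def Bx (c : ℝ) (M R : ℕ) (par : ZMod 2)
    (Φ : (FB M R → Bool) → (Fin M × Fin R → Bool) → ℝ) : ℝ :=
  ∑ p : FB M R → ZMod 2, ∑ r : FB M R → ZMod 2, ∑ o : Fin M × Fin R → Bool,
    (∏ v, Ub c ((boxD M R par).al p v) ((boxD M R par).be r v) (o v)) *
      Φ (fun q => decide (p q = 0)) o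

/-- `f` is increasing in the spins and in the open bonds with spin plus, decreasing in the open
bonds with spin minus. -/
def Mono3 {V F : Type} (D : DG V F) (f : (F → Bool) → (V → Bool) → ℝ) : Prop :=
  ∀ (τ τ' : F → Bool) (o o' : V → Bool), (∀ q, τ q = true → τ' q = true) →
    (∀ v q, D.x v false = some q → τ q = true → o v = true → o' v = true) →
    (∀ v q, D.x v false = some q → τ' q = false → o' v = true → o v = true) → f τ o ≤ f τ' o'

/-- Target of AsBox: association in the box with free arrows. -/
def BoxAssoc (c : ℝ) : Prop :=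
  ∀ (M R : ℕ) (par : ZMod 2) (f g : (FB M R → Bool) → (Fin M × Fin R → Bool) → ℝ),
    (∀ τ o, 0 ≤ f τ o) → (∀ τ o, 0 ≤ g τ o) → Mono3 (boxD M R par) f → Mono3 (boxD M R par) g →
    Bx c M R par f * Bx c M R par g ≤
      Bx c M R par (fun _ _ => 1) * Bx c M R par (fun τ o => f τ o * g τ o)

end Vale.Agent.P145.FB
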