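import Vale.Agent.P145.FB.AsFin

/-!
P145, block F-B, (A): positive association of the triple (spins, open bonds with positive spins,
closed bonds with negative spins), abstract finite graph theorem.
-/

namespace Vale.Agent.P145.FB

open Finset

set_option linter.unusedSectionVars false

section AsFin3

variable {X B : Type*} [Fintype X] [DecidableEq X] [Fintype B] [DecidableEq B]
  (bd : X → Prop) [DecidablePred bd] (p q : B → X)

/-- Product FK sum over the open sets in `A` and in `A'`. -/
noncomputable def GT (c : ℝ) (A A' : Finset B) (h : Finset B → Finset B → ℝ) : ℝ :=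
  ∑ z : Finset B × (Finset B)ᵒᵈ, gw bd p q c A z.1 * gw bd p q c A' (OrderDual.ofDual z.2) *
    h z.1 (OrderDual.ofDual z.2)

variable {bd p q}

/-- Functions increasing in the first and decreasing in the second set. -/
def Up2 (h : Finset B → Finset B → ℝ) : Prop := ∀ a a' b b', a ⊆ a' → b' ⊆ b → h a b ≤ h a' b'

/-- Functions increasing in the spins and in the first set and decreasing in the second set. -/
def Up3 (f : (X → Bool) → Finset B → Finset B → ℝ) : Prop :=
  ∀ s t a a' b b', s ≤ t → a ⊆ a' → b' ⊆ b → f s a b ≤ f t a' b'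

lemma GT_one (c : ℝ) (A A' : Finset B) : GT bd p q c A A' (fun _ _ => 1) =
    GS bd p q c A (fun _ => 1) * GS bd p q c A' (fun _ => 1) := by
  unfold GT GS
  rw [Fintype.sum_prod_type, Finset.sum_mul_sum]
  refine Finset.sum_congr rfl (fun a _ => ?_)
  rw [← OrderDual.toDual.sum_comp]
  refine Finset.sum_congr rfl (fun b _ => ?_)
  simp

lemma GT_pos {c : ℝ} (hc : 1 ≤ c) (A A' : Finset B) : 0 < GT bd p q c A A' (fun _ _ => 1) := by
  rw [GT_one]
  exact mul_pos (GS_pos hc _) (GS_pos hc _)

lemma gw_super2 {c : ℝ} (hc : 1 ≤ c) {A A' D D' : Finset B} (h : A ⊆ D) (h' : D' ⊆ A')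
    (x y : Finset B × (Finset B)ᵒᵈ) :
    gw bd p q c A x.1 * gw bd p q c A' (OrderDual.ofDual x.2) *
      (gw bd p q c D y.1 * gw bd p q c D' (OrderDual.ofDual y.2)) ≤
    gw bd p q c A (x ⊓ y).1 * gw bd p q c A' (OrderDual.ofDual (x ⊓ y).2) *
      (gw bd p q c D (x ⊔ y).1 * gw bd p q c D' (OrderDual.ofDual (x ⊔ y).2)) := by
  obtain ⟨a, b⟩ := x
  obtain ⟨a', b'⟩ := y
  have e1 : ((a, b) ⊓ (a', b') : Finset B × (Finset B)ᵒᵈ).1 = a ∩ a' := rfl
  have e2 : ((a, b) ⊔ (a', b') : Finset B × (Finset B)ᵒᵈ).1 = a ∪ a' := rfl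
  have e3 : OrderDual.ofDual ((a, b) ⊓ (a', b') : Finset B × (Finset B)ᵒᵈ).2 =
      OrderDual.ofDual b ∪ OrderDual.ofDual b' := rfl
  have e4 : OrderDual.ofDual ((a, b) ⊔ (a', b') : Finset B × (Finset B)ᵒᵈ).2 =
      OrderDual.ofDual b ∩ OrderDual.ofDual b' := rfl
  rw [e1, e2, e3, e4]
  have h1 := gw_super (bd := bd) (p := p) (q := q) hc A D a a'
  rw [inter_eq_left.mpr h, union_eq_right.mpr h] at h1
  have h2 := gw_super (bd := bd) (p := p) (q := q) hc A' D' (OrderDual.ofDual b)
    (OrderDual.ofDual b')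
  rw [inter_eq_right.mpr h', union_eq_left.mpr h'] at h2
  have n1 := gw_nonneg (bd := bd) (p := p) (q := q) hc
  calc _ = (gw bd p q c A a * gw bd p q c D a') *
        (gw bd p q c A' (OrderDual.ofDual b) * gw bd p q c D' (OrderDual.ofDual b')) := by ring
    _ ≤ _ := mul_le_mul h1 h2 (mul_nonneg (n1 _ _) (n1 _ _)) (mul_nonneg (n1 _ _) (n1 _ _))
    _ = _ := by ring

lemma GT_holley {c : ℝ} (hc : 1 ≤ c) {A A' D D' : Finset B} (h : A ⊆ D) (h' : D' ⊆ A')
    {f g : Finset B → Finset B → ℝ} (hf0 : ∀ a b, 0 ≤ f a b) (hf : Up2 f)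
    (hfg : ∀ a b, f a b ≤ g a b) :
    GT bd p q c A A' f * GT bd p q c D D' (fun _ _ => 1) ≤
      GT bd p q c A A' (fun _ _ => 1) * GT bd p q c D D' g := by
  have n1 := gw_nonneg (bd := bd) (p := p) (q := q) hc
  have hg0 : ∀ a b, 0 ≤ g a b := fun a b => (hf0 a b).trans (hfg a b)
  unfold GT
  simp only [mul_one]
  refine four_functions_theorem_univ _ _ _ _
    (fun z => mul_nonneg (mul_nonneg (n1 _ _) (n1 _ _)) (hf0 _ _))
    (fun z => mul_nonneg (n1 _ _) (n1 _ _)) (fun z => mul_nonneg (n1 _ _) (n1 _ _))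
    (fun z => mul_nonneg (mul_nonneg (n1 _ _) (n1 _ _)) (hg0 _ _)) (fun x y => ?_)
  have h1 := gw_super2 (bd := bd) (p := p) (q := q) hc h h' x y
  have h2 : f x.1 (OrderDual.ofDual x.2) ≤ g (x ⊔ y).1 (OrderDual.ofDual (x ⊔ y).2) := by
    refine (hf _ (x ⊔ y).1 _ (OrderDual.ofDual (x ⊔ y).2) ?_ ?_).trans (hfg _ _)
    · exact le_sup_left (a := x.1) (b := y.1)
    · exact inf_le_left (a := OrderDual.ofDual x.2) (b := OrderDual.ofDual y.2)
  calc _ = (gw bd p q c A x.1 * gw bd p q c A' (OrderDual.ofDual x.2) *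
      (gw bd p q c D y.1 * gw bd p q c D' (OrderDual.ofDual y.2))) *
        f x.1 (OrderDual.ofDual x.2) := by ring
    _ ≤ (gw bd p q c A (x ⊓ y).1 * gw bd p q c A' (OrderDual.ofDual (x ⊓ y).2) *
      (gw bd p q c D (x ⊔ y).1 * gw bd p q c D' (OrderDual.ofDual (x ⊔ y).2))) *
        g (x ⊔ y).1 (OrderDual.ofDual (x ⊔ y).2) :=
      mul_le_mul h1 h2 (hf0 _ _) (mul_nonneg (mul_nonneg (n1 _ _) (n1 _ _))
        (mul_nonneg (n1 _ _) (n1 _ _)))
    _ = _ := by ring

lemma GT_fkg {c : ℝ} (hc : 1 ≤ c) (A A' : Finset B) {f g : Finset B → Finset B → ℝ}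
    (hf0 : ∀ a b, 0 ≤ f a b) (hg0 : ∀ a b, 0 ≤ g a b) (hf : Up2 f) (hg : Up2 g) :
    GT bd p q c A A' f * GT bd p q c A A' g ≤
      GT bd p q c A A' (fun _ _ => 1) * GT bd p q c A A' (fun a b => f a b * g a b) := by
  have n1 := gw_nonneg (bd := bd) (p := p) (q := q) hc
  have hm : ∀ h : Finset B → Finset B → ℝ, Up2 h →
      Monotone (fun z : Finset B × (Finset B)ᵒᵈ => h z.1 (OrderDual.ofDual z.2)) :=
    fun h hh x y hxy => hh _ _ _ _ hxy.1 hxy.2
  have h := fkg (fun z : Finset B × (Finset B)ᵒᵈ => f z.1 (OrderDual.ofDual z.2))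
    (fun z : Finset B × (Finset B)ᵒᵈ => g z.1 (OrderDual.ofDual z.2))
    (fun z : Finset B × (Finset B)ᵒᵈ => gw bd p q c A z.1 *
      gw bd p q c A' (OrderDual.ofDual z.2))
    (fun z => mul_nonneg (n1 _ _) (n1 _ _)) (fun z => hf0 _ _) (fun z => hg0 _ _)
    (hm f hf) (hm g hg)
    (fun x y => gw_super2 (bd := bd) (p := p) (q := q) hc (Subset.refl A) (Subset.refl A') x y)
  unfold GT
  simpa only [mul_one] using h

lemma GT_eq (c : ℝ) (A A' : Finset B) (h : Finset B → Finset B → ℝ) :
    GT bd p q c A A' h = ∑ z ∈ A.powerset ×ˢ A'.powerset,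
      gw bd p q c A z.1 * gw bd p q c A' z.2 * h z.1 z.2 := by
  unfold GT
  rw [Fintype.sum_prod_type, Finset.sum_product]
  have h1 : ∀ a : Finset B, ∑ y : (Finset B)ᵒᵈ, gw bd p q c A a *
      gw bd p q c A' (OrderDual.ofDual y) * h a (OrderDual.ofDual y) =
      ∑ b ∈ A'.powerset, gw bd p q c A a * gw bd p q c A' b * h a b := by
    intro a
    rw [← OrderDual.toDual.sum_comp]
    simp only [OrderDual.ofDual_toDual]
    symm
    apply Finset.sum_subset (subset_univ _)
    intro b _ hb
    rw [mem_powerset] at hb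
    have : gw bd p q c A' b = 0 := by
      unfold gw
      rw [if_neg hb]
    rw [this, mul_zero, zero_mul]
  rw [Finset.sum_congr rfl (fun a _ => h1 a)]
  symm
  apply Finset.sum_subset (subset_univ _)
  intro a _ ha
  rw [mem_powerset] at ha
  have : gw bd p q c A a = 0 := by
    unfold gw
    rw [if_neg ha]
  simp [this]

lemma sum_Jw3 (c : ℝ) (tau : X → Bool) (f : Finset B → Finset B → ℝ) :
    (∑ om, Jw bd p q c tau om * f (om.filter (fun v => tau (p v) = true))
      (om.filter (fun v => tau (p v) = false))) * NW bd p q ∅ =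
      GT bd p q c (Ep p q tau) (Em p q tau) f := by
  classical
  have hd : Disjoint (Ep p q tau) (Em p q tau) := by
    rw [Finset.disjoint_left]
    intro v h1 h2
    rw [mem_Ep] at h1
    rw [mem_Em] at h2
    rw [h1.1] at h2
    simp at h2
  rw [Finset.sum_mul]
  have h1 : ∀ om : Finset B, Jw bd p q c tau om * f (om.filter (fun v => tau (p v) = true))
      (om.filter (fun v => tau (p v) = false)) *
      NW bd p q ∅ = if om ⊆ Ep p q tau ∪ Em p q tau then
        gw bd p q c (Ep p q tau) (om ∩ Ep p q tau) *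
          gw bd p q c (Em p q tau) (om ∩ Em p q tau) *
            f (om ∩ Ep p q tau) (om ∩ Em p q tau) else 0 := by
    intro om
    have h2 := Jw_split (bd := bd) (p := p) (q := q) c tau om
    calc _ = (Jw bd p q c tau om * NW bd p q ∅) * f (om.filter (fun v => tau (p v) = true))
          (om.filter (fun v => tau (p v) = false)) := by ring
      _ = _ := by
        rw [h2]
        split_ifs with h
        · have h3 : om.filter (fun v => tau (p v) = true) = om ∩ Ep p q tau := by
            ext v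
            simp only [mem_filter, mem_inter, mem_Ep]
            constructor
            · rintro ⟨hv, hv1⟩
              have h4 := h hv
              simp only [mem_union, mem_Ep, mem_Em] at h4
              rcases h4 with h4 | h4
              · exact ⟨hv, h4⟩
              · rw [hv1] at h4
                simp at h4
            · rintro ⟨hv, hv1⟩
              exact ⟨hv, hv1.1⟩
          have h3' : om.filter (fun v => tau (p v) = false) = om ∩ Em p q tau := by
            ext v
            simp only [mem_filter, mem_inter, mem_Em]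
            constructor
            · rintro ⟨hv, hv1⟩
              have h4 := h hv
              simp only [mem_union, mem_Ep, mem_Em] at h4
              rcases h4 with h4 | h4
              · rw [hv1] at h4
                simp at h4
              · exact ⟨hv, h4⟩
            · rintro ⟨hv, hv1⟩
              exact ⟨hv, hv1.1⟩
          rw [h3, h3']
        · rw [zero_mul]
  rw [Finset.sum_congr rfl (fun om _ => h1 om), ← Finset.sum_filter, GT_eq]
  refine Finset.sum_nbij' (fun om => (om ∩ Ep p q tau, om ∩ Em p q tau)) (fun z => z.1 ∪ z.2)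
    ?_ ?_ ?_ ?_ ?_
  · intro om _
    simp only [mem_product, mem_powerset]
    exact ⟨inter_subset_right, inter_subset_right⟩
  · rintro ⟨a, b⟩ hz
    simp only [mem_product, mem_powerset] at hz
    simp only [mem_filter, mem_univ, true_and]
    exact union_subset_union hz.1 hz.2
  · intro om hom
    simp only [mem_filter, mem_univ, true_and] at hom
    show om ∩ Ep p q tau ∪ om ∩ Em p q tau = om
    rw [← inter_union_distrib_left]
    exact inter_eq_left.mpr hom
  · rintro ⟨a, b⟩ hz
    simp only [mem_product, mem_powerset] at hz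
    obtain ⟨ha, hb⟩ := hz
    simp only [Prod.mk.injEq]
    constructor
    · rw [union_inter_distrib_right, inter_eq_left.mpr ha]
      have : b ∩ Ep p q tau = ∅ := by
        rw [← disjoint_iff_inter_eq_empty]
        exact hd.symm.mono_left hb
      rw [this, union_empty]
    · rw [union_inter_distrib_right, inter_eq_left.mpr hb]
      have : a ∩ Em p q tau = ∅ := by
        rw [← disjoint_iff_inter_eq_empty]
        exact hd.mono_left ha
      rw [this, empty_union]
  · intro om _
    rfl

/-- Weighted sum of a function of the spins and of the open bonds with positive and with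
negative spins. -/
noncomputable def SJ (bd : X → Prop) [DecidablePred bd] (p q : B → X) (c : ℝ)
    (f : (X → Bool) → Finset B → Finset B → ℝ) : ℝ :=
  ∑ tau : X → Bool, ∑ om, Jw bd p q c tau om * f tau (om.filter (fun v => tau (p v) = true))
    (om.filter (fun v => tau (p v) = false))

lemma SJ_add (c : ℝ) (f g : (X → Bool) → Finset B → Finset B → ℝ) :
    SJ bd p q c (fun s a b => f s a b + g s a b) = SJ bd p q c f + SJ bd p q c g := by
  unfold SJ
  simp only [mul_add, Finset.sum_add_distrib]

lemma SJ_smul (c r : ℝ) (f : (X → Bool) → Finset B → Finset B → ℝ) :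
    SJ bd p q c (fun s a b => r * f s a b) = r * SJ bd p q c f := by
  unfold SJ
  rw [Finset.mul_sum]
  refine Finset.sum_congr rfl (fun tau _ => ?_)
  rw [Finset.mul_sum]
  exact Finset.sum_congr rfl (fun om _ => by ring)

lemma assoc_nonneg {c : ℝ} (hc : 1 ≤ c) {f g : (X → Bool) → Finset B → Finset B → ℝ}
    (hf0 : ∀ s a b, 0 ≤ f s a b) (hg0 : ∀ s a b, 0 ≤ g s a b) (hf : Up3 f) (hg : Up3 g) :
    SJ bd p q c f * SJ bd p q c g ≤
      SJ bd p q c (fun _ _ _ => 1) * SJ bd p q c (fun s a b => f s a b * g s a b) := by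
  classical
  have hN := NW_pos (bd := bd) (p := p) (q := q) ∅
  set T : (X → Bool) → (Finset B → Finset B → ℝ) → ℝ := fun tau h =>
    GT bd p q c (Ep p q tau) (Em p q tau) h with hT
  have hS : ∀ h : (X → Bool) → Finset B → Finset B → ℝ, SJ bd p q c h * NW bd p q ∅ =
      ∑ tau : X → Bool, T tau (h tau) := by
    intro h
    unfold SJ
    rw [Finset.sum_mul]
    exact Finset.sum_congr rfl (fun tau _ => sum_Jw3 c tau (h tau))
  set W : (X → Bool) → ℝ := fun tau => T tau (fun _ _ => 1) with hW
  have hW0 : ∀ tau, 0 < W tau := fun tau => GT_pos hc _ _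
  have hT0 : ∀ tau (h : Finset B → Finset B → ℝ), (∀ a b, 0 ≤ h a b) → 0 ≤ T tau h :=
    fun tau h h0 => Finset.sum_nonneg (fun z _ => mul_nonneg (mul_nonneg (gw_nonneg hc _ _)
      (gw_nonneg hc _ _)) (h0 _ _))
  have hEm : ∀ {s t : X → Bool}, s ≤ t → Em p q t ⊆ Em p q s := by
    intro s t h v hv
    rw [mem_Em] at *
    have h1 := h (p v)
    have h2 := h (q v)
    rw [hv.1] at h1
    rw [hv.2] at h2
    exact ⟨le_bot_iff.mp h1, le_bot_iff.mp h2⟩
  have hmon : ∀ h : (X → Bool) → Finset B → Finset B → ℝ, (∀ s a b, 0 ≤ h s a b) → Up3 h →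
      Monotone (fun tau : X → Bool => T tau (h tau) / W tau) := by
    intro h h0 hm s t hst
    have := GT_holley (bd := bd) (p := p) (q := q) hc (Ep_mono (p := p) (q := q) hst)
      (hEm hst) (f := h s) (g := h t) (h0 s)
      (fun a a' b b' h1 h2 => hm s s a a' b b' le_rfl h1 h2)
      (fun a b => hm s t a a b b hst (Subset.refl _) (Subset.refl _))
    show T s (h s) / W s ≤ T t (h t) / W t
    rw [div_le_div_iff₀ (hW0 s) (hW0 t)]
    calc _ ≤ _ := this
      _ = _ := by ring
  have hμ : ∀ s t : X → Bool, W s * W t ≤ W (s ⊓ t) * W (s ⊔ t) := by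
    intro s t
    simp only [hW, hT, GT_one]
    have a1 : GS bd p q c (Ep p q s) (fun _ => 1) * GS bd p q c (Ep p q t) (fun _ => 1) ≤
        GS bd p q c (Ep p q (s ⊓ t)) (fun _ => 1) * GS bd p q c (Ep p q (s ⊔ t)) (fun _ => 1) := by
      have b1 := GS_super (bd := bd) (p := p) (q := q) hc (Ep p q s) (Ep p q t)
      have b2 := GS_mono (bd := bd) (p := p) (q := q) hc (Ep_sup (p := p) (q := q) s t)
      rw [Ep_inf]
      exact b1.trans (mul_le_mul_of_nonneg_left b2 (GS_pos hc _).le)
    have a2 : GS bd p q c (Em p q s) (fun _ => 1) * GS bd p q c (Em p q t) (fun _ => 1) ≤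
        GS bd p q c (Em p q (s ⊓ t)) (fun _ => 1) * GS bd p q c (Em p q (s ⊔ t)) (fun _ => 1) := by
      have b1 := GS_super (bd := bd) (p := p) (q := q) hc (Em p q s) (Em p q t)
      have b2 := GS_mono (bd := bd) (p := p) (q := q) hc (Em_inf (p := p) (q := q) s t)
      rw [Em_sup]
      calc _ ≤ _ := b1
        _ ≤ _ := mul_le_mul_of_nonneg_left b2 (GS_pos hc _).le
        _ = _ := by ring
    have n1 : ∀ A : Finset B, 0 ≤ GS bd p q c A (fun _ => 1) := fun A => (GS_pos hc A).le
    calc _ = (GS bd p q c (Ep p q s) (fun _ => 1) * GS bd p q c (Ep p q t) (fun _ => 1)) *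
          (GS bd p q c (Em p q s) (fun _ => 1) * GS bd p q c (Em p q t) (fun _ => 1)) := by ring
      _ ≤ _ := mul_le_mul a1 a2 (mul_nonneg (n1 _) (n1 _)) (mul_nonneg (n1 _) (n1 _))
      _ = _ := by ring
  have hfkg := fkg (fun tau : X → Bool => T tau (f tau) / W tau)
    (fun tau : X → Bool => T tau (g tau) / W tau) W
    (fun tau => (hW0 tau).le)
    (fun tau => div_nonneg (hT0 _ _ (hf0 tau)) (hW0 _).le)
    (fun tau => div_nonneg (hT0 _ _ (hg0 tau)) (hW0 _).le) (hmon f hf0 hf) (hmon g hg0 hg) hμ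
  have e1 : ∀ h : (X → Bool) → Finset B → Finset B → ℝ, ∑ tau : X → Bool, W tau *
      (T tau (h tau) / W tau) = ∑ tau : X → Bool, T tau (h tau) := by
    intro h
    refine Finset.sum_congr rfl (fun tau _ => ?_)
    have := (hW0 tau).ne'
    field_simp
  have e2 : ∑ tau : X → Bool, W tau * (T tau (f tau) / W tau * (T tau (g tau) / W tau)) ≤
      ∑ tau : X → Bool, T tau (fun a b => f tau a b * g tau a b) := by
    refine Finset.sum_le_sum (fun tau _ => ?_)
    have h3 := GT_fkg (bd := bd) (p := p) (q := q) hc (Ep p q tau) (Em p q tau) (hf0 tau)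
      (hg0 tau) (fun a a' b b' h1 h2 => hf tau tau a a' b b' le_rfl h1 h2)
      (fun a a' b b' h1 h2 => hg tau tau a a' b b' le_rfl h1 h2)
    have h4 : W tau * (T tau (f tau) / W tau * (T tau (g tau) / W tau)) =
        (T tau (f tau) * T tau (g tau)) / W tau := by
      have := (hW0 tau).ne'
      field_simp
    rw [h4, div_le_iff₀ (hW0 tau)]
    calc _ ≤ _ := h3
      _ = _ := by ring
  rw [e1, e1] at hfkg
  have hW1 : 0 ≤ ∑ tau : X → Bool, W tau := Finset.sum_nonneg (fun tau _ => (hW0 tau).le)
  have hfin := hfkg.trans (mul_le_mul_of_nonneg_left e2 hW1)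
  have h1' : SJ bd p q c (fun _ _ _ => 1) * NW bd p q ∅ = ∑ tau : X → Bool, W tau :=
    hS (fun _ _ _ => 1)
  rw [← hS f, ← hS g, ← h1', ← hS (fun s a b => f s a b * g s a b)] at hfin
  have hN2 : 0 < NW bd p q ∅ * NW bd p q ∅ := mul_pos hN hN
  refine le_of_mul_le_mul_right ?_ hN2
  calc _ = _ := by ring
    _ ≤ _ := hfin
    _ = _ := by ring

/-- Positive association of the spins, the open bonds with positive spins and the closed bonds
with negative spins. -/
theorem assoc_fin3 {c : ℝ} (hc : 1 ≤ c) {f g : (X → Bool) → Finset B → Finset B → ℝ}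
    (hf : Up3 f) (hg : Up3 g) :
    SJ bd p q c f * SJ bd p q c g ≤
      SJ bd p q c (fun _ _ _ => 1) * SJ bd p q c (fun s a b => f s a b * g s a b) := by
  classical
  have hbd : ∀ h : (X → Bool) → Finset B → Finset B → ℝ, Up3 h →
      ∀ s a b, 0 ≤ h s a b + -(h (fun _ => false) ∅ univ) := by
    intro h hh s a b
    have := hh (fun _ => false) s ∅ a univ b (fun i => bot_le) (empty_subset _) (subset_univ _)
    linarith
  have hup : ∀ (h : (X → Bool) → Finset B → Finset B → ℝ) (r : ℝ), Up3 h →
      Up3 (fun s a b => h s a b + r) := by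
    intro h r hh s t a a' b b' h1 h2 h3
    have := hh s t a a' b b' h1 h2 h3
    show h s a b + r ≤ h t a' b' + r
    linarith
  set r := -(f (fun _ => false) ∅ univ) with hr
  set r' := -(g (fun _ => false) ∅ univ) with hr'
  have key := assoc_nonneg (bd := bd) (p := p) (q := q) hc (hbd f hf) (hbd g hg) (hup f r hf)
    (hup g r' hg)
  have hconst : ∀ x : ℝ, SJ bd p q c (fun _ _ _ => x) = x * SJ bd p q c (fun _ _ _ => 1) := by
    intro x
    have := SJ_smul (bd := bd) (p := p) (q := q) c x (fun _ _ _ => 1)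
    simpa using this
  have e1 : SJ bd p q c (fun s a b => f s a b + r) =
      SJ bd p q c f + r * SJ bd p q c (fun _ _ _ => 1) := by
    rw [SJ_add (bd := bd) (p := p) (q := q) c f (fun _ _ _ => r), hconst]
  have e2 : SJ bd p q c (fun s a b => g s a b + r') =
      SJ bd p q c g + r' * SJ bd p q c (fun _ _ _ => 1) := by
    rw [SJ_add (bd := bd) (p := p) (q := q) c g (fun _ _ _ => r'), hconst]
  have e3 : SJ bd p q c (fun s a b => (f s a b + r) * (g s a b + r')) =
      SJ bd p q c (fun s a b => f s a b * g s a b) + r' * SJ bd p q c f + r * SJ bd p q c g +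
        r * r' * SJ bd p q c (fun _ _ _ => 1) := by
    have e4 : (fun (s : X → Bool) (a b : Finset B) => (f s a b + r) * (g s a b + r')) =
        (fun s a b => ((f s a b * g s a b + r' * f s a b) + r * g s a b) + r * r') := by
      funext s a b
      ring
    rw [e4, SJ_add c (fun s a b => (f s a b * g s a b + r' * f s a b) + r * g s a b)
      (fun _ _ _ => r * r'), SJ_add c (fun s a b => f s a b * g s a b + r' * f s a b)
      (fun s a b => r * g s a b), SJ_add c (fun s a b => f s a b * g s a b)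
      (fun s a b => r' * f s a b), SJ_smul c r' f, SJ_smul c r g, hconst (r * r')]
  rw [e1, e2, e3] at key
  nlinarith [key]

/-- Two decreasing functions. -/
theorem assoc_fin3_anti {c : ℝ} (hc : 1 ≤ c) {f g : (X → Bool) → Finset B → Finset B → ℝ}
    (hf : Up3 (fun s a b => -f s a b)) (hg : Up3 (fun s a b => -g s a b)) :
    SJ bd p q c f * SJ bd p q c g ≤
      SJ bd p q c (fun _ _ _ => 1) * SJ bd p q c (fun s a b => f s a b * g s a b) := by
  have key := assoc_fin3 (bd := bd) (p := p) (q := q) hc hf hg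
  have e1 : ∀ h : (X → Bool) → Finset B → Finset B → ℝ,
      SJ bd p q c (fun s a b => -h s a b) = -SJ bd p q c h := by
    intro h
    have := SJ_smul (bd := bd) (p := p) (q := q) c (-1) h
    simpa using this
  rw [e1, e1] at key
  have e2 : (fun (s : X → Bool) (a b : Finset B) => -f s a b * -g s a b) =
      (fun s a b => f s a b * g s a b) := by
    funext s a b
    ring
  rw [e2] at key
  linarith [key]

/-- The form with the spins and the open bonds with positive spins only. -/
theorem assoc_fin2 {c : ℝ} (hc : 1 ≤ c) {f g : (X → Bool) → Finset B → ℝ}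
    (hf : ∀ s t a a', s ≤ t → a ⊆ a' → f s a ≤ f t a')
    (hg : ∀ s t a a', s ≤ t → a ⊆ a' → g s a ≤ g t a') :
    (∑ tau : X → Bool, ∑ om, Jw bd p q c tau om *
        f tau (om.filter (fun v => tau (p v) = true))) *
      (∑ tau : X → Bool, ∑ om, Jw bd p q c tau om *
        g tau (om.filter (fun v => tau (p v) = true))) ≤
    (∑ tau : X → Bool, ∑ om, Jw bd p q c tau om) *
      (∑ tau : X → Bool, ∑ om, Jw bd p q c tau om *
        (f tau (om.filter (fun v => tau (p v) = true)) *
          g tau (om.filter (fun v => tau (p v) = true)))) := by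
  have key := assoc_fin3 (bd := bd) (p := p) (q := q) hc (f := fun s a _ => f s a)
    (g := fun s a _ => g s a) (fun s t a a' _ _ h1 h2 _ => hf s t a a' h1 h2)
    (fun s t a a' _ _ h1 h2 _ => hg s t a a' h1 h2)
  unfold SJ at key
  simpa only [mul_one] using key

end AsFin3

end Vale.Agent.P145.FB
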