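import Vale.Agent.P145.FB.AsCount
import Vale.Agent.P145.FB.AsFin3
import Vale.Agent.P145.FB.AsDef

/-!
P145, block F-B, (A): positive association in a box with free arrows.
-/

namespace Vale.Agent.P145.FB.AsD

open Finset
open Vale.Agent.P152.GFF.E2 (DG FB boxD pty)

variable {m r : ℕ}

/-- Booleans as elements of `ZMod 2`. -/
def b2 : Bool ≃ ZMod 2 where
  toFun b := if b then 1 else 0
  invFun x := decide (x = 1)
  left_inv b := by cases b <;> decide
  right_inv x := by revert x; decide

lemma b2_add (a b : Bool) : b2 a + b2 b = 0 ↔ a = b := by revert a b; decide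

lemma b2_zero (a : Bool) : b2 a = 0 ↔ a = false := by revert a; decide

lemma NE_bool (p : ℕ) (ω : Finset (Vt m r)) : (NE p ω : ℝ) = NW Rim (px p) (qx p) ω := by
  unfold NE NW KW
  congr 1
  symm
  refine Finset.card_bij (fun ξ _ => fun f => b2 (ξ f)) ?_ ?_ ?_
  · intro ξ hξ
    rw [Finset.mem_filter] at hξ ⊢
    refine ⟨Finset.mem_univ _, fun f hf => (b2_zero _).2 (hξ.2.1 f hf), fun v hv => ?_⟩
    exact (b2_add _ _).2 (hξ.2.2 v hv)
  · intro ξ _ ξ' _ h
    funext f
    exact b2.injective (congrFun h f)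
  · intro ζ hζ
    rw [Finset.mem_filter] at hζ
    refine ⟨fun f => b2.symm (ζ f), ?_, funext fun f => b2.apply_symm_apply _⟩
    rw [Finset.mem_filter]
    refine ⟨Finset.mem_univ _, fun f hf => ?_, fun v hv => ?_⟩
    · rw [← b2_zero, b2.apply_symm_apply]
      exact hζ.2.1 f hf
    · rw [← b2_add, b2.apply_symm_apply, b2.apply_symm_apply]
      exact hζ.2.2 v hv

lemma pty_iff (par : ZMod 2) (v : Vt m r) : pty par v = 0 ↔ Ev par.val v := by
  have h : pty par v = ((v.1.val + v.2.val + par.val : ℕ) : ZMod 2) := by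
    unfold pty
    push_cast
    rw [ZMod.natCast_zmod_val]
  rw [h, ZMod.natCast_eq_zero_iff]
  unfold Ev
  omega

lemma x_false (par : ZMod 2) (v : Vt m r) : (boxD m r par).x v false = some (px par.val v) := by
  unfold px
  by_cases h : pty par v = 0
  · rw [if_pos ((pty_iff par v).1 h)]
    show (if pty par v = 0 then _ else _) = _
    rw [if_pos h]; rfl
  · rw [if_neg fun h' => h ((pty_iff par v).2 h')]
    show (if pty par v = 0 then _ else _) = _
    rw [if_neg h]; rfl

lemma x_true (par : ZMod 2) (v : Vt m r) : (boxD m r par).x v true = some (qx par.val v) := by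
  unfold qx
  by_cases h : pty par v = 0
  · rw [if_pos ((pty_iff par v).1 h)]
    show (if pty par v = 0 then _ else _) = _
    rw [if_pos h]; rfl
  · rw [if_neg fun h' => h ((pty_iff par v).2 h')]
    show (if pty par v = 0 then _ else _) = _
    rw [if_neg h]; rfl

lemma o_false (par : ZMod 2) (v : Vt m r) : (boxD m r par).o v false = some (po par.val v) := by
  unfold po
  by_cases h : pty par v = 0
  · rw [if_pos ((pty_iff par v).1 h)]
    show (if pty par v = 0 then _ else _) = _
    rw [if_pos h]; rfl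
  · rw [if_neg fun h' => h ((pty_iff par v).2 h')]
    show (if pty par v = 0 then _ else _) = _
    rw [if_neg h]; rfl

lemma o_true (par : ZMod 2) (v : Vt m r) : (boxD m r par).o v true = some (qo par.val v) := by
  unfold qo
  by_cases h : pty par v = 0
  · rw [if_pos ((pty_iff par v).1 h)]
    show (if pty par v = 0 then _ else _) = _
    rw [if_pos h]; rfl
  · rw [if_neg fun h' => h ((pty_iff par v).2 h')]
    show (if pty par v = 0 then _ else _) = _
    rw [if_neg h]; rfl

lemma al_eq (par : ZMod 2) (p : FB m r → ZMod 2) (v : Vt m r) :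
    (boxD m r par).al p v = p (px par.val v) + p (qx par.val v) := by
  unfold DG.al
  rw [x_false, x_true]
  rfl

lemma be_eq (par : ZMod 2) (p : FB m r → ZMod 2) (v : Vt m r) :
    (boxD m r par).be p v = p (po par.val v) + p (qo par.val v) := by
  unfold DG.be
  rw [o_false, o_true]
  rfl

lemma zadd_iff (x y : ZMod 2) : x + y = 0 ↔ decide (x = 0) = decide (y = 0) := by
  revert x y; decide

/-- Spins as heights. -/
def eT : (Fc m r → ZMod 2) ≃ (Fc m r → Bool) where
  toFun p := fun q => decide (p q = 0)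
  invFun t := fun q => if t q = true then 0 else 1
  left_inv p := by
    funext q
    show (if decide (p q = 0) = true then (0 : ZMod 2) else 1) = p q
    rcases z2c (p q) with h | h <;> rw [h] <;> decide
  right_inv t := by
    funext q
    show decide ((if t q = true then (0 : ZMod 2) else 1) = 0) = t q
    cases t q <;> decide

/-- Bonds as sets. -/
def eO : (Vt m r → Bool) ≃ Finset (Vt m r) where
  toFun o := univ.filter fun v => o v = true
  invFun ω := fun v => decide (v ∈ ω)
  left_inv o := by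
    funext v
    show decide (v ∈ univ.filter fun v => o v = true) = o v
    cases h : o v <;> simp [h]
  right_inv ω := by
    ext v
    show v ∈ (univ.filter fun v => decide (v ∈ ω) = true) ↔ v ∈ ω
    simp

/-- For fixed `p`, `o`. -/
lemma sum_r (K : ℝ) (c : ℝ) (par : ZMod 2)
    (hd : ∀ ω : Finset (Vt m r), (NO par.val ωᶜ : ℝ) = K * 2 ^ ω.card * NE par.val ω)
    (p : FB m r → ZMod 2) (o : Vt m r → Bool) :
    ∑ ρ : FB m r → ZMod 2, ∏ v, Ub c ((boxD m r par).al p v) ((boxD m r par).be ρ v) (o v) =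
      K * Jw Rim (px par.val) (qx par.val) c (eT p) (eO o) := by
  have h1 : ∀ (ρ : FB m r → ZMod 2) (v : Vt m r),
      Ub c ((boxD m r par).al p v) ((boxD m r par).be ρ v) (o v) =
      (if v ∈ eO o then (if eT p (px par.val v) = eT p (qx par.val v) then (1 : ℝ) else 0)
        else (if eT p (px par.val v) = eT p (qx par.val v) then c - 1 else 1)) *
      (if v ∈ (eO o)ᶜ → dO par.val ρ v = 0 then 1 else 0) := by
    intro ρ v
    have a1 : v ∈ eO o ↔ o v = true := by
      show v ∈ (univ.filter fun v => o v = true) ↔ _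
      simp
    have a2 : (boxD m r par).al p v = 0 ↔ eT p (px par.val v) = eT p (qx par.val v) := by
      rw [al_eq]; exact zadd_iff _ _
    have a3 : (boxD m r par).be ρ v = dO par.val ρ v := be_eq par ρ v
    have a4 : v ∈ (eO o)ᶜ ↔ ¬ v ∈ eO o := Finset.mem_compl
    rw [a3]
    unfold Ub
    by_cases b1 : o v = true
    · have b2 : v ∈ eO o := a1.2 b1
      have b3 : ¬ v ∈ (eO o)ᶜ := fun h => a4.1 h b2
      rw [if_pos b1, if_pos b2, if_pos (fun h => absurd h b3), mul_one]
      by_cases b4 : (boxD m r par).al p v = 0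
      · rw [if_pos b4, if_pos (a2.1 b4)]
      · rw [if_neg b4, if_neg fun h => b4 (a2.2 h)]
    · have b2 : ¬ v ∈ eO o := fun h => b1 (a1.1 h)
      have b3 : v ∈ (eO o)ᶜ := a4.2 b2
      rw [if_neg b1, if_neg b2]
      by_cases b5 : dO par.val ρ v = 0
      · rw [if_pos b5, if_pos fun _ => b5, mul_one]
        by_cases b4 : (boxD m r par).al p v = 0
        · rw [if_pos b4, if_pos (a2.1 b4)]
        · rw [if_neg b4, if_neg fun h => b4 (a2.2 h)]
      · have b6 : ¬ (v ∈ (eO o)ᶜ → dO par.val ρ v = 0) := fun h => b5 (h b3)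
        rw [if_neg b5, if_neg b6, mul_zero]
  simp only [h1, Finset.prod_mul_distrib]
  rw [← Finset.mul_sum]
  have e4 : ∀ ρ : FB m r → ZMod 2, ∏ v : Vt m r,
      (if v ∈ (eO o)ᶜ → dO par.val ρ v = 0 then (1 : ℝ) else 0) =
      if ∀ v ∈ (eO o)ᶜ, dO par.val ρ v = 0 then 1 else 0 := by
    intro ρ
    by_cases h : ∀ v ∈ (eO o)ᶜ, dO par.val ρ v = 0
    · rw [if_pos h]
      exact Finset.prod_eq_one fun v _ => if_pos (h v)
    · rw [if_neg h]
      push Not at h
      obtain ⟨v, hv, hv'⟩ := h
      exact Finset.prod_eq_zero (Finset.mem_univ v) (if_neg fun h' => hv' (h' hv))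
  simp only [e4]
  have e6 : ∑ ρ : FB m r → ZMod 2, (if ∀ v ∈ (eO o)ᶜ, dO par.val ρ v = 0 then (1 : ℝ) else 0) =
      NO par.val (eO o)ᶜ := by
    rw [← Finset.sum_filter, Finset.sum_const, nsmul_eq_mul, mul_one]
    rfl
  rw [e6, hd, NE_bool]
  unfold Jw
  have e : ∏ v : Vt m r, (if v ∈ eO o then
      (if eT p (px par.val v) = eT p (qx par.val v) then (2 : ℝ) else 0)
      else (if eT p (px par.val v) = eT p (qx par.val v) then c - 1 else 1)) =
      2 ^ (eO o).card * ∏ v : Vt m r, (if v ∈ eO o then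
      (if eT p (px par.val v) = eT p (qx par.val v) then (1 : ℝ) else 0)
      else (if eT p (px par.val v) = eT p (qx par.val v) then c - 1 else 1)) := by
    have e5 : (2 : ℝ) ^ (eO o).card = ∏ v : Vt m r, if v ∈ eO o then (2 : ℝ) else 1 := by
      rw [Finset.prod_ite_mem, Finset.univ_inter, Finset.prod_const]
    rw [e5, ← Finset.prod_mul_distrib]
    refine Finset.prod_congr rfl fun v _ => ?_
    by_cases h1 : v ∈ eO o <;> by_cases h2 : eT p (px par.val v) = eT p (qx par.val v) <;>
      simp [h1, h2]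
  rw [e]
  ring

/-- The box sums are the sums of `AsFin`. -/
theorem Bx_eq (m r : ℕ) (par : ZMod 2) : ∃ K : ℝ, 0 < K ∧ ∀ (c : ℝ)
    (Φ : (FB m r → Bool) → (Fin m × Fin r → Bool) → ℝ),
    Bx c m r par Φ = K * ∑ τ : Fc m r → Bool, ∑ ω : Finset (Vt m r),
      Jw Rim (px par.val) (qx par.val) c τ ω * Φ τ (fun v => decide (v ∈ ω)) := by
  obtain ⟨K, hK, hd⟩ := dual m r par.val
  refine ⟨K, hK, fun c Φ => ?_⟩
  have h1 : Bx c m r par Φ = ∑ p : Fc m r → ZMod 2, ∑ o : Vt m r → Bool,
      K * Jw Rim (px par.val) (qx par.val) c (eT p) (eO o) *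
        Φ (eT p) (fun v => decide (v ∈ eO o)) := by
    unfold Bx
    refine Finset.sum_congr rfl fun p _ => ?_
    rw [Finset.sum_comm]
    refine Finset.sum_congr rfl fun o _ => ?_
    rw [← Finset.sum_mul, sum_r K c par hd p o]
    have h2 : (fun v => decide (v ∈ eO o)) = o := eO.symm_apply_apply o
    rw [h2]
    rfl
  rw [h1, Finset.mul_sum, Equiv.sum_comp eT fun τ : Fc m r → Bool => ∑ o : Vt m r → Bool,
      K * Jw Rim (px par.val) (qx par.val) c τ (eO o) * Φ τ (fun v => decide (v ∈ eO o))]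
  refine Finset.sum_congr rfl fun τ _ => ?_
  rw [Equiv.sum_comp eO fun ω : Finset (Vt m r) =>
      K * Jw Rim (px par.val) (qx par.val) c τ ω * Φ τ (fun v => decide (v ∈ ω)), Finset.mul_sum]
  exact Finset.sum_congr rfl fun ω _ => by ring

/-- The function of the triple. -/
def tri (par : ZMod 2) (f : (FB m r → Bool) → (Fin m × Fin r → Bool) → ℝ)
    (s : Fc m r → Bool) (a b : Finset (Vt m r)) : ℝ :=
  f s fun v => if s (px par.val v) = true then decide (v ∈ a) else decide (v ∈ b)

lemma tri_eval (par : ZMod 2) (f : (FB m r → Bool) → (Fin m × Fin r → Bool) → ℝ)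
    (s : Fc m r → Bool) (ω : Finset (Vt m r)) :
    tri par f s (ω.filter fun v => s (px par.val v) = true)
      (ω.filter fun v => s (px par.val v) = false) = f s (fun v => decide (v ∈ ω)) := by
  unfold tri
  congr 1
  funext v
  by_cases h : s (px par.val v) = true
  · rw [if_pos h]
    simp [h]
  · rw [if_neg h]
    simp [h]

lemma tri_up (par : ZMod 2) (f : (FB m r → Bool) → (Fin m × Fin r → Bool) → ℝ)
    (hf : Mono3 (boxD m r par) f) : Up3 (tri par f) := by
  intro s t a a' b b' hst ha hb
  have hst' : ∀ q, s q = true → t q = true := fun q hq => by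
    have := hst q
    rw [hq] at this
    exact Bool.eq_true_of_true_le this
  refine hf s t _ _ hst' ?_ ?_
  · intro v q hq hs ho
    rw [x_false, Option.some.injEq] at hq
    subst hq
    rw [if_pos hs] at ho
    rw [if_pos (hst' _ hs)]
    simp only [decide_eq_true_eq] at ho ⊢
    exact ha ho
  · intro v q hq ht ho
    rw [x_false, Option.some.injEq] at hq
    subst hq
    have h1 : ¬ t (px par.val v) = true := by rw [ht]; decide
    have h2 : ¬ s (px par.val v) = true := fun h => h1 (hst' _ h)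
    rw [if_neg h1] at ho
    rw [if_neg h2]
    simp only [decide_eq_true_eq] at ho ⊢
    exact hb ho

end Vale.Agent.P145.FB.AsD

namespace Vale.Agent.P145.FB

open Vale.Agent.P152.GFF.E2 (FB boxD)

/-- Association for all monotone functions, no sign assumptions. -/
theorem box_assoc' {c : ℝ} (hc : 1 ≤ c) (M R : ℕ) (par : ZMod 2)
    (f g : (FB M R → Bool) → (Fin M × Fin R → Bool) → ℝ)
    (hf : Mono3 (boxD M R par) f) (hg : Mono3 (boxD M R par) g) :
    Bx c M R par f * Bx c M R par g ≤
      Bx c M R par (fun _ _ => 1) * Bx c M R par (fun τ o => f τ o * g τ o) := by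
  obtain ⟨K, hK, h⟩ := AsD.Bx_eq M R par
  have h3 := assoc_fin3 (bd := AsD.Rim) (p := AsD.px par.val) (q := AsD.qx par.val) hc
    (AsD.tri_up par f hf) (AsD.tri_up par g hg)
  have e : ∀ Φ : (FB M R → Bool) → (Fin M × Fin R → Bool) → ℝ, Bx c M R par Φ =
      K * SJ AsD.Rim (AsD.px par.val) (AsD.qx par.val) c (AsD.tri par Φ) := by
    intro Φ
    rw [h c Φ]
    unfold SJ
    congr 1
    refine Finset.sum_congr rfl fun τ _ => Finset.sum_congr rfl fun ω _ => ?_
    rw [AsD.tri_eval]
  rw [e f, e g, e (fun _ _ => 1), e (fun τ o => f τ o * g τ o)]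
  have e1 : AsD.tri par (fun _ _ => (1 : ℝ)) =
      (fun (_ : AsD.Fc M R → Bool) (_ _ : Finset (AsD.Vt M R)) => (1 : ℝ)) := rfl
  have e2 : AsD.tri par (fun τ o => f τ o * g τ o) =
      (fun s a b => AsD.tri par f s a b * AsD.tri par g s a b) := rfl
  rw [e1, e2]
  nlinarith [mul_le_mul_of_nonneg_left h3 (mul_nonneg hK.le hK.le)]

theorem box_assoc {c : ℝ} (hc : 1 ≤ c) : BoxAssoc c :=
  fun M R par f g _ _ hf hg => box_assoc' hc M R par f g hf hg

end Vale.Agent.P145.FB
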