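import Vale.Agent.P145.FB.AsDual

/-!
P145, block F-B, (A): counting form of the duality on the face grid of a box.
-/

namespace Vale.Agent.P145.FB.AsD

open Finset

variable {m r : ℕ}

/-- The sign. -/
def s2 (x : ZMod 2) : ℝ := if x = 0 then 1 else -1

lemma s2_zero : s2 0 = 1 := if_pos rfl

lemma s2_one : s2 1 = -1 := if_neg one_ne_zero

lemma s2_add (x y : ZMod 2) : s2 (x + y) = s2 x * s2 y := by
  rcases z2c x with rfl | rfl <;> rcases z2c y with rfl | rfl
  · rw [add_zero, s2_zero, mul_one]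
  · rw [zero_add, s2_zero, one_mul]
  · rw [add_zero, s2_zero, mul_one]
  · rw [z2, s2_zero, s2_one]
    norm_num

lemma s2_sum {ι : Type*} (s : Finset ι) (f : ι → ZMod 2) : s2 (∑ i ∈ s, f i) = ∏ i ∈ s, s2 (f i) := by
  classical
  induction s using Finset.induction_on with
  | empty => exact s2_zero
  | insert a s ha ih => rw [Finset.sum_insert ha, Finset.prod_insert ha, s2_add, ih]

lemma one_add_s2 (x : ZMod 2) : 1 + s2 x = if x = 0 then 2 else 0 := by
  rcases z2c x with rfl | rfl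
  · rw [s2_zero, if_pos rfl]; norm_num
  · rw [s2_one, if_neg one_ne_zero]; norm_num

/-- Closed `κ` supported outside `ω`. -/
def CC (p : ℕ) (ω : Finset (Vt m r)) : Finset (Vt m r → ZMod 2) :=
  univ.filter fun κ => (∀ v ∈ ω, κ v = 0) ∧ ∀ f : Fc m r, (f.1.val + f.2.val + p) % 2 = 1 → cl p κ f = 0

/-- Number of the `ξ`, zero on the rim, with `dx ξ = 0` on `ω`. -/
def NE (p : ℕ) (ω : Finset (Vt m r)) : ℕ :=
  (univ.filter fun ξ : Fc m r → ZMod 2 => (∀ f, Rim f → ξ f = 0) ∧ ∀ v ∈ ω, dx p ξ v = 0).card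

/-- Number of the `ρ` with `dO ρ = 0` on `D`. -/
def NO (p : ℕ) (D : Finset (Vt m r)) : ℕ :=
  (univ.filter fun ρ : Fc m r → ZMod 2 => ∀ v ∈ D, dO p ρ v = 0).card

lemma dx_add (p : ℕ) (ξ ξ' : Fc m r → ZMod 2) (v : Vt m r) :
    dx p (ξ + ξ') v = dx p ξ v + dx p ξ' v := by
  unfold dx
  rw [Pi.add_apply, Pi.add_apply]
  ring

lemma NE_eq (p : ℕ) (ω : Finset (Vt m r)) : NE p ω = NE p (univ : Finset (Vt m r)) * (CC p ω).card := by
  classical
  unfold NE
  rw [Finset.card_eq_sum_card_fiberwise (f := fun ξ => dx p ξ) (t := CC p ω)]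
  · rw [Finset.sum_congr rfl (g := fun _ => (univ.filter fun ξ : Fc m r → ZMod 2 =>
      (∀ f, Rim f → ξ f = 0) ∧ ∀ v ∈ (univ : Finset (Vt m r)), dx p ξ v = 0).card)]
    · rw [Finset.sum_const, smul_eq_mul, mul_comm]
    · intro κ hκ
      have hκ' := (Finset.mem_filter.1 hκ).2
      obtain ⟨ξ0, h1, h2⟩ := exists_potential p κ hκ'.2
      refine Finset.card_bij (fun ξ _ => ξ + ξ0) ?_ ?_ ?_
      · intro ξ hξ
        rw [Finset.mem_filter, Finset.mem_filter] at hξ
        obtain ⟨⟨_, hr, _⟩, hd⟩ := hξ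
        rw [Finset.mem_filter]
        refine ⟨Finset.mem_univ _, fun f hf => ?_, fun v _ => ?_⟩
        · rw [Pi.add_apply, hr f hf, h1 f hf, add_zero]
        · rw [dx_add, h2, show dx p ξ v = κ v from congrFun hd v]
          exact z2 _
      · intro ξ _ ξ' _ h
        exact add_right_cancel h
      · intro ζ hζ
        rw [Finset.mem_filter] at hζ
        obtain ⟨_, hr, hd⟩ := hζ
        have hk : ∀ v, dx p (ζ + ξ0) v = κ v := fun v => by
          rw [dx_add, hd v (Finset.mem_univ _), h2, zero_add]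
        refine ⟨ζ + ξ0, ?_, ?_⟩
        · rw [Finset.mem_filter, Finset.mem_filter]
          refine ⟨⟨Finset.mem_univ _, fun f hf => ?_, fun v hv => ?_⟩, funext hk⟩
          · rw [Pi.add_apply, hr f hf, h1 f hf, add_zero]
          · rw [hk]; exact hκ'.1 v hv
        · rw [add_assoc]
          have : ξ0 + ξ0 = 0 := funext fun f => z2 _
          rw [this, add_zero]
  · intro ξ hξ
    have hξ' := (Finset.mem_filter.1 (Finset.mem_coe.1 hξ)).2
    refine Finset.mem_coe.2 (Finset.mem_filter.2 ⟨Finset.mem_univ _, fun v hv => hξ'.2 v hv, ?_⟩)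
    intro f hf
    exact cl_dx p ξ hξ'.1 f hf

lemma cl_even (p : ℕ) (κ : Vt m r → ZMod 2) (f : Fc m r)
    (hf : (f.1.val + f.2.val + p) % 2 = 0) : cl p κ f = 0 := by
  unfold cl
  refine Finset.sum_eq_zero fun v _ => ?_
  have h1 : po p v ≠ f := by
    rintro rfl
    unfold po at hf
    by_cases hv : Ev p v
    · rw [if_pos hv] at hf
      have hv' : (v.1.val + v.2.val + p) % 2 = 0 := hv
      have hf' : (v.1.val + 1 + v.2.val + p) % 2 = 0 := hf
      omega
    · rw [if_neg hv] at hf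
      exact hv hf
  have h2 : qo p v ≠ f := by
    rintro rfl
    unfold qo at hf
    by_cases hv : Ev p v
    · rw [if_pos hv] at hf
      have hv' : (v.1.val + v.2.val + p) % 2 = 0 := hv
      have hf' : (v.1.val + (v.2.val + 1) + p) % 2 = 0 := hf
      omega
    · rw [if_neg hv] at hf
      have hf' : (v.1.val + 1 + (v.2.val + 1) + p) % 2 = 0 := hf
      refine hv ?_
      show (v.1.val + v.2.val + p) % 2 = 0
      omega
  rw [if_neg h1, if_neg h2, add_zero, mul_zero]

lemma pairing (p : ℕ) (κ : Vt m r → ZMod 2) (ρ : Fc m r → ZMod 2) :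
    ∑ v, κ v * dO p ρ v = ∑ f, ρ f * cl p κ f := by
  unfold cl dO
  simp only [Finset.mul_sum]
  rw [Finset.sum_comm]
  refine Finset.sum_congr rfl fun v _ => ?_
  have e : ∀ g : Fc m r, ∑ f, ρ f * (κ v * (if g = f then (1 : ZMod 2) else 0)) = κ v * ρ g := by
    intro g
    rw [Finset.sum_eq_single g]
    · rw [if_pos rfl]; ring
    · intro f _ hf
      rw [if_neg (Ne.symm hf)]; ring
    · intro h; exact absurd (Finset.mem_univ g) h
  calc κ v * (ρ (po p v) + ρ (qo p v)) = κ v * ρ (po p v) + κ v * ρ (qo p v) := by ring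
    _ = ∑ f, ρ f * (κ v * (if po p v = f then (1 : ZMod 2) else 0)) +
        ∑ f, ρ f * (κ v * (if qo p v = f then (1 : ZMod 2) else 0)) := by rw [e, e]
    _ = ∑ f, ρ f * (κ v * ((if po p v = f then (1 : ZMod 2) else 0) +
        (if qo p v = f then 1 else 0))) := by
      rw [← Finset.sum_add_distrib]
      exact Finset.sum_congr rfl fun f _ => by ring

lemma sum_s2 (p : ℕ) (κ : Vt m r → ZMod 2) :
    ∑ ρ : Fc m r → ZMod 2, s2 (∑ v, κ v * dO p ρ v) =
      if ∀ f : Fc m r, (f.1.val + f.2.val + p) % 2 = 1 → cl p κ f = 0 then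
        2 ^ Fintype.card (Fc m r) else 0 := by
  classical
  split_ifs with h
  · have h' : ∀ f, cl p κ f = 0 := by
      intro f
      rcases Nat.mod_two_eq_zero_or_one (f.1.val + f.2.val + p) with hf | hf
      · exact cl_even p κ f hf
      · exact h f hf
    have e : ∀ ρ : Fc m r → ZMod 2, s2 (∑ v, κ v * dO p ρ v) = 1 := by
      intro ρ
      rw [pairing]
      simp only [h', mul_zero, Finset.sum_const_zero]
      exact s2_zero
    simp only [e]
    rw [Finset.sum_const, Finset.card_univ, Fintype.card_fun, ZMod.card]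
    simp
  · push Not at h
    obtain ⟨f0, _, hf0⟩ := h
    have hf1 : cl p κ f0 = 1 := (z2c _).resolve_left hf0
    have key : ∑ ρ : Fc m r → ZMod 2, s2 (∑ v, κ v * dO p ρ v) =
        ∑ ρ : Fc m r → ZMod 2, -s2 (∑ v, κ v * dO p ρ v) := by
      rw [← Equiv.sum_comp (Equiv.addRight (Pi.single f0 (1 : ZMod 2) : Fc m r → ZMod 2))]
      refine Finset.sum_congr rfl fun ρ _ => ?_
      rw [Equiv.coe_addRight, pairing, pairing]
      have e : ∑ f, (ρ + (Pi.single f0 (1 : ZMod 2) : Fc m r → ZMod 2)) f * cl p κ f = ∑ f, ρ f * cl p κ f + 1 := by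
        simp only [Pi.add_apply, add_mul, Finset.sum_add_distrib]
        congr 1
        rw [Finset.sum_eq_single f0]
        · rw [Pi.single_eq_same, one_mul, hf1]
        · intro f _ hf
          rw [Pi.single_eq_of_ne hf, zero_mul]
        · intro h; exact absurd (Finset.mem_univ f0) h
      rw [e, s2_add, s2_one]
      ring
    rw [Finset.sum_neg_distrib] at key
    linarith

/-- Fourier form. -/
lemma NO_eq (p : ℕ) (D : Finset (Vt m r)) :
    (2 : ℝ) ^ D.card * NO p D = 2 ^ Fintype.card (Fc m r) * (CC p Dᶜ).card := by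
  classical
  have e1 : ∑ ρ : Fc m r → ZMod 2, ∏ v : Vt m r,
      (∑ k : ZMod 2, if v ∈ D then s2 (k * dO p ρ v) else (if k = 0 then (1 : ℝ) else 0)) =
      (2 : ℝ) ^ D.card * NO p D := by
    have h1 : ∀ ρ : Fc m r → ZMod 2, ∏ v : Vt m r,
        (∑ k : ZMod 2, if v ∈ D then s2 (k * dO p ρ v) else (if k = 0 then (1 : ℝ) else 0)) =
        if ∀ v ∈ D, dO p ρ v = 0 then (2 : ℝ) ^ D.card else 0 := by
      intro ρ
      have h2 : ∀ v : Vt m r,
          (∑ k : ZMod 2, if v ∈ D then s2 (k * dO p ρ v) else (if k = 0 then (1 : ℝ) else 0)) =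
          if v ∈ D then (if dO p ρ v = 0 then (2 : ℝ) else 0) else 1 := by
        intro v
        have hs : ∀ F : ZMod 2 → ℝ, ∑ k : ZMod 2, F k = F 0 + F 1 := fun F => Fin.sum_univ_two F
        rw [hs]
        by_cases hv : v ∈ D
        · rw [if_pos hv, if_pos hv, if_pos hv, zero_mul, one_mul, s2_zero, one_add_s2]
        · rw [if_neg hv, if_neg hv, if_neg hv, if_pos rfl, if_neg one_ne_zero, add_zero]
      simp only [h2]
      rw [Finset.prod_ite_mem, Finset.univ_inter]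
      by_cases hD : ∀ v ∈ D, dO p ρ v = 0
      · rw [if_pos hD, Finset.prod_congr rfl (fun v hv => if_pos (hD v hv)), Finset.prod_const]
      · rw [if_neg hD]
        push Not at hD
        obtain ⟨v, hv, hv'⟩ := hD
        exact Finset.prod_eq_zero hv (if_neg hv')
    simp only [h1]
    rw [← Finset.sum_filter, Finset.sum_const, nsmul_eq_mul, mul_comm]
    rfl
  rw [← e1]
  have e2 : ∀ ρ : Fc m r → ZMod 2, ∏ v : Vt m r,
      (∑ k : ZMod 2, if v ∈ D then s2 (k * dO p ρ v) else (if k = 0 then (1 : ℝ) else 0)) =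
      ∑ κ : Vt m r → ZMod 2, if (∀ v ∈ Dᶜ, κ v = 0) then s2 (∑ v, κ v * dO p ρ v) else 0 := by
    intro ρ
    rw [Finset.prod_univ_sum, Fintype.piFinset_univ]
    refine Finset.sum_congr rfl fun κ _ => ?_
    by_cases hκ : ∀ v ∈ Dᶜ, κ v = 0
    · rw [if_pos hκ, s2_sum]
      refine Finset.prod_congr rfl fun v _ => ?_
      by_cases hv : v ∈ D
      · rw [if_pos hv]
      · rw [if_neg hv, if_pos (hκ v (Finset.mem_compl.2 hv)), hκ v (Finset.mem_compl.2 hv),
          zero_mul, s2_zero]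
    · rw [if_neg hκ]
      push Not at hκ
      obtain ⟨v, hv, hv'⟩ := hκ
      refine Finset.prod_eq_zero (Finset.mem_univ v) ?_
      rw [if_neg (Finset.mem_compl.1 hv), if_neg hv']
  simp only [e2]
  rw [Finset.sum_comm]
  have e3 : ∀ κ : Vt m r → ZMod 2,
      (∑ ρ : Fc m r → ZMod 2, if (∀ v ∈ Dᶜ, κ v = 0) then s2 (∑ v, κ v * dO p ρ v) else 0) =
      if (∀ v ∈ Dᶜ, κ v = 0) ∧ ∀ f : Fc m r, (f.1.val + f.2.val + p) % 2 = 1 → cl p κ f = 0 then
        (2 : ℝ) ^ Fintype.card (Fc m r) else 0 := by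
    intro κ
    by_cases hκ : ∀ v ∈ Dᶜ, κ v = 0
    · simp only [if_pos hκ]
      rw [sum_s2]
      by_cases hc : ∀ f : Fc m r, (f.1.val + f.2.val + p) % 2 = 1 → cl p κ f = 0
      · rw [if_pos hc, if_pos ⟨hκ, hc⟩]
      · rw [if_neg hc, if_neg fun h => hc h.2]
    · simp only [if_neg hκ, Finset.sum_const_zero]
      rw [if_neg fun h => hκ h.1]
  simp only [e3]
  rw [← Finset.sum_filter, Finset.sum_const, nsmul_eq_mul, mul_comm]
  rfl

lemma NE_univ_pos (p : ℕ) : 0 < NE p (univ : Finset (Vt m r)) := by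
  refine Finset.card_pos.2 ⟨0, Finset.mem_filter.2 ⟨Finset.mem_univ _, fun _ _ => rfl, fun v _ => ?_⟩⟩
  show (0 : ZMod 2) + 0 = 0
  rfl

/-- **Duality**. -/
theorem dual (m r p : ℕ) : ∃ K : ℝ, 0 < K ∧ ∀ ω : Finset (Vt m r),
    (NO p ωᶜ : ℝ) = K * 2 ^ ω.card * NE p ω := by
  have hN : (0 : ℝ) < NE p (univ : Finset (Vt m r)) := by exact_mod_cast NE_univ_pos p
  refine ⟨2 ^ Fintype.card (Fc m r) / 2 ^ Fintype.card (Vt m r) /
    NE p (univ : Finset (Vt m r)), by positivity, fun ω => ?_⟩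
  have h1 := NO_eq p ωᶜ
  rw [compl_compl] at h1
  have h2 : (NE p ω : ℝ) = NE p (univ : Finset (Vt m r)) * (CC p ω).card := by
    exact_mod_cast NE_eq p ω
  have h3 : (2 : ℝ) ^ ωᶜ.card * 2 ^ ω.card = 2 ^ Fintype.card (Vt m r) := by
    rw [← pow_add, Finset.card_compl_add_card]
  rw [h2]
  have h4 : (0 : ℝ) < 2 ^ ωᶜ.card := by positivity
  have h5 : (0 : ℝ) < 2 ^ Fintype.card (Vt m r) := by positivity
  refine mul_left_cancel₀ h4.ne' ?_
  rw [h1]
  field_simp
  rw [← h3]
  ring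

end Vale.Agent.P145.FB.AsD
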