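import Mathlib

/-!
P145, block F-B, (A): planar duality over the field with two elements on the face grid of a box.
The box has the vertices `Fin m × Fin r` and the faces `Fin (m + 1) × Fin (r + 1)`; `p` is the
parity of the lower left face of the vertex `(0, 0)`.
-/

namespace Vale.Agent.P145.FB.AsD

open Finset

/-- Faces of the box. -/
abbrev Fc (m r : ℕ) : Type := Fin (m + 1) × Fin (r + 1)

/-- Vertices of the box. -/
abbrev Vt (m r : ℕ) : Type := Fin m × Fin r

variable {m r : ℕ}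

/-- The four faces of a vertex. -/
def fsw (v : Vt m r) : Fc m r := (v.1.castSucc, v.2.castSucc)
def fse (v : Vt m r) : Fc m r := (v.1.succ, v.2.castSucc)
def fnw (v : Vt m r) : Fc m r := (v.1.castSucc, v.2.succ)
def fne (v : Vt m r) : Fc m r := (v.1.succ, v.2.succ)

/-- The vertex `v` is even. -/
def Ev (p : ℕ) (v : Vt m r) : Prop := (v.1.val + v.2.val + p) % 2 = 0

instance (p : ℕ) (v : Vt m r) : Decidable (Ev p v) := by unfold Ev; infer_instance

/-- The two even faces of a vertex. -/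
def px (p : ℕ) (v : Vt m r) : Fc m r := if Ev p v then fsw v else fse v
def qx (p : ℕ) (v : Vt m r) : Fc m r := if Ev p v then fne v else fnw v

/-- The two odd faces of a vertex. -/
def po (p : ℕ) (v : Vt m r) : Fc m r := if Ev p v then fse v else fsw v
def qo (p : ℕ) (v : Vt m r) : Fc m r := if Ev p v then fnw v else fne v

/-- The faces on the rim. -/
def Rim (f : Fc m r) : Prop := f.1.val = 0 ∨ f.1.val = m ∨ f.2.val = 0 ∨ f.2.val = r

instance : DecidablePred (Rim (m := m) (r := r)) := fun f => by unfold Rim; infer_instance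

lemma z2 (x : ZMod 2) : x + x = 0 := by revert x; decide

lemma z2c (x : ZMod 2) : x = 0 ∨ x = 1 := by revert x; decide

/-- Rectangle sums. -/
def R (κ : Vt m r → ZMod 2) (i j : ℕ) : ZMod 2 :=
  ∑ v, if v.1.val < i ∧ v.2.val < j then κ v else 0

lemma R_zero_left (κ : Vt m r → ZMod 2) (j : ℕ) : R κ 0 j = 0 :=
  Finset.sum_eq_zero fun v _ => if_neg (by omega)

lemma R_zero_right (κ : Vt m r → ZMod 2) (i : ℕ) : R κ i 0 = 0 :=
  Finset.sum_eq_zero fun v _ => if_neg (by omega)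

/-- Extension by zero. -/
def ext0 (κ : Vt m r → ZMod 2) (i j : ℕ) : ZMod 2 :=
  ∑ v, if v.1.val = i ∧ v.2.val = j then κ v else 0

lemma ext0_eq (κ : Vt m r → ZMod 2) (v : Vt m r) : ext0 κ v.1.val v.2.val = κ v := by
  unfold ext0
  rw [Finset.sum_eq_single v]
  · rw [if_pos ⟨rfl, rfl⟩]
  · intro w _ hw
    refine if_neg fun h => hw ?_
    exact Prod.ext (Fin.ext h.1) (Fin.ext h.2)
  · intro h
    exact absurd (Finset.mem_univ v) h

lemma R_mixed (κ : Vt m r → ZMod 2) (i j : ℕ) :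
    R κ (i + 1) (j + 1) + R κ i (j + 1) + R κ (i + 1) j + R κ i j = ext0 κ i j := by
  unfold R ext0
  rw [← Finset.sum_add_distrib, ← Finset.sum_add_distrib, ← Finset.sum_add_distrib]
  refine Finset.sum_congr rfl fun v _ => ?_
  have h2 := z2 (κ v)
  rcases z2c (κ v) with h | h <;> rw [h] <;> split_ifs <;> first | rfl | (exfalso; omega)

/-- Rectangle sums are determined by the mixed difference. -/
lemma R_unique (κ : Vt m r → ZMod 2) (X : ℕ → ℕ → ZMod 2) (h1 : ∀ j, X 0 j = 0)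
    (h2 : ∀ i, X i 0 = 0)
    (h3 : ∀ i j, X (i + 1) (j + 1) + X i (j + 1) + X (i + 1) j + X i j = ext0 κ i j) :
    ∀ i j, R κ i j = X i j := by
  intro i
  induction i with
  | zero => intro j; rw [R_zero_left, h1]
  | succ i ih =>
    intro j
    induction j with
    | zero => rw [R_zero_right, h2]
    | succ j ihj =>
      have e1 := R_mixed κ i j
      have e2 := h3 i j
      rw [← e2, ihj, ih, ih] at e1
      have e3 : R κ (i + 1) (j + 1) + (X i (j + 1) + X (i + 1) j + X i j) =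
          X (i + 1) (j + 1) + (X i (j + 1) + X (i + 1) j + X i j) := by
        rw [← add_assoc, ← add_assoc, ← add_assoc, ← add_assoc]
        exact e1
      exact add_right_cancel e3

/-- Boundary of `κ` at a face, through the odd diagonals. -/
def cl (p : ℕ) (κ : Vt m r → ZMod 2) (f : Fc m r) : ZMod 2 :=
  ∑ v, κ v * ((if po p v = f then 1 else 0) + (if qo p v = f then 1 else 0))

/-- Difference across the even diagonal. -/
def dx (p : ℕ) (ξ : Fc m r → ZMod 2) (v : Vt m r) : ZMod 2 := ξ (px p v) + ξ (qx p v)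

/-- Difference across the odd diagonal. -/
def dO (p : ℕ) (ρ : Fc m r → ZMod 2) (v : Vt m r) : ZMod 2 := ρ (po p v) + ρ (qo p v)

lemma face_eq (a b : ℕ) (f g : Fc m r) (hf : f.1.val = a) (hf' : f.2.val = b) :
    g = f ↔ g.1.val = a ∧ g.2.val = b := by
  constructor
  · rintro rfl
    exact ⟨hf, hf'⟩
  · rintro ⟨h1, h2⟩
    exact Prod.ext (Fin.ext (h1.trans hf.symm)) (Fin.ext (h2.trans hf'.symm))

lemma aux_ind (v1 v2 a b p : ℕ) (h : (a + b + p) % 2 = 1) :
    ((if (v1 + v2 + p) % 2 = 0 then (if v1 + 1 = a ∧ v2 = b then (1 : ZMod 2) else 0)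
      else (if v1 = a ∧ v2 = b then 1 else 0)) +
    (if (v1 + v2 + p) % 2 = 0 then (if v1 = a ∧ v2 + 1 = b then (1 : ZMod 2) else 0)
      else (if v1 + 1 = a ∧ v2 + 1 = b then 1 else 0))) =
    (if v1 < a + 1 ∧ v2 < b + 1 then (1 : ZMod 2) else 0) +
    (if v1 < a - 1 ∧ v2 < b + 1 then 1 else 0) + (if v1 < a + 1 ∧ v2 < b - 1 then 1 else 0) +
    (if v1 < a - 1 ∧ v2 < b - 1 then 1 else 0) := by
  split_ifs <;> first | rfl | (exfalso; omega)

lemma cl_odd (p : ℕ) (κ : Vt m r → ZMod 2) (f : Fc m r)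
    (hf : (f.1.val + f.2.val + p) % 2 = 1) :
    cl p κ f = R κ (f.1.val + 1) (f.2.val + 1) + R κ (f.1.val - 1) (f.2.val + 1) +
      R κ (f.1.val + 1) (f.2.val - 1) + R κ (f.1.val - 1) (f.2.val - 1) := by
  unfold R cl
  rw [← Finset.sum_add_distrib, ← Finset.sum_add_distrib, ← Finset.sum_add_distrib]
  refine Finset.sum_congr rfl fun v _ => ?_
  have key := aux_ind v.1.val v.2.val f.1.val f.2.val p hf
  have e1 : (if po p v = f then (1 : ZMod 2) else 0) =
      (if (v.1.val + v.2.val + p) % 2 = 0 then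
        (if v.1.val + 1 = f.1.val ∧ v.2.val = f.2.val then (1 : ZMod 2) else 0)
      else (if v.1.val = f.1.val ∧ v.2.val = f.2.val then 1 else 0)) := by
    by_cases hv : (v.1.val + v.2.val + p) % 2 = 0
    · rw [if_pos hv]
      have : po p v = fse v := if_pos hv
      rw [this]
      simp only [face_eq f.1.val f.2.val f (fse v) rfl rfl]
      rfl
    · rw [if_neg hv]
      have : po p v = fsw v := if_neg hv
      rw [this]
      simp only [face_eq f.1.val f.2.val f (fsw v) rfl rfl]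
      rfl
  have e2 : (if qo p v = f then (1 : ZMod 2) else 0) =
      (if (v.1.val + v.2.val + p) % 2 = 0 then
        (if v.1.val = f.1.val ∧ v.2.val + 1 = f.2.val then (1 : ZMod 2) else 0)
      else (if v.1.val + 1 = f.1.val ∧ v.2.val + 1 = f.2.val then 1 else 0)) := by
    by_cases hv : (v.1.val + v.2.val + p) % 2 = 0
    · rw [if_pos hv]
      have : qo p v = fnw v := if_pos hv
      rw [this]
      simp only [face_eq f.1.val f.2.val f (fnw v) rfl rfl]
      rfl
    · rw [if_neg hv]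
      have : qo p v = fne v := if_neg hv
      rw [this]
      simp only [face_eq f.1.val f.2.val f (fne v) rfl rfl]
      rfl
  rw [e1, e2, key]
  rcases z2c (κ v) with h | h <;> rw [h] <;> simp

/-- If `κ` is closed, its rectangle sums vanish at the odd positions. -/
lemma R_odd (p : ℕ) (κ : Vt m r → ZMod 2)
    (hκ : ∀ f : Fc m r, (f.1.val + f.2.val + p) % 2 = 1 → cl p κ f = 0) :
    ∀ n i j : ℕ, i + j ≤ n → i ≤ m + 1 → j ≤ r + 1 → (i + j + p) % 2 = 1 → R κ i j = 0 := by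
  intro n
  induction n with
  | zero =>
    intro i j h _ _ _
    have : i = 0 := by omega
    rw [this, R_zero_left]
  | succ n ih =>
    intro i j h hi hj hp
    rcases Nat.eq_zero_or_pos i with h0 | h0
    · rw [h0, R_zero_left]
    rcases Nat.eq_zero_or_pos j with h1 | h1
    · rw [h1, R_zero_right]
    obtain ⟨a, rfl⟩ : ∃ a, i = a + 1 := ⟨i - 1, by omega⟩
    obtain ⟨b, rfl⟩ : ∃ b, j = b + 1 := ⟨j - 1, by omega⟩
    have hf := cl_odd p κ (⟨a, by omega⟩, ⟨b, by omega⟩) (by show (a + b + p) % 2 = 1; omega)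
    rw [hκ _ (by show (a + b + p) % 2 = 1; omega)] at hf
    have hf' : (0 : ZMod 2) = R κ (a + 1) (b + 1) + R κ (a - 1) (b + 1) + R κ (a + 1) (b - 1) +
      R κ (a - 1) (b - 1) := hf
    have g1 : R κ (a - 1) (b + 1) = 0 := by
      rcases Nat.eq_zero_or_pos a with h2 | h2
      · rw [h2]; exact R_zero_left _ _
      · exact ih _ _ (by omega) (by omega) (by omega) (by omega)
    have g2 : R κ (a + 1) (b - 1) = 0 := by
      rcases Nat.eq_zero_or_pos b with h2 | h2
      · rw [h2]; exact R_zero_right _ _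
      · exact ih _ _ (by omega) (by omega) (by omega) (by omega)
    have g3 : R κ (a - 1) (b - 1) = 0 := by
      rcases Nat.eq_zero_or_pos a with h2 | h2
      · rw [h2]; exact R_zero_left _ _
      rcases Nat.eq_zero_or_pos b with h3 | h3
      · rw [h3]; exact R_zero_right _ _
      exact ih _ _ (by omega) (by omega) (by omega) (by omega)
    rw [g1, g2, g3, add_zero, add_zero, add_zero] at hf'
    exact hf'.symm

lemma R_top (κ : Vt m r → ZMod 2) (j : ℕ) : R κ (m + 1) j = R κ m j := by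
  unfold R
  refine Finset.sum_congr rfl fun v _ => ?_
  have := v.1.2
  split_ifs <;> first | rfl | (exfalso; omega)

lemma R_right (κ : Vt m r → ZMod 2) (i : ℕ) : R κ i (r + 1) = R κ i r := by
  unfold R
  refine Finset.sum_congr rfl fun v _ => ?_
  have := v.2.2
  split_ifs <;> first | rfl | (exfalso; omega)

/-- Existence of the potential. -/
lemma exists_potential (p : ℕ) (κ : Vt m r → ZMod 2)
    (hκ : ∀ f : Fc m r, (f.1.val + f.2.val + p) % 2 = 1 → cl p κ f = 0) :
    ∃ ξ : Fc m r → ZMod 2, (∀ f, Rim f → ξ f = 0) ∧ ∀ v, dx p ξ v = κ v := by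
  have hodd := R_odd p κ hκ
  refine ⟨fun f => R κ f.1.val f.2.val, ?_, ?_⟩
  · rintro ⟨⟨a, ha⟩, ⟨b, hb⟩⟩ h
    show R κ a b = 0
    have h' : a = 0 ∨ a = m ∨ b = 0 ∨ b = r := h
    rcases h' with h | h | h | h
    · rw [h, R_zero_left]
    · rw [h]
      by_cases hp : (m + b + p) % 2 = 1
      · exact hodd _ m b le_rfl (by omega) (by omega) hp
      · rw [← R_top]
        exact hodd _ (m + 1) b le_rfl (by omega) (by omega) (by omega)
    · rw [h, R_zero_right]
    · rw [h]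
      by_cases hp : (a + r + p) % 2 = 1
      · exact hodd _ a r le_rfl (by omega) (by omega) hp
      · rw [← R_right]
        exact hodd _ a (r + 1) le_rfl (by omega) (by omega) (by omega)
  · intro v
    have h1 := R_mixed κ v.1.val v.2.val
    rw [ext0_eq] at h1
    have b1 := v.1.2
    have b2 := v.2.2
    unfold dx
    by_cases hv : (v.1.val + v.2.val + p) % 2 = 0
    · have e1 : px p v = fsw v := if_pos hv
      have e2 : qx p v = fne v := if_pos hv
      rw [e1, e2]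
      show R κ v.1.val v.2.val + R κ (v.1.val + 1) (v.2.val + 1) = κ v
      have g1 : R κ v.1.val (v.2.val + 1) = 0 :=
        hodd _ _ _ le_rfl (by omega) (by omega) (by omega)
      have g2 : R κ (v.1.val + 1) v.2.val = 0 :=
        hodd _ _ _ le_rfl (by omega) (by omega) (by omega)
      rw [g1, g2, add_zero, add_zero] at h1
      rw [add_comm]
      exact h1
    · have e1 : px p v = fse v := if_neg hv
      have e2 : qx p v = fnw v := if_neg hv
      rw [e1, e2]
      show R κ (v.1.val + 1) v.2.val + R κ v.1.val (v.2.val + 1) = κ v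
      have g1 : R κ v.1.val v.2.val = 0 :=
        hodd _ _ _ le_rfl (by omega) (by omega) (by omega)
      have g2 : R κ (v.1.val + 1) (v.2.val + 1) = 0 :=
        hodd _ _ _ le_rfl (by omega) (by omega) (by omega)
      rw [g1, g2, zero_add, add_zero] at h1
      rw [add_comm]
      exact h1

/-- Extension of a face function: even positions, zero elsewhere. -/
def exX (p : ℕ) (ξ : Fc m r → ZMod 2) (i j : ℕ) : ZMod 2 :=
  if h : i < m + 1 ∧ j < r + 1 then
    (if (i + j + p) % 2 = 0 then ξ (⟨i, h.1⟩, ⟨j, h.2⟩) else 0) else 0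

lemma exX_val (p : ℕ) (ξ : Fc m r → ZMod 2) (f : Fc m r)
    (h : (f.1.val + f.2.val + p) % 2 = 0) : exX p ξ f.1.val f.2.val = ξ f := by
  unfold exX
  rw [dif_pos ⟨f.1.2, f.2.2⟩, if_pos h]

lemma exX_odd (p : ℕ) (ξ : Fc m r → ZMod 2) (i j : ℕ) (h : (i + j + p) % 2 = 1) :
    exX p ξ i j = 0 := by
  unfold exX
  split_ifs
  · omega
  · rfl
  · rfl

lemma exX_rim (p : ℕ) (ξ : Fc m r → ZMod 2) (hξ : ∀ f, Rim f → ξ f = 0) (i j : ℕ)
    (h : i = 0 ∨ m ≤ i ∨ j = 0 ∨ r ≤ j) : exX p ξ i j = 0 := by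
  unfold exX
  split_ifs with h1 h2
  · refine hξ _ ?_
    show i = 0 ∨ i = m ∨ j = 0 ∨ j = r
    omega
  · rfl
  · rfl

/-- The rectangle sums of a difference. -/
lemma R_dx (p : ℕ) (ξ : Fc m r → ZMod 2) (hξ : ∀ f, Rim f → ξ f = 0) (i j : ℕ) :
    R (dx p ξ) i j = exX p ξ i j := by
  refine R_unique (dx p ξ) (exX p ξ) (fun j => exX_rim p ξ hξ _ _ (Or.inl rfl))
    (fun i => exX_rim p ξ hξ _ _ (Or.inr (Or.inr (Or.inl rfl)))) ?_ i j
  intro i j
  by_cases h : i < m ∧ j < r
  · obtain ⟨h1, h2⟩ := h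
    have e := ext0_eq (dx p ξ) (⟨i, h1⟩, ⟨j, h2⟩)
    have e' : ext0 (dx p ξ) i j = dx p ξ (⟨i, h1⟩, ⟨j, h2⟩) := e
    rw [e']
    unfold dx
    by_cases hv : (i + j + p) % 2 = 0
    · have e1 : px p ((⟨i, h1⟩, ⟨j, h2⟩) : Vt m r) = fsw (⟨i, h1⟩, ⟨j, h2⟩) := if_pos hv
      have e2 : qx p ((⟨i, h1⟩, ⟨j, h2⟩) : Vt m r) = fne (⟨i, h1⟩, ⟨j, h2⟩) := if_pos hv
      rw [e1, e2, exX_odd p ξ i (j + 1) (by omega), exX_odd p ξ (i + 1) j (by omega), add_zero,
        add_zero, add_comm]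
      have g1 : exX p ξ i j = ξ (fsw (⟨i, h1⟩, ⟨j, h2⟩)) :=
        exX_val p ξ (fsw (⟨i, h1⟩, ⟨j, h2⟩)) hv
      have g2 : exX p ξ (i + 1) (j + 1) = ξ (fne (⟨i, h1⟩, ⟨j, h2⟩)) :=
        exX_val p ξ (fne (⟨i, h1⟩, ⟨j, h2⟩)) (by show (i + 1 + (j + 1) + p) % 2 = 0; omega)
      rw [g1, g2]
    · have e1 : px p ((⟨i, h1⟩, ⟨j, h2⟩) : Vt m r) = fse (⟨i, h1⟩, ⟨j, h2⟩) := if_neg hv
      have e2 : qx p ((⟨i, h1⟩, ⟨j, h2⟩) : Vt m r) = fnw (⟨i, h1⟩, ⟨j, h2⟩) := if_neg hv
      rw [e1, e2, exX_odd p ξ i j (by omega), exX_odd p ξ (i + 1) (j + 1) (by omega), zero_add,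
        add_zero, add_comm]
      have g1 : exX p ξ i (j + 1) = ξ (fnw (⟨i, h1⟩, ⟨j, h2⟩)) :=
        exX_val p ξ (fnw (⟨i, h1⟩, ⟨j, h2⟩)) (by show (i + (j + 1) + p) % 2 = 0; omega)
      have g2 : exX p ξ (i + 1) j = ξ (fse (⟨i, h1⟩, ⟨j, h2⟩)) :=
        exX_val p ξ (fse (⟨i, h1⟩, ⟨j, h2⟩)) (by show (i + 1 + j + p) % 2 = 0; omega)
      rw [g1, g2]
  · have e : ext0 (dx p ξ) i j = 0 := by
      unfold ext0
      refine Finset.sum_eq_zero fun v _ => if_neg ?_
      rintro ⟨h1, h2⟩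
      exact h ⟨h1 ▸ v.1.2, h2 ▸ v.2.2⟩
    rw [e]
    rcases not_and_or.1 h with h1 | h1
    · rw [exX_rim p ξ hξ (i + 1) (j + 1) (by omega), exX_rim p ξ hξ i (j + 1) (by omega),
        exX_rim p ξ hξ (i + 1) j (by omega), exX_rim p ξ hξ i j (by omega)]
      rfl
    · rw [exX_rim p ξ hξ (i + 1) (j + 1) (by omega), exX_rim p ξ hξ i (j + 1) (by omega),
        exX_rim p ξ hξ (i + 1) j (by omega), exX_rim p ξ hξ i j (by omega)]
      rfl

/-- Differences are closed. -/
lemma cl_dx (p : ℕ) (ξ : Fc m r → ZMod 2) (hξ : ∀ f, Rim f → ξ f = 0) (f : Fc m r)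
    (hf : (f.1.val + f.2.val + p) % 2 = 1) : cl p (dx p ξ) f = 0 := by
  rw [cl_odd p _ f hf, R_dx p ξ hξ, R_dx p ξ hξ, R_dx p ξ hξ, R_dx p ξ hξ,
    exX_odd p ξ (f.1.val + 1) (f.2.val + 1) (by omega)]
  have g1 : exX p ξ (f.1.val - 1) (f.2.val + 1) = 0 := by
    rcases Nat.eq_zero_or_pos f.1.val with h | h
    · exact exX_rim p ξ hξ _ _ (by omega)
    · exact exX_odd p ξ _ _ (by omega)
  have g2 : exX p ξ (f.1.val + 1) (f.2.val - 1) = 0 := by
    rcases Nat.eq_zero_or_pos f.2.val with h | h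
    · exact exX_rim p ξ hξ _ _ (by omega)
    · exact exX_odd p ξ _ _ (by omega)
  have g3 : exX p ξ (f.1.val - 1) (f.2.val - 1) = 0 := by
    rcases Nat.eq_zero_or_pos f.1.val with h | h
    · exact exX_rim p ξ hξ _ _ (by omega)
    rcases Nat.eq_zero_or_pos f.2.val with h' | h'
    · exact exX_rim p ξ hξ _ _ (by omega)
    exact exX_odd p ξ _ _ (by omega)
  rw [g1, g2, g3]
  rfl

end Vale.Agent.P145.FB.AsD
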