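import Mathlib

/-!
P145, block F-B, (A): positive association of the open bonds with positive spins, abstract finite
graph theorem. `X` are the sites, `B` the bonds with ends `p`, `q`, `bd` the wired sites.
Given the spins, the open bonds are an FK model with `q = 2` on the positive sites and one on the
negative sites; the weight of the spins is `F S * F Sᶜ` with `F` log-supermodular.
-/

namespace Vale.Agent.P145.FB

open Finset

set_option linter.unusedSectionVars false

section AsFin

variable {X B : Type*} [Fintype X] [DecidableEq X] [Fintype B] [DecidableEq B]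
  (bd : X → Prop) [DecidablePred bd] (p q : B → X)

/-- Spin configurations, pinned on `bd`, constant along the bonds of `om`. -/
def KW (om : Finset B) : Finset (X → Bool) :=
  univ.filter (fun xi : X → Bool => (∀ x, bd x → xi x = false) ∧
    ∀ v ∈ om, xi (p v) = xi (q v))

/-- Number of spin configurations, pinned on `bd`, constant along the bonds of `om`. -/
def NW (om : Finset B) : ℝ := ((KW bd p q om).card : ℝ)

/-- Joint weight of the spins and of the set of open bonds. -/
noncomputable def Jw (c : ℝ) (tau : X → Bool) (om : Finset B) : ℝ :=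
  (∏ v, if v ∈ om then (if tau (p v) = tau (q v) then (2 : ℝ) else 0) else
    (if tau (p v) = tau (q v) then c - 1 else 1)) * NW bd p q om

variable {bd p q}

lemma mem_KW {om : Finset B} {xi : X → Bool} : xi ∈ KW bd p q om ↔
    (∀ x, bd x → xi x = false) ∧ ∀ v ∈ om, xi (p v) = xi (q v) := by
  simp [KW]

lemma KW_xor {om : Finset B} {x y : X → Bool} (hx : x ∈ KW bd p q om) (hy : y ∈ KW bd p q om) :
    (fun i => xor (x i) (y i)) ∈ KW bd p q om := by
  rw [mem_KW] at *
  exact ⟨fun i hi => by simp [hx.1 i hi, hy.1 i hi], fun v hv => by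
    simp only [hx.2 v hv, hy.2 v hv]⟩

lemma KW_anti {a b : Finset B} (h : a ⊆ b) : KW bd p q b ⊆ KW bd p q a := by
  intro x hx
  rw [mem_KW] at *
  exact ⟨hx.1, fun v hv => hx.2 v (h hv)⟩

lemma NW_pos (om : Finset B) : 0 < NW bd p q om := by
  unfold NW
  have : (fun _ => false) ∈ KW bd p q om := by
    rw [mem_KW]
    exact ⟨fun _ _ => rfl, fun _ _ => rfl⟩
  exact_mod_cast Finset.card_pos.mpr ⟨_, this⟩

/-- Log-supermodularity. -/
lemma NW_super (a b : Finset B) :
    NW bd p q a * NW bd p q b ≤ NW bd p q (a ∩ b) * NW bd p q (a ∪ b) := by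
  classical
  set Pr : (X → Bool) → Prop := fun w => ∃ x ∈ KW bd p q a, (fun i => xor (x i) (w i)) ∈ KW bd p q b
    with hPr
  let r : (X → Bool) → (X → Bool) := fun w => if h : Pr w then h.choose else fun _ => false
  have hr : ∀ w, Pr w → r w ∈ KW bd p q a ∧ (fun i => xor (r w i) (w i)) ∈ KW bd p q b := by
    intro w hw
    have h1 : r w = hw.choose := by simp only [r, dif_pos hw]
    rw [h1]
    exact hw.choose_spec
  have key : ((KW bd p q a) ×ˢ (KW bd p q b)).card ≤
      ((KW bd p q (a ∩ b)) ×ˢ (KW bd p q (a ∪ b))).card := by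
    refine Finset.card_le_card_of_injOn
      (fun z => ((fun i => xor (z.1 i) (z.2 i)),
        (fun i => xor (z.1 i) (r (fun j => xor (z.1 j) (z.2 j)) i)))) ?_ ?_
    · rintro ⟨x, y⟩ hz
      simp only [coe_product, Set.mem_prod, mem_coe] at hz
      obtain ⟨hx, hy⟩ := hz
      have hP : Pr (fun j => xor (x j) (y j)) := by
        refine ⟨x, hx, ?_⟩
        have : (fun i => xor (x i) (xor (x i) (y i))) = y := by
          funext i
          simp
        rw [this]
        exact hy
      obtain ⟨h1, h2⟩ := hr _ hP
      simp only [coe_product, Set.mem_prod, mem_coe]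
      refine ⟨?_, ?_⟩
      · exact KW_xor (KW_anti inter_subset_left hx) (KW_anti inter_subset_right hy)
      · have h3 := KW_xor hx h1
        have h4 := KW_xor hy h2
        have h5 : (fun i => xor (y i) (xor (r (fun j => xor (x j) (y j)) i) (xor (x i) (y i)))) =
            (fun i => xor (x i) (r (fun j => xor (x j) (y j)) i)) := by
          funext i
          cases x i <;> cases y i <;> simp
        rw [h5] at h4
        rw [mem_KW] at h3 h4 ⊢
        refine ⟨h3.1, fun v hv => ?_⟩
        rcases mem_union.mp hv with hv | hv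
        · exact h3.2 v hv
        · exact h4.2 v hv
    · rintro ⟨x, y⟩ _ ⟨x', y'⟩ _ h
      simp only [Prod.mk.injEq] at h
      obtain ⟨h1, h2⟩ := h
      rw [h1] at h2
      have hx : x = x' := by
        funext i
        have := congrFun h2 i
        revert this
        cases x i <;> cases x' i <;> cases r (fun j => xor (x' j) (y' j)) i <;> simp
      subst hx
      have hy : y = y' := by
        funext i
        have := congrFun h1 i
        revert this
        cases x i <;> cases y i <;> cases y' i <;> simp
      rw [hy]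
  rw [card_product, card_product] at key
  unfold NW
  exact_mod_cast key

lemma NW_insert (e : B) (a : Finset B) : NW bd p q a ≤ 2 * NW bd p q (insert e a) := by
  classical
  by_cases h : ∃ x0 ∈ KW bd p q a, x0 (p e) ≠ x0 (q e)
  · obtain ⟨x0, h0, h1⟩ := h
    have key : (KW bd p q a).card ≤ ((KW bd p q (insert e a)) ×ˢ (univ : Finset Bool)).card := by
      refine Finset.card_le_card_of_injOn
        (fun x => if x (p e) = x (q e) then (x, true) else ((fun i => xor (x i) (x0 i)), false))
        ?_ ?_
      · intro x hx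
        simp only [mem_coe] at hx
        by_cases hh : x (p e) = x (q e)
        · simp only [hh, if_true, coe_product, Set.mem_prod, mem_coe, mem_univ, and_true]
          rw [mem_KW] at hx ⊢
          refine ⟨hx.1, fun v hv => ?_⟩
          rcases mem_insert.mp hv with rfl | hv
          · exact hh
          · exact hx.2 v hv
        · simp only [hh, if_false, coe_product, Set.mem_prod, mem_coe, mem_univ, and_true]
          have h2 := KW_xor hx h0
          rw [mem_KW] at h2 ⊢
          refine ⟨h2.1, fun v hv => ?_⟩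
          rcases mem_insert.mp hv with rfl | hv
          · revert hh h1
            cases x (p v) <;> cases x (q v) <;> cases x0 (p v) <;> cases x0 (q v) <;> simp
          · exact h2.2 v hv
      · intro x _ x' _ h
        simp only at h
        split_ifs at h with h3 h4 h4
        · exact (Prod.mk.inj h).1
        · simp at h
        · simp at h
        · have h5 := (Prod.mk.inj h).1
          funext i
          have := congrFun h5 i
          revert this
          cases x i <;> cases x' i <;> cases x0 i <;> simp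
    rw [card_product] at key
    have h2 : (univ : Finset Bool).card = 2 := rfl
    rw [h2] at key
    unfold NW
    have : ((KW bd p q a).card : ℝ) ≤ (((KW bd p q (insert e a)).card * 2 : ℕ) : ℝ) := by
      exact_mod_cast key
    push_cast at this
    linarith
  · push Not at h
    have h1 : KW bd p q a ⊆ KW bd p q (insert e a) := by
      intro x hx
      have h2 := h x hx
      rw [mem_KW] at hx ⊢
      refine ⟨hx.1, fun v hv => ?_⟩
      rcases mem_insert.mp hv with rfl | hv
      · exact h2
      · exact hx.2 v hv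
    have h3 : NW bd p q a ≤ NW bd p q (insert e a) := by
      unfold NW
      exact_mod_cast Finset.card_le_card h1
    have h4 := NW_pos (bd := bd) (p := p) (q := q) (insert e a)
    linarith

/-- Decoupling of bonds between positive sites and bonds between negative sites. -/
lemma NW_dec (tau : X → Bool) (a b : Finset B) (ha : ∀ v ∈ a, tau (p v) = true ∧ tau (q v) = true)
    (hb : ∀ v ∈ b, tau (p v) = false ∧ tau (q v) = false) :
    NW bd p q (a ∪ b) * NW bd p q ∅ = NW bd p q a * NW bd p q b := by
  classical
  have key : ((KW bd p q (a ∪ b)) ×ˢ (KW bd p q ∅)).card =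
      ((KW bd p q a) ×ˢ (KW bd p q b)).card := by
    refine Finset.card_nbij'
      (fun z => ((fun i => if tau i then z.1 i else z.2 i), (fun i => if tau i then z.2 i else z.1 i)))
      (fun z => ((fun i => if tau i then z.1 i else z.2 i), (fun i => if tau i then z.2 i else z.1 i)))
      ?_ ?_ ?_ ?_
    · rintro ⟨x, y⟩ hz
      simp only [coe_product, Set.mem_prod, mem_coe, mem_KW] at hz ⊢
      obtain ⟨⟨hx, hx'⟩, hy, -⟩ := hz
      refine ⟨⟨fun i hi => ?_, fun v hv => ?_⟩, fun i hi => ?_, fun v hv => ?_⟩
      · simp [hx i hi, hy i hi]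
      · obtain ⟨h1, h2⟩ := ha v hv
        simp only [h1, h2, if_true]
        exact hx' v (mem_union_left _ hv)
      · simp [hx i hi, hy i hi]
      · obtain ⟨h1, h2⟩ := hb v hv
        simp only [h1, h2]
        exact hx' v (mem_union_right _ hv)
    · rintro ⟨x, y⟩ hz
      simp only [coe_product, Set.mem_prod, mem_coe, mem_KW] at hz ⊢
      obtain ⟨⟨hx, hx'⟩, hy, hy'⟩ := hz
      refine ⟨⟨fun i hi => ?_, fun v hv => ?_⟩, fun i hi => ?_, fun v hv => ?_⟩
      · simp [hx i hi, hy i hi]
      · rcases mem_union.mp hv with hv | hv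
        · obtain ⟨h1, h2⟩ := ha v hv
          simp only [h1, h2, if_true]
          exact hx' v hv
        · obtain ⟨h1, h2⟩ := hb v hv
          simp only [h1, h2]
          exact hy' v hv
      · simp [hx i hi, hy i hi]
      · simp at hv
    · rintro ⟨x, y⟩ _
      simp only [Prod.mk.injEq]
      refine ⟨?_, ?_⟩ <;> funext i <;> cases tau i <;> simp
    · rintro ⟨x, y⟩ _
      simp only [Prod.mk.injEq]
      refine ⟨?_, ?_⟩ <;> funext i <;> cases tau i <;> simp
  rw [card_product, card_product] at key
  unfold NW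
  exact_mod_cast key

/-! ### The FK weight on a set of bonds -/

variable (bd p q)

/-- FK weight of the open set `a` in the bond set `A`. -/
noncomputable def gw (c : ℝ) (A a : Finset B) : ℝ :=
  if a ⊆ A then 2 ^ a.card * NW bd p q a * (c - 1) ^ (A \ a).card else 0

variable {bd p q}

lemma gw_nonneg {c : ℝ} (hc : 1 ≤ c) (A a : Finset B) : 0 ≤ gw bd p q c A a := by
  unfold gw
  have h1 := NW_pos (bd := bd) (p := p) (q := q) a
  have h2 : 0 ≤ c - 1 := by linarith
  split_ifs
  · positivity
  · exact le_rfl

lemma gw_super {c : ℝ} (hc : 1 ≤ c) (A A' a a' : Finset B) :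
    gw bd p q c A a * gw bd p q c A' a' ≤
      gw bd p q c (A ∩ A') (a ∩ a') * gw bd p q c (A ∪ A') (a ∪ a') := by
  by_cases h1 : a ⊆ A
  · by_cases h2 : a' ⊆ A'
    · have h3 : a ∩ a' ⊆ A ∩ A' := inter_subset_inter h1 h2
      have h4 : a ∪ a' ⊆ A ∪ A' := union_subset_union h1 h2
      unfold gw
      rw [if_pos h1, if_pos h2, if_pos h3, if_pos h4]
      have e1 : a.card + a'.card = (a ∩ a').card + (a ∪ a').card := by
        have := card_union_add_card_inter a a'
        omega
      have e2 : (A \ a).card + (A' \ a').card =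
          ((A ∩ A') \ (a ∩ a')).card + ((A ∪ A') \ (a ∪ a')).card := by
        rw [card_sdiff_of_subset h1, card_sdiff_of_subset h2, card_sdiff_of_subset h3,
          card_sdiff_of_subset h4]
        have := card_union_add_card_inter A A'
        have := card_le_card h1
        have := card_le_card h2
        have := card_le_card h3
        have := card_le_card h4
        omega
      have h0 : 0 ≤ c - 1 := by linarith
      calc 2 ^ a.card * NW bd p q a * (c - 1) ^ (A \ a).card *
            (2 ^ a'.card * NW bd p q a' * (c - 1) ^ (A' \ a').card)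
          = 2 ^ (a.card + a'.card) * (c - 1) ^ ((A \ a).card + (A' \ a').card) *
            (NW bd p q a * NW bd p q a') := by ring
        _ ≤ 2 ^ (a.card + a'.card) * (c - 1) ^ ((A \ a).card + (A' \ a').card) *
            (NW bd p q (a ∩ a') * NW bd p q (a ∪ a')) :=
          mul_le_mul_of_nonneg_left (NW_super a a') (by positivity)
        _ = _ := by
          rw [e1, e2]
          ring
    · have : gw bd p q c A' a' = 0 := by
        unfold gw
        rw [if_neg h2]
      rw [this, mul_zero]
      exact mul_nonneg (gw_nonneg hc _ _) (gw_nonneg hc _ _)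
  · have : gw bd p q c A a = 0 := by
      unfold gw
      rw [if_neg h1]
    rw [this, zero_mul]
    exact mul_nonneg (gw_nonneg hc _ _) (gw_nonneg hc _ _)

variable (bd p q)

/-- FK sum of a function over the open sets in the bond set `A`. -/
noncomputable def GS (c : ℝ) (A : Finset B) (f : Finset B → ℝ) : ℝ := ∑ a, gw bd p q c A a * f a

variable {bd p q}

lemma GS_powerset (c : ℝ) (A : Finset B) (f : Finset B → ℝ) :
    GS bd p q c A f = ∑ a ∈ A.powerset, gw bd p q c A a * f a := by
  unfold GS
  symm
  apply Finset.sum_subset (subset_univ _)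
  intro a _ ha
  rw [mem_powerset] at ha
  unfold gw
  rw [if_neg ha, zero_mul]

lemma GS_pos {c : ℝ} (hc : 1 ≤ c) (A : Finset B) : 0 < GS bd p q c A (fun _ => 1) := by
  unfold GS
  apply Finset.sum_pos'
  · intro a _
    rw [mul_one]
    exact gw_nonneg hc _ _
  · refine ⟨A, mem_univ _, ?_⟩
    unfold gw
    have h1 := NW_pos (bd := bd) (p := p) (q := q) A
    simp only [Subset.refl, if_true, sdiff_self, bot_eq_empty, card_empty, pow_zero, mul_one]
    positivity

lemma GS_insert {c : ℝ} (hc : 1 ≤ c) (A : Finset B) (e : B) :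
    GS bd p q c A (fun _ => 1) ≤ GS bd p q c (insert e A) (fun _ => 1) := by
  by_cases he : e ∈ A
  · rw [insert_eq_of_mem he]
  · rw [GS_powerset, GS_powerset, Finset.sum_powerset_insert he, ← Finset.sum_add_distrib]
    refine Finset.sum_le_sum (fun a ha => ?_)
    rw [mem_powerset] at ha
    have hea : e ∉ a := fun h => he (ha h)
    have h1 : a ⊆ insert e A := ha.trans (subset_insert _ _)
    have h2 : insert e a ⊆ insert e A := insert_subset_insert _ ha
    unfold gw
    rw [if_pos ha, if_pos h1, if_pos h2]
    have e1 : (insert e A \ a).card = (A \ a).card + 1 := by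
      rw [card_sdiff_of_subset h1, card_sdiff_of_subset ha, card_insert_of_notMem he]
      have := card_le_card ha
      omega
    have e2 : (insert e A \ insert e a).card = (A \ a).card := by
      rw [card_sdiff_of_subset h2, card_sdiff_of_subset ha, card_insert_of_notMem he,
        card_insert_of_notMem hea]
      omega
    rw [e1, e2, card_insert_of_notMem hea]
    have h3 := NW_insert (bd := bd) (p := p) (q := q) e a
    have h0 : 0 ≤ c - 1 := by linarith
    have h5 := NW_pos (bd := bd) (p := p) (q := q) a
    have h4 : 0 ≤ (2 : ℝ) ^ a.card * (c - 1) ^ (A \ a).card := by positivity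
    have h6 := mul_le_mul_of_nonneg_left h3 h4
    have h7 : 0 ≤ (2 : ℝ) ^ a.card * (c - 1) ^ (A \ a).card * (NW bd p q a * (c - 1)) := by
      positivity
    calc 2 ^ a.card * NW bd p q a * (c - 1) ^ (A \ a).card * 1
        = 2 ^ a.card * (c - 1) ^ (A \ a).card * NW bd p q a := by ring
      _ ≤ 2 ^ a.card * (c - 1) ^ (A \ a).card * (NW bd p q a * (c - 1)) +
          2 ^ a.card * (c - 1) ^ (A \ a).card * (2 * NW bd p q (insert e a)) := by linarith
      _ = _ := by ring

lemma GS_mono {c : ℝ} (hc : 1 ≤ c) {A A' : Finset B} (h : A ⊆ A') :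
    GS bd p q c A (fun _ => 1) ≤ GS bd p q c A' (fun _ => 1) := by
  have key : ∀ D : Finset B, GS bd p q c A (fun _ => 1) ≤ GS bd p q c (A ∪ D) (fun _ => 1) := by
    intro D
    induction D using Finset.induction_on with
    | empty => simp
    | insert e D _ ih =>
      rw [union_insert]
      exact ih.trans (GS_insert hc _ _)
  have := key A'
  rwa [union_eq_right.mpr h] at this

lemma GS_super {c : ℝ} (hc : 1 ≤ c) (A A' : Finset B) :
    GS bd p q c A (fun _ => 1) * GS bd p q c A' (fun _ => 1) ≤
      GS bd p q c (A ∩ A') (fun _ => 1) * GS bd p q c (A ∪ A') (fun _ => 1) := by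
  unfold GS
  simp only [mul_one]
  exact four_functions_theorem_univ _ _ _ _ (fun a => gw_nonneg hc _ _)
    (fun a => gw_nonneg hc _ _) (fun a => gw_nonneg hc _ _) (fun a => gw_nonneg hc _ _)
    (fun a a' => gw_super hc A A' a a')

lemma GS_holley {c : ℝ} (hc : 1 ≤ c) {A A' : Finset B} (h : A ⊆ A') {f : Finset B → ℝ}
    (hf0 : 0 ≤ f) (hf : Monotone f) :
    GS bd p q c A f * GS bd p q c A' (fun _ => 1) ≤
      GS bd p q c A (fun _ => 1) * GS bd p q c A' f := by
  unfold GS
  simp only [mul_one]
  refine four_functions_theorem_univ _ _ _ _ (fun a => mul_nonneg (gw_nonneg hc _ _) (hf0 _))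
    (fun a => gw_nonneg hc _ _) (fun a => gw_nonneg hc _ _)
    (fun a => mul_nonneg (gw_nonneg hc _ _) (hf0 _)) (fun a a' => ?_)
  have h1 := gw_super (bd := bd) (p := p) (q := q) hc A A' a a'
  rw [inter_eq_left.mpr h, union_eq_right.mpr h] at h1
  have h2 : f a ≤ f (a ⊔ a') := hf le_sup_left
  calc gw bd p q c A a * f a * gw bd p q c A' a'
      = (gw bd p q c A a * gw bd p q c A' a') * f a := by ring
    _ ≤ (gw bd p q c A (a ∩ a') * gw bd p q c A' (a ∪ a')) * f (a ⊔ a') :=
      mul_le_mul h1 h2 (hf0 _) (mul_nonneg (gw_nonneg hc _ _) (gw_nonneg hc _ _))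
    _ = gw bd p q c A (a ⊓ a') * (gw bd p q c A' (a ⊔ a') * f (a ⊔ a')) := by
      rw [inf_eq_inter, sup_eq_union]
      ring

lemma GS_fkg {c : ℝ} (hc : 1 ≤ c) (A : Finset B) {f g : Finset B → ℝ}
    (hf0 : 0 ≤ f) (hg0 : 0 ≤ g) (hf : Monotone f) (hg : Monotone g) :
    GS bd p q c A f * GS bd p q c A g ≤
      GS bd p q c A (fun _ => 1) * GS bd p q c A (fun a => f a * g a) := by
  have h := fkg f g (gw bd p q c A) (fun a => gw_nonneg hc _ _) hf0 hg0 hf hg (fun a a' => by
    have h1 := gw_super (bd := bd) (p := p) (q := q) hc A A a a'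
    rwa [inter_self, union_self] at h1)
  unfold GS
  simpa only [mul_one] using h

/-! ### Spins -/

variable (p q)

/-- Bonds between positive sites. -/
def Ep (tau : X → Bool) : Finset B := univ.filter (fun v => tau (p v) = true ∧ tau (q v) = true)

/-- Bonds between negative sites. -/
def Em (tau : X → Bool) : Finset B := univ.filter (fun v => tau (p v) = false ∧ tau (q v) = false)

variable {p q}

lemma mem_Ep {tau : X → Bool} {v : B} : v ∈ Ep p q tau ↔ tau (p v) = true ∧ tau (q v) = true := by
  simp [Ep]

lemma mem_Em {tau : X → Bool} {v : B} :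
    v ∈ Em p q tau ↔ tau (p v) = false ∧ tau (q v) = false := by
  simp [Em]

lemma Ep_inf (s t : X → Bool) : Ep p q (s ⊓ t) = Ep p q s ∩ Ep p q t := by
  ext v
  simp only [mem_Ep, mem_inter, Pi.inf_apply]
  cases s (p v) <;> cases s (q v) <;> cases t (p v) <;> cases t (q v) <;> simp

lemma Ep_sup (s t : X → Bool) : Ep p q s ∪ Ep p q t ⊆ Ep p q (s ⊔ t) := by
  intro v
  simp only [mem_Ep, mem_union, Pi.sup_apply]
  cases s (p v) <;> cases s (q v) <;> cases t (p v) <;> cases t (q v) <;> simp

lemma Em_sup (s t : X → Bool) : Em p q (s ⊔ t) = Em p q s ∩ Em p q t := by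
  ext v
  simp only [mem_Em, mem_inter, Pi.sup_apply]
  cases s (p v) <;> cases s (q v) <;> cases t (p v) <;> cases t (q v) <;> simp

lemma Em_inf (s t : X → Bool) : Em p q s ∪ Em p q t ⊆ Em p q (s ⊓ t) := by
  intro v
  simp only [mem_Em, mem_union, Pi.inf_apply]
  cases s (p v) <;> cases s (q v) <;> cases t (p v) <;> cases t (q v) <;> simp

lemma Ep_mono {s t : X → Bool} (h : s ≤ t) : Ep p q s ⊆ Ep p q t := by
  intro v hv
  rw [mem_Ep] at *
  have h1 := h (p v)
  have h2 := h (q v)
  rw [hv.1] at h1
  rw [hv.2] at h2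
  exact ⟨top_le_iff.mp h1, top_le_iff.mp h2⟩

/-- The weight on the agreeing bonds splits. -/
lemma Jw_split (c : ℝ) (tau : X → Bool) (om : Finset B) :
    Jw bd p q c tau om * NW bd p q ∅ =
      if om ⊆ Ep p q tau ∪ Em p q tau then
        gw bd p q c (Ep p q tau) (om ∩ Ep p q tau) * gw bd p q c (Em p q tau) (om ∩ Em p q tau)
      else 0 := by
  classical
  split_ifs with h
  · have hd : Disjoint (Ep p q tau) (Em p q tau) := by
      rw [Finset.disjoint_left]
      intro v h1 h2
      rw [mem_Ep] at h1
      rw [mem_Em] at h2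
      rw [h1.1] at h2
      simp at h2
    have ha : ∀ v ∈ om ∩ Ep p q tau, tau (p v) = true ∧ tau (q v) = true := by
      intro v hv
      rw [mem_inter, mem_Ep] at hv
      exact hv.2
    have hb : ∀ v ∈ om ∩ Em p q tau, tau (p v) = false ∧ tau (q v) = false := by
      intro v hv
      rw [mem_inter, mem_Em] at hv
      exact hv.2
    have hu : om ∩ Ep p q tau ∪ om ∩ Em p q tau = om := by
      rw [← inter_union_distrib_left]
      exact inter_eq_left.mpr h
    have hN := NW_dec (bd := bd) (p := p) (q := q) tau _ _ ha hb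
    rw [hu] at hN
    have hprod : (∏ v, if v ∈ om then (if tau (p v) = tau (q v) then (2 : ℝ) else 0) else
        (if tau (p v) = tau (q v) then c - 1 else 1)) =
        (2 ^ (om ∩ Ep p q tau).card * (c - 1) ^ (Ep p q tau \ (om ∩ Ep p q tau)).card) *
        (2 ^ (om ∩ Em p q tau).card * (c - 1) ^ (Em p q tau \ (om ∩ Em p q tau)).card) := by
      have e1 : ∀ v, (if v ∈ om then (if tau (p v) = tau (q v) then (2 : ℝ) else 0) else
          (if tau (p v) = tau (q v) then c - 1 else 1)) =
          ((if v ∈ om ∩ Ep p q tau then 2 else 1) *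
            (if v ∈ Ep p q tau \ (om ∩ Ep p q tau) then c - 1 else 1)) *
          ((if v ∈ om ∩ Em p q tau then 2 else 1) *
            (if v ∈ Em p q tau \ (om ∩ Em p q tau) then c - 1 else 1)) := by
        intro v
        by_cases hv : v ∈ om
        · have h1 := h hv
          simp only [mem_union, mem_Ep, mem_Em] at h1
          rcases h1 with ⟨h1, h2⟩ | ⟨h1, h2⟩ <;>
            simp [hv, h1, h2, mem_Ep, mem_Em]
        · cases h1 : tau (p v) <;> cases h2 : tau (q v) <;> simp [hv, h1, h2, mem_Ep, mem_Em]
      rw [Finset.prod_congr rfl (fun v _ => e1 v)]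
      rw [Finset.prod_mul_distrib, Finset.prod_mul_distrib, Finset.prod_mul_distrib]
      simp only [Finset.prod_ite_mem, univ_inter, Finset.prod_const]
    unfold Jw gw
    rw [if_pos inter_subset_right, if_pos inter_subset_right, hprod]
    calc _ = (2 ^ (om ∩ Ep p q tau).card * (c - 1) ^ (Ep p q tau \ (om ∩ Ep p q tau)).card) *
        (2 ^ (om ∩ Em p q tau).card * (c - 1) ^ (Em p q tau \ (om ∩ Em p q tau)).card) *
        (NW bd p q om * NW bd p q ∅) := by ring
      _ = _ := by
        rw [hN]
        ring
  · have : ∃ v ∈ om, v ∉ Ep p q tau ∪ Em p q tau := by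
      by_contra hcon
      push Not at hcon
      exact h hcon
    obtain ⟨v, hv, hv'⟩ := this
    have h1 : tau (p v) ≠ tau (q v) := by
      intro h2
      apply hv'
      simp only [mem_union, mem_Ep, mem_Em]
      cases h3 : tau (p v)
      · right
        exact ⟨rfl, by rw [← h2, h3]⟩
      · left
        exact ⟨rfl, by rw [← h2, h3]⟩
    unfold Jw
    rw [Finset.prod_eq_zero (mem_univ v) (by rw [if_pos hv, if_neg h1])]
    ring

lemma sum_Jw (c : ℝ) (tau : X → Bool) (f : Finset B → ℝ) :
    (∑ om, Jw bd p q c tau om * f (om.filter (fun v => tau (p v) = true))) * NW bd p q ∅ =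
      GS bd p q c (Em p q tau) (fun _ => 1) * GS bd p q c (Ep p q tau) f := by
  classical
  have hd : Disjoint (Ep p q tau) (Em p q tau) := by
    rw [Finset.disjoint_left]
    intro v h1 h2
    rw [mem_Ep] at h1
    rw [mem_Em] at h2
    rw [h1.1] at h2
    simp at h2
  rw [Finset.sum_mul]
  have h1 : ∀ om : Finset B, Jw bd p q c tau om * f (om.filter (fun v => tau (p v) = true)) *
      NW bd p q ∅ = if om ⊆ Ep p q tau ∪ Em p q tau then
        gw bd p q c (Ep p q tau) (om ∩ Ep p q tau) *
          gw bd p q c (Em p q tau) (om ∩ Em p q tau) * f (om ∩ Ep p q tau) else 0 := by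
    intro om
    have h2 := Jw_split (bd := bd) (p := p) (q := q) c tau om
    calc _ = (Jw bd p q c tau om * NW bd p q ∅) * f (om.filter (fun v => tau (p v) = true)) := by
          ring
      _ = _ := by
        rw [h2]
        split_ifs with h
        · have h3 : om.filter (fun v => tau (p v) = true) = om ∩ Ep p q tau := by
            ext v
            simp only [mem_filter, mem_inter, mem_Ep]
            constructor
            · rintro ⟨hv, hv1⟩
              have h4 := h hv
              simp only [mem_union, mem_Ep, mem_Em] at h4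
              rcases h4 with h4 | h4
              · exact ⟨hv, h4⟩
              · rw [hv1] at h4
                simp at h4
            · rintro ⟨hv, hv1⟩
              exact ⟨hv, hv1.1⟩
          rw [h3]
        · rw [zero_mul]
  rw [Finset.sum_congr rfl (fun om _ => h1 om), ← Finset.sum_filter, GS_powerset, GS_powerset,
    Finset.sum_mul_sum, ← Finset.sum_product']
  refine Finset.sum_nbij' (fun om => (om ∩ Em p q tau, om ∩ Ep p q tau)) (fun z => z.1 ∪ z.2)
    ?_ ?_ ?_ ?_ ?_
  · intro om _
    simp only [mem_product, mem_powerset]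
    exact ⟨inter_subset_right, inter_subset_right⟩
  · rintro ⟨b, a⟩ hz
    simp only [mem_product, mem_powerset] at hz
    simp only [mem_filter, mem_univ, true_and]
    exact union_subset (hz.1.trans subset_union_right) (hz.2.trans subset_union_left)
  · intro om hom
    simp only [mem_filter, mem_univ, true_and] at hom
    show om ∩ Em p q tau ∪ om ∩ Ep p q tau = om
    rw [← inter_union_distrib_left, union_comm]
    exact inter_eq_left.mpr hom
  · rintro ⟨b, a⟩ hz
    simp only [mem_product, mem_powerset] at hz
    obtain ⟨hb, ha⟩ := hz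
    simp only [Prod.mk.injEq]
    constructor
    · rw [union_inter_distrib_right, inter_eq_left.mpr hb]
      have : a ∩ Em p q tau = ∅ := by
        rw [← disjoint_iff_inter_eq_empty]
        exact hd.mono_left ha
      rw [this, union_empty]
    · rw [union_inter_distrib_right, inter_eq_left.mpr ha]
      have : b ∩ Ep p q tau = ∅ := by
        rw [← disjoint_iff_inter_eq_empty]
        exact hd.symm.mono_left hb
      rw [this, empty_union]
  · intro om _
    ring

/-- Positive association of the open bonds with positive spins. -/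
theorem assoc_fin {c : ℝ} (hc : 1 ≤ c) {f g : Finset B → ℝ} (hf0 : 0 ≤ f) (hg0 : 0 ≤ g)
    (hf : Monotone f) (hg : Monotone g) :
    (∑ tau : X → Bool, ∑ om, Jw bd p q c tau om * f (om.filter (fun v => tau (p v) = true))) *
      (∑ tau : X → Bool, ∑ om, Jw bd p q c tau om * g (om.filter (fun v => tau (p v) = true))) ≤
    (∑ tau : X → Bool, ∑ om, Jw bd p q c tau om) *
      (∑ tau : X → Bool, ∑ om, Jw bd p q c tau om *
        (f (om.filter (fun v => tau (p v) = true)) *
          g (om.filter (fun v => tau (p v) = true)))) := by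
  classical
  have hN := NW_pos (bd := bd) (p := p) (q := q) ∅
  -- the sums over the bonds
  have hS : ∀ h : Finset B → ℝ, (∑ tau : X → Bool, ∑ om, Jw bd p q c tau om *
      h (om.filter (fun v => tau (p v) = true))) * NW bd p q ∅ =
      ∑ tau : X → Bool, GS bd p q c (Em p q tau) (fun _ => 1) * GS bd p q c (Ep p q tau) h := by
    intro h
    rw [Finset.sum_mul]
    exact Finset.sum_congr rfl (fun tau _ => sum_Jw c tau h)
  have hf' := hS f
  have hg' := hS g
  have hfg' := hS (fun a => f a * g a)
  have h1' := hS (fun _ => 1)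
  simp only [mul_one] at h1'
  set Fp : (X → Bool) → ℝ := fun tau => GS bd p q c (Ep p q tau) (fun _ => 1) with hFp
  set Fm : (X → Bool) → ℝ := fun tau => GS bd p q c (Em p q tau) (fun _ => 1) with hFm
  have hFp0 : ∀ tau, 0 < Fp tau := fun tau => GS_pos hc _
  have hFm0 : ∀ tau, 0 < Fm tau := fun tau => GS_pos hc _
  have hG0 : ∀ (A : Finset B) (h : Finset B → ℝ), 0 ≤ h → 0 ≤ GS bd p q c A h := fun A h h0 =>
    Finset.sum_nonneg (fun a _ => mul_nonneg (gw_nonneg hc _ _) (h0 a))
  -- the conditional expectations
  have hmon : ∀ h : Finset B → ℝ, 0 ≤ h → Monotone h →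
      Monotone (fun tau : X → Bool => GS bd p q c (Ep p q tau) h / Fp tau) := by
    intro h h0 hm s t hst
    have := GS_holley (bd := bd) (p := p) (q := q) hc (Ep_mono (p := p) (q := q) hst) h0 hm
    show GS bd p q c (Ep p q s) h / Fp s ≤ GS bd p q c (Ep p q t) h / Fp t
    rw [div_le_div_iff₀ (hFp0 s) (hFp0 t)]
    calc _ ≤ _ := this
      _ = _ := by ring
  have hμ : ∀ s t : X → Bool, Fm s * Fp s * (Fm t * Fp t) ≤
      Fm (s ⊓ t) * Fp (s ⊓ t) * (Fm (s ⊔ t) * Fp (s ⊔ t)) := by
    intro s t
    have a1 : Fp s * Fp t ≤ Fp (s ⊓ t) * Fp (s ⊔ t) := by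
      have b1 := GS_super (bd := bd) (p := p) (q := q) hc (Ep p q s) (Ep p q t)
      have b2 := GS_mono (bd := bd) (p := p) (q := q) hc (Ep_sup (p := p) (q := q) s t)
      simp only [hFp]
      rw [Ep_inf]
      exact b1.trans (mul_le_mul_of_nonneg_left b2 (GS_pos hc _).le)
    have a2 : Fm s * Fm t ≤ Fm (s ⊓ t) * Fm (s ⊔ t) := by
      have b1 := GS_super (bd := bd) (p := p) (q := q) hc (Em p q s) (Em p q t)
      have b2 := GS_mono (bd := bd) (p := p) (q := q) hc (Em_inf (p := p) (q := q) s t)
      simp only [hFm]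
      rw [Em_sup]
      calc _ ≤ _ := b1
        _ ≤ _ := mul_le_mul_of_nonneg_left b2 (GS_pos hc _).le
        _ = _ := by ring
    calc Fm s * Fp s * (Fm t * Fp t) = (Fp s * Fp t) * (Fm s * Fm t) := by ring
      _ ≤ (Fp (s ⊓ t) * Fp (s ⊔ t)) * (Fm (s ⊓ t) * Fm (s ⊔ t)) :=
        mul_le_mul a1 a2 (mul_nonneg (hFm0 _).le (hFm0 _).le)
          (mul_nonneg (hFp0 _).le (hFp0 _).le)
      _ = _ := by ring
  have hfkg := fkg (fun tau : X → Bool => GS bd p q c (Ep p q tau) f / Fp tau)
    (fun tau : X → Bool => GS bd p q c (Ep p q tau) g / Fp tau) (fun tau => Fm tau * Fp tau)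
    (fun tau => mul_nonneg (hFm0 _).le (hFp0 _).le)
    (fun tau => div_nonneg (hG0 _ _ hf0) (hFp0 _).le)
    (fun tau => div_nonneg (hG0 _ _ hg0) (hFp0 _).le) (hmon f hf0 hf) (hmon g hg0 hg) hμ
  have e1 : ∀ h : Finset B → ℝ, ∑ tau : X → Bool, Fm tau * Fp tau *
      (GS bd p q c (Ep p q tau) h / Fp tau) = ∑ tau : X → Bool, Fm tau *
        GS bd p q c (Ep p q tau) h := by
    intro h
    refine Finset.sum_congr rfl (fun tau _ => ?_)
    have := (hFp0 tau).ne'
    field_simp
  have e2 : ∑ tau : X → Bool, Fm tau * Fp tau * (GS bd p q c (Ep p q tau) f / Fp tau *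
      (GS bd p q c (Ep p q tau) g / Fp tau)) ≤
      ∑ tau : X → Bool, Fm tau * GS bd p q c (Ep p q tau) (fun a => f a * g a) := by
    refine Finset.sum_le_sum (fun tau _ => ?_)
    have h3 := GS_fkg (bd := bd) (p := p) (q := q) hc (Ep p q tau) hf0 hg0 hf hg
    have h4 : Fm tau * Fp tau * (GS bd p q c (Ep p q tau) f / Fp tau *
      (GS bd p q c (Ep p q tau) g / Fp tau)) = Fm tau * ((GS bd p q c (Ep p q tau) f *
        GS bd p q c (Ep p q tau) g) / Fp tau) := by
      have := (hFp0 tau).ne'
      field_simp
    rw [h4]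
    refine mul_le_mul_of_nonneg_left ?_ (hFm0 _).le
    rw [div_le_iff₀ (hFp0 tau)]
    calc _ ≤ _ := h3
      _ = _ := by ring
  rw [e1, e1] at hfkg
  have hW0 : 0 ≤ ∑ tau : X → Bool, Fm tau * Fp tau :=
    Finset.sum_nonneg (fun tau _ => mul_nonneg (hFm0 _).le (hFp0 _).le)
  have hfin : (∑ tau : X → Bool, Fm tau * GS bd p q c (Ep p q tau) f) *
      (∑ tau : X → Bool, Fm tau * GS bd p q c (Ep p q tau) g) ≤
      (∑ tau : X → Bool, Fm tau * Fp tau) *
      ∑ tau : X → Bool, Fm tau * GS bd p q c (Ep p q tau) (fun a => f a * g a) :=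
    hfkg.trans (mul_le_mul_of_nonneg_left e2 hW0)
  rw [← hf', ← hg', ← hfg', ← h1'] at hfin
  have hN2 : 0 < NW bd p q ∅ * NW bd p q ∅ := mul_pos hN hN
  refine le_of_mul_le_mul_right ?_ hN2
  calc _ = _ := by ring
    _ ≤ _ := hfin
    _ = _ := by ring

end AsFin

end Vale.Agent.P145.FB
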