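import Vale.Agent.P145.FB.AsDef
import Vale.Agent.P145.FA.RpG
import Vale.Agent.P152.GFF.E2.T3
import Vale.Agent.P152.GFF.E2.T4
import Vale.Agent.P152.GFF.E2.Emb

/-!
P145, block F-B, (A): from the boxes with free arrows to the infinite-volume arrow state.
-/

set_option autoImplicit false

namespace Vale.Agent.P145.FB

open Finset Filter Topology MeasureTheory
open Vale.Agent.P152
open Vale.Agent.P152.GFF.B3 (BE boxNet Net bxf bxg mu muI insW m_loc m_emb)
open Vale.Agent.P152.GFF.E2 (DG FB boxD fSW fSE fNW fNE pty fg rim wd aE aO EvV Hts st_hbox st_emb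
  t3_fiber t3_w6 Emb)
open Vale.Agent.P145.FA (BoxLim rg_evn rg_par rg_W6_nonneg)

/-! ### Bonds -/

/-- Conditional weight of a bond given the differences. -/
noncomputable def kpb (c : ℝ) (a b : ZMod 2) (o : Bool) : ℝ :=
  if b = 0 then (if a = 0 then (if o = true then 1 / c else 1 - 1 / c)
    else (if o = true then 0 else 1)) else (if o = true then 1 else 0)

lemma kpb_sum (c : ℝ) (a b : ZMod 2) : ∑ o : Bool, kpb c a b o = 1 := by
  rw [Fintype.sum_bool]
  unfold kpb
  split_ifs <;> simp_all

lemma z2_cases (x : ZMod 2) : x = 0 ∨ x = 1 := by revert x; decide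

lemma kpb_mul {c : ℝ} (hc : c ≠ 0) (a b : ZMod 2) (o : Bool) :
    wd c 0 a b * kpb c a b o = Ub c a b o := by
  have h10 : ¬ ((1 : ZMod 2) = 0) := by decide
  rcases z2_cases a with rfl | rfl <;> rcases z2_cases b with rfl | rfl <;> cases o <;>
    simp [wd, kpb, Ub, h10] <;> field_simp

/-- Sums over the bonds of a big graph of an observable of a part. -/
lemma sum_ext {V W : Type} [Fintype V] [DecidableEq V] [Fintype W] [DecidableEq W] (ι : W → V)
    (hι : Function.Injective ι) (K : V → Bool → ℝ) (hK : ∀ v, ∑ b, K v b = 1)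
    (G : (W → Bool) → ℝ) :
    ∑ o : V → Bool, (∏ v, K v (o v)) * G (fun w => o (ι w)) =
      ∑ o : W → Bool, (∏ w, K (ι w) (o w)) * G o := by
  classical
  have h1 : ∀ o' : W → Bool, ∑ o ∈ univ.filter (fun o : V → Bool => (fun w => o (ι w)) = o'),
      ∏ v, K v (o v) = ∏ w, K (ι w) (o' w) := by
    intro o'
    set K' : V → Bool → ℝ := fun v b => if ∃ w, ι w = v ∧ o' w ≠ b then 0 else K v b with hK'
    have e1 : ∀ o : V → Bool, (if (fun w => o (ι w)) = o' then ∏ v, K v (o v) else 0) =
        ∏ v, K' v (o v) := by
      intro o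
      split_ifs with h
      · refine Finset.prod_congr rfl fun v _ => ?_
        rw [hK']
        simp only
        rw [if_neg]
        rintro ⟨w, hw, hne⟩
        apply hne
        rw [← h, ← hw]
      · obtain ⟨w, hw⟩ := Function.ne_iff.1 h
        symm
        refine Finset.prod_eq_zero (Finset.mem_univ (ι w)) ?_
        rw [hK']
        simp only
        rw [if_pos ⟨w, rfl, fun h => hw h.symm⟩]
    rw [Finset.sum_filter, Finset.sum_congr rfl fun o _ => e1 o, ← Fintype.prod_sum]
    have e2 : ∀ v, ∑ b, K' v b = if h : ∃ w, ι w = v then K v (o' h.choose) else 1 := by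
      intro v
      split_ifs with h
      · have hc := h.choose_spec
        rw [Finset.sum_eq_single (o' h.choose)]
        · rw [hK']
          simp only
          rw [if_neg]
          rintro ⟨w, hw, hne⟩
          exact hne (by rw [hι (hw.trans hc.symm)])
        · intro b _ hb
          rw [hK']
          simp only
          rw [if_pos ⟨_, hc, fun h => hb h.symm⟩]
        · intro h; exact absurd (Finset.mem_univ _) h
      · rw [← hK v]
        refine Finset.sum_congr rfl fun b _ => ?_
        rw [hK']
        simp only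
        rw [if_neg]
        rintro ⟨w, hw, -⟩
        exact h ⟨w, hw⟩
    rw [Finset.prod_congr rfl fun v _ => e2 v]
    rw [← Finset.prod_subset (Finset.subset_univ (univ.image ι))]
    · rw [Finset.prod_image fun a _ b _ h => hι h]
      refine Finset.prod_congr rfl fun w _ => ?_
      have hex : ∃ w', ι w' = ι w := ⟨w, rfl⟩
      rw [dif_pos hex, hι hex.choose_spec]
    · intro v _ hv
      rw [dif_neg]
      rintro ⟨w, hw⟩
      exact hv (Finset.mem_image.2 ⟨w, Finset.mem_univ _, hw⟩)
  rw [← Finset.sum_fiberwise (s := univ) (g := fun o : V → Bool => fun w => o (ι w))]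
  refine Finset.sum_congr rfl fun o' _ => ?_
  rw [← h1 o', Finset.sum_mul]
  refine Finset.sum_congr rfl fun o ho => ?_
  rw [(Finset.mem_filter.1 ho).2]

/-! ### Even faces -/

/-- Even faces of the box. -/
def Evf {m r : ℕ} (par : ZMod 2) (q : FB m r) : Prop := (q.1.val : ZMod 2) + q.2.val + par = 0

/-- Spins with the same differences agree up to a constant on the even faces. -/
lemma al_zero {m r : ℕ} (hm : 1 ≤ m) (hr : 1 ≤ r) (par : ZMod 2) (p : FB m r → ZMod 2)
    (h : ∀ v, (boxD m r par).al p v = 0) : ∃ s, ∀ q, Evf par q → p q = s := by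
  set X : ℕ → ℕ → ZMod 2 := fun i j =>
    if hh : i < m + 1 ∧ j < r + 1 then p (⟨i, hh.1⟩, ⟨j, hh.2⟩) else 0 with hX
  have hXp : ∀ q : FB m r, X q.1.val q.2.val = p q := by
    intro q
    rw [hX]
    simp only
    rw [dif_pos ⟨q.1.2, q.2.2⟩]
  have hz : ∀ a b : ZMod 2, a + b = 0 → a = b := by decide
  -- steps
  have s0 : ∀ i j : ℕ, i < m → j < r → (i : ZMod 2) + j + par = 0 → X (i + 1) (j + 1) = X i j := by
    intro i j hi hj hp
    have h1 := h (⟨i, hi⟩, ⟨j, hj⟩)
    unfold DG.al boxD at h1
    simp only at h1
    have hpt : pty par ((⟨i, hi⟩, ⟨j, hj⟩) : Fin m × Fin r) = 0 := hp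
    rw [if_pos hpt, if_pos hpt] at h1
    simp only [Bool.false_eq_true, if_false, if_true, Vale.Agent.P152.GFF.E2.ev, Option.elim] at h1
    have h2 := hz _ _ h1
    rw [← hXp, ← hXp] at h2
    exact h2.symm
  have s1 : ∀ i j : ℕ, i < m → j < r → (i : ZMod 2) + j + par = 1 → X (i + 1) j = X i (j + 1) := by
    intro i j hi hj hp
    have h1 := h (⟨i, hi⟩, ⟨j, hj⟩)
    unfold DG.al boxD at h1
    simp only at h1
    have hpt : ¬ pty par ((⟨i, hi⟩, ⟨j, hj⟩) : Fin m × Fin r) = 0 := by
      show ¬ ((i : ZMod 2) + j + par = 0)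
      rw [hp]; decide
    rw [if_neg hpt, if_neg hpt] at h1
    simp only [Bool.false_eq_true, if_false, if_true, Vale.Agent.P152.GFF.E2.ev, Option.elim] at h1
    have h2 := hz _ _ h1
    rw [← hXp, ← hXp] at h2
    exact h2
  have zz : ∀ a : ZMod 2, a + 1 + 1 = a := by decide
  have key : ∀ n i j : ℕ, i + j = n → i ≤ m → j ≤ r → (i : ZMod 2) + j + par = 0 →
      X i j = if par = 0 then X 0 0 else X 1 0 := by
    intro n
    induction n using Nat.strong_induction_on with
    | _ n ih =>
      intro i j hn hi hj hp
      rcases i with _ | i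
      · rcases j with _ | _ | j
        · have : par = 0 := by simpa using hp
          rw [if_pos this]
        · have hp1 : par = 1 := by
            rcases z2_cases par with h0 | h0
            · exfalso
              rw [h0] at hp
              exact absurd hp (by decide)
            · exact h0
          rw [if_neg (by rw [hp1]; decide)]
          exact (s1 0 0 (by omega) (by omega) (by rw [hp1]; decide)).symm
        · have hpj : (j : ZMod 2) + par = 0 := by
            push_cast at hp
            have : (0 : ZMod 2) + ((j : ZMod 2) + 1 + 1) + par = (j : ZMod 2) + par := by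
              rw [zz, zero_add]
            rw [← this]; exact hp
          have a1 := s1 0 (j + 1) (by omega) (by omega) (by
            push_cast
            have : (0 : ZMod 2) + ((j : ZMod 2) + 1) + par = ((j : ZMod 2) + par) + 1 := by ring
            rw [this, hpj]; decide)
          have a2 := s0 0 j (by omega) (by omega) (by
            push_cast
            rw [zero_add]; exact hpj)
          rw [← a1, a2]
          exact ih j (by omega) 0 j (by omega) (by omega) (by omega) (by push_cast; rw [zero_add]; exact hpj)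
      · rcases j with _ | j
        · rcases i with _ | i
          · have hp1 : par = 1 := by
              rcases z2_cases par with h0 | h0
              · exfalso
                rw [h0] at hp
                exact absurd hp (by decide)
              · exact h0
            rw [if_neg (by rw [hp1]; decide)]
          · have hpi : (i : ZMod 2) + par = 0 := by
              push_cast at hp
              have : ((i : ZMod 2) + 1 + 1) + 0 + par = (i : ZMod 2) + par := by
                rw [zz, add_zero]
              rw [← this]; exact hp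
            have a1 := s1 (i + 1) 0 (by omega) (by omega) (by
              push_cast
              have : ((i : ZMod 2) + 1) + 0 + par = ((i : ZMod 2) + par) + 1 := by ring
              rw [this, hpi]; decide)
            have a2 := s0 i 0 (by omega) (by omega) (by
              push_cast
              rw [add_zero]; exact hpi)
            rw [a1, a2]
            exact ih i (by omega) i 0 (by omega) (by omega) (by omega) (by
              push_cast; rw [add_zero]; exact hpi)
        · have hpij : (i : ZMod 2) + j + par = 0 := by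
            push_cast at hp
            have : ((i : ZMod 2) + 1) + ((j : ZMod 2) + 1) + par =
                ((i : ZMod 2) + j + par) + 1 + 1 := by ring
            rw [this, zz] at hp
            exact hp
          rw [s0 i j (by omega) (by omega) hpij]
          exact ih (i + j) (by omega) i j rfl (by omega) (by omega) hpij
  refine ⟨if par = 0 then X 0 0 else X 1 0, fun q hq => ?_⟩
  rw [← hXp]
  exact key _ _ _ rfl (by have := q.1.2; omega) (by have := q.2.2; omega) hq

/-! ### Observables -/

/-- The observable depends on the spins of the even faces only. -/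
def EvL {m r : ℕ} (par : ZMod 2) (f : (FB m r → Bool) → (Fin m × Fin r → Bool) → ℝ) : Prop :=
  ∀ τ τ' o, (∀ q, Evf par q → τ q = τ' q) → f τ o = f τ' o

/-- Average over the global sign. -/
noncomputable def Av {m r : ℕ} (f : (FB m r → Bool) → (Fin m × Fin r → Bool) → ℝ)
    (p : FB m r → ZMod 2) (o : Fin m × Fin r → Bool) : ℝ :=
  1 / 2 * ∑ s : ZMod 2, f (fun q => decide (p q + s = 0)) o

lemma al_add {V F : Type} (D : DG V F) (p p' : F → ZMod 2)
    (hn : ∀ v i, D.x v i ≠ none) (v : V) :
    D.al (fun q => p q + p' q) v = D.al p v + D.al p' v := by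
  unfold DG.al
  have h1 := hn v false
  have h2 := hn v true
  obtain ⟨a, ha⟩ := Option.ne_none_iff_exists'.1 h1
  obtain ⟨b, hb⟩ := Option.ne_none_iff_exists'.1 h2
  rw [ha, hb]
  simp only [Vale.Agent.P152.GFF.E2.ev, Option.elim]
  ring

lemma boxD_ne (m r : ℕ) (par : ZMod 2) : ∀ v i, (boxD m r par).x v i ≠ none := by
  intro v i
  unfold boxD
  simp only
  split_ifs <;> simp

lemma Av_congr {m r : ℕ} (hm : 1 ≤ m) (hr : 1 ≤ r) {par : ZMod 2}
    {f : (FB m r → Bool) → (Fin m × Fin r → Bool) → ℝ} (hf : EvL par f) {p p' : FB m r → ZMod 2}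
    (h : ∀ v, (boxD m r par).al p v = (boxD m r par).al p' v) (o : Fin m × Fin r → Bool) :
    Av f p o = Av f p' o := by
  have hz : ∀ a : ZMod 2, a + a = 0 := by decide
  obtain ⟨s0, hs0⟩ := al_zero hm hr par (fun q => p q + p' q) (fun v => by
    rw [al_add _ _ _ (boxD_ne m r par), h v]
    exact hz _)
  unfold Av
  congr 1
  rw [← Equiv.sum_comp (Equiv.addRight s0) (fun s => f (fun q => decide (p q + s = 0)) o)]
  refine Finset.sum_congr rfl fun s _ => ?_
  refine hf _ _ _ fun q hq => ?_
  have h1 := hs0 q hq
  simp only [Equiv.coe_addRight]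
  have h2 : p q + (s + s0) = p' q + s := by
    rw [← h1]
    have : p q + (s + (p q + p' q)) = (p q + p q) + (p' q + s) := by ring
    rw [this, hz, zero_add]
  show decide (p q + (s + s0) = 0) = decide (p' q + s = 0)
  simp only [h2]

open Classical in
/-- Spins from the arrows of a window. -/
noncomputable def pxx (m r : ℕ) (par : ZMod 2) (x : BE m r → ZMod 2) : FB m r → ZMod 2 :=
  if h : ∃ p, ∀ v, (boxD m r par).al p v = aE (boxNet m r) (pty par) x v then h.choose
  else fun _ => 0

lemma pxx_spec {m r : ℕ} {par : ZMod 2} {x : BE m r → ZMod 2} {p : FB m r → ZMod 2}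
    (h : ∀ v, (boxD m r par).al p v = aE (boxNet m r) (pty par) x v) (v : Fin m × Fin r) :
    (boxD m r par).al (pxx m r par x) v = (boxD m r par).al p v := by
  have hex : ∃ p, ∀ v, (boxD m r par).al p v = aE (boxNet m r) (pty par) x v := ⟨p, h⟩
  unfold pxx
  rw [dif_pos hex, hex.choose_spec v, h v]

/-- The observable as a function of the arrows of the window. -/
noncomputable def phi (c : ℝ) (m r : ℕ) (par : ZMod 2)
    (f : (FB m r → Bool) → (Fin m × Fin r → Bool) → ℝ) (x : BE m r → ZMod 2) : ℝ :=
  ∑ o : Fin m × Fin r → Bool,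
    (∏ v, kpb c (aE (boxNet m r) (pty par) x v) (aO (boxNet m r) (pty par) x v) (o v)) *
      Av f (pxx m r par x) o

lemma phi_eq {c : ℝ} {m r : ℕ} (hm : 1 ≤ m) (hr : 1 ≤ r) {par : ZMod 2}
    {f : (FB m r → Bool) → (Fin m × Fin r → Bool) → ℝ} (hf : EvL par f)
    {x : BE m r → ZMod 2} {p : FB m r → ZMod 2}
    (h : ∀ v, (boxD m r par).al p v = aE (boxNet m r) (pty par) x v) :
    phi c m r par f x = ∑ o : Fin m × Fin r → Bool,
      (∏ v, kpb c (aE (boxNet m r) (pty par) x v) (aO (boxNet m r) (pty par) x v) (o v)) *
        Av f p o := by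
  unfold phi
  refine Finset.sum_congr rfl fun o _ => ?_
  rw [Av_congr hm hr hf (pxx_spec h) o]

/-! ### Sums over the box -/

lemma Bx_shift (c : ℝ) (M R : ℕ) (par : ZMod 2)
    (Φ : (FB M R → Bool) → (Fin M × Fin R → Bool) → ℝ) (s : ZMod 2) :
    ∑ p : FB M R → ZMod 2, ∑ r : FB M R → ZMod 2, ∑ o : Fin M × Fin R → Bool,
      (∏ v, Ub c ((boxD M R par).al p v) ((boxD M R par).be r v) (o v)) *
        Φ (fun q => decide (p q + s = 0)) o = Bx c M R par Φ := by
  unfold Bx
  rw [← Equiv.sum_comp (Equiv.addRight (fun _ : FB M R => s)) (fun p : FB M R → ZMod 2 =>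
    ∑ r : FB M R → ZMod 2, ∑ o : Fin M × Fin R → Bool,
    (∏ v, Ub c ((boxD M R par).al p v) ((boxD M R par).be r v) (o v)) *
      Φ (fun q => decide (p q = 0)) o)]
  refine Finset.sum_congr rfl fun p _ => ?_
  have e1 : ∀ v, (boxD M R par).al ((Equiv.addRight (fun _ : FB M R => s)) p) v =
      (boxD M R par).al p v := by
    intro v
    have := al_add (boxD M R par) p (fun _ => s) (boxD_ne M R par) v
    have h2 : (boxD M R par).al (fun _ => s) v = 0 := by
      unfold DG.al
      obtain ⟨a, ha⟩ := Option.ne_none_iff_exists'.1 (boxD_ne M R par v false)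
      obtain ⟨b, hb⟩ := Option.ne_none_iff_exists'.1 (boxD_ne M R par v true)
      rw [ha, hb]
      simp only [Vale.Agent.P152.GFF.E2.ev, Option.elim]
      exact (by decide : ∀ a : ZMod 2, a + a = 0) s
    rw [h2, add_zero] at this
    exact this
  simp only [e1]
  rfl

end Vale.Agent.P145.FB
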