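import Vale.Agent.P145.FB.AsPa
import Vale.Agent.P145.FB.AsBox

/-!
P145, block F-B, (A): association for the infinite-volume arrow state.
-/

set_option autoImplicit false

namespace Vale.Agent.P145.FB

open Finset Filter Topology MeasureTheory
open Vale.Agent.P152
open Vale.Agent.P152.GFF.B3 (BE boxNet Net bxf bxg mu muI insW m_loc m_emb IsEmb)
open Vale.Agent.P152.GFF.E2 (DG FB boxD fSW fSE fNW fNE pty fg rim wd aE aO EvV Hts st_hbox st_emb
  t3_fiber t3_w6 t3_ev Emb)
open Vale.Agent.P145.FA (BoxLim rg_evn rg_par rg_W6_nonneg)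

/-! ### The box identity -/

lemma emb_al {V F V' F' : Type} {D : DG V F} {D' : DG V' F'} {f : V → V'} {g : F → F'}
    {R : F → Prop} (h : Emb D D' f g R) (p : F' → ZMod 2) (v : V) :
    D.al (fun q => p (g q)) v = D'.al p (f v) := by
  unfold DG.al
  rw [h.hx, h.hx]
  cases D.x v false <;> cases D.x v true <;> rfl

lemma box_par {m r M R : ℕ} (x y : ℕ) (hx : x + m ≤ M) (hy : y + r ≤ R) (par : ZMod 2)
    (k : BE M R → ZMod 2) (v : Fin m × Fin r) :
    aE (boxNet m r) (pty (par + x + y)) (fun e => k (bxg x y hx hy e)) v =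
      aE (boxNet M R) (pty par) k (bxf x y hx hy v) ∧
    aO (boxNet m r) (pty (par + x + y)) (fun e => k (bxg x y hx hy e)) v =
      aO (boxNet M R) (pty par) k (bxf x y hx hy v) := by
  have he := m_emb.2.2.1 m r M R x y hx hy
  have hp := Vale.Agent.P152.GFF.E2.emb_pty x y par hx hy v
  unfold aE aO
  rw [hp, he.hl, he.hb, he.ha]
  exact ⟨rfl, rfl⟩

lemma box_id {c : ℝ} (hc : c ≠ 0) (M R : ℕ) (par : ZMod 2) : ∃ ν : ℝ, 0 < ν ∧
    ∀ (m r x y : ℕ) (hx : x + m ≤ M) (hy : y + r ≤ R), 1 ≤ m → 1 ≤ r →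
    ∀ f : (FB m r → Bool) → (Fin m × Fin r → Bool) → ℝ, EvL (par + x + y) f →
      ν * (boxNet M R).ar (wc c)
        (fun k => phi c m r (par + x + y) f (fun e => k (bxg x y hx hy e))) =
      Bx c M R par (fun τ o => f (fun q => τ (fg x y hx hy q)) (fun v => o (bxf x y hx hy v))) := by
  classical
  obtain ⟨T, k0, -, hT2, hT3, hT4⟩ := (st_hbox M R par).ex
  refine ⟨((univ.filter (fun g => T g = 0)).card : ℝ), ?_, ?_⟩
  · have : 0 < (univ.filter (fun g => T g = 0)).card :=
      Finset.card_pos.2 ⟨0, Finset.mem_filter.2 ⟨Finset.mem_univ _, map_zero T⟩⟩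
    exact_mod_cast this
  intro m r x y hx hy hm hr f hf
  have hemb := st_emb.1 m r M R x y par hx hy
  have h1 := t3_fiber T k0 (fun k => phi c m r (par + x + y) f (fun e => k (bxg x y hx hy e)) *
    (boxNet M R).W6 (wc c) k) (by
      intro k hk
      have hW : (boxNet M R).W6 (wc c) k ≠ 0 := right_ne_zero_of_mul hk
      unfold Net.W6 at hW
      rw [Finset.prod_ne_zero_iff] at hW
      refine hT4 k (fun v => ?_) trivial
      exact t3_ev (w6_ice (hW v (Finset.mem_univ v))))
  unfold Net.ar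
  rw [← h1]
  have h2 : ∀ g : (FB M R → ZMod 2) × (FB M R → ZMod 2),
      phi c m r (par + x + y) f (fun e => (T g + k0) (bxg x y hx hy e)) *
        (boxNet M R).W6 (wc c) (T g + k0) =
      1 / 2 * ∑ s : ZMod 2, ∑ o : Fin M × Fin R → Bool,
        (∏ v, Ub c ((boxD M R par).al g.1 v) ((boxD M R par).be g.2 v) (o v)) *
          f (fun q => decide (g.1 (fg x y hx hy q) + s = 0)) (fun v => o (bxf x y hx hy v)) := by
    intro g
    have ha : ∀ v, aE (boxNet m r) (pty (par + x + y))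
        (fun e => (T g + k0) (bxg x y hx hy e)) v =
        (boxD M R par).al g.1 (bxf x y hx hy v) := by
      intro v
      rw [(box_par x y hx hy par (T g + k0) v).1]
      exact ((hT3 g _).1).symm
    have hb : ∀ v, aO (boxNet m r) (pty (par + x + y))
        (fun e => (T g + k0) (bxg x y hx hy e)) v =
        (boxD M R par).be g.2 (bxf x y hx hy v) := by
      intro v
      rw [(box_par x y hx hy par (T g + k0) v).2]
      exact ((hT3 g _).2).symm
    have hW : (boxNet M R).W6 (wc c) (T g + k0) =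
        ∏ v, wd c 0 ((boxD M R par).al g.1 v) ((boxD M R par).be g.2 v) := by
      unfold Net.W6
      refine Finset.prod_congr rfl fun v _ => ?_
      rw [(hT3 g v).1, (hT3 g v).2, t3_w6 c (pty par v) _ _ _ _ (hT2 g v)]
      rfl
    rw [phi_eq hm hr hf (p := fun q => g.1 (fg x y hx hy q)) (fun v => by
      rw [emb_al hemb, ha]), hW]
    simp only [ha, hb]
    rw [← sum_ext (bxf x y hx hy) hemb.hf
      (fun v b => kpb c ((boxD M R par).al g.1 v) ((boxD M R par).be g.2 v) b)
      (fun v => kpb_sum _ _ _) (fun o => Av f (fun q => g.1 (fg x y hx hy q)) o)]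
    unfold Av
    rw [Finset.sum_mul, Finset.sum_comm, Finset.mul_sum]
    refine Finset.sum_congr rfl fun o _ => ?_
    have e1 : (∏ v, kpb c ((boxD M R par).al g.1 v) ((boxD M R par).be g.2 v) (o v)) *
        ∏ v, wd c 0 ((boxD M R par).al g.1 v) ((boxD M R par).be g.2 v) =
        ∏ v, Ub c ((boxD M R par).al g.1 v) ((boxD M R par).be g.2 v) (o v) := by
      rw [← Finset.prod_mul_distrib]
      exact Finset.prod_congr rfl fun v _ => by rw [mul_comm]; exact kpb_mul hc _ _ _
    rw [← e1, ← Finset.mul_sum]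
    ring
  rw [Finset.sum_congr rfl fun g _ => h2 g, ← Finset.mul_sum, Finset.sum_comm]
  have h3 : ∀ s : ZMod 2, ∑ g : (FB M R → ZMod 2) × (FB M R → ZMod 2),
      ∑ o : Fin M × Fin R → Bool,
        (∏ v, Ub c ((boxD M R par).al g.1 v) ((boxD M R par).be g.2 v) (o v)) *
          f (fun q => decide (g.1 (fg x y hx hy q) + s = 0)) (fun v => o (bxf x y hx hy v)) =
      Bx c M R par (fun τ o => f (fun q => τ (fg x y hx hy q))
        (fun v => o (bxf x y hx hy v))) := by
    intro s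
    rw [← Bx_shift c M R par _ s, Fintype.sum_prod_type]
  rw [Finset.sum_congr rfl fun s _ => h3 s, Finset.sum_const]
  have h4 : (univ : Finset (ZMod 2)).card = 2 := rfl
  rw [h4]
  simp only [nsmul_eq_mul]
  push_cast
  ring

lemma phi_one (c : ℝ) (m r : ℕ) (par : ZMod 2) (x : BE m r → ZMod 2) :
    phi c m r par (fun _ _ => 1) x = 1 := by
  unfold phi Av
  have h1 : ∀ o : Fin m × Fin r → Bool,
      (∏ v, kpb c (aE (boxNet m r) (pty par) x v) (aO (boxNet m r) (pty par) x v) (o v)) *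
        (1 / 2 * ∑ _s : ZMod 2, (1 : ℝ)) =
      ∏ v, kpb c (aE (boxNet m r) (pty par) x v) (aO (boxNet m r) (pty par) x v) (o v) := by
    intro o
    have h4 : (univ : Finset (ZMod 2)).card = 2 := rfl
    rw [Finset.sum_const, h4]
    norm_num
  rw [Finset.sum_congr rfl fun o _ => h1 o, ← Fintype.prod_sum]
  exact Finset.prod_eq_one fun v _ => kpb_sum _ _ _

lemma mono3_emb {V F V' F' : Type} {D : DG V F} {D' : DG V' F'} {ι : V → V'} {g : F → F'}
    {R : F → Prop} (h : Emb D D' ι g R) {f : (F → Bool) → (V → Bool) → ℝ} (hf : Mono3 D f) :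
    Mono3 D' (fun τ o => f (fun q => τ (g q)) (fun v => o (ι v))) := by
  intro τ τ' o o' h1 h2 h3
  refine hf _ _ _ _ (fun q => h1 (g q)) (fun v q hq => ?_) (fun v q hq => ?_)
  · exact h2 (ι v) (g q) (by rw [h.hx, hq]; rfl)
  · exact h3 (ι v) (g q) (by rw [h.hx, hq]; rfl)

/-- Association in a window of a box with free arrows. -/
lemma box_asc {c : ℝ} (hc : 1 ≤ c) {m r M R : ℕ} (hm : 1 ≤ m) (hr : 1 ≤ r) (x y : ℕ)
    (hx : x + m ≤ M) (hy : y + r ≤ R) (par : ZMod 2)
    {f g : (FB m r → Bool) → (Fin m × Fin r → Bool) → ℝ}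
    (hf : EvL par f) (hg : EvL par g) (hf3 : Mono3 (boxD m r par) f)
    (hg3 : Mono3 (boxD m r par) g) :
    (boxNet M R).ar (wc c) (fun k => phi c m r par f (fun e => k (bxg x y hx hy e))) *
      (boxNet M R).ar (wc c) (fun k => phi c m r par g (fun e => k (bxg x y hx hy e))) ≤
    (boxNet M R).ar (wc c) (fun _ => 1) *
      (boxNet M R).ar (wc c)
        (fun k => phi c m r par (fun τ o => f τ o * g τ o) (fun e => k (bxg x y hx hy e))) := by
  obtain ⟨par', rfl⟩ : ∃ par', par = par' + x + y := ⟨par - x - y, by ring⟩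
  obtain ⟨ν, hν, h⟩ := box_id (c := c) (by linarith) M R par'
  have hfg : EvL (par' + x + y) (fun τ o => f τ o * g τ o) := by
    intro τ τ' o h
    show f τ o * g τ o = f τ' o * g τ' o
    rw [hf τ τ' o h, hg τ τ' o h]
  have h1 := h m r x y hx hy hm hr (fun _ _ => 1) (fun _ _ _ _ => rfl)
  have h2 := h m r x y hx hy hm hr f hf
  have h3 := h m r x y hx hy hm hr g hg
  have h4 := h m r x y hx hy hm hr _ hfg
  have hemb := st_emb.1 m r M R x y par' hx hy
  have h5 := box_assoc' hc M R par' _ _ (mono3_emb hemb hf3) (mono3_emb hemb hg3)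
  simp only [phi_one] at h1
  rw [← h2, ← h3, ← h1, ← h4] at h5
  have h6 : 0 < ν * ν := mul_pos hν hν
  refine le_of_mul_le_mul_left ?_ h6
  calc _ = ν * (boxNet M R).ar (wc c)
        (fun k => phi c m r (par' + x + y) f (fun e => k (bxg x y hx hy e))) *
      (ν * (boxNet M R).ar (wc c)
        (fun k => phi c m r (par' + x + y) g (fun e => k (bxg x y hx hy e)))) := by ring
    _ ≤ _ := h5
    _ = _ := by ring

/-! ### The limit -/

/-- Convergence of the expectations of the arrows of a window. -/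
lemma lim_ar {c : ℝ} (hb : BoxLim c) (m r : ℕ) (hm : 1 ≤ m) (hr : 1 ≤ r)
    (φ : (BE m r → ZMod 2) → ℝ) :
    Tendsto (fun q : ℕ => (boxNet (q + m + q) (q + r + q)).ar (wc c)
      (fun k => φ (fun e => k (bxg q q (by omega) (by omega) e))) /
        (boxNet (q + m + q) (q + r + q)).ar (wc c) (fun _ => 1)) atTop
      (𝓝 (mu (wc c) m r φ)) := by
  rw [Metric.tendsto_atTop]
  intro ε hε
  obtain ⟨q0, hq0⟩ := hb m r hm hr
    (fun x => φ x * (boxNet m r).W6 (wc c) x) (rg_evn m r hm hr (wc c) φ) (ε / 2) (by linarith)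
  refine ⟨q0, fun q hq => ?_⟩
  have h1 := hq0 q hq
  rw [← m_loc _ _ _ _ _ _ _ _ _ (m_emb.2.2.1 m r (q + m + q) (q + r + q) q q (by omega)
    (by omega)) φ] at h1
  rw [Real.dist_eq]
  have h5 : muI (wc c) m r (fun x => φ x * (boxNet m r).W6 (wc c) x) = mu (wc c) m r φ := rfl
  rw [h5] at h1
  linarith

lemma div_aux {A F G H : ℝ} (hA : 0 < A) (h : F * G ≤ A * H) : F / A * (G / A) ≤ H / A := by
  rw [div_mul_div_comm, div_le_div_iff₀ (mul_pos hA hA) hA]
  have := mul_le_mul_of_nonneg_right h hA.le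
  linarith

/-- Association for the infinite-volume arrow state. -/
theorem mu_asc {c : ℝ} (hc : 1 ≤ c) (hc2 : c ≤ 2) (hb : BoxLim c) {m r : ℕ} (hm : 1 ≤ m)
    (hr : 1 ≤ r) (par : ZMod 2) {f g : (FB m r → Bool) → (Fin m × Fin r → Bool) → ℝ}
    (hf : EvL par f) (hg : EvL par g) (hf3 : Mono3 (boxD m r par) f)
    (hg3 : Mono3 (boxD m r par) g) :
    mu (wc c) m r (phi c m r par f) * mu (wc c) m r (phi c m r par g) ≤
      mu (wc c) m r (phi c m r par (fun τ o => f τ o * g τ o)) := by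
  refine le_of_tendsto_of_tendsto' ((lim_ar hb m r hm hr _).mul (lim_ar hb m r hm hr _))
    (lim_ar hb m r hm hr _) (fun q => ?_)
  have h1 := box_asc hc hm hr q q (M := q + m + q) (R := q + r + q) (by omega) (by omega) par
    hf hg hf3 hg3
  have h2 : 0 ≤ (boxNet (q + m + q) (q + r + q)).ar (wc c) (fun _ => 1) := by
    unfold Net.ar
    exact Finset.sum_nonneg (fun k _ => by
      rw [one_mul]; exact rg_W6_nonneg (by linarith) hc2 _ _)
  rcases h2.eq_or_lt with h3 | h3
  · rw [← h3]; simp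
  · exact div_aux h3 h1

end Vale.Agent.P145.FB
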