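import Vale.Agent.P145.FA.Stmt
import Vale.Agent.P145.FP.Torus
import Mathlib.Probability.ProductMeasure

/-!
P145, block F-B (percolation input): the probability space.

Faces and vertices of the six-vertex lattice are indexed by `ℤ × ℤ`; the faces at the vertex `w` are
`w`, `w - (1,0)`, `w - (0,1)`, `w - (1,1)`. The even faces are the vertices of the Ashkin-Teller
lattice, the odd ones its faces, and the six-vertex vertices are its edges: the edge `w` joins the
even faces `e1 w`, `e2 w` and separates the odd faces `o1 w`, `o2 w`.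

The bond `w` is open if the odd heights differ, closed if the even heights differ; if both pairs
agree it is open with probability `t = 1 / c`. So a configuration of bonds is `o : Mk`, with
`o w = true` for open.

`JO t P` is the joint law of (arrows, bonds), `J t P` the joint law of (heights, bonds), the height
of the face `0` being `0` or `2` with probability `1 / 2`.
-/

namespace Vale.Agent.P145.FB

open Finset Filter Topology MeasureTheory
open Vale.Agent.P152 Vale.Agent.P145.FA

abbrev Pt : Type := ℤ × ℤ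

/-- Marks or bonds, indexed by the vertices of the six-vertex lattice. -/
abbrev Mk : Type := ℤ × ℤ → Bool

/-! ### The faces at a vertex -/

def e1 (w : Pt) : Pt := if Even (w.1 + w.2) then w else (w.1 - 1, w.2)
def e2 (w : Pt) : Pt := if Even (w.1 + w.2) then (w.1 - 1, w.2 - 1) else (w.1, w.2 - 1)
def o1 (w : Pt) : Pt := if Even (w.1 + w.2) then (w.1 - 1, w.2) else w
def o2 (w : Pt) : Pt := if Even (w.1 + w.2) then (w.1, w.2 - 1) else (w.1 - 1, w.2 - 1)

/-! ### Bonds -/

/-- The bonds as a function of the heights and the marks. -/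
def om (h : Hgt) (ξ : Mk) (w : Pt) : Bool :=
  !(decide (h (o1 w) = h (o2 w))) || (decide (h (e1 w) = h (e2 w)) && ξ w)

/-- The faces `w` and `w - (1,1)` have the same height. -/
def dg (a : Ori (ℤ × ℤ)) (w : Pt) : Bool := a (Sum.inl w) == a (Sum.inr (w.1, w.2 - 1))

/-- The faces `w - (1,0)` and `w - (0,1)` have the same height. -/
def ag (a : Ori (ℤ × ℤ)) (w : Pt) : Bool := a (Sum.inl w) != a (Sum.inr w)

/-- The even faces at `w` have the same height. -/
def ev (a : Ori (ℤ × ℤ)) (w : Pt) : Bool := if Even (w.1 + w.2) then dg a w else ag a w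

/-- The odd faces at `w` have the same height. -/
def od (a : Ori (ℤ × ℤ)) (w : Pt) : Bool := if Even (w.1 + w.2) then ag a w else dg a w

/-- The bonds as a function of the arrows and the marks. -/
def oma (a : Ori (ℤ × ℤ)) (ξ : Mk) (w : Pt) : Bool := !(od a w) || (ev a w && ξ w)

lemma dg_iff {a : Ori (ℤ × ℤ)} {h : Hgt} (hh : IsHeight a h) (w : Pt) :
    dg a w = decide (h w = h (w.1 - 1, w.2 - 1)) := by
  obtain ⟨x, y⟩ := w
  have h1 := (hh x y).1
  have h2 := (hh x (y - 1)).2
  simp only [dg] at *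
  cases h3 : a (Sum.inl (x, y)) <;> cases h4 : a (Sum.inr (x, y - 1)) <;>
    simp only [h3, h4, Bool.false_eq_true, if_false, if_true] at h1 h2 ⊢ <;> symm <;>
    simp <;> omega

lemma ag_iff {a : Ori (ℤ × ℤ)} {h : Hgt} (hh : IsHeight a h) (w : Pt) :
    ag a w = decide (h (w.1 - 1, w.2) = h (w.1, w.2 - 1)) := by
  obtain ⟨x, y⟩ := w
  have h1 := (hh x y).1
  have h2 := (hh x y).2
  simp only [ag] at *
  cases h3 : a (Sum.inl (x, y)) <;> cases h4 : a (Sum.inr (x, y)) <;>
    simp only [h3, h4, Bool.false_eq_true, if_false, if_true] at h1 h2 ⊢ <;> symm <;>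
    simp <;> omega

lemma ev_iff {a : Ori (ℤ × ℤ)} {h : Hgt} (hh : IsHeight a h) (w : Pt) :
    ev a w = decide (h (e1 w) = h (e2 w)) := by
  unfold ev e1 e2
  split_ifs
  · exact dg_iff hh w
  · exact ag_iff hh w

lemma od_iff {a : Ori (ℤ × ℤ)} {h : Hgt} (hh : IsHeight a h) (w : Pt) :
    od a w = decide (h (o1 w) = h (o2 w)) := by
  unfold od o1 o2
  split_ifs
  · exact ag_iff hh w
  · exact dg_iff hh w

lemma oma_eq_om {a : Ori (ℤ × ℤ)} {h : Hgt} (hh : IsHeight a h) (ξ : Mk) :
    oma a ξ = om h ξ := by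
  funext w
  unfold oma om
  rw [ev_iff hh, od_iff hh]

/-! ### The measures -/

/-- `t` truncated to `[0, 1]`. -/
noncomputable def cl (t : ℝ) : ℝ := max 0 (min t 1)

lemma cl_eq {t : ℝ} (h0 : 0 ≤ t) (h1 : t ≤ 1) : cl t = t := by
  unfold cl; rw [min_eq_left h1, max_eq_right h0]

lemma cl_nonneg (t : ℝ) : 0 ≤ cl t := le_max_left _ _

lemma cl_le (t : ℝ) : cl t ≤ 1 := max_le zero_le_one (min_le_right _ _)

/-- Bernoulli measure. -/
noncomputable def bern (t : ℝ) : Measure Bool :=
  ENNReal.ofReal (cl t) • Measure.dirac true + ENNReal.ofReal (1 - cl t) • Measure.dirac false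

instance (t : ℝ) : IsProbabilityMeasure (bern t) := by
  constructor
  simp only [bern, Measure.coe_add, Measure.coe_smul, Pi.add_apply, Pi.smul_apply, smul_eq_mul,
    measure_univ, mul_one]
  rw [← ENNReal.ofReal_add (cl_nonneg t) (by linarith [cl_le t])]
  simp

lemma bern_real (t : ℝ) (T : Set Bool) [Decidable (true ∈ T)] [Decidable (false ∈ T)] :
    (bern t).real T = (if true ∈ T then cl t else 0) + (if false ∈ T then 1 - cl t else 0) := by
  have hT : MeasurableSet T := by measurability
  have h1 : bern t T = ENNReal.ofReal (cl t) * Measure.dirac true T +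
      ENNReal.ofReal (1 - cl t) * Measure.dirac false T := by
    simp [bern]
  rw [Measure.real, h1, Measure.dirac_apply' _ hT, Measure.dirac_apply' _ hT]
  by_cases ht : true ∈ T <;> by_cases hf : false ∈ T <;>
    simp [ht, hf, cl_nonneg, cl_le, ENNReal.toReal_add]

/-- The law of the marks. -/
noncomputable def mkm (t : ℝ) : Measure Mk := Measure.infinitePi fun _ : ℤ × ℤ => bern t

instance (t : ℝ) : IsProbabilityMeasure (mkm t) := by unfold mkm; infer_instance

/-- Joint law of the arrows and the bonds. -/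
noncomputable def JO (t : ℝ) (P : Measure (Ori (ℤ × ℤ))) : Measure (Ori (ℤ × ℤ) × Mk) :=
  (P.prod (mkm t)).map fun x => (x.1, oma x.1 x.2)

/-- Heights with base value `2 k` at the face `0`. -/
noncomputable def hk (k : ℤ) (x : Ori (ℤ × ℤ) × Mk) : Hgt × Mk := (fun q => pth x.1 q + 2 * k, x.2)

/-- Joint law of the heights and the bonds. -/
noncomputable def J (t : ℝ) (P : Measure (Ori (ℤ × ℤ))) : Measure (Hgt × Mk) :=
  (2 : ENNReal)⁻¹ • (JO t P).map (hk 0) + (2 : ENNReal)⁻¹ • (JO t P).map (hk 1)

/-! ### The fine lattice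

The points with two even coordinates are the vertices of the Ashkin-Teller lattice, the points with
two odd coordinates its faces and the other points its edges. -/

/-- The face of the six-vertex lattice at the point `p`, `p.1 + p.2` even. -/
def fc (p : Pt) : Pt := ((p.1 + p.2) / 2, (p.1 - p.2) / 2)

/-- The vertex of the six-vertex lattice at the point `p`, `p.1 + p.2` odd. -/
def vx (p : Pt) : Pt := ((p.1 + p.2 + 1) / 2, (p.1 - p.2 + 1) / 2)

/-- The open bonds with spin plus, as a subset of the fine lattice. -/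
def SP (x : Hgt × Mk) : Set Pt :=
  {p | (Even p.1 ∧ Even p.2 ∧ x.1 (fc p) % 4 = 0) ∨
    (Odd (p.1 + p.2) ∧ x.2 (vx p) = true ∧ x.1 (e1 (vx p)) % 4 = 0)}

/-! ### Measurability -/

lemma measurable_oma_apply (w : Pt) :
    Measurable fun x : Ori (ℤ × ℤ) × Mk => oma x.1 x.2 w := by
  have h1 : Measurable fun x : Ori (ℤ × ℤ) × Mk =>
      (x.1 (Sum.inl w), x.1 (Sum.inr w), x.1 (Sum.inr (w.1, w.2 - 1)), x.2 w) := by
    refine ((measurable_pi_apply _).comp measurable_fst).prodMk
      (((measurable_pi_apply _).comp measurable_fst).prodMk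
        (((measurable_pi_apply _).comp measurable_fst).prodMk
          ((measurable_pi_apply _).comp measurable_snd)))
  by_cases hw : Even (w.1 + w.2)
  · have h2 : (fun x : Ori (ℤ × ℤ) × Mk => oma x.1 x.2 w) =
        (fun y : Bool × Bool × Bool × Bool => !(y.1 != y.2.1) || ((y.1 == y.2.2.1) && y.2.2.2)) ∘
        fun x => (x.1 (Sum.inl w), x.1 (Sum.inr w), x.1 (Sum.inr (w.1, w.2 - 1)), x.2 w) := by
      funext x
      simp [oma, ev, od, ag, dg, hw]
    rw [h2]
    exact (measurable_of_finite _).comp h1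
  · have h2 : (fun x : Ori (ℤ × ℤ) × Mk => oma x.1 x.2 w) =
        (fun y : Bool × Bool × Bool × Bool => !(y.1 == y.2.2.1) || ((y.1 != y.2.1) && y.2.2.2)) ∘
        fun x => (x.1 (Sum.inl w), x.1 (Sum.inr w), x.1 (Sum.inr (w.1, w.2 - 1)), x.2 w) := by
      funext x
      simp [oma, ev, od, ag, dg, hw]
    rw [h2]
    exact (measurable_of_finite _).comp h1

lemma measurable_oma :
    Measurable fun x : Ori (ℤ × ℤ) × Mk => (x.1, oma x.1 x.2) :=
  measurable_fst.prodMk (measurable_pi_lambda _ fun w => measurable_oma_apply w)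

lemma measurable_pth_apply (q : ℤ × ℤ) : Measurable fun a : Ori (ℤ × ℤ) => pth a q := by
  have h1 : ∀ e : Edge (ℤ × ℤ), Measurable fun a : Ori (ℤ × ℤ) => sgb (a e) := fun e =>
    (measurable_of_finite sgb).comp (measurable_pi_apply e)
  unfold pth anti
  exact ((Finset.measurable_sum _ fun i _ => h1 _).sub (Finset.measurable_sum _ fun i _ => h1 _)).sub
    ((Finset.measurable_sum _ fun i _ => h1 _).sub (Finset.measurable_sum _ fun i _ => h1 _))

lemma measurable_hk (k : ℤ) : Measurable (hk k) :=
  (measurable_pi_lambda _ fun q =>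
    ((measurable_pth_apply q).comp measurable_fst).add measurable_const).prodMk measurable_snd

instance JO_prob (t : ℝ) (P : Measure (Ori (ℤ × ℤ))) [IsProbabilityMeasure P] :
    IsProbabilityMeasure (JO t P) :=
  Measure.isProbabilityMeasure_map measurable_oma.aemeasurable

instance J_prob (t : ℝ) (P : Measure (Ori (ℤ × ℤ))) [IsProbabilityMeasure P] :
    IsProbabilityMeasure (J t P) := by
  have h0 : IsProbabilityMeasure ((JO t P).map (hk 0)) :=
    Measure.isProbabilityMeasure_map (measurable_hk 0).aemeasurable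
  have h1 : IsProbabilityMeasure ((JO t P).map (hk 1)) :=
    Measure.isProbabilityMeasure_map (measurable_hk 1).aemeasurable
  constructor
  simp only [J, Measure.coe_add, Measure.coe_smul, Pi.add_apply, Pi.smul_apply, smul_eq_mul,
    measure_univ, mul_one]
  exact ENNReal.inv_two_add_inv_two

/-! ### Cylinder probabilities -/

/-- Conditional probability, given the arrows, that the bond `w` is in the state `b`. -/
noncomputable def kap (t : ℝ) (a : Ori (ℤ × ℤ)) (w : Pt) (b : Bool) : ℝ :=
  if od a w = true then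
    if ev a w = true then (if b = true then t else 1 - t) else (if b = true then 0 else 1)
  else (if b = true then 1 else 0)

/-- Cylinders of arrows and bonds. -/
def cylO (E : Finset (Edge (ℤ × ℤ))) (W : Finset Pt) (a : Ori (ℤ × ℤ)) (o : Mk) :
    Set (Ori (ℤ × ℤ) × Mk) :=
  {x | (∀ e ∈ E, x.1 e = a e) ∧ ∀ w ∈ W, x.2 w = o w}

lemma evod_congr {a a' : Ori (ℤ × ℤ)} {w : Pt} (h : ∀ e ∈ FP.star w, a e = a' e) :
    ev a w = ev a' w ∧ od a w = od a' w := by
  have h1 := h (Sum.inl w) (by simp [FP.star])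
  have h2 := h (Sum.inr w) (by simp [FP.star])
  have h3 := h (Sum.inr (w.1, w.2 - 1)) (by simp [FP.star])
  simp [ev, od, dg, ag, h1, h2, h3]

lemma kap_congr {t : ℝ} {a a' : Ori (ℤ × ℤ)} {w : Pt} (h : ∀ e ∈ FP.star w, a e = a' e) (b : Bool) :
    kap t a w b = kap t a' w b := by
  unfold kap
  rw [(evod_congr h).1, (evod_congr h).2]

theorem JO_cyl {t : ℝ} (ht0 : 0 ≤ t) (ht1 : t ≤ 1) (P : Measure (Ori (ℤ × ℤ)))
    [IsProbabilityMeasure P] {E : Finset (Edge (ℤ × ℤ))} {W : Finset Pt}
    (hE : ∀ w ∈ W, FP.star w ⊆ E) (a : Ori (ℤ × ℤ)) (o : Mk) :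
    (JO t P).real (cylO E W a o) = P.real (cyl E a) * ∏ w ∈ W, kap t a w (o w) := by
  classical
  have hmc : MeasurableSet (cylO E W a o) := by
    have h1 : cylO E W a o = (⋂ e ∈ E, (fun x : Ori (ℤ × ℤ) × Mk => x.1 e) ⁻¹' {a e}) ∩
        ⋂ w ∈ W, (fun x : Ori (ℤ × ℤ) × Mk => x.2 w) ⁻¹' {o w} := by
      ext x; simp [cylO]
    rw [h1]
    refine MeasurableSet.inter (Finset.measurableSet_biInter _ fun e _ => ?_)
      (Finset.measurableSet_biInter _ fun w _ => ?_)
    · exact ((measurable_pi_apply e).comp measurable_fst) (measurableSet_singleton _)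
    · exact ((measurable_pi_apply w).comp measurable_snd) (measurableSet_singleton _)
  have h1 : (fun x : Ori (ℤ × ℤ) × Mk => (x.1, oma x.1 x.2)) ⁻¹' (cylO E W a o) =
      (cyl E a) ×ˢ (Set.pi (W : Set Pt) fun w => {b | (!(od a w) || (ev a w && b)) = o w}) := by
    ext x
    simp only [cylO, Set.mem_preimage, Set.mem_ofPred_eq, Set.mem_prod, cyl, Set.mem_pi,
      Finset.mem_coe]
    refine and_congr_right fun hx => forall₂_congr fun w hw => ?_
    have h2 := evod_congr (a := x.1) (a' := a) (w := w) fun e he => hx e (hE w hw he)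
    rw [oma, h2.1, h2.2]
  rw [JO, Measure.real, Measure.map_apply measurable_oma hmc, h1, Measure.prod_prod,
    ENNReal.toReal_mul]
  congr 1
  rw [mkm, Measure.infinitePi_pi _ (fun w _ => by measurability), ENNReal.toReal_prod]
  refine Finset.prod_congr rfl fun w _ => ?_
  have h3 := bern_real t {b | (!(od a w) || (ev a w && b)) = o w}
  rw [Measure.real] at h3
  rw [h3, cl_eq ht0 ht1]
  unfold kap
  cases h4 : od a w <;> cases h5 : ev a w <;> cases h6 : o w <;> simp

end Vale.Agent.P145.FB
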