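import Vale.Agent.P145.FB.AsPa
import Vale.Agent.P145.FB.Space

/-!
P145, block F-B, (A): plane expectations of window observables of the heights and the bonds as
arrow expectations.
-/

set_option autoImplicit false

namespace Vale.Agent.P145.FB

open Finset Filter Topology MeasureTheory
open Vale.Agent.P152
open Vale.Agent.P152.GFF.B3 (BE boxNet mu rd IsP)
open Vale.Agent.P152.GFF.E2 (DG FB boxD fSW fSE fNW fNE pty aE aO)
open Vale.Agent.P145.FA (Hgt)

/-! ### Plane coordinates of a window -/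

/-- The plane vertex of the vertex `v` of the window. -/
def pcv {m r : ℕ} (x0 y0 : ℤ) (v : Fin m × Fin r) : Pt := (x0 + (v.1.val : ℤ), y0 + (v.2.val : ℤ))

/-- The plane face of the face `q` of the window. -/
def pcf {m r : ℕ} (x0 y0 : ℤ) (q : FB m r) : Pt :=
  (x0 - 1 + (q.1.val : ℤ), y0 - 1 + (q.2.val : ℤ))

lemma pcv_inj {m r : ℕ} (x0 y0 : ℤ) : Function.Injective (pcv (m := m) (r := r) x0 y0) := by
  rintro ⟨i, j⟩ ⟨i', j'⟩ h
  simp only [pcv, Prod.mk.injEq] at h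
  ext
  · show i.val = i'.val; omega
  · show j.val = j'.val; omega

lemma pc_pty {m r : ℕ} (x0 y0 : ℤ) (v : Fin m × Fin r) :
    pty ((x0 + y0 : ℤ) : ZMod 2) v = 0 ↔ Even ((pcv x0 y0 v).1 + (pcv x0 y0 v).2) := by
  have h1 : pty ((x0 + y0 : ℤ) : ZMod 2) v =
      (((pcv x0 y0 v).1 + (pcv x0 y0 v).2 : ℤ) : ZMod 2) := by
    simp only [pty, pcv]
    push_cast
    ring
  rw [h1, ZMod.intCast_eq_zero_iff_even]

lemma pc_evf {m r : ℕ} (x0 y0 : ℤ) (q : FB m r) :
    Evf ((x0 + y0 : ℤ) : ZMod 2) q ↔ Even ((pcf x0 y0 q).1 + (pcf x0 y0 q).2) := by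
  have h1 : (((pcf x0 y0 q).1 + (pcf x0 y0 q).2 : ℤ) : ZMod 2) =
      (q.1.val : ZMod 2) + q.2.val + ((x0 + y0 : ℤ) : ZMod 2) := by
    simp only [pcf]
    push_cast
    have h2 : (1 : ZMod 2) + 1 = 0 := by decide
    linear_combination (-1 : ZMod 2) * h2
  unfold Evf
  rw [← h1, ZMod.intCast_eq_zero_iff_even]

/-! ### Arrows, heights and bonds at a vertex -/

lemma pc_rd {m r : ℕ} (x0 y0 : ℤ) (a : Ori (ℤ × ℤ)) (v : Fin m × Fin r) :
    rd m r x0 y0 a ((boxNet m r).l v) =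
      (if a (Sum.inl ((pcv x0 y0 v).1 - 1, (pcv x0 y0 v).2)) = true then 0 else 1) ∧
    rd m r x0 y0 a ((boxNet m r).b v) =
      (if a (Sum.inr ((pcv x0 y0 v).1, (pcv x0 y0 v).2 - 1)) = true then 0 else 1) ∧
    rd m r x0 y0 a ((boxNet m r).a v) =
      (if a (Sum.inr (pcv x0 y0 v)) = true then 0 else 1) := by
  refine ⟨rfl, rfl, ?_⟩
  show (if a (Sum.inr (x0 + (v.1.val : ℤ), y0 + ((v.2.succ.val : ℕ) : ℤ) - 1)) = true then _
    else _) = _
  have h1 : (x0 + (v.1.val : ℤ), y0 + ((v.2.succ.val : ℕ) : ℤ) - 1) = pcv x0 y0 v := by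
    simp only [pcv, Fin.val_succ]
    push_cast
    rw [Prod.mk.injEq]
    exact ⟨rfl, by ring⟩
  rw [h1]

lemma pc_aE {m r : ℕ} (x0 y0 : ℤ) {a : Ori (ℤ × ℤ)} (hi : ∀ x y, Ice a x y)
    (v : Fin m × Fin r) :
    aE (boxNet m r) (pty ((x0 + y0 : ℤ) : ZMod 2)) (rd m r x0 y0 a) v =
      if ev a (pcv x0 y0 v) = true then 0 else 1 := by
  obtain ⟨h1, h2, h3⟩ := pc_rd x0 y0 a v
  have h4 := hi (pcv x0 y0 v).1 (pcv x0 y0 v).2
  unfold aE ev dg ag
  unfold Ice at h4
  rw [h1, h2, h3]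
  simp only [Prod.mk.eta] at h4
  by_cases hp : Even ((pcv x0 y0 v).1 + (pcv x0 y0 v).2)
  · rw [if_pos ((pc_pty x0 y0 v).2 hp), if_pos hp]
    cases e1 : a (Sum.inl ((pcv x0 y0 v).1 - 1, (pcv x0 y0 v).2)) <;>
    cases e2 : a (Sum.inr ((pcv x0 y0 v).1, (pcv x0 y0 v).2 - 1)) <;>
    cases e3 : a (Sum.inr (pcv x0 y0 v)) <;>
    cases e4 : a (Sum.inl (pcv x0 y0 v)) <;>
    simp [e1, e2, e3, e4] at h4 ⊢ <;> decide
  · rw [if_neg (fun h => hp ((pc_pty x0 y0 v).1 h)), if_neg hp]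
    cases e1 : a (Sum.inl ((pcv x0 y0 v).1 - 1, (pcv x0 y0 v).2)) <;>
    cases e2 : a (Sum.inr ((pcv x0 y0 v).1, (pcv x0 y0 v).2 - 1)) <;>
    cases e3 : a (Sum.inr (pcv x0 y0 v)) <;>
    cases e4 : a (Sum.inl (pcv x0 y0 v)) <;>
    simp [e1, e2, e3, e4] at h4 ⊢ <;> decide

lemma pc_aO {m r : ℕ} (x0 y0 : ℤ) {a : Ori (ℤ × ℤ)} (hi : ∀ x y, Ice a x y)
    (v : Fin m × Fin r) :
    aO (boxNet m r) (pty ((x0 + y0 : ℤ) : ZMod 2)) (rd m r x0 y0 a) v =
      if od a (pcv x0 y0 v) = true then 0 else 1 := by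
  obtain ⟨h1, h2, h3⟩ := pc_rd x0 y0 a v
  have h4 := hi (pcv x0 y0 v).1 (pcv x0 y0 v).2
  unfold aO od dg ag
  unfold Ice at h4
  rw [h1, h2, h3]
  simp only [Prod.mk.eta] at h4
  by_cases hp : Even ((pcv x0 y0 v).1 + (pcv x0 y0 v).2)
  · rw [if_pos ((pc_pty x0 y0 v).2 hp), if_pos hp]
    cases e1 : a (Sum.inl ((pcv x0 y0 v).1 - 1, (pcv x0 y0 v).2)) <;>
    cases e2 : a (Sum.inr ((pcv x0 y0 v).1, (pcv x0 y0 v).2 - 1)) <;>
    cases e3 : a (Sum.inr (pcv x0 y0 v)) <;>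
    cases e4 : a (Sum.inl (pcv x0 y0 v)) <;>
    simp [e1, e2, e3, e4] at h4 ⊢ <;> decide
  · rw [if_neg (fun h => hp ((pc_pty x0 y0 v).1 h)), if_neg hp]
    cases e1 : a (Sum.inl ((pcv x0 y0 v).1 - 1, (pcv x0 y0 v).2)) <;>
    cases e2 : a (Sum.inr ((pcv x0 y0 v).1, (pcv x0 y0 v).2 - 1)) <;>
    cases e3 : a (Sum.inr (pcv x0 y0 v)) <;>
    cases e4 : a (Sum.inl (pcv x0 y0 v)) <;>
    simp [e1, e2, e3, e4] at h4 ⊢ <;> decide

lemma pc_antip (g : ℤ → ℤ) (hg : ∀ n, (2 : ℤ) ∣ g n - 1) (n : ℤ) : (2 : ℤ) ∣ anti g n - n := by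
  induction n using Int.induction_on with
  | zero => rw [anti_zero]; norm_num
  | succ i ih =>
    have h1 := anti_step g (i + 1)
    rw [add_sub_cancel_right] at h1
    have h2 := hg (i + 1)
    omega
  | pred i ih =>
    have h1 := anti_step g (-i)
    have h2 := hg (-i)
    omega

lemma pc_sgb (x : Bool) : (2 : ℤ) ∣ sgb x - 1 := by cases x <;> decide

lemma pc_parity (ω : Ori (ℤ × ℤ)) (q : ℤ × ℤ) : (2 : ℤ) ∣ pth ω q - (q.1 + q.2) := by
  have h1 := pc_antip (fun j => sgb (ω (Sum.inl (0, j)))) (fun n => pc_sgb _) q.2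
  have h2 := pc_antip (fun i => sgb (ω (Sum.inr (i, q.2)))) (fun n => pc_sgb _) q.1
  unfold pth
  omega

/-- Spins of the even faces of the window, from the heights. -/
noncomputable def pcp (m r : ℕ) (x0 y0 : ℤ) (a : Ori (ℤ × ℤ)) (q : FB m r) : ZMod 2 :=
  ((pth a (pcf x0 y0 q) / 2 : ℤ) : ZMod 2)

lemma pc_half {h1 h2 : ℤ} (he1 : (2 : ℤ) ∣ h1) (he2 : (2 : ℤ) ∣ h2)
    (hd : h1 - h2 = 0 ∨ h1 - h2 = 2 ∨ h1 - h2 = -2) :
    (((h1 / 2 : ℤ) : ZMod 2) + ((h2 / 2 : ℤ) : ZMod 2)) =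
      if decide (h1 = h2) = true then 0 else 1 := by
  obtain ⟨k1, rfl⟩ := he1
  obtain ⟨k2, rfl⟩ := he2
  rw [Int.mul_ediv_cancel_left _ (by norm_num), Int.mul_ediv_cancel_left _ (by norm_num)]
  have z1 : (k2 : ZMod 2) + k2 = 0 := by
    have : ∀ a : ZMod 2, a + a = 0 := by decide
    exact this _
  rcases hd with hd | hd | hd
  · have : k1 = k2 := by omega
    subst this
    rw [decide_eq_true rfl, if_pos rfl]
    exact z1
  · have h3 : k1 = k2 + 1 := by omega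
    subst h3
    rw [decide_eq_false (by omega), if_neg (by decide)]
    push_cast
    linear_combination z1
  · have h3 : k1 = k2 - 1 := by omega
    subst h3
    rw [decide_eq_false (by omega), if_neg (by decide)]
    push_cast
    have h2 : (1 : ZMod 2) + 1 = 0 := by decide
    linear_combination z1 - h2

lemma pc_diff {a : Ori (ℤ × ℤ)} {h : Hgt} (hh : IsHeight a h) (x y : ℤ) :
    (h (x, y) - h (x - 1, y - 1) = 0 ∨ h (x, y) - h (x - 1, y - 1) = 2 ∨
      h (x, y) - h (x - 1, y - 1) = -2) ∧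
    (h (x, y - 1) - h (x - 1, y) = 0 ∨ h (x, y - 1) - h (x - 1, y) = 2 ∨
      h (x, y - 1) - h (x - 1, y) = -2) := by
  have h1 := (hh x y).1
  have h2 := (hh x y).2
  have h3 := (hh (x - 1) y).1
  cases e1 : a (Sum.inl (x, y)) <;> cases e2 : a (Sum.inr (x, y)) <;>
    cases e3 : a (Sum.inl (x - 1, y)) <;>
    simp only [e1, e2, e3, if_true, if_false, Bool.false_eq_true] at h1 h2 h3 <;>
    omega

lemma pc_al {m r : ℕ} (x0 y0 : ℤ) {a : Ori (ℤ × ℤ)} (hi : ∀ x y, Ice a x y)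
    (v : Fin m × Fin r) :
    (boxD m r ((x0 + y0 : ℤ) : ZMod 2)).al (pcp m r x0 y0 a) v =
      if ev a (pcv x0 y0 v) = true then 0 else 1 := by
  have hh := pth_isHeight hi
  set w := pcv x0 y0 v with hw
  obtain ⟨d1, d2⟩ := pc_diff hh w.1 w.2
  have fSWe : pcf x0 y0 (fSW v) = (w.1 - 1, w.2 - 1) := by
    rw [hw]; simp only [pcf, pcv, fSW, Fin.val_castSucc]
    rw [Prod.mk.injEq]; constructor <;> ring
  have fNEe : pcf x0 y0 (fNE v) = (w.1, w.2) := by
    rw [hw]; simp only [pcf, pcv, fNE, Fin.val_succ]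
    push_cast
    rw [Prod.mk.injEq]; constructor <;> ring
  have fSEe : pcf x0 y0 (fSE v) = (w.1, w.2 - 1) := by
    rw [hw]; simp only [pcf, pcv, fSE, Fin.val_succ, Fin.val_castSucc]
    push_cast
    rw [Prod.mk.injEq]; constructor <;> ring
  have fNWe : pcf x0 y0 (fNW v) = (w.1 - 1, w.2) := by
    rw [hw]; simp only [pcf, pcv, fNW, Fin.val_succ, Fin.val_castSucc]
    push_cast
    rw [Prod.mk.injEq]; constructor <;> ring
  rw [ev_iff hh]
  unfold DG.al boxD e1 e2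
  by_cases hp : Even (w.1 + w.2)
  · obtain ⟨k, hk⟩ := hp
    simp only [if_pos ((pc_pty x0 y0 v).2 ⟨k, hk⟩), if_pos (show Even (w.1 + w.2) from ⟨k, hk⟩)]
    simp only [Bool.false_eq_true, if_false, if_true, Vale.Agent.P152.GFF.E2.ev, Option.elim, pcp,
      fSWe, fNEe]
    have p1 := pc_parity a (w.1, w.2)
    have p2 := pc_parity a (w.1 - 1, w.2 - 1)
    simp only at p1 p2
    rw [add_comm]
    exact pc_half (by omega) (by omega) d1
  · have hp' : ¬ pty ((x0 + y0 : ℤ) : ZMod 2) v = 0 := fun h => hp ((pc_pty x0 y0 v).1 h)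
    simp only [if_neg hp', if_neg hp]
    simp only [Bool.false_eq_true, if_false, if_true, Vale.Agent.P152.GFF.E2.ev, Option.elim, pcp,
      fSEe, fNWe]
    rw [Int.not_even_iff_odd] at hp
    obtain ⟨k, hk⟩ := hp
    have p1 := pc_parity a (w.1, w.2 - 1)
    have p2 := pc_parity a (w.1 - 1, w.2)
    simp only at p1 p2
    rw [pc_half (by omega) (by omega) d2]
    simp only [decide_eq_true_eq, eq_comm]

lemma pc_kpb {m r : ℕ} (c : ℝ) (x0 y0 : ℤ) {a : Ori (ℤ × ℤ)} (hi : ∀ x y, Ice a x y)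
    (v : Fin m × Fin r) (b : Bool) :
    kpb c (aE (boxNet m r) (pty ((x0 + y0 : ℤ) : ZMod 2)) (rd m r x0 y0 a) v)
      (aO (boxNet m r) (pty ((x0 + y0 : ℤ) : ZMod 2)) (rd m r x0 y0 a) v) b =
      kap (1 / c) a (pcv x0 y0 v) b := by
  rw [pc_aE x0 y0 hi, pc_aO x0 y0 hi]
  unfold kpb kap
  cases ev a (pcv x0 y0 v) <;> cases od a (pcv x0 y0 v) <;> simp

/-! ### Spins -/

lemma pc_spin {h : ℤ} (he : (2 : ℤ) ∣ h) (k : ℤ) :
    decide ((h + 2 * k) % 4 = 0) = decide (((h / 2 : ℤ) : ZMod 2) + (k : ZMod 2) = 0) := by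
  obtain ⟨j, rfl⟩ := he
  rw [Int.mul_ediv_cancel_left _ (by norm_num)]
  congr 1
  rw [← Int.cast_add, ZMod.intCast_eq_zero_iff_even, eq_iff_iff]
  constructor
  · intro h
    exact ⟨(j + k) / 2, by omega⟩
  · rintro ⟨l, hl⟩
    omega

lemma pc_Av {m r : ℕ} (x0 y0 : ℤ) (a : Ori (ℤ × ℤ))
    {f : (FB m r → Bool) → (Fin m × Fin r → Bool) → ℝ} (hf : EvL ((x0 + y0 : ℤ) : ZMod 2) f)
    (o : Fin m × Fin r → Bool) :
    Av f (pcp m r x0 y0 a) o = 1 / 2 *
      (f (fun q => decide ((pth a (pcf x0 y0 q) + 2 * 0) % 4 = 0)) o +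
        f (fun q => decide ((pth a (pcf x0 y0 q) + 2 * 1) % 4 = 0)) o) := by
  have h1 : ∀ k : ℤ, f (fun q => decide ((pth a (pcf x0 y0 q) + 2 * k) % 4 = 0)) o =
      f (fun q => decide (pcp m r x0 y0 a q + (k : ZMod 2) = 0)) o := by
    intro k
    refine hf _ _ _ fun q hq => ?_
    rw [pc_evf] at hq
    have hp := pc_parity a (pcf x0 y0 q)
    obtain ⟨l, hl⟩ := hq
    exact pc_spin (by omega) k
  unfold Av
  rw [h1 0, h1 1]
  congr 1
  have : (univ : Finset (ZMod 2)) = {0, 1} := by decide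
  rw [this, Finset.sum_pair (by decide)]
  simp

/-! ### Integration over the marks -/

lemma pc_mk {t : ℝ} (ht0 : 0 ≤ t) (ht1 : t ≤ 1) {ι : Type} [Fintype ι] [DecidableEq ι]
    (g : ι → Pt) (hg : Function.Injective g) (a : Ori (ℤ × ℤ)) (G : (ι → Bool) → ℝ) :
    ∫ ξ, G (fun v => oma a ξ (g v)) ∂(mkm t) = ∑ o : ι → Bool, (∏ v, kap t a (g v) (o v)) * G o := by
  classical
  have hm : Measurable fun ξ : Mk => fun v => oma a ξ (g v) :=
    measurable_pi_lambda _ fun v =>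
      (measurable_oma_apply (g v)).comp (measurable_const.prodMk measurable_id)
  have hpr : IsProbabilityMeasure ((mkm t).map fun ξ : Mk => fun v => oma a ξ (g v)) :=
    Measure.isProbabilityMeasure_map hm.aemeasurable
  rw [← integral_map (f := G) hm.aemeasurable (measurable_of_finite G).aestronglyMeasurable,
    integral_fintype (Integrable.of_finite)]
  refine Finset.sum_congr rfl fun o _ => ?_
  rw [smul_eq_mul]
  congr 1
  rw [Measure.real, Measure.map_apply hm (measurableSet_singleton _)]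
  have h1 : (fun ξ : Mk => fun v => oma a ξ (g v)) ⁻¹' {o} =
      Set.pi ((univ.image g : Finset Pt) : Set Pt) fun w =>
        {b | ∀ v, g v = w → (!(od a w) || (ev a w && b)) = o v} := by
    ext ξ
    simp only [Set.mem_preimage, Set.mem_singleton_iff, Set.mem_pi, Finset.mem_coe,
      Finset.mem_image, Finset.mem_univ, true_and, Set.mem_ofPred_eq]
    constructor
    · intro h w hw v hv
      rw [← h, ← hv]
      rfl
    · intro h
      funext v
      exact h (g v) ⟨v, rfl⟩ v rfl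
  rw [h1, mkm, Measure.infinitePi_pi _ (fun w _ => by measurability), ENNReal.toReal_prod,
    Finset.prod_image fun x _ y _ h => hg h]
  refine Finset.prod_congr rfl fun v _ => ?_
  have h2 : {b | ∀ v', g v' = g v → (!(od a (g v)) || (ev a (g v) && b)) = o v'} =
      {b | (!(od a (g v)) || (ev a (g v) && b)) = o v} := by
    ext b
    constructor
    · intro h; exact h v rfl
    · intro h v' hv'
      rw [hg hv']
      exact h
  rw [h2]
  have h3 := bern_real t {b | (!(od a (g v)) || (ev a (g v) && b)) = o v}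
  rw [Measure.real] at h3
  rw [h3, cl_eq ht0 ht1]
  unfold kap
  cases h4 : od a (g v) <;> cases h5 : ev a (g v) <;> cases h6 : o v <;> simp

/-! ### The expectation -/

lemma pc_meas {m r : ℕ} (x0 y0 : ℤ) : Measurable fun x : Hgt × Mk =>
    ((fun q : FB m r => decide (x.1 (pcf x0 y0 q) % 4 = 0)),
      (fun v : Fin m × Fin r => x.2 (pcv x0 y0 v))) := by
  refine Measurable.prodMk (measurable_pi_lambda _ fun q => ?_) (measurable_pi_lambda _ fun v => ?_)
  · exact (measurable_of_countable (fun n : ℤ => decide (n % 4 = 0))).comp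
      ((measurable_pi_apply _).comp measurable_fst)
  · exact (measurable_pi_apply _).comp measurable_snd

lemma pc_int_k {t : ℝ} (ht0 : 0 ≤ t) (ht1 : t ≤ 1) {P : Measure (Ori (ℤ × ℤ))}
    [IsProbabilityMeasure P] {m r : ℕ} (x0 y0 : ℤ)
    (f : (FB m r → Bool) → (Fin m × Fin r → Bool) → ℝ) (k : ℤ) :
    ∫ x : Hgt × Mk, f (fun q => decide (x.1 (pcf x0 y0 q) % 4 = 0))
        (fun v => x.2 (pcv x0 y0 v)) ∂((JO t P).map (hk k)) =
      ∫ a, ∑ o : Fin m × Fin r → Bool, (∏ v, kap t a (pcv x0 y0 v) (o v)) *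
        f (fun q => decide ((pth a (pcf x0 y0 q) + 2 * k) % 4 = 0)) o ∂P ∧
    Integrable (fun a => ∑ o : Fin m × Fin r → Bool, (∏ v, kap t a (pcv x0 y0 v) (o v)) *
        f (fun q => decide ((pth a (pcf x0 y0 q) + 2 * k) % 4 = 0)) o) P := by
  set Φ : Hgt × Mk → (FB m r → Bool) × (Fin m × Fin r → Bool) := fun x =>
    ((fun q => decide (x.1 (pcf x0 y0 q) % 4 = 0)), (fun v => x.2 (pcv x0 y0 v))) with hΦ
  have hΦm : Measurable Φ := pc_meas x0 y0
  set g : (FB m r → Bool) × (Fin m × Fin r → Bool) → ℝ := fun y => f y.1 y.2 with hg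
  have hgm : Measurable g := measurable_of_finite g
  set Ψ : Ori (ℤ × ℤ) × Mk → (FB m r → Bool) × (Fin m × Fin r → Bool) := fun y =>
    Φ (hk k (y.1, oma y.1 y.2)) with hΨ
  have hΨm : Measurable Ψ := hΦm.comp ((measurable_hk k).comp measurable_oma)
  have hint : Integrable (fun y => g (Ψ y)) (P.prod (mkm t)) := by
    have h1 : Integrable g ((P.prod (mkm t)).map Ψ) := by
      have : IsProbabilityMeasure ((P.prod (mkm t)).map Ψ) :=
        Measure.isProbabilityMeasure_map hΨm.aemeasurable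
      exact Integrable.of_finite
    exact h1.comp_measurable hΨm
  have hin : ∀ a, ∫ ξ, g (Ψ (a, ξ)) ∂(mkm t) =
      ∑ o : Fin m × Fin r → Bool, (∏ v, kap t a (pcv x0 y0 v) (o v)) *
        f (fun q => decide ((pth a (pcf x0 y0 q) + 2 * k) % 4 = 0)) o := by
    intro a
    exact pc_mk ht0 ht1 (pcv x0 y0) (pcv_inj x0 y0) a
      (fun o => f (fun q => decide ((pth a (pcf x0 y0 q) + 2 * k) % 4 = 0)) o)
  constructor
  · have h2 : ∫ x : Hgt × Mk, g (Φ x) ∂((JO t P).map (hk k)) =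
        ∫ y, g (Ψ y) ∂(P.prod (mkm t)) := by
      have m1 : Measurable fun x : Hgt × Mk => g (Φ x) := hgm.comp hΦm
      have m2 : Measurable fun x : Ori (ℤ × ℤ) × Mk => g (Φ (hk k x)) :=
        m1.comp (measurable_hk k)
      rw [integral_map (measurable_hk k).aemeasurable m1.aestronglyMeasurable, JO,
        integral_map measurable_oma.aemeasurable m2.aestronglyMeasurable]
    rw [show (∫ x : Hgt × Mk, f (fun q => decide (x.1 (pcf x0 y0 q) % 4 = 0))
        (fun v => x.2 (pcv x0 y0 v)) ∂((JO t P).map (hk k))) =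
        ∫ x : Hgt × Mk, g (Φ x) ∂((JO t P).map (hk k)) from rfl, h2, integral_prod _ hint]
    exact integral_congr_ae (Eventually.of_forall hin)
  · have h3 := hint.integral_prod_left
    exact h3.congr (Eventually.of_forall hin)

/-- Plane expectations of the window observables as arrow expectations. -/
theorem pl_mu {c : ℝ} (hc : 1 ≤ c) {P : Measure (Ori (ℤ × ℤ))} [IsProbabilityMeasure P]
    (hP : IsP c P) (m r : ℕ) (hm : 1 ≤ m) (hr : 1 ≤ r) (x0 y0 : ℤ)
    (f : (FB m r → Bool) → (Fin m × Fin r → Bool) → ℝ) (hf : EvL ((x0 + y0 : ℤ) : ZMod 2) f) :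
    ∫ x, f (fun q => decide (x.1 (x0 - 1 + (q.1.val : ℤ), y0 - 1 + (q.2.val : ℤ)) % 4 = 0))
        (fun v => x.2 (x0 + (v.1.val : ℤ), y0 + (v.2.val : ℤ))) ∂(J (1 / c) P) =
      mu (wc c) m r (phi c m r ((x0 + y0 : ℤ) : ZMod 2) f) := by
  have hc0 : 0 < c := by linarith
  have ht0 : 0 ≤ 1 / c := by positivity
  have ht1 : 1 / c ≤ 1 := by rw [div_le_one hc0]; exact hc
  have hsub : IsSubLimit c P := by
    obtain ⟨Q, hQ1, hQ2⟩ := hP.2.1
    exact ⟨id, strictMono_id, Q, fun i => hQ1 i, hQ2⟩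
  have hice := ice_ae hsub
  obtain ⟨e0, i0⟩ := pc_int_k ht0 ht1 (P := P) x0 y0 f 0
  obtain ⟨e1, i1⟩ := pc_int_k ht0 ht1 (P := P) x0 y0 f 1
  have hI : ∀ k : ℤ, Integrable (fun x : Hgt × Mk =>
      f (fun q => decide (x.1 (pcf x0 y0 q) % 4 = 0)) (fun v => x.2 (pcv x0 y0 v)))
      ((JO (1 / c) P).map (hk k)) := by
    intro k
    have hpk : IsProbabilityMeasure ((JO (1 / c) P).map (hk k)) :=
      Measure.isProbabilityMeasure_map (measurable_hk k).aemeasurable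
    have hp2 : IsProbabilityMeasure (((JO (1 / c) P).map (hk k)).map fun x : Hgt × Mk =>
      ((fun q : FB m r => decide (x.1 (pcf x0 y0 q) % 4 = 0)),
        (fun v : Fin m × Fin r => x.2 (pcv x0 y0 v)))) :=
      Measure.isProbabilityMeasure_map (pc_meas x0 y0).aemeasurable
    have h1 : Integrable (fun y : (FB m r → Bool) × (Fin m × Fin r → Bool) => f y.1 y.2)
      (((JO (1 / c) P).map (hk k)).map fun x : Hgt × Mk =>
      ((fun q : FB m r => decide (x.1 (pcf x0 y0 q) % 4 = 0)),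
        (fun v : Fin m × Fin r => x.2 (pcv x0 y0 v)))) := Integrable.of_finite
    exact h1.comp_measurable (pc_meas x0 y0)
  have h1 : ∫ x : Hgt × Mk, f (fun q => decide (x.1 (pcf x0 y0 q) % 4 = 0))
      (fun v => x.2 (pcv x0 y0 v)) ∂(J (1 / c) P) =
      ∫ a, phi c m r ((x0 + y0 : ℤ) : ZMod 2) f (rd m r x0 y0 a) ∂P := by
    rw [J, integral_add_measure ((hI 0).smul_measure (by simp)) ((hI 1).smul_measure (by simp)),
      integral_smul_measure, integral_smul_measure, e0, e1, ← smul_add, ← integral_add i0 i1,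
      ← integral_smul]
    refine integral_congr_ae ?_
    filter_upwards [hice] with a ha
    rw [phi_eq hm hr hf (p := pcp m r x0 y0 a) (fun v => by rw [pc_al x0 y0 ha, pc_aE x0 y0 ha])]
    rw [← Finset.sum_add_distrib, smul_eq_mul, Finset.mul_sum]
    refine Finset.sum_congr rfl fun o _ => ?_
    rw [pc_Av x0 y0 a hf, Finset.prod_congr rfl fun v _ => pc_kpb c x0 y0 ha v (o v)]
    simp only [ENNReal.toReal_inv, ENNReal.toReal_ofNat]
    ring
  rw [← hP.2.2 m r hm hr _ x0 y0]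
  exact h1

end Vale.Agent.P145.FB
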