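import Vale.Agent.P145.FB.NcA

/-!
# Deterministic geometry of crossings (the structure `Geo`)
-/

namespace Vale.Agent.P145.FB

open Vale.Agent.P153 Vale.Agent.P153.Topo

theorem rc_eq (a b c d : ℤ) : rc a b c d = Rect (2 * a) (2 * b) (2 * c) (2 * d) := rfl

theorem mem_rc {a b c d : ℤ} {z : ℤ × ℤ} :
    z ∈ rc a b c d ↔ 2 * a ≤ z.1 ∧ z.1 ≤ 2 * b ∧ 2 * c ≤ z.2 ∧ z.2 ≤ 2 * d := Iff.rfl

theorem rc_mono {a b c d a' b' c' d' : ℤ} (h1 : a' ≤ a) (h2 : b ≤ b') (h3 : c' ≤ c) (h4 : d ≤ d') :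
    rc a b c d ⊆ rc a' b' c' d' := by
  intro z hz
  rw [mem_rc] at hz ⊢
  omega

/-- Two paths of `S ∩ R` and `S ∩ R'` which meet, inside a larger rectangle. -/
theorem NC.join {S A B C : Set (ℤ × ℤ)} {x y z : ℤ × ℤ} (hA : A ⊆ C) (hB : B ⊆ C)
    (h1 : NC (S ∩ A) x z) (h2 : NC (S ∩ B) y z) : NC (S ∩ C) x y :=
  (h1.mono (Set.inter_subset_inter_right S hA)).trans
    (h2.mono (Set.inter_subset_inter_right S hB)).symm

theorem LRc.chain (a a' b b' c d : ℤ) (S : Set (ℤ × ℤ)) (h1 : a ≤ a') (_h2 : a' ≤ b) (h3 : b ≤ b')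
    (_h4 : c ≤ d) (hl : LRc a b c d S) (hv : BTc a' b c d S) (hr : LRc a' b' c d S) :
    LRc a b' c d S := by
  obtain ⟨x, x', hx, hxa, hxb⟩ := hl
  obtain ⟨v, v', hv, hvc, hvd⟩ := hv
  obtain ⟨y, y', hy, hya, hyb⟩ := hr
  obtain ⟨z, hz1, hz2⟩ := ncross (S := S ∩ rc a b c d) (T := S ∩ rc a' b c d)
    (a := 2 * a) (b := 2 * b) (c := 2 * c) (d := 2 * d) Set.inter_subset_right
    (Set.inter_subset_right.trans (rc_mono h1 le_rfl le_rfl le_rfl)) hx hxa hxb hv hvc hvd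
  obtain ⟨w, hw1, hw2⟩ := ncross (S := S ∩ rc a' b' c d) (T := S ∩ rc a' b c d)
    (a := 2 * a') (b := 2 * b') (c := 2 * c) (d := 2 * d) Set.inter_subset_right
    (Set.inter_subset_right.trans (rc_mono le_rfl h3 le_rfl le_rfl)) hy hya hyb hv hvc hvd
  have e1 : rc a b c d ⊆ rc a b' c d := rc_mono le_rfl h3 le_rfl le_rfl
  have e2 : rc a' b c d ⊆ rc a b' c d := rc_mono h1 h3 le_rfl le_rfl
  have e3 : rc a' b' c d ⊆ rc a b' c d := rc_mono h1 le_rfl le_rfl le_rfl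
  have h5 : NC (S ∩ rc a b' c d) x v := NC.join e1 e2 hz1 hz2
  have h6 : NC (S ∩ rc a b' c d) y v := NC.join e3 e2 hw1 hw2
  exact ⟨x, y', (h5.trans h6.symm).trans (hy.mono (Set.inter_subset_inter_right S e3)), hxa, hyb⟩

theorem LRc.mono (a a' b b' c c' d d' : ℤ) (S : Set (ℤ × ℤ)) (h1 : a ≤ a') (h2 : a' ≤ b')
    (h3 : b' ≤ b) (h4 : c' ≤ c) (h5 : d ≤ d') (h : LRc a b c d S) : LRc a' b' c' d' S := by
  obtain ⟨x, y, hxy, hx, hy⟩ := h
  obtain ⟨z, w, hz, hw, hzw, _, _⟩ := hxy.exit (f := Prod.fst) nn_fst (c := 2 * a') (d := 2 * b')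
    (by omega) (by omega) (by omega)
  refine ⟨z, w, hzw.mono ?_, hz, hw⟩
  rintro u ⟨⟨hu1, hu2⟩, hu3, hu4⟩
  rw [mem_rc] at hu2
  exact ⟨hu1, by rw [mem_rc]; omega⟩

theorem BTc.mono (a a' b b' c c' d d' : ℤ) (S : Set (ℤ × ℤ)) (h1 : a' ≤ a) (h2 : b ≤ b')
    (h3 : c ≤ c') (h4 : c' ≤ d') (h5 : d' ≤ d) (h : BTc a b c d S) : BTc a' b' c' d' S := by
  obtain ⟨x, y, hxy, hx, hy⟩ := h
  obtain ⟨z, w, hz, hw, hzw, _, _⟩ := hxy.exit (f := Prod.snd) nn_snd (c := 2 * c') (d := 2 * d')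
    (by omega) (by omega) (by omega)
  refine ⟨z, w, hzw.mono ?_, hz, hw⟩
  rintro u ⟨⟨hu1, hu2⟩, hu3, hu4⟩
  rw [mem_rc] at hu2
  exact ⟨hu1, by rw [mem_rc]; omega⟩

/-- The cluster of the event `XX` reaches the bottom and the top of the box and the upper and lower
parts of both vertical sides. -/
theorem XX.cluster {p q n h : ℤ} {S : Set (ℤ × ℤ)} (hX : XX p q n h S) :
    ∃ o r1 r2 l1 l2 t : ℤ × ℤ, let B := S ∩ rc (p - n) (p + n) (q - n) (q + n)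
      NC B o r1 ∧ NC B o r2 ∧ NC B o l1 ∧ NC B o l2 ∧ NC B o t ∧
      r1.1 = 2 * (p + n) ∧ 2 * (q + h) ≤ r1.2 ∧ r2.1 = 2 * (p + n) ∧ r2.2 ≤ 2 * (q - h) ∧
      l1.1 = 2 * (p - n) ∧ 2 * (q + h) ≤ l1.2 ∧ l2.1 = 2 * (p - n) ∧ l2.2 ≤ 2 * (q - h) ∧
      o.2 = 2 * (q - n) ∧ t.2 = 2 * (q + n) := by
  obtain ⟨⟨x1, y1, h1, h1a, h1b, h1c, _⟩, ⟨x2, y2, h2, h2a, h2b, _, h2d⟩,
    ⟨x3, y3, h3, h3a, h3b, h3c, _⟩, ⟨x4, y4, h4, h4a, h4b, _, h4d⟩, ⟨o, t, ho, hoc, hod⟩⟩ := hX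
  have hsub : S ∩ rc (p - n) (p + n) (q - n) (q + n) ⊆
      Rect (2 * (p - n)) (2 * (p + n)) (2 * (q - n)) (2 * (q + n)) := Set.inter_subset_right
  obtain ⟨z1, hz1, hz1'⟩ := ncross hsub hsub h1 h1a h1b ho hoc hod
  obtain ⟨z2, hz2, hz2'⟩ := ncross hsub hsub h2 h2a h2b ho hoc hod
  obtain ⟨z3, hz3, hz3'⟩ := ncross hsub hsub h3.symm h3b h3a ho hoc hod
  obtain ⟨z4, hz4, hz4'⟩ := ncross hsub hsub h4.symm h4b h4a ho hoc hod
  refine ⟨o, y1, y2, y3, y4, t, (hz1'.trans hz1.symm).trans h1, (hz2'.trans hz2.symm).trans h2,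
    hz3'.trans hz3.symm, hz4'.trans hz4.symm, ho, h1b, h1c, h2b, h2d, h3b, h3c, h4b, h4d, hoc, hod⟩

theorem Geo.f1' (n m v al : ℤ) (S : Set (ℤ × ℤ)) (_h0 : 0 ≤ al) (_hm : 0 < m) (hmn : m ≤ n)
    (hmv : m + v ≤ n) (hv : 0 ≤ v) (hl : Hc (m - 2 * n) m (-v - n) (-v + n) (-al) al S)
    (hr : Hm (-m) (2 * n - m) (-v - n) (-v + n) (-al) al S) (hX : XX 0 0 m al S) :
    LRc (m - 2 * n) (2 * n - m) (-v - n) (-v + n) S := by
  obtain ⟨o, r1, r2, l1, l2, t, g1, g2, g3, g4, g5, e1, e2, e3, e4, e5, e6, e7, e8, e9, e10⟩ :=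
    hX.cluster
  simp only [zero_sub, zero_add] at g1 g2 g3 g4 g5 e1 e2 e3 e4 e5 e6 e7 e8
  obtain ⟨x, x', hx, hxa, hxb, hxc, hxd⟩ := hl
  obtain ⟨y, y', hy, hya, hyb, hyc, hyd⟩ := hr
  obtain ⟨z, hz1, hz2⟩ := landR (S := S ∩ rc (m - 2 * n) m (-v - n) (-v + n))
    (T := S ∩ rc (-m) m (-m) m) (a := 2 * (m - 2 * n)) (b := 2 * m) (c := 2 * (-v - n))
    (d := 2 * (-v + n)) Set.inter_subset_right
    (Set.inter_subset_right.trans (rc_mono (by omega) le_rfl (by omega) (by omega)))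
    hx hxa hxb (g2.symm.trans g1) e3 e1 (by omega) (by omega)
  obtain ⟨w, hw1, hw2⟩ := landL (S := S ∩ rc (-m) (2 * n - m) (-v - n) (-v + n))
    (T := S ∩ rc (-m) m (-m) m) (a := 2 * (-m)) (b := 2 * (2 * n - m)) (c := 2 * (-v - n))
    (d := 2 * (-v + n)) Set.inter_subset_right
    (Set.inter_subset_right.trans (rc_mono le_rfl (by omega) (by omega) (by omega)))
    hy hya hyb (g4.symm.trans g3) e7 e5 (by omega) (by omega)
  have s1 : rc (m - 2 * n) m (-v - n) (-v + n) ⊆ rc (m - 2 * n) (2 * n - m) (-v - n) (-v + n) :=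
    rc_mono le_rfl (by omega) le_rfl le_rfl
  have s2 : rc (-m) m (-m) m ⊆ rc (m - 2 * n) (2 * n - m) (-v - n) (-v + n) :=
    rc_mono (by omega) (by omega) (by omega) (by omega)
  have s3 : rc (-m) (2 * n - m) (-v - n) (-v + n) ⊆ rc (m - 2 * n) (2 * n - m) (-v - n) (-v + n) :=
    rc_mono (by omega) le_rfl le_rfl le_rfl
  have k1 := NC.join s1 s2 hz1 hz2
  have k2 := NC.join s3 s2 hw1 hw2
  have k3 : NC (S ∩ rc (m - 2 * n) (2 * n - m) (-v - n) (-v + n)) r2 l2 :=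
    (g2.symm.trans g4).mono (Set.inter_subset_inter_right S s2)
  exact ⟨x, y, (k1.trans k3).trans k2.symm, hxa, hya⟩

theorem Geo.zig' (n h : ℤ) (S : Set (ℤ × ℤ)) (_hn : 0 < n) (hh : 0 ≤ h) (_hhn : h ≤ n)
    (hX : XX 0 0 n h S) (hY : XX 0 (-(2 * h)) n h S) : BTc (-n) n (-n - 2 * h) n S := by
  obtain ⟨o, r1, r2, l1, l2, t, g1, g2, g3, g4, g5, e1, e2, e3, e4, e5, e6, e7, e8, e9, e10⟩ :=
    hX.cluster
  obtain ⟨o', r1', r2', l1', l2', t', g1', g2', g3', g4', g5', e1', e2', e3', e4', e5', e6', e7',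
    e8', e9', e10'⟩ := hY.cluster
  simp only [zero_sub, zero_add] at g1 g2 g3 g4 g5 e1 e2 e3 e4 e5 e6 e7 e8 e9 e10
  simp only [zero_sub, zero_add] at g1' g2' g3' g4' g5' e1' e2' e3' e4' e5' e6' e7' e8' e9' e10'
  have s1 : rc (-n) n (-n) n ⊆ rc (-n) n (-n - 2 * h) n := rc_mono le_rfl le_rfl (by omega) le_rfl
  have s2 : rc (-n) n (-(2 * h) - n) (-(2 * h) + n) ⊆ rc (-n) n (-n - 2 * h) n :=
    rc_mono le_rfl le_rfl (by omega) (by omega)
  obtain ⟨z, hz1, hz2⟩ := interlace (S := S ∩ rc (-n) n (-n) n)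
    (T := S ∩ rc (-n) n (-(2 * h) - n) (-(2 * h) + n)) (a := 2 * (-n)) (b := 2 * n)
    (c := 2 * (-n - 2 * h)) (d := 2 * n) (Set.inter_subset_right.trans s1)
    (Set.inter_subset_right.trans s2) (g3.symm.trans g2) e5 e3 (g4'.symm.trans g1') e7' e1'
    (by omega) (by omega)
  have k1 := NC.join s1 s2 hz1 hz2
  have k2 : NC (S ∩ rc (-n) n (-n - 2 * h) n) l1 t :=
    (g3.symm.trans g5).mono (Set.inter_subset_inter_right S s1)
  have k3 : NC (S ∩ rc (-n) n (-n - 2 * h) n) o' l2' :=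
    g4'.mono (Set.inter_subset_inter_right S s2)
  exact ⟨o', t, (k3.trans k1.symm).trans k2, by omega, by omega⟩

/-- The annulus between the boxes with centre `(p, q)` and half sides `t`, `2t`. -/
def annR (p q t : ℤ) : Set (ℤ × ℤ) :=
  {z | z ∈ rc (p - 2 * t) (p + 2 * t) (q - 2 * t) (q + 2 * t) ∧
    (z.1 ≤ 2 * (p - t) ∨ 2 * (p + t) ≤ z.1 ∨ z.2 ≤ 2 * (q - t) ∨ 2 * (q + t) ≤ z.2)}

theorem annR_sub (p q t : ℤ) : annR p q t ⊆ rc (p - 2 * t) (p + 2 * t) (q - 2 * t) (q + 2 * t) :=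
  fun _ hz => hz.1

/-- Exit lemma for the triangular lattice. -/
theorem Conn.first {S : Set (ℤ × ℤ)} {f : ℤ × ℤ → ℤ} (hf : ∀ u v, Adj u v → f v ≤ f u + 1) {d : ℤ}
    {x y : ℤ × ℤ} (h : Conn S x y) (hx : f x ≤ d) (hy : d ≤ f y) :
    ∃ z, f z = d ∧ Conn (S ∩ {w | f w ≤ d}) x z := by
  have key : (f y < d ∧ Conn (S ∩ {w | f w ≤ d}) x y) ∨
      ∃ z, f z = d ∧ Conn (S ∩ {w | f w ≤ d}) x z := by
    refine Conn.ind (S := S) (fun y => (f y < d ∧ Conn (S ∩ {w | f w ≤ d}) x y) ∨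
      ∃ z, f z = d ∧ Conn (S ∩ {w | f w ≤ d}) x z) ?_ ?_ h
    · rcases lt_or_eq_of_le hx with h1 | h1
      · exact Or.inl ⟨h1, Conn.refl ⟨h.1, hx⟩⟩
      · exact Or.inr ⟨x, h1, Conn.refl ⟨h.1, hx⟩⟩
    · intro u v _ huv hv ih
      rcases ih with ⟨h1, h2⟩ | h1
      · have h3 := hf u v huv
        have h4 : Conn (S ∩ {w | f w ≤ d}) x v := h2.tail huv ⟨hv, show f v ≤ d by omega⟩
        rcases lt_or_ge (f v) d with h5 | h5
        · exact Or.inl ⟨h5, h4⟩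
        · exact Or.inr ⟨v, by omega, h4⟩
      · exact Or.inr h1
  rcases key with ⟨h1, _⟩ | h1
  · omega
  · exact h1

theorem Conn.exit {S : Set (ℤ × ℤ)} {f : ℤ × ℤ → ℤ} (hf : ∀ u v, Adj u v → f v ≤ f u + 1)
    {c d : ℤ} (hcd : c ≤ d) {x y : ℤ × ℤ} (h : Conn S x y) (hx : f x ≤ c) (hy : d ≤ f y) :
    ∃ z w, f z = c ∧ f w = d ∧ Conn (S ∩ {u | c ≤ f u ∧ f u ≤ d}) z w := by
  obtain ⟨w, hw, h1⟩ := Conn.first hf h (hx.trans hcd) hy
  obtain ⟨z, hz, h2⟩ := Conn.first (f := fun u => - f u) (d := -c)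
    (fun u v huv => by have := hf v u (adj_symm huv); omega) h1.symm (by omega) (by omega)
  have h3 : Conn (S ∩ {u | c ≤ f u ∧ f u ≤ d}) w z := h2.mono (by
    rintro u ⟨⟨h3, h4⟩, h5⟩
    refine ⟨h3, ?_, h4⟩
    have : - f u ≤ -c := h5
    show c ≤ f u
    omega)
  exact ⟨z, w, by omega, hw, h3.symm⟩

/-- The event `Ann` gives one cluster of `S` inside the annulus which meets every path of the
triangular lattice (in particular every nearest-neighbour path) from the inner box to the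
complement of the interior of the outer box. -/
theorem Ann.cluster {p q t : ℤ} (ht : 0 < t) {S : Set (ℤ × ℤ)} (hA : Ann p q t S) :
    ∃ o, o ∈ S ∩ annR p q t ∧ ∀ (D : Set (ℤ × ℤ)) (x y : ℤ × ℤ), Conn D x y →
      x ∈ rc (p - t) (p + t) (q - t) (q + t) →
      (y.1 ≤ 2 * (p - 2 * t) ∨ 2 * (p + 2 * t) ≤ y.1 ∨ y.2 ≤ 2 * (q - 2 * t) ∨
        2 * (q + 2 * t) ≤ y.2) →
      ∃ w, w ∈ D ∧ NC (S ∩ annR p q t) o w := by
  obtain ⟨⟨a1, b1, h1, h1a, h1b⟩, ⟨a2, b2, h2, h2a, h2b⟩, ⟨a3, b3, h3, h3a, h3b⟩,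
    ⟨a4, b4, h4, h4a, h4b⟩⟩ := hA
  have k1 : NC (S ∩ annR p q t) a1 b1 := h1.mono (Set.inter_subset_inter_right S (by
    intro z hz
    rw [mem_rc] at hz
    refine ⟨by rw [mem_rc]; omega, ?_⟩
    right; right; right; omega))
  have k2 : NC (S ∩ annR p q t) a2 b2 := h2.mono (Set.inter_subset_inter_right S (by
    intro z hz
    rw [mem_rc] at hz
    refine ⟨by rw [mem_rc]; omega, ?_⟩
    right; right; left; omega))
  have k3 : NC (S ∩ annR p q t) a3 b3 := h3.mono (Set.inter_subset_inter_right S (by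
    intro z hz
    rw [mem_rc] at hz
    refine ⟨by rw [mem_rc]; omega, ?_⟩
    left; omega))
  have k4 : NC (S ∩ annR p q t) a4 b4 := h4.mono (Set.inter_subset_inter_right S (by
    intro z hz
    rw [mem_rc] at hz
    refine ⟨by rw [mem_rc]; omega, ?_⟩
    right; left; omega))
  -- a horizontal strip and a vertical strip meet in the big box
  have hH : ∀ {c d : ℤ}, q - 2 * t ≤ c → d ≤ q + 2 * t → ∀ {a b : ℤ}, p - 2 * t ≤ a →
      b ≤ p + 2 * t → ∀ {x x' y y' : ℤ × ℤ},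
      NC (S ∩ rc (p - 2 * t) (p + 2 * t) c d) x x' → x.1 = 2 * (p - 2 * t) →
      x'.1 = 2 * (p + 2 * t) → NC (S ∩ rc a b (q - 2 * t) (q + 2 * t)) y y' →
      y.2 = 2 * (q - 2 * t) → y'.2 = 2 * (q + 2 * t) →
      ∃ z, NC (S ∩ rc (p - 2 * t) (p + 2 * t) c d) x z ∧
        NC (S ∩ rc a b (q - 2 * t) (q + 2 * t)) y z := by
    intro c d hc hd a b ha hb x x' y y' hx hxa hxb hy hya hyb
    exact ncross (a := 2 * (p - 2 * t)) (b := 2 * (p + 2 * t)) (c := 2 * (q - 2 * t))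
      (d := 2 * (q + 2 * t)) (Set.inter_subset_right.trans (rc_mono le_rfl le_rfl hc hd))
      (Set.inter_subset_right.trans (rc_mono ha hb le_rfl le_rfl)) hx hxa hxb hy hya hyb
  have sub1 : rc (p - 2 * t) (p + 2 * t) (q + t) (q + 2 * t) ⊆ annR p q t := by
    intro z hz
    rw [mem_rc] at hz
    refine ⟨by rw [mem_rc]; omega, ?_⟩
    right; right; right; omega
  have sub2 : rc (p - 2 * t) (p + 2 * t) (q - 2 * t) (q - t) ⊆ annR p q t := by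
    intro z hz
    rw [mem_rc] at hz
    refine ⟨by rw [mem_rc]; omega, ?_⟩
    right; right; left; omega
  have sub3 : rc (p - 2 * t) (p - t) (q - 2 * t) (q + 2 * t) ⊆ annR p q t := by
    intro z hz
    rw [mem_rc] at hz
    refine ⟨by rw [mem_rc]; omega, ?_⟩
    left; omega
  have sub4 : rc (p + t) (p + 2 * t) (q - 2 * t) (q + 2 * t) ⊆ annR p q t := by
    intro z hz
    rw [mem_rc] at hz
    refine ⟨by rw [mem_rc]; omega, ?_⟩
    right; left; omega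
  obtain ⟨z13, c13, d13⟩ := hH (by omega) (by omega) (by omega) (by omega) h1 h1a h1b h3 h3a h3b
  obtain ⟨z14, c14, d14⟩ := hH (by omega) (by omega) (by omega) (by omega) h1 h1a h1b h4 h4a h4b
  obtain ⟨z23, c23, d23⟩ := hH (by omega) (by omega) (by omega) (by omega) h2 h2a h2b h3 h3a h3b
  have j13 : NC (S ∩ annR p q t) a1 a3 := NC.join sub1 sub3 c13 d13
  have j14 : NC (S ∩ annR p q t) a1 a4 := NC.join sub1 sub4 c14 d14
  have j12 : NC (S ∩ annR p q t) a1 a2 := j13.trans (NC.join sub2 sub3 c23 d23).symm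
  refine ⟨a1, k1.left_mem, ?_⟩
  intro D x y hD hx hy
  -- cut the path at the first exit of the open outer box
  set f : ℤ × ℤ → ℤ := fun z => max (max (z.1 - 2 * p) (2 * p - z.1)) (max (z.2 - 2 * q) (2 * q - z.2))
    with hf
  have hfl : ∀ u v, Adj u v → f v ≤ f u + 1 := by
    intro u v huv
    rw [adj_iff] at huv
    simp only [hf]
    omega
  rw [mem_rc] at hx
  obtain ⟨y1, hy1, hD1⟩ := Conn.first hfl (d := 4 * t) hD (by simp only [hf]; omega)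
    (by simp only [hf]; omega)
  have hD1r : ∀ z ∈ D ∩ {w | f w ≤ 4 * t}, z ∈ rc (p - 2 * t) (p + 2 * t) (q - 2 * t) (q + 2 * t) := by
    rintro z ⟨_, hz⟩
    have hz' : max (max (z.1 - 2 * p) (2 * p - z.1)) (max (z.2 - 2 * q) (2 * q - z.2)) ≤ 4 * t := hz
    rw [mem_rc]
    omega
  have hside : y1.1 = 2 * (p - 2 * t) ∨ y1.1 = 2 * (p + 2 * t) ∨ y1.2 = 2 * (q - 2 * t) ∨
      y1.2 = 2 * (q + 2 * t) := by
    simp only [hf] at hy1
    omega
  have hf1 : ∀ u v : ℤ × ℤ, Adj u v → v.1 ≤ u.1 + 1 := by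
    intro u v huv
    rw [adj_iff] at huv
    omega
  have hf1' : ∀ u v : ℤ × ℤ, Adj u v → -v.1 ≤ -u.1 + 1 := by
    intro u v huv
    rw [adj_iff] at huv
    omega
  have hf2 : ∀ u v : ℤ × ℤ, Adj u v → v.2 ≤ u.2 + 1 := by
    intro u v huv
    rw [adj_iff] at huv
    omega
  have hf2' : ∀ u v : ℤ × ℤ, Adj u v → -v.2 ≤ -u.2 + 1 := by
    intro u v huv
    rw [adj_iff] at huv
    omega
  rcases hside with h | h | h | h
  · -- exit through the left side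
    obtain ⟨z, w, hz, hw, hzw⟩ := Conn.exit (f := fun u => -u.1) hf1' (c := -(2 * (p - t)))
      (d := -(2 * (p - 2 * t))) (by omega) hD1 (by omega) (by omega)
    obtain ⟨v, hv1, hv2⟩ := cross (A := D ∩ {w | f w ≤ 4 * t} ∩
        {u | -(2 * (p - t)) ≤ -u.1 ∧ -u.1 ≤ -(2 * (p - 2 * t))})
      (B := {z | NC (S ∩ rc (p - 2 * t) (p - t) (q - 2 * t) (q + 2 * t)) a3 z})
      (a := 2 * (p - 2 * t)) (b := 2 * (p - t)) (c := 2 * (q - 2 * t)) (d := 2 * (q + 2 * t))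
      (by
        rintro u ⟨hu1, hu2, hu3⟩
        have := hD1r u hu1
        rw [mem_rc] at this
        omega)
      (by
        intro u hu
        have := hu.right_mem.2
        rw [mem_rc] at this
        omega)
      hzw.symm (by omega) (by omega) h3.cluster.conn h3a h3b
    exact ⟨v, hv1.1.1, j13.trans (hv2.mono (Set.inter_subset_inter_right S sub3))⟩
  · obtain ⟨z, w, hz, hw, hzw⟩ := Conn.exit (f := fun u => u.1) hf1 (c := 2 * (p + t))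
      (d := 2 * (p + 2 * t)) (by omega) hD1 (by omega) (by omega)
    obtain ⟨v, hv1, hv2⟩ := cross (A := D ∩ {w | f w ≤ 4 * t} ∩
        {u | 2 * (p + t) ≤ u.1 ∧ u.1 ≤ 2 * (p + 2 * t)})
      (B := {z | NC (S ∩ rc (p + t) (p + 2 * t) (q - 2 * t) (q + 2 * t)) a4 z})
      (a := 2 * (p + t)) (b := 2 * (p + 2 * t)) (c := 2 * (q - 2 * t)) (d := 2 * (q + 2 * t))
      (by
        rintro u ⟨hu1, hu2, hu3⟩
        have := hD1r u hu1
        rw [mem_rc] at this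
        omega)
      (by
        intro u hu
        have := hu.right_mem.2
        rw [mem_rc] at this
        omega)
      hzw (by omega) (by omega) h4.cluster.conn h4a h4b
    exact ⟨v, hv1.1.1, j14.trans (hv2.mono (Set.inter_subset_inter_right S sub4))⟩
  · obtain ⟨z, w, hz, hw, hzw⟩ := Conn.exit (f := fun u => -u.2) hf2' (c := -(2 * (q - t)))
      (d := -(2 * (q - 2 * t))) (by omega) hD1 (by omega) (by omega)
    obtain ⟨v, hv1, hv2⟩ := cross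
      (A := {z | NC (S ∩ rc (p - 2 * t) (p + 2 * t) (q - 2 * t) (q - t)) a2 z})
      (B := D ∩ {w | f w ≤ 4 * t} ∩
        {u | -(2 * (q - t)) ≤ -u.2 ∧ -u.2 ≤ -(2 * (q - 2 * t))})
      (a := 2 * (p - 2 * t)) (b := 2 * (p + 2 * t)) (c := 2 * (q - 2 * t)) (d := 2 * (q - t))
      (by
        intro u hu
        have := hu.right_mem.2
        rw [mem_rc] at this
        omega)
      (by
        rintro u ⟨hu1, hu2, hu3⟩
        have := hD1r u hu1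
        rw [mem_rc] at this
        omega)
      h2.cluster.conn h2a h2b hzw.symm (by omega) (by omega)
    exact ⟨v, hv2.1.1, j12.trans (hv1.mono (Set.inter_subset_inter_right S sub2))⟩
  · obtain ⟨z, w, hz, hw, hzw⟩ := Conn.exit (f := fun u => u.2) hf2 (c := 2 * (q + t))
      (d := 2 * (q + 2 * t)) (by omega) hD1 (by omega) (by omega)
    obtain ⟨v, hv1, hv2⟩ := cross
      (A := {z | NC (S ∩ rc (p - 2 * t) (p + 2 * t) (q + t) (q + 2 * t)) a1 z})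
      (B := D ∩ {w | f w ≤ 4 * t} ∩ {u | 2 * (q + t) ≤ u.2 ∧ u.2 ≤ 2 * (q + 2 * t)})
      (a := 2 * (p - 2 * t)) (b := 2 * (p + 2 * t)) (c := 2 * (q + t)) (d := 2 * (q + 2 * t))
      (by
        intro u hu
        have := hu.right_mem.2
        rw [mem_rc] at this
        omega)
      (by
        rintro u ⟨hu1, hu2, hu3⟩
        have := hD1r u hu1
        rw [mem_rc] at this
        omega)
      h1.cluster.conn h1a h1b hzw (by omega) (by omega)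
    exact ⟨v, hv2.1.1, hv1.mono (Set.inter_subset_inter_right S sub1)⟩

theorem Geo.f2a (s t : ℤ) (S : Set (ℤ × ℤ)) (hs : 0 < s) (hst : 2 * s ≤ t)
    (hl : Hc (-(2 * t)) 0 (-t) t 0 s S) (hr : Hm 0 (2 * t) (-t) t 0 s S) (hA : Ann 0 0 s S) :
    LRc (-(2 * t)) (2 * t) (-t) t S := by
  obtain ⟨o, _, hsep⟩ := hA.cluster hs
  obtain ⟨x, x', hx, hxa, hxb, hxc, hxd⟩ := hl
  obtain ⟨y, y', hy, hya, hyb, hyc, hyd⟩ := hr
  obtain ⟨w, hw1, hw2⟩ := hsep _ x' x (hx.symm.cluster.conn)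
    (by rw [mem_rc]; omega) (by left; omega)
  obtain ⟨v, hv1, hv2⟩ := hsep _ y' y (hy.symm.cluster.conn)
    (by rw [mem_rc]; omega) (by right; left; omega)
  have s1 : rc (-(2 * t)) 0 (-t) t ⊆ rc (-(2 * t)) (2 * t) (-t) t :=
    rc_mono le_rfl (by omega) le_rfl le_rfl
  have s2 : rc 0 (2 * t) (-t) t ⊆ rc (-(2 * t)) (2 * t) (-t) t :=
    rc_mono (by omega) le_rfl le_rfl le_rfl
  have s3 : annR 0 0 s ⊆ rc (-(2 * t)) (2 * t) (-t) t :=
    (annR_sub 0 0 s).trans (rc_mono (by omega) (by omega) (by omega) (by omega))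
  have k1 := NC.join s1 s3 (hx.trans hw1) hw2
  have k2 := NC.join s2 s3 (hy.trans hv1) hv2
  exact ⟨x, y, k1.trans k2.symm, hxa, hya⟩

theorem Geo.f2b (t : ℤ) (S : Set (ℤ × ℤ)) (ht : 1 ≤ t)
    (hl : Hc (-(2 * t)) 0 (-t) t 0 1 S) (hr : Hm 0 (2 * t) (-t) t 0 1 S) (h0 : (0, 0) ∈ S)
    (h1 : (0, 1) ∈ S) (h2 : (0, 2) ∈ S) : LRc (-(2 * t)) (2 * t) (-t) t S := by
  obtain ⟨x, x', hx, hxa, hxb, hxc, hxd⟩ := hl
  obtain ⟨y, y', hy, hya, hyb, hyc, hyd⟩ := hr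
  have s1 : rc (-(2 * t)) 0 (-t) t ⊆ rc (-(2 * t)) (2 * t) (-t) t :=
    rc_mono le_rfl (by omega) le_rfl le_rfl
  have s2 : rc 0 (2 * t) (-t) t ⊆ rc (-(2 * t)) (2 * t) (-t) t :=
    rc_mono (by omega) le_rfl le_rfl le_rfl
  set C := S ∩ rc (-(2 * t)) (2 * t) (-t) t with hC
  have m0 : ((0, 0) : ℤ × ℤ) ∈ C := ⟨h0, by rw [mem_rc]; simp only; omega⟩
  have m1 : ((0, 1) : ℤ × ℤ) ∈ C := ⟨h1, by rw [mem_rc]; simp only; omega⟩
  have m2 : ((0, 2) : ℤ × ℤ) ∈ C := ⟨h2, by rw [mem_rc]; simp only; omega⟩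
  have n01 : NC C (0, 0) (0, 1) := NC.of_nn m0 m1 (by unfold NN; simp)
  have n12 : NC C (0, 1) (0, 2) := NC.of_nn m1 m2 (by unfold NN; simp)
  have key : ∀ u : ℤ × ℤ, u.1 = 0 → 0 ≤ u.2 → u.2 ≤ 2 → NC C (0, 0) u := by
    rintro ⟨u1, u2⟩ h3 h4 h5
    simp only at h3 h4 h5
    subst h3
    have : u2 = 0 ∨ u2 = 1 ∨ u2 = 2 := by omega
    rcases this with rfl | rfl | rfl
    · exact NC.refl m0
    · exact n01
    · exact n01.trans n12
  have k1 : NC C x x' := hx.mono (Set.inter_subset_inter_right S s1)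
  have k2 : NC C y y' := hy.mono (Set.inter_subset_inter_right S s2)
  have k3 := key x' (by omega) (by omega) (by omega)
  have k4 := key y' (by omega) (by omega) (by omega)
  exact ⟨x, y, (k1.trans k3.symm).trans (k4.trans k2.symm), hxa, hya⟩

/-- The deterministic facts about crossings. -/
theorem geo : Geo where
  chain := LRc.chain
  mono := LRc.mono
  f1 := Geo.f1'
  zig := Geo.zig'
  f2 := Geo.f2a
  f2' := Geo.f2b

end Vale.Agent.P145.FB
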