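import Vale.Agent.P145.FB.Tassion3
import Vale.Agent.P145.FB.Geo
import Vale.Agent.P145.FB.Space
import Vale.Agent.P145.FP.Spin

/-!
# P145, block F-B: circuits of the open bonds with spin plus, in the plane measure

The abstract theorem `PP.rsw` is applied to the random set `SQ` of the open bonds with spin plus
together with their end points.
-/

namespace Vale.Agent.P145.FB

open Finset Filter Topology MeasureTheory
open Vale.Agent.P152 Vale.Agent.P145.FA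

/-- The open bonds with spin plus. -/
def opp (x : Hgt × Mk) : Set Pt := {w | x.2 w = true ∧ x.1 (e1 w) % 4 = 0}

/-- Positive association of the open bonds with spin plus. -/
def Assoc (t : ℝ) (P : Measure (Ori (ℤ × ℤ))) : Prop :=
  ∀ U V : Set Pt → Prop, (∀ A B, A ⊆ B → U A → U B) → (∀ A B, A ⊆ B → V A → V B) →
    (∃ F : Finset Pt, ∀ A B : Set Pt, (∀ w ∈ F, w ∈ A ↔ w ∈ B) → U A → U B) →
    (∃ F : Finset Pt, ∀ A B : Set Pt, (∀ w ∈ F, w ∈ A ↔ w ∈ B) → V A → V B) →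
    (J t P).real {x | U (opp x)} * (J t P).real {x | V (opp x)} ≤
      (J t P).real {x | U (opp x) ∧ V (opp x)}

/-- The edge points given by a set of bonds and their end points. -/
def fine (A : Set Pt) : Set Pt :=
  {p | (Odd (p.1 + p.2) ∧ vx p ∈ A) ∨
    (Even p.1 ∧ Even p.2 ∧ ∃ q, NN p q ∧ vx q ∈ A)}

/-- The open bonds with spin plus and their end points. -/
def SQ (x : Hgt × Mk) : Set Pt := fine (opp x)

theorem fine_mono {A B : Set Pt} (h : A ⊆ B) : fine A ⊆ fine B := by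
  rintro p (⟨h1, h2⟩ | ⟨h1, h2, q, h3, h4⟩)
  · exact Or.inl ⟨h1, h h2⟩
  · exact Or.inr ⟨h1, h2, q, h3, h h4⟩

/-- Local events of `fine A` depend on finitely many bonds. -/
theorem loc_fine {Q : Set (ℤ × ℤ) → Prop} (hQ : Loc Q) :
    ∃ F : Finset Pt, ∀ A B : Set Pt, (∀ w ∈ F, w ∈ A ↔ w ∈ B) → Q (fine A) → Q (fine B) := by
  obtain ⟨N, hN⟩ := hQ
  refine ⟨((Finset.Icc (-(N + 1)) (N + 1)) ×ˢ (Finset.Icc (-(N + 1)) (N + 1))).image vx,
    fun A B h hA => hN _ _ ?_ hA⟩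
  have key : ∀ q : Pt, |q.1| ≤ N + 1 → |q.2| ≤ N + 1 → (vx q ∈ A ↔ vx q ∈ B) := by
    intro q h1 h2
    refine h _ (Finset.mem_image_of_mem _ ?_)
    rw [abs_le] at h1 h2
    simp only [Finset.mem_product, Finset.mem_Icc]
    exact ⟨⟨h1.1, h1.2⟩, ⟨h2.1, h2.2⟩⟩
  intro p h1 h2
  rw [abs_le] at h1 h2
  have k1 : vx p ∈ A ↔ vx p ∈ B := key p (by rw [abs_le]; omega) (by rw [abs_le]; omega)
  have k2 : ∀ q, NN p q → (vx q ∈ A ↔ vx q ∈ B) := by
    intro q hq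
    refine key q ?_ ?_ <;> rw [abs_le] <;> unfold NN at hq <;> omega
  unfold fine
  constructor
  · rintro (⟨h3, h4⟩ | ⟨h3, h4, q, h5, h6⟩)
    · exact Or.inl ⟨h3, k1.1 h4⟩
    · exact Or.inr ⟨h3, h4, q, h5, (k2 q h5).1 h6⟩
  · rintro (⟨h3, h4⟩ | ⟨h3, h4, q, h5, h6⟩)
    · exact Or.inl ⟨h3, k1.2 h4⟩
    · exact Or.inr ⟨h3, h4, q, h5, (k2 q h5).2 h6⟩

/-! ### The set `SQ` as a function of `SP` -/

/-- The edge points of `S` together with their end points. -/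
def hull (S : Set Pt) : Set Pt :=
  {p | (Odd (p.1 + p.2) ∧ p ∈ S) ∨ (Even p.1 ∧ Even p.2 ∧ ∃ q, NN p q ∧ q ∈ S)}

theorem nn_odd {p q : Pt} (h : NN p q) (h1 : Even p.1) (h2 : Even p.2) : Odd (q.1 + q.2) := by
  rw [Int.even_iff] at h1 h2
  rw [Int.odd_iff]
  unfold NN at h
  omega

theorem SQ_eq (x : Hgt × Mk) : SQ x = hull (SP x) := by
  ext p
  unfold SQ fine hull opp SP
  simp only [Set.mem_ofPred_eq]
  constructor
  · rintro (⟨h1, h2, h3⟩ | ⟨h1, h2, q, h3, h4, h5⟩)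
    · exact Or.inl ⟨h1, Or.inr ⟨h1, h2, h3⟩⟩
    · exact Or.inr ⟨h1, h2, q, h3, Or.inr ⟨nn_odd h3 h1 h2, h4, h5⟩⟩
  · rintro (⟨h1, (⟨h2, h3, -⟩ | ⟨-, h2, h3⟩)⟩ | ⟨h1, h2, q, h3, (⟨h4, h5, -⟩ | ⟨-, h4, h5⟩)⟩)
    · exfalso
      rw [Int.odd_iff] at h1
      rw [Int.even_iff] at h2 h3
      omega
    · exact Or.inl ⟨h1, h2, h3⟩
    · exfalso
      have := nn_odd h3 h1 h2
      rw [Int.odd_iff] at this
      rw [Int.even_iff] at h4 h5
      omega
    · exact Or.inr ⟨h1, h2, q, h3, h4, h5⟩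

/-- `hull` commutes with the symmetries of the fine lattice. -/
theorem hull_comm {g g' : Pt → Pt} (hg : ∀ z, g (g' z) = z) (hg' : ∀ z, g' (g z) = z)
    (hn : ∀ u v, NN u v → NN (g u) (g v)) (hn' : ∀ u v, NN u v → NN (g' u) (g' v))
    (ho : ∀ z : Pt, Odd ((g z).1 + (g z).2) ↔ Odd (z.1 + z.2))
    (he : ∀ z : Pt, (Even (g z).1 ∧ Even (g z).2) ↔ (Even z.1 ∧ Even z.2)) (S : Set Pt) :
    hull {z | g z ∈ S} = {z | g z ∈ hull S} := by
  ext p
  constructor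
  · rintro (⟨h1, h2⟩ | ⟨h1, h2, q, h3, h4⟩)
    · exact Or.inl ⟨(ho p).2 h1, h2⟩
    · exact Or.inr ⟨((he p).2 ⟨h1, h2⟩).1, ((he p).2 ⟨h1, h2⟩).2, g q, hn _ _ h3, h4⟩
  · rintro (⟨h1, h2⟩ | ⟨h1, h2, q, h3, h4⟩)
    · exact Or.inl ⟨(ho p).1 h1, h2⟩
    · refine Or.inr ⟨((he p).1 ⟨h1, h2⟩).1, ((he p).1 ⟨h1, h2⟩).2, g' q, ?_, ?_⟩
      · have := hn' _ _ h3
        rwa [hg'] at this
      · show g (g' q) ∈ S
        rw [hg]; exact h4

theorem hull_shift (a b : ℤ) (S : Set Pt) :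
    hull {z | (z.1 + 2 * a, z.2 + 2 * b) ∈ S} = {z | (z.1 + 2 * a, z.2 + 2 * b) ∈ hull S} := by
  refine hull_comm (g := fun z => (z.1 + 2 * a, z.2 + 2 * b))
    (g' := fun z => (z.1 + 2 * (-a), z.2 + 2 * (-b))) ?_ ?_ (nn_shift a b) (nn_shift (-a) (-b))
    ?_ ?_ S
  · rintro ⟨x, y⟩; ext <;> dsimp only <;> ring
  · rintro ⟨x, y⟩; ext <;> dsimp only <;> ring
  · rintro ⟨x, y⟩; simp only [Int.odd_iff]; omega
  · rintro ⟨x, y⟩; simp only [Int.even_iff]; omega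

theorem hull_reflx (S : Set Pt) :
    hull {z | (-z.1, z.2) ∈ S} = {z | (-z.1, z.2) ∈ hull S} := by
  refine hull_comm (g := fun z => (-z.1, z.2)) (g' := fun z => (-z.1, z.2)) ?_ ?_ nn_reflx nn_reflx
    ?_ ?_ S
  · rintro ⟨x, y⟩; ext <;> dsimp only <;> ring
  · rintro ⟨x, y⟩; ext <;> dsimp only <;> ring
  · rintro ⟨x, y⟩; simp only [Int.odd_iff]; omega
  · rintro ⟨x, y⟩; simp only [Int.even_iff]; omega

theorem hull_refly (S : Set Pt) :
    hull {z | (z.1, -z.2) ∈ S} = {z | (z.1, -z.2) ∈ hull S} := by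
  refine hull_comm (g := fun z => (z.1, -z.2)) (g' := fun z => (z.1, -z.2)) ?_ ?_ nn_refly nn_refly
    ?_ ?_ S
  · rintro ⟨x, y⟩; ext <;> dsimp only <;> ring
  · rintro ⟨x, y⟩; ext <;> dsimp only <;> ring
  · rintro ⟨x, y⟩; simp only [Int.odd_iff]; omega
  · rintro ⟨x, y⟩; simp only [Int.even_iff]; omega

theorem hull_swap (S : Set Pt) :
    hull {z | (z.2, z.1) ∈ S} = {z | (z.2, z.1) ∈ hull S} := by
  refine hull_comm (g := fun z => (z.2, z.1)) (g' := fun z => (z.2, z.1)) ?_ ?_ nn_swap nn_swap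
    ?_ ?_ S
  · rintro ⟨x, y⟩; rfl
  · rintro ⟨x, y⟩; rfl
  · rintro ⟨x, y⟩; simp only [Int.odd_iff]; omega
  · rintro ⟨x, y⟩; simp only [Int.even_iff]; omega

theorem loc_hull {Q : Set (ℤ × ℤ) → Prop} (hQ : Loc Q) : Loc (fun S => Q (hull S)) := by
  obtain ⟨N, hN⟩ := hQ
  refine ⟨N + 1, fun S T h hS => hN _ _ ?_ hS⟩
  intro p h1 h2
  rw [abs_le] at h1 h2
  have k1 : p ∈ S ↔ p ∈ T := h p (by rw [abs_le]; omega) (by rw [abs_le]; omega)
  have k2 : ∀ q, NN p q → (q ∈ S ↔ q ∈ T) := by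
    intro q hq
    refine h q ?_ ?_ <;> rw [abs_le] <;> unfold NN at hq <;> omega
  constructor
  · rintro (⟨h3, h4⟩ | ⟨h3, h4, q, h5, h6⟩)
    · exact Or.inl ⟨h3, k1.1 h4⟩
    · exact Or.inr ⟨h3, h4, q, h5, (k2 q h5).1 h6⟩
  · rintro (⟨h3, h4⟩ | ⟨h3, h4, q, h5, h6⟩)
    · exact Or.inl ⟨h3, k1.2 h4⟩
    · exact Or.inr ⟨h3, h4, q, h5, (k2 q h5).2 h6⟩

/-! ### The instance of `PP` -/

/-- Invariance of the law of `SP` under the symmetries of the fine lattice. -/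
structure SymS (t : ℝ) (P : Measure (Ori (ℤ × ℤ))) : Prop where
  shift : ∀ (a b : ℤ) (Q : Set (ℤ × ℤ) → Prop), Loc Q →
    (J t P).real {x | Q {z | (z.1 + 2 * a, z.2 + 2 * b) ∈ SP x}} = (J t P).real {x | Q (SP x)}
  reflx : ∀ Q : Set (ℤ × ℤ) → Prop, Loc Q →
    (J t P).real {x | Q {z | (-z.1, z.2) ∈ SP x}} = (J t P).real {x | Q (SP x)}
  refly : ∀ Q : Set (ℤ × ℤ) → Prop, Loc Q →
    (J t P).real {x | Q {z | (z.1, -z.2) ∈ SP x}} = (J t P).real {x | Q (SP x)}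
  swap : ∀ Q : Set (ℤ × ℤ) → Prop, Loc Q →
    (J t P).real {x | Q {z | (z.2, z.1) ∈ SP x}} = (J t P).real {x | Q (SP x)}

/-- The random set `SQ` under the law `J t P`. -/
noncomputable def ppq (t : ℝ) (P : Measure (Ori (ℤ × ℤ))) [IsProbabilityMeasure P]
    (hA : Assoc t P) (hS : SymS t P) : PP where
  p Q := (J t P).real {x | Q (SQ x)}
  nonneg _ := measureReal_nonneg
  le_one _ := measureReal_le_one
  mono Q R h := measureReal_mono (fun x hx => h _ hx)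
  or_le Q R := measureReal_union_le _ _
  fkg Q R hQ hR := hA (fun A => Q (fine A)) (fun A => R (fine A))
    (fun A B h => hQ.1 _ _ (fine_mono h)) (fun A B h => hR.1 _ _ (fine_mono h))
    (loc_fine hQ.2) (loc_fine hR.2)
  shift a b Q hQ := by
    have h := hS.shift a b (fun S => Q (hull S)) (loc_hull hQ.2)
    simp only [hull_shift, ← SQ_eq] at h
    exact h
  reflx Q hQ := by
    have h := hS.reflx (fun S => Q (hull S)) (loc_hull hQ.2)
    simp only [hull_reflx, ← SQ_eq] at h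
    exact h
  refly Q hQ := by
    have h := hS.refly (fun S => Q (hull S)) (loc_hull hQ.2)
    simp only [hull_refly, ← SQ_eq] at h
    exact h
  swap Q hQ := by
    have h := hS.swap (fun S => Q (hull S)) (loc_hull hQ.2)
    simp only [hull_swap, ← SQ_eq] at h
    exact h

/-! ### Crossings of `SP` are crossings of `SQ` -/

theorem nc_hull {S R : Set Pt} (hS : ∀ z ∈ S, Odd (z.1 + z.2) ∨ (Even z.1 ∧ Even z.2)) {x y : Pt}
    (h : NC (S ∩ R) x y) (hxy : x ≠ y) : NC (hull S ∩ R) x y := by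
  have mem : ∀ u v : Pt, (NN u v ∨ NN v u) → u ∈ S → v ∈ S → u ∈ hull S := by
    intro u v huv hu hv
    rcases hS u hu with h1 | ⟨h1, h2⟩
    · exact Or.inl ⟨h1, hu⟩
    · refine Or.inr ⟨h1, h2, v, ?_, hv⟩
      rcases huv with h3 | h3
      · exact h3
      · unfold NN at h3 ⊢; omega
  obtain ⟨hx, h⟩ := h
  have key : ∀ y, Relation.ReflTransGen (fun u v => NN u v ∧ v ∈ S ∩ R) x y →
      (x = y ∨ NC (hull S ∩ R) x y) ∧ y ∈ S ∩ R := by
    intro y hy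
    induction hy with
    | refl => exact ⟨Or.inl rfl, hx⟩
    | @tail u v _ huv ih =>
      obtain ⟨ih, hu⟩ := ih
      have hv : v ∈ hull S := mem v u (Or.inr huv.1) huv.2.1 hu.1
      refine ⟨Or.inr ?_, huv.2⟩
      rcases ih with rfl | ih
      · exact ⟨⟨mem x v (Or.inl huv.1) hu.1 huv.2.1, hx.2⟩,
          Relation.ReflTransGen.single ⟨huv.1, hv, huv.2.2⟩⟩
      · exact ⟨ih.1, ih.2.tail ⟨huv.1, hv, huv.2.2⟩⟩
  rcases (key y h).1 with h1 | h1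
  · exact absurd h1 hxy
  · exact h1

theorem SP_par (x : Hgt × Mk) : ∀ z ∈ SP x, Odd (z.1 + z.2) ∨ (Even z.1 ∧ Even z.2) := by
  rintro z (⟨h1, h2, -⟩ | ⟨h1, -⟩)
  · exact Or.inr ⟨h1, h2⟩
  · exact Or.inl h1

theorem LRc_SQ {x : Hgt × Mk} {a b c d : ℤ} (hab : a ≠ b) (h : LRc a b c d (SP x)) :
    LRc a b c d (SQ x) := by
  obtain ⟨u, v, h1, h2, h3⟩ := h
  rw [SQ_eq]
  exact ⟨u, v, nc_hull (SP_par x) h1 (fun e => hab (by rw [e] at h2; omega)), h2, h3⟩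

/-! ### `SQ` is almost surely contained in `SP` -/

theorem ev_of_open {a : Ori (ℤ × ℤ)} (ha : ∀ x y, Ice a x y) {ξ : Mk} {w : Pt}
    (h : oma a ξ w = true) : ev a w = true := by
  have h1 := ha w.1 w.2
  unfold Ice at h1
  simp only [oma, ev, od, dg, ag] at h ⊢
  have e : (w.1, w.2) = w := rfl
  rw [e] at h1
  cases h2 : a (Sum.inl w) <;> cases h3 : a (Sum.inr w) <;>
    cases h4 : a (Sum.inr (w.1, w.2 - 1)) <;> cases h5 : a (Sum.inl (w.1 - 1, w.2)) <;>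
    by_cases h6 : Even (w.1 + w.2) <;> simp_all

theorem open_even (t : ℝ) (P : Measure (Ori (ℤ × ℤ))) [IsProbabilityMeasure P]
    (hice : ∀ᵐ a ∂P, ∀ x y, Ice a x y) :
    ∀ᵐ x ∂(J t P), ∀ w, x.2 w = true → x.1 (e1 w) = x.1 (e2 w) := by
  have hm : ∀ w : Pt, MeasurableSet {x : Hgt × Mk | x.2 w = true → x.1 (e1 w) = x.1 (e2 w)} := by
    intro w
    have h1 : MeasurableSet {x : Hgt × Mk | x.2 w = true} :=
      measurableSet_eq_fun ((measurable_pi_apply w).comp measurable_snd) measurable_const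
    have h2 : MeasurableSet {x : Hgt × Mk | x.1 (e1 w) = x.1 (e2 w)} :=
      measurableSet_eq_fun ((measurable_pi_apply _).comp measurable_fst)
        ((measurable_pi_apply _).comp measurable_fst)
    have h3 : {x : Hgt × Mk | x.2 w = true → x.1 (e1 w) = x.1 (e2 w)} =
        {x : Hgt × Mk | x.2 w = true}ᶜ ∪ {x : Hgt × Mk | x.1 (e1 w) = x.1 (e2 w)} := by
      ext x
      simp only [Set.mem_ofPred_eq, Set.mem_union, Set.mem_compl_iff]
      tauto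
    rw [h3]
    exact h1.compl.union h2
  have hm' : MeasurableSet {x : Hgt × Mk | ∀ w, x.2 w = true → x.1 (e1 w) = x.1 (e2 w)} := by
    have : {x : Hgt × Mk | ∀ w, x.2 w = true → x.1 (e1 w) = x.1 (e2 w)} =
        ⋂ w, {x : Hgt × Mk | x.2 w = true → x.1 (e1 w) = x.1 (e2 w)} := by
      ext x; simp
    rw [this]
    exact MeasurableSet.iInter hm
  have key : ∀ k : ℤ, ∀ᵐ x ∂((JO t P).map (hk k)),
      ∀ w, x.2 w = true → x.1 (e1 w) = x.1 (e2 w) := by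
    intro k
    rw [ae_map_iff (measurable_hk k).aemeasurable hm', JO]
    rw [ae_map_iff measurable_oma.aemeasurable (by exact (measurable_hk k) hm')]
    have h1 : ∀ᵐ x ∂(P.prod (mkm t)), ∀ i j, Ice x.1 i j :=
      (Measure.quasiMeasurePreserving_fst (μ := P) (ν := mkm t)).ae hice
    filter_upwards [h1] with x hx w hw
    have h2 := ev_of_open hx hw
    rw [ev_iff (FP.isHeight_pth hx)] at h2
    have h3 : pth x.1 (e1 w) = pth x.1 (e2 w) := by simpa using h2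
    show pth x.1 (e1 w) + 2 * k = pth x.1 (e2 w) + 2 * k
    rw [h3]
  rw [J]
  refine ae_add_measure_iff.2 ⟨?_, ?_⟩
  · exact Measure.ae_smul_measure (key 0) _
  · exact Measure.ae_smul_measure (key 1) _

theorem face_of_nn {p q : Pt} (h : NN p q) (h1 : Even p.1) (h2 : Even p.2) :
    fc p = e1 (vx q) ∨ fc p = e2 (vx q) := by
  obtain ⟨p1, p2⟩ := p
  obtain ⟨q1, q2⟩ := q
  obtain ⟨i, hi⟩ := h1
  obtain ⟨j, hj⟩ := h2
  dsimp only at hi hj
  unfold NN at h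
  dsimp only at h
  unfold fc vx e1 e2
  dsimp only
  have hev : ∀ z : ℤ, Even z ↔ z % 2 = 0 := fun z => Int.even_iff
  simp only [hev]
  rcases h with ⟨h3, h4 | h4⟩ | ⟨h3, h4 | h4⟩
  · right
    rw [if_pos (by omega)]
    ext <;> dsimp only <;> omega
  · left
    rw [if_pos (by omega)]
    ext <;> dsimp only <;> omega
  · left
    rw [if_neg (by omega)]
    ext <;> dsimp only <;> omega
  · right
    rw [if_neg (by omega)]
    ext <;> dsimp only <;> omega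

theorem SQ_subset (t : ℝ) (P : Measure (Ori (ℤ × ℤ))) [IsProbabilityMeasure P]
    (hice : ∀ᵐ a ∂P, ∀ x y, Ice a x y) : ∀ᵐ x ∂(J t P), SQ x ⊆ SP x := by
  filter_upwards [open_even t P hice] with x hx
  rw [SQ_eq]
  rintro p (⟨-, h⟩ | ⟨h1, h2, q, h3, (⟨h4, h5, -⟩ | ⟨-, h4, h5⟩)⟩)
  · exact h
  · exfalso
    have := nn_odd h3 h1 h2
    rw [Int.odd_iff] at this
    rw [Int.even_iff] at h4 h5
    omega
  · refine Or.inl ⟨h1, h2, ?_⟩
    rcases face_of_nn h3 h1 h2 with h6 | h6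
    · rw [h6]; exact h5
    · rw [h6, ← hx _ h4]; exact h5

theorem inc_SQ_le (t : ℝ) (P : Measure (Ori (ℤ × ℤ))) [IsProbabilityMeasure P]
    (hice : ∀ᵐ a ∂P, ∀ x y, Ice a x y) {Q : Set (ℤ × ℤ) → Prop} (hQ : Inc Q) :
    (J t P).real {x | Q (SQ x)} ≤ (J t P).real {x | Q (SP x)} := by
  refine ENNReal.toReal_mono (measure_ne_top _ _) (measure_mono_ae ?_)
  filter_upwards [SQ_subset t P hice] with x hx h
  exact hQ _ _ hx h

/-! ### A single bond is open and plus with positive probability -/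

theorem edge_pos {t : ℝ} {P : Measure (Ori (ℤ × ℤ))} [IsProbabilityMeasure P] (hS : SymS t P)
    {c0 : ℝ} (h0 : 0 < c0) {n : ℤ} (hn : 1 ≤ n)
    (hsq : c0 ≤ (J t P).real {x | LRc 0 n 0 n (SP x)}) :
    0 < (J t P).real {x | (0, 0) ∈ SQ x ∧ (0, 1) ∈ SQ x ∧ (0, 2) ∈ SQ x} := by
  have hloc : ∀ p : Pt, Loc (fun S : Set Pt => p ∈ S) := fun p =>
    ⟨max |p.1| |p.2|, fun S T h hS => (h p (le_max_left _ _) (le_max_right _ _)).1 hS⟩
  have h1 : ∀ a b : ℤ, (J t P).real {x | (2 * a, 1 + 2 * b) ∈ SP x} =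
      (J t P).real {x | ((0, 1) : Pt) ∈ SP x} := by
    intro a b
    have := hS.shift a b _ (hloc (0, 1))
    simpa using this
  have h2 : ∀ a b : ℤ, (J t P).real {x | (1 + 2 * a, 2 * b) ∈ SP x} =
      (J t P).real {x | ((0, 1) : Pt) ∈ SP x} := by
    intro a b
    rw [← h1 b a]
    exact hS.swap _ (hloc (2 * b, 1 + 2 * a))
  have h3 : 0 < (J t P).real {x | ((0, 1) : Pt) ∈ SP x} := by
    by_contra hcon
    have h4 : (J t P).real {x | ((0, 1) : Pt) ∈ SP x} = 0 :=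
      le_antisymm (not_lt.1 hcon) measureReal_nonneg
    have h5 : ∀ p : Pt, Odd (p.1 + p.2) → (J t P).real {x | p ∈ SP x} = 0 := by
      rintro ⟨p1, p2⟩ hp
      rw [Int.odd_iff] at hp
      dsimp only at hp
      rcases Int.even_or_odd p1 with hp1 | hp1
      · obtain ⟨i, hi⟩ := hp1
        obtain ⟨j, hj⟩ : ∃ j, p2 = 1 + 2 * j := ⟨(p2 - 1) / 2, by omega⟩
        have e : ((p1, p2) : Pt) = (2 * i, 1 + 2 * j) := by ext <;> dsimp only <;> omega
        rw [e, h1, h4]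
      · obtain ⟨i, hi⟩ := hp1
        obtain ⟨j, hj⟩ : ∃ j, p2 = 2 * j := ⟨p2 / 2, by omega⟩
        have e : ((p1, p2) : Pt) = (1 + 2 * i, 2 * j) := by ext <;> dsimp only <;> omega
        rw [e, h2, h4]
    have h6 : (J t P).real {x | LRc 0 n 0 n (SP x)} ≤
        ∑ p ∈ (Finset.Icc (-(2 * n + 1)) (2 * n + 1) ×ˢ Finset.Icc (-(2 * n + 1)) (2 * n + 1)).filter
          (fun p : Pt => Odd (p.1 + p.2)), (J t P).real {x | p ∈ SP x} := by
      refine le_trans (measureReal_mono ?_ (measure_ne_top _ _)) (measureReal_biUnion_finset_le _ _)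
      intro x hx
      obtain ⟨u, v, ⟨g1, g2⟩, g3, g4⟩ := LRc_SQ (x := x) (by omega) hx
      rcases Relation.ReflTransGen.cases_head g2 with h | ⟨w, ⟨g5, g6⟩, -⟩
      · exfalso
        rw [h] at g3; omega
      · have gu := g1.1
        rw [SQ_eq] at gu
        have hb := g1.2
        obtain ⟨b1, b2, b3, b4⟩ := hb
        rcases gu with ⟨k1, k2⟩ | ⟨k1, k2, q, k3, k4⟩
        · simp only [Set.mem_iUnion, exists_prop, Finset.mem_filter, Finset.mem_product,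
            Finset.mem_Icc]
          exact ⟨u, ⟨⟨⟨by omega, by omega⟩, ⟨by omega, by omega⟩⟩, k1⟩, k2⟩
        · have k5 := nn_odd k3 k1 k2
          unfold NN at k3
          simp only [Set.mem_iUnion, exists_prop, Finset.mem_filter, Finset.mem_product,
            Finset.mem_Icc]
          exact ⟨q, ⟨⟨⟨by omega, by omega⟩, ⟨by omega, by omega⟩⟩, k5⟩, k4⟩
    rw [Finset.sum_eq_zero (fun p hp => h5 p (Finset.mem_filter.1 hp).2)] at h6
    linarith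
  refine lt_of_lt_of_le h3 (measureReal_mono ?_)
  intro x hx
  have hx' : ((0, 1) : Pt) ∈ SP x := hx
  show (0, 0) ∈ SQ x ∧ (0, 1) ∈ SQ x ∧ (0, 2) ∈ SQ x
  rw [SQ_eq]
  refine ⟨Or.inr ⟨by decide, by decide, (0, 1), by unfold NN; decide, hx'⟩,
    Or.inl ⟨by decide, hx'⟩, Or.inr ⟨by decide, by decide, (0, 1), by unfold NN; decide, hx'⟩⟩

/-! ### Circuits and crossings at all scales -/

/-- **(R1)**: crossings of long rectangles by open bonds with spin plus. -/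
theorem r1_long {t : ℝ} {P : Measure (Ori (ℤ × ℤ))} [IsProbabilityMeasure P]
    (hice : ∀ᵐ a ∂P, ∀ x y, Ice a x y) (hA : Assoc t P) (hS : SymS t P)
    {c0 : ℝ} (h0 : 0 < c0) {N : ℤ}
    (hsq : ∀ n : ℤ, N ≤ n → c0 ≤ (J t P).real {x | LRc 0 n 0 n (SP x)})
    (harm : ∀ c : ℝ, 0 < c → ∀ M0 : ℤ, ∃ M : ℤ, M0 ≤ M ∧ ∃ s0 : ℤ, ∀ s : ℤ, s0 ≤ s →
      (J t P).real {x | Arm s (2 * M * s) (SP x)} < c) (k : ℕ) :
    ∃ c : ℝ, 0 < c ∧ ∃ r0 : ℤ, ∀ r : ℤ, r0 ≤ r →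
      c ≤ (J t P).real {x | LRc 0 (k * r) 0 r (SQ x)} := by
  have hIA : ∀ s R : ℤ, Inc (Arm s R) := fun s R =>
    ((IL_Ann 0 0 s).and ((IL_Ann 0 0 (2 * R)).and ((IL_Ann (3 * R) 0 R).and
      (IL_Hc (-(4 * R)) 0 (-(2 * R)) (2 * R) 0 s)))).1
  refine PP.rsw_rect (ppq t P hA hS) geo h0 (max N 1).toNat ?_ ?_ ?_ k
  · intro n hn
    have h1 : N ≤ n := by omega
    have h2 : (1 : ℤ) ≤ n := by omega
    refine (hsq n h1).trans (measureReal_mono ?_)
    intro x hx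
    exact LRc_SQ (by omega) hx
  · exact edge_pos hS h0 (n := max N 1) (le_max_right _ _) (hsq _ (le_max_left _ _))
  · intro c hc M0
    obtain ⟨M, hM, s0, h⟩ := harm c hc M0
    exact ⟨M, hM, s0, fun s hs => lt_of_le_of_lt (inc_SQ_le t P hice (hIA s _)) (h s hs)⟩

/-- **(R1)**: circuits of open bonds with spin plus in annuli. -/
theorem r1_ann {t : ℝ} {P : Measure (Ori (ℤ × ℤ))} [IsProbabilityMeasure P]
    (hice : ∀ᵐ a ∂P, ∀ x y, Ice a x y) (hA : Assoc t P) (hS : SymS t P)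
    {c0 : ℝ} (h0 : 0 < c0) {N : ℤ}
    (hsq : ∀ n : ℤ, N ≤ n → c0 ≤ (J t P).real {x | LRc 0 n 0 n (SP x)})
    (harm : ∀ c : ℝ, 0 < c → ∀ M0 : ℤ, ∃ M : ℤ, M0 ≤ M ∧ ∃ s0 : ℤ, ∀ s : ℤ, s0 ≤ s →
      (J t P).real {x | Arm s (2 * M * s) (SP x)} < c) :
    ∃ c : ℝ, 0 < c ∧ ∃ r0 : ℤ, ∀ r : ℤ, r0 ≤ r → ∀ p q : ℤ,
      c ≤ (J t P).real {x | Ann p q r (SQ x)} := by
  obtain ⟨c, hc, r0, h⟩ := r1_long hice hA hS h0 hsq harm 4
  refine ⟨c ^ 4, by positivity, r0, fun r hr p q => ?_⟩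
  exact (ppq t P hA hS).Ann_ge p q hc.le (h r hr)

end Vale.Agent.P145.FB
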