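import Vale.Agent.P145.FB.AsPb
import Vale.Agent.P145.FB.Inst

/-!
P145, block F-B, (A): association of the open bonds with spin plus in the plane.
-/

set_option autoImplicit false

namespace Vale.Agent.P145.FB

open Finset Filter Topology MeasureTheory
open Vale.Agent.P152 Vale.Agent.P145.FA
open Vale.Agent.P152.GFF.B3 (BE boxNet Net bxf bxg mu muI insW m_loc m_emb IsEmb)
open Vale.Agent.P152.GFF.E2 (DG FB boxD fSW fSE fNW fNE pty fg rim wd aE aO EvV Hts)

/-- Spins of the faces of a window. -/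
def wτ (m r : ℕ) (x0 y0 : ℤ) (x : Hgt × Mk) (q : FB m r) : Bool :=
  decide (x.1 (x0 - 1 + (q.1.val : ℤ), y0 - 1 + (q.2.val : ℤ)) % 4 = 0)

/-- Bonds of a window. -/
def wω (m r : ℕ) (x0 y0 : ℤ) (x : Hgt × Mk) (v : Fin m × Fin r) : Bool :=
  x.2 (x0 + (v.1.val : ℤ), y0 + (v.2.val : ℤ))

/-- The transfer of window observables. -/
def PlMu (c : ℝ) (P : Measure (Ori (ℤ × ℤ))) : Prop :=
  ∀ (m r : ℕ), 1 ≤ m → 1 ≤ r → ∀ (x0 y0 : ℤ) (f : (FB m r → Bool) → (Fin m × Fin r → Bool) → ℝ),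
    EvL ((x0 + y0 : ℤ) : ZMod 2) f →
    ∫ x, f (wτ m r x0 y0 x) (wω m r x0 y0 x) ∂(J (1 / c) P) =
      mu (wc c) m r (phi c m r ((x0 + y0 : ℤ) : ZMod 2) f)

/-- Association of `(τ, ω₊, -ω₋)` in windows of the plane. -/
theorem win_asc {c : ℝ} (hc : 1 ≤ c) (hc2 : c ≤ 2) (hb : BoxLim c) {P : Measure (Ori (ℤ × ℤ))}
    (hpl : PlMu c P) {m r : ℕ} (hm : 1 ≤ m) (hr : 1 ≤ r) (x0 y0 : ℤ)
    {f g : (FB m r → Bool) → (Fin m × Fin r → Bool) → ℝ}
    (hf : EvL ((x0 + y0 : ℤ) : ZMod 2) f) (hg : EvL ((x0 + y0 : ℤ) : ZMod 2) g)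
    (hf3 : Mono3 (boxD m r ((x0 + y0 : ℤ) : ZMod 2)) f)
    (hg3 : Mono3 (boxD m r ((x0 + y0 : ℤ) : ZMod 2)) g) :
    (∫ x, f (wτ m r x0 y0 x) (wω m r x0 y0 x) ∂(J (1 / c) P)) *
      (∫ x, g (wτ m r x0 y0 x) (wω m r x0 y0 x) ∂(J (1 / c) P)) ≤
    ∫ x, f (wτ m r x0 y0 x) (wω m r x0 y0 x) * g (wτ m r x0 y0 x) (wω m r x0 y0 x)
      ∂(J (1 / c) P) := by
  have h1 := hpl m r hm hr x0 y0 f hf
  have h2 := hpl m r hm hr x0 y0 g hg
  have h3 := hpl m r hm hr x0 y0 (fun τ o => f τ o * g τ o) (by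
    intro τ τ' o h
    show f τ o * g τ o = f τ' o * g τ' o
    rw [hf τ τ' o h, hg τ τ' o h])
  rw [h1, h2]
  refine le_trans (mu_asc hc hc2 hb hm hr _ hf hg hf3 hg3) (le_of_eq ?_)
  rw [← h3]

/-- The lower even face of a vertex of the window. -/
def xf {m r : ℕ} (par : ZMod 2) (v : Fin m × Fin r) : FB m r :=
  if pty par v = 0 then fSW v else fSE v

lemma boxD_xf {m r : ℕ} (par : ZMod 2) (v : Fin m × Fin r) :
    (boxD m r par).x v false = some (xf par v) := by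
  unfold boxD xf
  dsimp only
  by_cases h : pty par v = 0
  · rw [if_pos h, if_pos h, if_neg (by decide)]
  · rw [if_neg h, if_neg h, if_neg (by decide)]

lemma evf_xf {m r : ℕ} (par : ZMod 2) (v : Fin m × Fin r) : Evf par (xf par v) := by
  unfold Evf xf
  split_ifs with h
  · exact h
  · have h1 : pty par v = 1 := by
      rcases z2_cases (pty par v) with h2 | h2
      · exact absurd h2 h
      · exact h2
    show (((v.1.succ : Fin (m + 1)).val : ℕ) : ZMod 2) + ((v.2.castSucc : Fin (r + 1)).val : ℕ) + par = 0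
    have h2 : (v.1.val : ZMod 2) + v.2.val + par = 1 := h1
    rw [Fin.val_succ, Fin.val_castSucc]
    push_cast
    have h3 : (v.1.val : ZMod 2) + 1 + v.2.val + par = (v.1.val : ZMod 2) + v.2.val + par + 1 := by
      ring
    rw [h3, h2]
    decide

lemma par_even {m r : ℕ} (x0 y0 : ℤ) (v : Fin m × Fin r) :
    pty ((x0 + y0 : ℤ) : ZMod 2) v = 0 ↔ Even (x0 + (v.1.val : ℤ) + (y0 + (v.2.val : ℤ))) := by
  have h1 : pty ((x0 + y0 : ℤ) : ZMod 2) v =
      ((x0 + (v.1.val : ℤ) + (y0 + (v.2.val : ℤ)) : ℤ) : ZMod 2) := by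
    unfold pty
    push_cast
    ring
  rw [h1, ZMod.intCast_zmod_eq_zero_iff_dvd]
  norm_num
  exact even_iff_two_dvd.symm

lemma wτ_xf {m r : ℕ} (x0 y0 : ℤ) (x : Hgt × Mk) (v : Fin m × Fin r) :
    wτ m r x0 y0 x (xf ((x0 + y0 : ℤ) : ZMod 2) v) =
      decide (x.1 (e2 (x0 + (v.1.val : ℤ), y0 + (v.2.val : ℤ))) % 4 = 0) := by
  have key : (x0 - 1 + ((xf ((x0 + y0 : ℤ) : ZMod 2) v).1.val : ℤ),
      y0 - 1 + ((xf ((x0 + y0 : ℤ) : ZMod 2) v).2.val : ℤ)) =
      e2 (x0 + (v.1.val : ℤ), y0 + (v.2.val : ℤ)) := by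
    unfold xf e2
    have h := par_even x0 y0 v
    by_cases hp : pty ((x0 + y0 : ℤ) : ZMod 2) v = 0
    · rw [if_pos hp, if_pos (h.1 hp)]
      refine Prod.ext ?_ ?_
      · show x0 - 1 + ((v.1.castSucc : Fin (m + 1)).val : ℤ) = x0 + (v.1.val : ℤ) - 1
        rw [Fin.val_castSucc]
        ring
      · show y0 - 1 + ((v.2.castSucc : Fin (r + 1)).val : ℤ) = y0 + (v.2.val : ℤ) - 1
        rw [Fin.val_castSucc]
        ring
    · rw [if_neg hp, if_neg (fun hh => hp (h.2 hh))]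
      refine Prod.ext ?_ ?_
      · show x0 - 1 + ((v.1.succ : Fin (m + 1)).val : ℤ) = x0 + (v.1.val : ℤ)
        rw [Fin.val_succ]
        push_cast
        ring
      · show y0 - 1 + ((v.2.castSucc : Fin (r + 1)).val : ℤ) = y0 + (v.2.val : ℤ) - 1
        rw [Fin.val_castSucc]
        ring
  unfold wτ
  rw [key]

/-- The set of bonds given by a window configuration. -/
def Aset (m r : ℕ) (x0 y0 : ℤ) (τ : FB m r → Bool) (o : Fin m × Fin r → Bool) : Set Pt :=
  {w | ∃ v : Fin m × Fin r, w = (x0 + (v.1.val : ℤ), y0 + (v.2.val : ℤ)) ∧ o v = true ∧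
    τ (xf ((x0 + y0 : ℤ) : ZMod 2) v) = true}

open Classical in
/-- The indicator of an event of the open bonds with spin plus. -/
noncomputable def fU (m r : ℕ) (x0 y0 : ℤ) (U : Set Pt → Prop) (τ : FB m r → Bool)
    (o : Fin m × Fin r → Bool) : ℝ := if U (Aset m r x0 y0 τ o) then 1 else 0

lemma fU_evl (m r : ℕ) (x0 y0 : ℤ) (U : Set Pt → Prop) :
    EvL ((x0 + y0 : ℤ) : ZMod 2) (fU m r x0 y0 U) := by
  intro τ τ' o h
  unfold fU
  have : Aset m r x0 y0 τ o = Aset m r x0 y0 τ' o := by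
    unfold Aset
    ext w
    simp only [Set.mem_ofPred_eq]
    refine exists_congr fun v => ?_
    rw [h _ (evf_xf _ v)]
  rw [this]

lemma fU_mono (m r : ℕ) (x0 y0 : ℤ) {U : Set Pt → Prop} (hU : ∀ A B, A ⊆ B → U A → U B) :
    Mono3 (boxD m r ((x0 + y0 : ℤ) : ZMod 2)) (fU m r x0 y0 U) := by
  classical
  intro τ τ' o o' h1 h2 _
  unfold fU
  have h4 : Aset m r x0 y0 τ o ⊆ Aset m r x0 y0 τ' o' := by
    rintro w ⟨v, hw, ho, hτ⟩
    exact ⟨v, hw, h2 v _ (boxD_xf _ v) hτ ho, h1 _ hτ⟩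
  split_ifs with h5 h6
  · exact le_refl _
  · exact absurd (hU _ _ h4 h5) h6
  · exact zero_le_one
  · exact le_refl _

/-- **(A)**: association of the open bonds with spin plus. -/
theorem assoc_of {c : ℝ} (hc : 1 ≤ c) (hc2 : c ≤ 2) (hb : BoxLim c) {P : Measure (Ori (ℤ × ℤ))}
    [IsProbabilityMeasure P] (hice : ∀ᵐ a ∂P, ∀ x y, Ice a x y) (hpl : PlMu c P) :
    Assoc (1 / c) P := by
  classical
  intro U V hU hV hUl hVl
  obtain ⟨FU, hFU⟩ := hUl
  obtain ⟨FV, hFV⟩ := hVl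
  -- the window
  obtain ⟨N, hN⟩ : ∃ N : ℕ, ∀ w ∈ FU ∪ FV, |w.1| ≤ (N : ℤ) ∧ |w.2| ≤ (N : ℤ) := by
    refine ⟨(FU ∪ FV).sup (fun w => max w.1.natAbs w.2.natAbs), fun w hw => ?_⟩
    have h1 := Finset.le_sup (f := fun w : Pt => max w.1.natAbs w.2.natAbs) hw
    have h2 := le_trans (le_max_left _ _) h1
    have h3 := le_trans (le_max_right _ _) h1
    constructor
    · rw [Int.abs_eq_natAbs]; exact_mod_cast h2
    · rw [Int.abs_eq_natAbs]; exact_mod_cast h3
  set m : ℕ := 2 * N + 1 with hm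
  set z0 : ℤ := -(N : ℤ) with hz0
  have hA : ∀ᵐ x ∂(J (1 / c) P), ∀ w ∈ FU ∪ FV, (w ∈ opp x ↔
      w ∈ Aset m m z0 z0 (wτ m m z0 z0 x) (wω m m z0 z0 x)) := by
    filter_upwards [open_even (1 / c) P hice] with x hx w hw
    obtain ⟨h1, h2⟩ := hN w hw
    rw [abs_le] at h1 h2
    constructor
    · rintro ⟨h3, h4⟩
      refine ⟨(⟨(w.1 + N).toNat, by omega⟩, ⟨(w.2 + N).toNat, by omega⟩), ?_, ?_, ?_⟩
      · refine Prod.ext ?_ ?_
        · show w.1 = z0 + ((w.1 + N).toNat : ℤ)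
          omega
        · show w.2 = z0 + ((w.2 + N).toNat : ℤ)
          omega
      · show x.2 (z0 + ((w.1 + N).toNat : ℤ), z0 + ((w.2 + N).toNat : ℤ)) = true
        have e1 : z0 + ((w.1 + N).toNat : ℤ) = w.1 := by omega
        have e2 : z0 + ((w.2 + N).toNat : ℤ) = w.2 := by omega
        rw [e1, e2]
        exact h3
      · rw [wτ_xf, decide_eq_true_eq]
        have e1 : z0 + ((w.1 + N).toNat : ℤ) = w.1 := by omega
        have e2' : z0 + ((w.2 + N).toNat : ℤ) = w.2 := by omega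
        simp only [e1, e2']
        rw [← hx w h3]
        exact h4
    · rintro ⟨v, hv, ho, hτ⟩
      rw [wτ_xf, decide_eq_true_eq, ← hv] at hτ
      have ho' : x.2 w = true := by rw [hv]; exact ho
      exact ⟨ho', by rw [hx w ho']; exact hτ⟩
  have key : ∀ (U : Set Pt → Prop) (F : Finset Pt), F ⊆ FU ∪ FV →
      (∀ A B : Set Pt, (∀ w ∈ F, w ∈ A ↔ w ∈ B) → U A → U B) →
      ∀ᵐ x ∂(J (1 / c) P), (U (opp x) ↔
        U (Aset m m z0 z0 (wτ m m z0 z0 x) (wω m m z0 z0 x))) := by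
    intro U F hF hl
    filter_upwards [hA] with x hx
    exact ⟨hl _ _ fun w hw => hx w (hF hw), hl _ _ fun w hw => (hx w (hF hw)).symm⟩
  have kU := key U FU Finset.subset_union_left hFU
  have kV := key V FV Finset.subset_union_right hFV
  -- measurability of the window
  have hmw : Measurable (fun x : Hgt × Mk => (wτ m m z0 z0 x, wω m m z0 z0 x)) := by
    refine Measurable.prodMk (measurable_pi_lambda _ fun q => ?_)
      (measurable_pi_lambda _ fun v => ?_)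
    · exact (measurable_of_countable (fun z : ℤ => decide (z % 4 = 0))).comp
        ((measurable_pi_apply _).comp measurable_fst)
    · exact (measurable_pi_apply _).comp measurable_snd
  have hint : ∀ G : (FB m m → Bool) × (Fin m × Fin m → Bool) → Prop,
      (J (1 / c) P).real {x | G (wτ m m z0 z0 x, wω m m z0 z0 x)} =
        ∫ x, (if G (wτ m m z0 z0 x, wω m m z0 z0 x) then (1 : ℝ) else 0) ∂(J (1 / c) P) := by
    intro G
    have hms : MeasurableSet {x : Hgt × Mk | G (wτ m m z0 z0 x, wω m m z0 z0 x)} :=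
      hmw (Set.toFinite {y | G y}).measurableSet
    rw [← integral_indicator_one hms]
    refine integral_congr_ae (Eventually.of_forall fun x => ?_)
    simp only [Set.indicator_apply, Set.mem_ofPred_eq, Pi.one_apply]
  have h1 : (J (1 / c) P).real {x | U (opp x)} =
      ∫ x, fU m m z0 z0 U (wτ m m z0 z0 x) (wω m m z0 z0 x) ∂(J (1 / c) P) := by
    rw [show (J (1 / c) P).real {x | U (opp x)} = (J (1 / c) P).real
      {x | U (Aset m m z0 z0 (wτ m m z0 z0 x) (wω m m z0 z0 x))} from measureReal_congr (by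
        filter_upwards [kU] with x hx
        exact propext hx)]
    exact hint (fun y => U (Aset m m z0 z0 y.1 y.2))
  have h2 : (J (1 / c) P).real {x | V (opp x)} =
      ∫ x, fU m m z0 z0 V (wτ m m z0 z0 x) (wω m m z0 z0 x) ∂(J (1 / c) P) := by
    rw [show (J (1 / c) P).real {x | V (opp x)} = (J (1 / c) P).real
      {x | V (Aset m m z0 z0 (wτ m m z0 z0 x) (wω m m z0 z0 x))} from measureReal_congr (by
        filter_upwards [kV] with x hx
        exact propext hx)]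
    exact hint (fun y => V (Aset m m z0 z0 y.1 y.2))
  have h3 : (J (1 / c) P).real {x | U (opp x) ∧ V (opp x)} =
      ∫ x, fU m m z0 z0 U (wτ m m z0 z0 x) (wω m m z0 z0 x) *
        fU m m z0 z0 V (wτ m m z0 z0 x) (wω m m z0 z0 x) ∂(J (1 / c) P) := by
    rw [show (J (1 / c) P).real {x | U (opp x) ∧ V (opp x)} = (J (1 / c) P).real
      {x | U (Aset m m z0 z0 (wτ m m z0 z0 x) (wω m m z0 z0 x)) ∧
        V (Aset m m z0 z0 (wτ m m z0 z0 x) (wω m m z0 z0 x))} from measureReal_congr (by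
        filter_upwards [kU, kV] with x hx hx'
        exact propext (and_congr hx hx'))]
    rw [hint (fun y => U (Aset m m z0 z0 y.1 y.2) ∧ V (Aset m m z0 z0 y.1 y.2))]
    refine integral_congr_ae (Eventually.of_forall fun x => ?_)
    unfold fU
    dsimp only
    by_cases hu : U (Aset m m z0 z0 (wτ m m z0 z0 x) (wω m m z0 z0 x))
    · by_cases hv : V (Aset m m z0 z0 (wτ m m z0 z0 x) (wω m m z0 z0 x))
      · rw [if_pos hu, if_pos hv, if_pos ⟨hu, hv⟩, one_mul]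
      · rw [if_pos hu, if_neg hv, if_neg (fun h => hv h.2), mul_zero]
    · rw [if_neg hu, if_neg (fun h => hu h.1), zero_mul]
  rw [h1, h2, h3]
  exact win_asc hc hc2 hb hpl (by omega) (by omega) z0 z0 (fU_evl _ _ _ _ _) (fU_evl _ _ _ _ _)
    (fU_mono _ _ _ _ hU) (fU_mono _ _ _ _ hV)

end Vale.Agent.P145.FB
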