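import Vale.Agent.P145.FB.AsPc
import Vale.Agent.P145.FB.AsPd

/-!
P145, block F-B, (A): association of the open bonds with spin plus in the plane.
-/

set_option autoImplicit false

namespace Vale.Agent.P145.FB

open MeasureTheory
open Vale.Agent.P152 Vale.Agent.P145.FA
open Vale.Agent.P152.GFF.B3 (IsP)
open Vale.Agent.P152.GFF.E2 (FB boxD)

theorem plMu {c : ℝ} (hc : 1 ≤ c) {P : Measure (Ori (ℤ × ℤ))} [IsProbabilityMeasure P]
    (hP : IsP c P) : PlMu c P :=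
  fun m r hm hr x0 y0 f hf => pl_mu hc hP m r hm hr x0 y0 f hf

/-- **(A)**: association of the open bonds with spin plus. -/
theorem assoc_pl {c : ℝ} (hc : 1 ≤ c) (hc2 : c ≤ 2) (hb : BoxLim c) {P : Measure (Ori (ℤ × ℤ))}
    [IsProbabilityMeasure P] (hP : IsP c P) (hice : ∀ᵐ a ∂P, ∀ x y, Ice a x y) :
    Assoc (1 / c) P :=
  assoc_of hc hc2 hb hice (plMu hc hP)

/-- **(A)**, general form: association of `(τ, ω₊, -ω₋)` in windows of the plane. -/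
theorem assoc3_pl {c : ℝ} (hc : 1 ≤ c) (hc2 : c ≤ 2) (hb : BoxLim c) {P : Measure (Ori (ℤ × ℤ))}
    [IsProbabilityMeasure P] (hP : IsP c P) {m r : ℕ} (hm : 1 ≤ m) (hr : 1 ≤ r) (x0 y0 : ℤ)
    {f g : (FB m r → Bool) → (Fin m × Fin r → Bool) → ℝ}
    (hf : EvL ((x0 + y0 : ℤ) : ZMod 2) f) (hg : EvL ((x0 + y0 : ℤ) : ZMod 2) g)
    (hf3 : Mono3 (boxD m r ((x0 + y0 : ℤ) : ZMod 2)) f)
    (hg3 : Mono3 (boxD m r ((x0 + y0 : ℤ) : ZMod 2)) g) :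
    (∫ x, f (wτ m r x0 y0 x) (wω m r x0 y0 x) ∂(J (1 / c) P)) *
      (∫ x, g (wτ m r x0 y0 x) (wω m r x0 y0 x) ∂(J (1 / c) P)) ≤
    ∫ x, f (wτ m r x0 y0 x) (wω m r x0 y0 x) * g (wτ m r x0 y0 x) (wω m r x0 y0 x)
      ∂(J (1 / c) P) :=
  win_asc hc hc2 hb (plMu hc hP) hm hr x0 y0 hf hg hf3 hg3

end Vale.Agent.P145.FB
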