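import Vale.Agent.P153.Topo.Hex
import Vale.Agent.P153.Topo.Cross
import Vale.Agent.P153.Topo.Circuit

/-!
# P145: planar duality for bonds on the rotated square lattice

Sites are the points of `ℤ × ℤ`: the even ones (`x + y` even) are the primal sites, the odd ones the
dual sites. A unit square is given by its lower left corner; one of its diagonals joins the two even
corners (the primal edge), the other one joins the two odd corners (the dual edge). `F` is the set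
of the squares whose primal edge is open; the dual edge of a square is open iff the square is not
in `F`.

* `hard`: in the box `[a, b] × [c, d]` there is a primal open path from left to right or a dual open
  path from bottom to top.
* `easy`: a primal path from left to right and a dual path which joins the part of the boundary
  above it to the part of the boundary below it exclude each other.
-/

namespace Vale.Agent.P145.FB

open Vale.Agent.P153.Topo Vale.Agent.P153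

/-- `u` and `v` are opposite corners of a square of `F`. -/
def PStep (F : Set (ℤ × ℤ)) (u v : ℤ × ℤ) : Prop :=
  (v.1 = u.1 + 1 ∨ v.1 = u.1 - 1) ∧ (v.2 = u.2 + 1 ∨ v.2 = u.2 - 1) ∧
    (min u.1 v.1, min u.2 v.2) ∈ F

/-- `u` and `v` are joined inside `R` by a path of diagonals of squares of `F`. -/
def PConn (F R : Set (ℤ × ℤ)) (u v : ℤ × ℤ) : Prop :=
  u ∈ R ∧ Relation.ReflTransGen (fun x y => PStep F x y ∧ y ∈ R) u v

theorem PStep.symm {F : Set (ℤ × ℤ)} {u v : ℤ × ℤ} (h : PStep F u v) : PStep F v u := by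
  obtain ⟨h1, h2, h3⟩ := h
  refine ⟨by omega, by omega, ?_⟩
  rwa [min_comm v.1, min_comm v.2]

theorem PConn.refl {F R : Set (ℤ × ℤ)} {u : ℤ × ℤ} (h : u ∈ R) : PConn F R u u :=
  ⟨h, Relation.ReflTransGen.refl⟩

theorem PConn.tail {F R : Set (ℤ × ℤ)} {u v w : ℤ × ℤ} (h : PConn F R u v) (h' : PStep F v w)
    (hw : w ∈ R) : PConn F R u w :=
  ⟨h.1, h.2.tail ⟨h', hw⟩⟩

theorem PConn.left_mem {F R : Set (ℤ × ℤ)} {u v : ℤ × ℤ} (h : PConn F R u v) : u ∈ R := h.1

theorem PConn.right_mem {F R : Set (ℤ × ℤ)} {u v : ℤ × ℤ} (h : PConn F R u v) : v ∈ R := by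
  obtain ⟨hu, h⟩ := h
  induction h with
  | refl => exact hu
  | tail _ h _ => exact h.2

theorem PConn.trans {F R : Set (ℤ × ℤ)} {u v w : ℤ × ℤ} (h : PConn F R u v)
    (h' : PConn F R v w) : PConn F R u w :=
  ⟨h.1, h.2.trans h'.2⟩

theorem PConn.symm {F R : Set (ℤ × ℤ)} {u v : ℤ × ℤ} (h : PConn F R u v) : PConn F R v u := by
  obtain ⟨hu, h⟩ := h
  induction h with
  | refl => exact PConn.refl hu
  | @tail x y hx hxy ih =>
    have hxR : x ∈ R := (show PConn F R u x from ⟨hu, hx⟩).right_mem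
    exact ((PConn.refl hxy.2).tail hxy.1.symm hxR).trans ih

theorem PConn.mono {F F' R R' : Set (ℤ × ℤ)} (hF : F ⊆ F') (hR : R ⊆ R') {u v : ℤ × ℤ}
    (h : PConn F R u v) : PConn F' R' u v := by
  obtain ⟨hu, h⟩ := h
  induction h with
  | refl => exact PConn.refl (hR hu)
  | tail _ hxy ih => exact ih.tail ⟨hxy.1.1, hxy.1.2.1, hF hxy.1.2.2⟩ (hR hxy.2)

/-- The parity does not change along a path. -/
theorem PConn.parity {F R : Set (ℤ × ℤ)} {u v : ℤ × ℤ} (h : PConn F R u v) :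
    (u.1 + u.2) % 2 = (v.1 + v.2) % 2 := by
  obtain ⟨-, h⟩ := h
  induction h with
  | refl => rfl
  | @tail x y _ hxy ih =>
    obtain ⟨⟨h1, h2, -⟩, -⟩ := hxy
    omega

/-- exchange of the coordinates -/
theorem PConn.swap {F R : Set (ℤ × ℤ)} {u v : ℤ × ℤ} (h : PConn F R u v) :
    PConn (Prod.swap ⁻¹' F) (Prod.swap ⁻¹' R) u.swap v.swap := by
  obtain ⟨hu, h⟩ := h
  induction h with
  | refl => exact PConn.refl (by simpa using hu)
  | @tail x y _ hxy ih =>
    refine ih.tail ⟨hxy.1.2.1, hxy.1.1, ?_⟩ (by simpa using hxy.2)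
    exact hxy.1.2.2

/-! ### the scaled lattice -/

/-- the site whose blob contains a point of the scaled lattice -/
def st (p : ℤ × ℤ) : ℤ × ℤ := ((p.1 + 1) / 2, p.2 / 2)

/-- centres of squares -/
def Ctr (p : ℤ × ℤ) : Prop := p.1 % 2 = 1 ∧ p.2 % 2 = 1

/-- the set of the scaled lattice: blobs of the sites of parity `e` and centres of the squares
of `F` -/
def Sc (e : ℤ) (F : Set (ℤ × ℤ)) : Set (ℤ × ℤ) :=
  {p | (Ctr p ∧ (p.1 / 2, p.2 / 2) ∈ F) ∨ (¬ Ctr p ∧ ((st p).1 + (st p).2) % 2 = e)}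

theorem Sc_compl (F : Set (ℤ × ℤ)) : (Sc 0 F)ᶜ = Sc 1 Fᶜ := by
  ext p
  have h : ((st p).1 + (st p).2) % 2 = 0 ∨ ((st p).1 + (st p).2) % 2 = 1 := by omega
  simp only [Sc, Set.mem_compl_iff, Set.mem_ofPred_eq]
  by_cases hc : Ctr p
  · simp only [hc, true_and, not_true_eq_false, false_and, or_false]
  · simp only [hc, false_and, not_false_eq_true, true_and, false_or]
    omega

theorem ctr_adj {y z : ℤ × ℤ} (hy : Ctr y) (h : Adj y z) :
    ¬ Ctr z ∧ ((st z).1 = y.1 / 2 ∨ (st z).1 = y.1 / 2 + 1) ∧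
      ((st z).2 = y.2 / 2 ∨ (st z).2 = y.2 / 2 + 1) := by
  rw [adj_iff] at h
  obtain ⟨hy1, hy2⟩ := hy
  simp only [st, Ctr]
  rcases h with h | h | h | h | h | h <;> obtain ⟨h1, h2⟩ := h <;> rw [h1, h2] <;>
    refine ⟨by omega, by omega, by omega⟩

theorem nctr_adj {y z : ℤ × ℤ} (hy : ¬ Ctr y) (hz : ¬ Ctr z) (h : Adj y z)
    (hp : ((st y).1 + (st y).2) % 2 = ((st z).1 + (st z).2) % 2) : st z = st y := by
  rw [adj_iff] at h
  simp only [st, Ctr] at hy hz hp ⊢
  rcases h with h | h | h | h | h | h <;> obtain ⟨h1, h2⟩ := h <;> rw [h1, h2] at hz hp ⊢ <;>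
    refine Prod.ext ?_ ?_ <;> dsimp only <;> omega

theorem step_of_corners {F : Set (ℤ × ℤ)} {m n e : ℤ} {u v : ℤ × ℤ} (hF : (m, n) ∈ F)
    (hu1 : u.1 = m ∨ u.1 = m + 1) (hu2 : u.2 = n ∨ u.2 = n + 1)
    (hv1 : v.1 = m ∨ v.1 = m + 1) (hv2 : v.2 = n ∨ v.2 = n + 1)
    (hu : (u.1 + u.2) % 2 = e) (hv : (v.1 + v.2) % 2 = e) (hne : u ≠ v) : PStep F u v := by
  have hne' : ¬ (u.1 = v.1 ∧ u.2 = v.2) := fun h => hne (Prod.ext h.1 h.2)
  have e1 : min u.1 v.1 = m := by omega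
  have e2 : min u.2 v.2 = n := by omega
  refine ⟨by omega, by omega, ?_⟩
  rw [e1, e2]
  exact hF

theorem st_mem {a b c d : ℤ} {p : ℤ × ℤ} (hp : p ∈ Rect (2 * a) (2 * b) (2 * c) (2 * d)) :
    st p ∈ Rect a b c d := by
  rw [mem_rect] at hp ⊢
  simp only [st]
  omega

theorem proj {F : Set (ℤ × ℤ)} {e a b c d : ℤ} {x : ℤ × ℤ} (hx : ¬ Ctr x) {z : ℤ × ℤ}
    (h : Conn (Sc e F ∩ Rect (2 * a) (2 * b) (2 * c) (2 * d)) x z) :
    (¬ Ctr z → PConn F (Rect a b c d) (st x) (st z)) ∧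
    (Ctr z → ∃ w : ℤ × ℤ, (w.1 = z.1 / 2 ∨ w.1 = z.1 / 2 + 1) ∧
      (w.2 = z.2 / 2 ∨ w.2 = z.2 / 2 + 1) ∧ (w.1 + w.2) % 2 = e ∧
      PConn F (Rect a b c d) (st x) w) := by
  obtain ⟨hxS, h⟩ := h
  induction h with
  | refl => exact ⟨fun _ => PConn.refl (st_mem hxS.2), fun h => absurd h hx⟩
  | @tail y z hxy hyz ih =>
    have hyS : y ∈ Sc e F ∩ Rect (2 * a) (2 * b) (2 * c) (2 * d) :=
      (show Conn _ x y from ⟨hxS, hxy⟩).right_mem
    obtain ⟨hadj, hzS, hzR⟩ := hyz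
    obtain ⟨ih1, ih2⟩ := ih
    obtain ⟨hyS, hyR⟩ := hyS
    by_cases hcy : Ctr y
    · obtain ⟨w, hw1, hw2, hw3, hw⟩ := ih2 hcy
      have hyF : (y.1 / 2, y.2 / 2) ∈ F := by
        rcases hyS with h | h
        · exact h.2
        · exact absurd hcy h.1
      obtain ⟨hcz, hz1, hz2⟩ := ctr_adj hcy hadj
      refine ⟨fun _ => ?_, fun h => absurd h hcz⟩
      have hze : ((st z).1 + (st z).2) % 2 = e := by
        rcases hzS with h | h
        · exact absurd h.1 hcz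
        · exact h.2
      by_cases hwz : w = st z
      · rw [← hwz]; exact hw
      · exact hw.tail (step_of_corners hyF hw1 hw2 hz1 hz2 hw3 hze hwz) (st_mem hzR)
    · have py := ih1 hcy
      have hye : ((st y).1 + (st y).2) % 2 = e := by
        rcases hyS with h | h
        · exact absurd h.1 hcy
        · exact h.2
      refine ⟨fun hcz => ?_, fun hcz => ?_⟩
      · have hze : ((st z).1 + (st z).2) % 2 = e := by
          rcases hzS with h | h
          · exact absurd h.1 hcz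
          · exact h.2
        rw [nctr_adj hcy hcz hadj (hye.trans hze.symm)]
        exact py
      · obtain ⟨-, h1, h2⟩ := ctr_adj hcz (adj_symm hadj)
        exact ⟨st y, h1, h2, hye, py⟩

theorem not_ctr_left {p : ℤ × ℤ} {a : ℤ} (h : p.1 = 2 * a) : ¬ Ctr p := by
  unfold Ctr; omega

theorem not_ctr_right {p : ℤ × ℤ} {a : ℤ} (h : p.2 = 2 * a) : ¬ Ctr p := by
  unfold Ctr; omega

theorem parity_of_mem {F : Set (ℤ × ℤ)} {e : ℤ} {p : ℤ × ℤ} (h : p ∈ Sc e F) (hp : ¬ Ctr p) :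
    ((st p).1 + (st p).2) % 2 = e := by
  rcases h with h | h
  · exact absurd h.1 hp
  · exact h.2

/-- **Duality, hard half.** In a box there is a primal open path from left to right or a dual open
path from bottom to top. -/
theorem hard (F : Set (ℤ × ℤ)) {a b c d : ℤ} (hab : a ≤ b) (hcd : c ≤ d) :
    (∃ u v, u.1 = a ∧ v.1 = b ∧ (u.1 + u.2) % 2 = 0 ∧ PConn F (Rect a b c d) u v) ∨
    (∃ u v, u.2 = c ∧ v.2 = d ∧ (u.1 + u.2) % 2 = 1 ∧ PConn Fᶜ (Rect a b c d) u v) := by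
  rcases hex (Sc 0 F) (a := 2 * a) (b := 2 * b) (c := 2 * c) (d := 2 * d) (by omega) (by omega)
    with ⟨x, y, h, hx, hy⟩ | ⟨x, y, h, hx, hy⟩
  · left
    have hx' := not_ctr_left hx
    refine ⟨st x, st y, ?_, ?_, parity_of_mem h.left_mem.1 hx',
      (proj hx' h).1 (not_ctr_left hy)⟩
    · simp only [st]; omega
    · simp only [st]; omega
  · right
    rw [Sc_compl] at h
    have hx' := not_ctr_right hx
    refine ⟨st x, st y, ?_, ?_, parity_of_mem h.left_mem.1 hx',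
      (proj hx' h).1 (not_ctr_right hy)⟩
    · simp only [st]; omega
    · simp only [st]; omega

/-! ### lifting a path -/

theorem conn_corner {F : Set (ℤ × ℤ)} {m n e a b c d : ℤ} {w : ℤ × ℤ} (hF : (m, n) ∈ F)
    (h1 : w.1 = m ∨ w.1 = m + 1) (h2 : w.2 = n ∨ w.2 = n + 1) (hw : (w.1 + w.2) % 2 = e)
    (hm : a ≤ m ∧ m + 1 ≤ b) (hn : c ≤ n ∧ n + 1 ≤ d) :
    Conn (Sc e F ∩ Rect (2 * a) (2 * b) (2 * c) (2 * d)) (2 * w.1, 2 * w.2)
      (2 * m + 1, 2 * n + 1) := by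
  have hc : ((2 * m + 1, 2 * n + 1) : ℤ × ℤ) ∈
      Sc e F ∩ Rect (2 * a) (2 * b) (2 * c) (2 * d) := by
    refine ⟨Or.inl ⟨⟨?_, ?_⟩, ?_⟩, ?_⟩
    · dsimp only; omega
    · dsimp only; omega
    · have e1 : (2 * m + 1) / 2 = m := by omega
      have e2 : (2 * n + 1) / 2 = n := by omega
      dsimp only
      rw [e1, e2]; exact hF
    · rw [mem_rect]; dsimp only; omega
  have h0 : ((2 * w.1, 2 * w.2) : ℤ × ℤ) ∈
      Sc e F ∩ Rect (2 * a) (2 * b) (2 * c) (2 * d) := by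
    refine ⟨Or.inr ⟨not_ctr_left (a := w.1) rfl, ?_⟩, ?_⟩
    · simp only [st]; omega
    · rw [mem_rect]; dsimp only; omega
  rcases h1 with h1 | h1 <;> rcases h2 with h2 | h2
  · have h3 : ((2 * m, 2 * n + 1) : ℤ × ℤ) ∈
        Sc e F ∩ Rect (2 * a) (2 * b) (2 * c) (2 * d) := by
      refine ⟨Or.inr ⟨not_ctr_left (a := m) rfl, ?_⟩, ?_⟩
      · simp only [st]; omega
      · rw [mem_rect]; dsimp only; omega
    refine ((Conn.refl h0).tail ?_ h3).tail ?_ hc
    · rw [adj_iff]; dsimp only; omega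
    · rw [adj_iff]; dsimp only; omega
  · refine (Conn.refl h0).tail ?_ hc
    rw [adj_iff]; dsimp only; omega
  · refine (Conn.refl h0).tail ?_ hc
    rw [adj_iff]; dsimp only; omega
  · have h3 : ((2 * m + 1, 2 * n + 2) : ℤ × ℤ) ∈
        Sc e F ∩ Rect (2 * a) (2 * b) (2 * c) (2 * d) := by
      refine ⟨Or.inr ⟨not_ctr_right (a := n + 1) (by dsimp only; ring), ?_⟩, ?_⟩
      · simp only [st]; omega
      · rw [mem_rect]; dsimp only; omega
    refine ((Conn.refl h0).tail ?_ h3).tail ?_ hc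
    · rw [adj_iff]; dsimp only; omega
    · rw [adj_iff]; dsimp only; omega

theorem lift {F : Set (ℤ × ℤ)} {e a b c d : ℤ} {u v : ℤ × ℤ}
    (h : PConn F (Rect a b c d) u v) (hu : (u.1 + u.2) % 2 = e) :
    Conn (Sc e F ∩ Rect (2 * a) (2 * b) (2 * c) (2 * d)) (2 * u.1, 2 * u.2)
      (2 * v.1, 2 * v.2) := by
  obtain ⟨huR, h⟩ := h
  induction h with
  | refl =>
    refine Conn.refl ⟨Or.inr ⟨not_ctr_left (a := u.1) rfl, ?_⟩, ?_⟩
    · simp only [st]; omega
    · rw [mem_rect] at huR ⊢; dsimp only; omega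
  | @tail x y hx hxy ih =>
    have hux : PConn F (Rect a b c d) u x := ⟨huR, hx⟩
    have hxR := hux.right_mem
    have hpx := hux.parity
    obtain ⟨⟨h1, h2, h3⟩, hyR⟩ := hxy
    rw [mem_rect] at hxR hyR
    have k1 := conn_corner (e := e) (a := a) (b := b) (c := c) (d := d) (w := x) h3
      (by omega) (by omega) (by omega) (by omega) (by omega)
    have k2 := conn_corner (e := e) (a := a) (b := b) (c := c) (d := d) (w := y) h3
      (by omega) (by omega) (by omega) (by omega) (by omega)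
    exact (ih.trans k1).trans k2.symm

/-- **Duality, easy half.** A primal open path from the left side (point `u`) to the right side
(point `v`) of a box excludes a dual open path from a point of the bottom, of the right side below
`v` or of the left side below `u`, to a point of the top, of the right side above `v` or of the left
side above `u`. -/
theorem easy {F : Set (ℤ × ℤ)} {a b c d : ℤ} {u v y y' : ℤ × ℤ}
    (hF : PConn F (Rect a b c d) u v) (hu : u.1 = a) (hv : v.1 = b) (he : (u.1 + u.2) % 2 = 0)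
    (hE : PConn Fᶜ (Rect a b c d) y y') (ho : (y.1 + y.2) % 2 = 1)
    (hy : y.2 = c ∨ (y.1 = b ∧ y.2 < v.2) ∨ (y.1 = a ∧ y.2 < u.2))
    (hy' : y'.2 = d ∨ (y'.1 = b ∧ v.2 < y'.2) ∨ (y'.1 = a ∧ u.2 < y'.2)) : False := by
  have hA := lift hF he
  have hB := lift hE ho
  rw [← Sc_compl] at hB
  have huR := hF.left_mem
  have hvR := hF.right_mem
  have hyR := hE.left_mem
  have hyR' := hE.right_mem
  rw [mem_rect] at huR hvR hyR hyR'
  set R' := Rect (2 * a) (2 * b) (2 * c) (2 * d) with hR'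
  set A' : Set (ℤ × ℤ) := (Sc 0 F ∩ R') ∪ {(2 * a - 1, 2 * u.2), (2 * a - 2, 2 * u.2),
    (2 * b + 1, 2 * v.2), (2 * b + 2, 2 * v.2)} with hA'
  set B' : Set (ℤ × ℤ) := ((Sc 0 F)ᶜ ∩ R') ∪ {p | 2 * c ≤ p.2 ∧ p.2 ≤ 2 * d ∧
    ((p.1 = 2 * b + 1 ∧ p.2 ≠ 2 * v.2) ∨ (p.1 = 2 * a - 1 ∧ p.2 ≠ 2 * u.2))} with hB'
  have hAsub : Sc 0 F ∩ R' ⊆ A' := Set.subset_union_left
  have hBsub : (Sc 0 F)ᶜ ∩ R' ⊆ B' := Set.subset_union_left
  -- the extended primal path
  have cA : Conn A' (2 * a - 2, 2 * u.2) (2 * b + 2, 2 * v.2) := by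
    have m1 : ((2 * a - 2, 2 * u.2) : ℤ × ℤ) ∈ A' := Or.inr (by simp)
    have m2 : ((2 * a - 1, 2 * u.2) : ℤ × ℤ) ∈ A' := Or.inr (by simp)
    have m3 : ((2 * b + 1, 2 * v.2) : ℤ × ℤ) ∈ A' := Or.inr (by simp)
    have m4 : ((2 * b + 2, 2 * v.2) : ℤ × ℤ) ∈ A' := Or.inr (by simp)
    have h1 := hA.mono hAsub
    have h2 : Conn A' (2 * a - 2, 2 * u.2) (2 * u.1, 2 * u.2) :=
      ((Conn.refl m1).tail (by rw [adj_iff]; dsimp only; omega) m2).tail
        (by rw [adj_iff]; dsimp only; omega) h1.left_mem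
    exact ((h2.trans h1).tail (by rw [adj_iff]; dsimp only; omega) m3).tail
      (by rw [adj_iff]; dsimp only; omega) m4
  have hB1 := hB.mono hBsub
  -- the extended dual path
  have c1 : ∃ z : ℤ × ℤ, z.2 = 2 * c ∧ Conn B' z (2 * y.1, 2 * y.2) := by
    rcases hy with hy | ⟨hy, hlt⟩ | ⟨hy, hlt⟩
    · exact ⟨_, by dsimp only; omega, Conn.refl hB1.left_mem⟩
    · have h1 : Conn B' (2 * b + 1, 2 * c) (2 * b + 1, 2 * y.2) := conn_col fun j hj hj' =>
        Or.inr ⟨by dsimp only; omega, by dsimp only; omega,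
          Or.inl ⟨rfl, by dsimp only; omega⟩⟩
      exact ⟨_, rfl, h1.tail (by rw [adj_iff]; dsimp only; omega) hB1.left_mem⟩
    · have h1 : Conn B' (2 * a - 1, 2 * c) (2 * a - 1, 2 * y.2) := conn_col fun j hj hj' =>
        Or.inr ⟨by dsimp only; omega, by dsimp only; omega,
          Or.inr ⟨rfl, by dsimp only; omega⟩⟩
      exact ⟨_, rfl, h1.tail (by rw [adj_iff]; dsimp only; omega) hB1.left_mem⟩
  have c2 : ∃ z : ℤ × ℤ, z.2 = 2 * d ∧ Conn B' (2 * y'.1, 2 * y'.2) z := by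
    rcases hy' with hy' | ⟨hy', hlt⟩ | ⟨hy', hlt⟩
    · exact ⟨_, by dsimp only; omega, Conn.refl hB1.right_mem⟩
    · have h1 : Conn B' (2 * b + 1, 2 * d) (2 * b + 1, 2 * y'.2) := conn_col fun j hj hj' =>
        Or.inr ⟨by dsimp only; omega, by dsimp only; omega,
          Or.inl ⟨rfl, by dsimp only; omega⟩⟩
      exact ⟨_, rfl, (h1.tail (by rw [adj_iff]; dsimp only; omega) hB1.right_mem).symm⟩
    · have h1 : Conn B' (2 * a - 1, 2 * d) (2 * a - 1, 2 * y'.2) := conn_col fun j hj hj' =>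
        Or.inr ⟨by dsimp only; omega, by dsimp only; omega,
          Or.inr ⟨rfl, by dsimp only; omega⟩⟩
      exact ⟨_, rfl, (h1.tail (by rw [adj_iff]; dsimp only; omega) hB1.right_mem).symm⟩
  obtain ⟨z1, hz1, k1⟩ := c1
  obtain ⟨z2, hz2, k2⟩ := c2
  have cB : Conn B' z1 z2 := (k1.trans hB1).trans k2
  obtain ⟨z, hzA, hzB⟩ := cross (A := A') (B := B') (a := 2 * a - 2) (b := 2 * b + 2)
    (c := 2 * c) (d := 2 * d) (by
      rintro z (⟨-, hz⟩ | hz)
      · rw [hR', mem_rect] at hz; omega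
      · simp only [Set.mem_insert_iff, Set.mem_singleton_iff] at hz
        rcases hz with rfl | rfl | rfl | rfl <;> dsimp only <;> omega) (by
      rintro z (⟨-, hz⟩ | ⟨h1, h2, h3⟩)
      · rw [hR', mem_rect] at hz; omega
      · omega) cA rfl rfl cB hz1 hz2
  rcases hzA with ⟨hz1, hz2⟩ | hzA
  · rcases hzB with ⟨hz3, -⟩ | ⟨h1, h2, h3⟩
    · exact hz3 hz1
    · rw [hR', mem_rect] at hz2; omega
  · simp only [Set.mem_insert_iff, Set.mem_singleton_iff] at hzA
    rcases hzB with ⟨-, hz3⟩ | ⟨h1, h2, h3⟩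
    · rw [hR', mem_rect] at hz3
      rcases hzA with rfl | rfl | rfl | rfl <;> dsimp only at hz3 <;> omega
    · rcases hzA with rfl | rfl | rfl | rfl <;> dsimp only at h3 <;> omega

end Vale.Agent.P145.FB
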