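import Vale.Agent.P145.FB.ArmGeo

/-!
# Chains of circuits

Circuits (`Ann`) of a random subset `S` of the fine lattice around neighbouring centres meet; a
chain of them lies in one cluster of `S` and meets every set which separates its two ends. If a
level is attached to the points of `S`, constant along the steps of `S`, all these objects have the
same level.
-/

namespace Vale.Agent.P145.FB

open Vale.Agent.P153 Vale.Agent.P153.Topo

/-! ### One circuit -/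

/-- `o` belongs to the cluster of the four crossings of the annulus. -/
structure Base (S : Set (ℤ × ℤ)) (p q t : ℤ) (o : ℤ × ℤ) : Prop where
  top : ∃ x y, NC (S ∩ rc (p - 2 * t) (p + 2 * t) (q + t) (q + 2 * t)) x y ∧
    x.1 = 2 * (p - 2 * t) ∧ y.1 = 2 * (p + 2 * t) ∧ NC (S ∩ annR p q t) o x
  bot : ∃ x y, NC (S ∩ rc (p - 2 * t) (p + 2 * t) (q - 2 * t) (q - t)) x y ∧
    x.1 = 2 * (p - 2 * t) ∧ y.1 = 2 * (p + 2 * t) ∧ NC (S ∩ annR p q t) o x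
  left : ∃ x y, NC (S ∩ rc (p - 2 * t) (p - t) (q - 2 * t) (q + 2 * t)) x y ∧
    x.2 = 2 * (q - 2 * t) ∧ y.2 = 2 * (q + 2 * t) ∧ NC (S ∩ annR p q t) o x
  right : ∃ x y, NC (S ∩ rc (p + t) (p + 2 * t) (q - 2 * t) (q + 2 * t)) x y ∧
    x.2 = 2 * (q - 2 * t) ∧ y.2 = 2 * (q + 2 * t) ∧ NC (S ∩ annR p q t) o x

theorem annR_top {p q t : ℤ} (_ht : 0 < t) :
    rc (p - 2 * t) (p + 2 * t) (q + t) (q + 2 * t) ⊆ annR p q t := by
  intro z hz
  rw [mem_rc] at hz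
  refine ⟨by rw [mem_rc]; omega, ?_⟩
  right; right; right; omega

theorem annR_bot {p q t : ℤ} (_ht : 0 < t) :
    rc (p - 2 * t) (p + 2 * t) (q - 2 * t) (q - t) ⊆ annR p q t := by
  intro z hz
  rw [mem_rc] at hz
  refine ⟨by rw [mem_rc]; omega, ?_⟩
  right; right; left; omega

theorem annR_left {p q t : ℤ} (_ht : 0 < t) :
    rc (p - 2 * t) (p - t) (q - 2 * t) (q + 2 * t) ⊆ annR p q t := by
  intro z hz
  rw [mem_rc] at hz
  refine ⟨by rw [mem_rc]; omega, ?_⟩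
  left; omega

theorem annR_right {p q t : ℤ} (_ht : 0 < t) :
    rc (p + t) (p + 2 * t) (q - 2 * t) (q + 2 * t) ⊆ annR p q t := by
  intro z hz
  rw [mem_rc] at hz
  refine ⟨by rw [mem_rc]; omega, ?_⟩
  right; left; omega

/-- A horizontal crossing and a vertical crossing of a shorter and higher rectangle meet. -/
theorem meetHV {S T : Set (ℤ × ℤ)} {a b c d a' b' c' d' : ℤ} (h1 : a ≤ a') (h2 : b' ≤ b)
    (h3 : c' ≤ c) (h4 : d ≤ d') {x x' y y' : ℤ × ℤ} (hx : NC (S ∩ rc a b c d) x x')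
    (hxa : x.1 = 2 * a) (hxb : x'.1 = 2 * b) (hy : NC (T ∩ rc a' b' c' d') y y')
    (hyc : y.2 = 2 * c') (hyd : y'.2 = 2 * d') :
    ∃ z, NC (S ∩ rc a b c d) x z ∧ NC (T ∩ rc a' b' c' d') y z :=
  ncross (a := 2 * a) (b := 2 * b) (c := 2 * c') (d := 2 * d')
    (Set.inter_subset_right.trans (rc_mono le_rfl le_rfl h3 h4))
    (Set.inter_subset_right.trans (rc_mono h1 h2 le_rfl le_rfl)) hx hxa hxb hy hyc hyd

theorem Ann.base {p q t : ℤ} (ht : 0 < t) {S : Set (ℤ × ℤ)} (hA : Ann p q t S) :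
    ∃ o, Base S p q t o := by
  obtain ⟨⟨a1, b1, h1, h1a, h1b⟩, ⟨a2, b2, h2, h2a, h2b⟩, ⟨a3, b3, h3, h3a, h3b⟩,
    ⟨a4, b4, h4, h4a, h4b⟩⟩ := hA
  obtain ⟨z13, c13, d13⟩ := meetHV (by omega) (by omega) (by omega) (by omega) h1 h1a h1b h3 h3a h3b
  obtain ⟨z14, c14, d14⟩ := meetHV (by omega) (by omega) (by omega) (by omega) h1 h1a h1b h4 h4a h4b
  obtain ⟨z23, c23, d23⟩ := meetHV (by omega) (by omega) (by omega) (by omega) h2 h2a h2b h3 h3a h3b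
  have j13 : NC (S ∩ annR p q t) a1 a3 := NC.join (annR_top ht) (annR_left ht) c13 d13
  have j14 : NC (S ∩ annR p q t) a1 a4 := NC.join (annR_top ht) (annR_right ht) c14 d14
  have j12 : NC (S ∩ annR p q t) a1 a2 :=
    j13.trans (NC.join (annR_bot ht) (annR_left ht) c23 d23).symm
  exact ⟨a1, ⟨a1, b1, h1, h1a, h1b, NC.refl j13.1⟩, ⟨a2, b2, h2, h2a, h2b, j12⟩,
    ⟨a3, b3, h3, h3a, h3b, j13⟩, ⟨a4, b4, h4, h4a, h4b, j14⟩⟩

theorem Base.mem {S : Set (ℤ × ℤ)} {p q t : ℤ} {o : ℤ × ℤ} (h : Base S p q t o) :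
    o ∈ S ∩ annR p q t := by
  obtain ⟨x, y, _, _, _, h1⟩ := h.top
  exact h1.1

theorem Base.ann {S : Set (ℤ × ℤ)} {p q t : ℤ} {o : ℤ × ℤ} (h : Base S p q t o) :
    Ann p q t S := by
  obtain ⟨⟨a1, b1, h1, h1a, h1b, _⟩, ⟨a2, b2, h2, h2a, h2b, _⟩, ⟨a3, b3, h3, h3a, h3b, _⟩,
    ⟨a4, b4, h4, h4a, h4b, _⟩⟩ := h
  exact ⟨⟨a1, b1, h1, h1a, h1b⟩, ⟨a2, b2, h2, h2a, h2b⟩, ⟨a3, b3, h3, h3a, h3b⟩,
    ⟨a4, b4, h4, h4a, h4b⟩⟩

/-- Circuits around neighbouring centres meet. -/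
theorem Base.join {S : Set (ℤ × ℤ)} {p q t p' q' : ℤ} {o o' : ℤ × ℤ} (ht : 0 < t)
    (h : Base S p q t o) (h' : Base S p' q' t o') (hp : |p' - p| ≤ 3 * t) (hq : |q' - q| ≤ 3 * t) :
    NC (S ∩ (annR p q t ∪ annR p' q' t)) o o' := by
  obtain ⟨hp1, hp2⟩ := abs_le.1 hp
  obtain ⟨hq1, hq2⟩ := abs_le.1 hq
  -- a vertical crossing of `h` and a horizontal crossing of `h'`
  have key : ∀ {a b c d : ℤ}, p' - 2 * t ≤ a → b ≤ p' + 2 * t → q - 2 * t ≤ c → d ≤ q + 2 * t →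
      rc a b (q - 2 * t) (q + 2 * t) ⊆ annR p q t →
      rc (p' - 2 * t) (p' + 2 * t) c d ⊆ annR p' q' t →
      (∃ x y, NC (S ∩ rc a b (q - 2 * t) (q + 2 * t)) x y ∧
        x.2 = 2 * (q - 2 * t) ∧ y.2 = 2 * (q + 2 * t) ∧ NC (S ∩ annR p q t) o x) →
      (∃ x y, NC (S ∩ rc (p' - 2 * t) (p' + 2 * t) c d) x y ∧
        x.1 = 2 * (p' - 2 * t) ∧ y.1 = 2 * (p' + 2 * t) ∧ NC (S ∩ annR p' q' t) o' x) →
      NC (S ∩ (annR p q t ∪ annR p' q' t)) o o' := by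
    rintro a b c d ha hb hc hd s1 s2 ⟨y, y', hy, hyc, hyd, hoy⟩ ⟨x, x', hx, hxa, hxb, hox⟩
    obtain ⟨z, hz1, hz2⟩ := meetHV ha hb hc hd hx hxa hxb hy hyc hyd
    have e1 : NC (S ∩ (annR p q t ∪ annR p' q' t)) o z :=
      (hoy.mono (Set.inter_subset_inter_right S Set.subset_union_left)).trans
        (hz2.mono (Set.inter_subset_inter_right S (s1.trans Set.subset_union_left)))
    have e2 : NC (S ∩ (annR p q t ∪ annR p' q' t)) o' z :=
      (hox.mono (Set.inter_subset_inter_right S Set.subset_union_right)).trans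
        (hz1.mono (Set.inter_subset_inter_right S (s2.trans Set.subset_union_right)))
    exact e1.trans e2.symm
  rcases le_total 0 (p' - p) with h1 | h1 <;> rcases le_total 0 (q' - q) with h2 | h2
  · exact key (by omega) (by omega) (by omega) (by omega) (annR_right ht) (annR_bot ht) h.right
      h'.bot
  · exact key (by omega) (by omega) (by omega) (by omega) (annR_right ht) (annR_top ht) h.right
      h'.top
  · exact key (by omega) (by omega) (by omega) (by omega) (annR_left ht) (annR_bot ht) h.left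
      h'.bot
  · exact key (by omega) (by omega) (by omega) (by omega) (annR_left ht) (annR_top ht) h.left
      h'.top

/-! ### Chains -/

/-- A chain of centres. -/
def IsCh (t : ℤ) (n : ℕ) (x : ℕ → ℤ × ℤ) : Prop :=
  ∀ i < n, |(x (i + 1)).1 - (x i).1| ≤ 3 * t ∧ |(x (i + 1)).2 - (x i).2| ≤ 3 * t

/-- The union of the annuli of a chain. -/
def annU (t : ℤ) (n : ℕ) (x : ℕ → ℤ × ℤ) : Set (ℤ × ℤ) :=
  {z | ∃ i ≤ n, z ∈ annR (x i).1 (x i).2 t}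

theorem chain_base {S : Set (ℤ × ℤ)} {t : ℤ} (ht : 0 < t) {n : ℕ} {x : ℕ → ℤ × ℤ}
    (hx : IsCh t n x) {o : ℕ → ℤ × ℤ} (ho : ∀ i ≤ n, Base S (x i).1 (x i).2 t (o i)) :
    ∀ i ≤ n, NC (S ∩ annU t n x) (o 0) (o i) := by
  intro i
  induction i with
  | zero =>
    intro _
    exact NC.refl ⟨(ho 0 (Nat.zero_le _)).mem.1, 0, Nat.zero_le _, (ho 0 (Nat.zero_le _)).mem.2⟩
  | succ i ih =>
    intro hi
    have h1 := ih (by omega)
    have h2 := (ho i (by omega)).join ht (ho (i + 1) hi) (hx i (by omega)).1 (hx i (by omega)).2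
    refine h1.trans (h2.mono (Set.inter_subset_inter_right S ?_))
    rintro z (hz | hz)
    · exact ⟨i, by omega, hz⟩
    · exact ⟨i + 1, hi, hz⟩

/-- A chain of circuits lies in one cluster. -/
theorem chain_cluster {S : Set (ℤ × ℤ)} {t : ℤ} (ht : 0 < t) {n : ℕ} {x : ℕ → ℤ × ℤ}
    (hx : IsCh t n x) (hA : ∀ i ≤ n, Ann (x i).1 (x i).2 t S) :
    ∃ o : ℕ → ℤ × ℤ, (∀ i ≤ n, Base S (x i).1 (x i).2 t (o i)) ∧
      ∀ i ≤ n, NC (S ∩ annU t n x) (o 0) (o i) := by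
  choose! o ho using fun i (hi : i ≤ n) => (hA i hi).base ht
  exact ⟨o, ho, chain_base ht hx ho⟩

/-! ### Separating sets -/

/-- `C` meets every path of the triangular lattice from the box with centre `(p, q)` and half side
`a` to the complement of the interior of the box with half side `b`. -/
def SepG (C : Set (ℤ × ℤ)) (p q a b : ℤ) : Prop :=
  ∀ (D : Set (ℤ × ℤ)) (x y : ℤ × ℤ), Conn D x y → x ∈ rc (p - a) (p + a) (q - a) (q + a) →
    (y.1 ≤ 2 * (p - b) ∨ 2 * (p + b) ≤ y.1 ∨ y.2 ≤ 2 * (q - b) ∨ 2 * (q + b) ≤ y.2) →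
    (D ∩ C).Nonempty

theorem SepG.mono {C C' : Set (ℤ × ℤ)} {p q a b a' b' : ℤ} (h : SepG C p q a b) (hC : C ⊆ C')
    (ha : a' ≤ a) (hb : b ≤ b') : SepG C' p q a' b' :=
  fun D x y hD hx hy => (h D x y hD (by rw [mem_rc] at hx ⊢; omega) (by omega)).mono
    (Set.inter_subset_inter_right D hC)

theorem sep_iff {C : Set (ℤ × ℤ)} {p q t : ℤ} : Sep C p q t ↔ SepG C p q t (2 * t) := Iff.rfl

/-- The circuit at the centre `(p, q)` separates. -/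
theorem Base.sep {S : Set (ℤ × ℤ)} {p q t : ℤ} (ht : 0 < t) {o : ℤ × ℤ} (h : Base S p q t o) :
    SepG {z | NC (S ∩ annR p q t) o z} p q t (2 * t) := by
  have key : ∀ {B : Set (ℤ × ℤ)} {x y : ℤ × ℤ}, B ⊆ annR p q t → NC (S ∩ B) x y →
      NC (S ∩ annR p q t) o x → NC ({z | NC (S ∩ annR p q t) o z} ∩ B) x y := by
    intro B x y hB h1 h2
    refine NC.mono ?_ h1.cluster
    intro z hz
    exact ⟨h2.trans (hz.mono (Set.inter_subset_inter_right S hB)), hz.right_mem.2⟩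
  have hA : Ann p q t {z | NC (S ∩ annR p q t) o z} := by
    obtain ⟨⟨a1, b1, h1, h1a, h1b, k1⟩, ⟨a2, b2, h2, h2a, h2b, k2⟩, ⟨a3, b3, h3, h3a, h3b, k3⟩,
      ⟨a4, b4, h4, h4a, h4b, k4⟩⟩ := h
    exact ⟨⟨a1, b1, key (annR_top ht) h1 k1, h1a, h1b⟩, ⟨a2, b2, key (annR_bot ht) h2 k2, h2a, h2b⟩,
      ⟨a3, b3, key (annR_left ht) h3 k3, h3a, h3b⟩, ⟨a4, b4, key (annR_right ht) h4 k4, h4a, h4b⟩⟩
  obtain ⟨o', ho', h1⟩ := hA.cluster ht
  intro D x y hD hx hy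
  obtain ⟨w, hw, hw'⟩ := h1 D x y hD hx hy
  exact ⟨w, hw, hw'.right_mem.1⟩

/-- A path of the cluster of a chain from a point inside to a point outside meets every
separating set. -/
theorem SepG.chain {S C : Set (ℤ × ℤ)} {p q a b : ℤ} (hC : SepG C p q a b) {t : ℤ} (ht : 0 < t)
    {n : ℕ} {x : ℕ → ℤ × ℤ} (hx : IsCh t n x) {o : ℕ → ℤ × ℤ}
    (ho : ∀ i ≤ n, Base S (x i).1 (x i).2 t (o i))
    (hin : rc ((x 0).1 - 2 * t) ((x 0).1 + 2 * t) ((x 0).2 - 2 * t) ((x 0).2 + 2 * t) ⊆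
      rc (p - a) (p + a) (q - a) (q + a))
    (hout : (x n).1 + 2 * t ≤ p - b ∨ p + b ≤ (x n).1 - 2 * t ∨ (x n).2 + 2 * t ≤ q - b ∨
      q + b ≤ (x n).2 - 2 * t) :
    ∃ z ∈ C, NC (S ∩ annU t n x) (o 0) z := by
  have h1 := chain_base ht hx ho n le_rfl
  have h2 := annR_sub _ _ _ (ho 0 (Nat.zero_le _)).mem.2
  have h3 := annR_sub _ _ _ (ho n le_rfl).mem.2
  rw [mem_rc] at h3
  obtain ⟨z, hz, hzC⟩ := hC _ _ _ h1.cluster.conn (hin h2) (by omega)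
  exact ⟨z, hzC, hz⟩

/-! ### Levels -/

/-- A function which is constant along the steps of `S`. -/
def Lev (S : Set (ℤ × ℤ)) (lev : ℤ × ℤ → ℤ) : Prop :=
  ∀ u v, NN u v → u ∈ S → v ∈ S → lev u = lev v

theorem Lev.mono {S T : Set (ℤ × ℤ)} {lev : ℤ × ℤ → ℤ} (h : Lev T lev) (hST : S ⊆ T) :
    Lev S lev := fun u v huv hu hv => h u v huv (hST hu) (hST hv)

theorem NC.lev {S : Set (ℤ × ℤ)} {lev : ℤ × ℤ → ℤ} (hl : Lev S lev) {x y : ℤ × ℤ} (h : NC S x y) :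
    lev y = lev x :=
  NC.ind (fun z => lev z = lev x) rfl
    (fun u v hu huv hv ih => (hl u v huv hu.right_mem hv).symm.trans ih) h

/-- A path of `S` is a path of its level set. -/
theorem NC.to_lev {S B : Set (ℤ × ℤ)} {lev : ℤ × ℤ → ℤ} (hl : Lev S lev) {x y : ℤ × ℤ}
    (h : NC (S ∩ B) x y) {l : ℤ} (hx : lev x = l) : NC ((S ∩ {z | lev z = l}) ∩ B) x y := by
  refine NC.mono ?_ h.cluster
  intro z hz
  exact ⟨⟨hz.right_mem.1, (NC.lev (hl.mono Set.inter_subset_left) hz).trans hx⟩, hz.right_mem.2⟩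

theorem Base.to_lev {S : Set (ℤ × ℤ)} {lev : ℤ × ℤ → ℤ} (hl : Lev S lev) {p q t : ℤ} {o : ℤ × ℤ}
    (h : Base S p q t o) : Base (S ∩ {z | lev z = lev o}) p q t o := by
  have key : ∀ {B : Set (ℤ × ℤ)} {x y : ℤ × ℤ}, NC (S ∩ B) x y → NC (S ∩ annR p q t) o x →
      NC ((S ∩ {z | lev z = lev o}) ∩ B) x y ∧ NC ((S ∩ {z | lev z = lev o}) ∩ annR p q t) o x := by
    intro B x y h1 h2
    exact ⟨h1.to_lev hl (NC.lev (hl.mono Set.inter_subset_left) h2), h2.to_lev hl rfl⟩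
  obtain ⟨⟨a1, b1, h1, h1a, h1b, k1⟩, ⟨a2, b2, h2, h2a, h2b, k2⟩, ⟨a3, b3, h3, h3a, h3b, k3⟩,
    ⟨a4, b4, h4, h4a, h4b, k4⟩⟩ := h
  exact ⟨⟨a1, b1, (key h1 k1).1, h1a, h1b, (key h1 k1).2⟩,
    ⟨a2, b2, (key h2 k2).1, h2a, h2b, (key h2 k2).2⟩,
    ⟨a3, b3, (key h3 k3).1, h3a, h3b, (key h3 k3).2⟩,
    ⟨a4, b4, (key h4 k4).1, h4a, h4b, (key h4 k4).2⟩⟩

/-- Two circuits of neighbouring centres have the same level. -/
theorem lev_unique {S : Set (ℤ × ℤ)} {lev : ℤ × ℤ → ℤ} {p q t p' q' l l' : ℤ} (_ht : 0 < t)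
    (h : Ann p q t (S ∩ {z | lev z = l})) (h' : Ann p' q' t (S ∩ {z | lev z = l'}))
    (hp : |p' - p| ≤ 3 * t) (hq : |q' - q| ≤ 3 * t) : l = l' := by
  obtain ⟨hp1, hp2⟩ := abs_le.1 hp
  obtain ⟨hq1, hq2⟩ := abs_le.1 hq
  have key : ∀ {a b c d : ℤ}, p' - 2 * t ≤ a → b ≤ p' + 2 * t → q - 2 * t ≤ c → d ≤ q + 2 * t →
      BTc a b (q - 2 * t) (q + 2 * t) (S ∩ {z | lev z = l}) →
      LRc (p' - 2 * t) (p' + 2 * t) c d (S ∩ {z | lev z = l'}) → l = l' := by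
    rintro a b c d ha hb hc hd ⟨y, y', hy, hyc, hyd⟩ ⟨x, x', hx, hxa, hxb⟩
    obtain ⟨z, hz1, hz2⟩ := meetHV ha hb hc hd hx hxa hxb hy hyc hyd
    exact hz2.right_mem.1.2.symm.trans hz1.right_mem.1.2
  rcases le_total 0 (p' - p) with h1 | h1 <;> rcases le_total 0 (q' - q) with h2 | h2
  · exact key (by omega) (by omega) (by omega) (by omega) h.2.2.2 h'.2.1
  · exact key (by omega) (by omega) (by omega) (by omega) h.2.2.2 h'.1
  · exact key (by omega) (by omega) (by omega) (by omega) h.2.2.1 h'.2.1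
  · exact key (by omega) (by omega) (by omega) (by omega) h.2.2.1 h'.1

/-- A circuit has a level. -/
theorem Ann.lev {S : Set (ℤ × ℤ)} {lev : ℤ × ℤ → ℤ} (hl : Lev S lev) {p q t : ℤ} (ht : 0 < t)
    (h : Ann p q t S) : ∃ l, Ann p q t (S ∩ {z | lev z = l}) := by
  obtain ⟨o, ho⟩ := h.base ht
  exact ⟨lev o, (ho.to_lev hl).ann⟩

/-- A chain of circuits has one level. -/
theorem chain_lev {S : Set (ℤ × ℤ)} {lev : ℤ × ℤ → ℤ} (hl : Lev S lev) {t : ℤ} (ht : 0 < t)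
    {n : ℕ} {x : ℕ → ℤ × ℤ} (hx : IsCh t n x) (hA : ∀ i ≤ n, Ann (x i).1 (x i).2 t S) :
    ∃ l, ∀ i ≤ n, Ann (x i).1 (x i).2 t (S ∩ {z | lev z = l}) := by
  obtain ⟨o, ho, h1⟩ := chain_cluster ht hx hA
  refine ⟨lev (o 0), fun i hi => ?_⟩
  have h2 := ((ho i hi).to_lev hl).ann
  rwa [NC.lev (hl.mono Set.inter_subset_left) (h1 i hi)] at h2

/-- Circuits of a chain with given levels: the levels agree. -/
theorem chain_lev_unique {S : Set (ℤ × ℤ)} {lev : ℤ × ℤ → ℤ} {t : ℤ} (ht : 0 < t)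
    {n : ℕ} {x : ℕ → ℤ × ℤ} (hx : IsCh t n x) {l : ℕ → ℤ}
    (hA : ∀ i ≤ n, Ann (x i).1 (x i).2 t (S ∩ {z | lev z = l i})) : ∀ i ≤ n, l i = l 0 := by
  intro i
  induction i with
  | zero => intro _; rfl
  | succ i ih =>
    intro hi
    rw [← ih (by omega)]
    exact (lev_unique ht (hA i (by omega)) (hA (i + 1) hi) (hx i (by omega)).1
      (hx i (by omega)).2).symm

/-- A chain of circuits of level `l` which joins the inside and the outside of a separating set of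
level `l'`. -/
theorem SepG.lev {S C : Set (ℤ × ℤ)} {lev : ℤ × ℤ → ℤ} {p q a b l l' : ℤ}
    (hC : SepG C p q a b) (hCl : ∀ z ∈ C, lev z = l') {t : ℤ} (ht : 0 < t)
    {n : ℕ} {x : ℕ → ℤ × ℤ} (hx : IsCh t n x)
    (hA : ∀ i ≤ n, Ann (x i).1 (x i).2 t (S ∩ {z | lev z = l}))
    (hin : rc ((x 0).1 - 2 * t) ((x 0).1 + 2 * t) ((x 0).2 - 2 * t) ((x 0).2 + 2 * t) ⊆
      rc (p - a) (p + a) (q - a) (q + a))
    (hout : (x n).1 + 2 * t ≤ p - b ∨ p + b ≤ (x n).1 - 2 * t ∨ (x n).2 + 2 * t ≤ q - b ∨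
      q + b ≤ (x n).2 - 2 * t) : l = l' := by
  obtain ⟨o, ho, -⟩ := chain_cluster ht hx hA
  obtain ⟨z, hz, h1⟩ := hC.chain ht hx ho hin hout
  exact h1.right_mem.1.2.symm.trans (hCl z hz)

end Vale.Agent.P145.FB
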