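import Vale.Agent.P145.FB.Chain
import Vale.Agent.P145.FB.Inst

/-!
# Face paths which avoid the blocked edges

Odd faces are points of the fine lattice with two odd coordinates. A path of odd faces which does
not cross the edges of `B` cannot leave a box surrounded by a circuit of `fine B`.
-/

namespace Vale.Agent.P145.FB

open Relation Vale.Agent.P153 Vale.Agent.P153.Topo

/-- Position of a face in the fine lattice. -/
def pos (f : Pt) : Pt := (f.1 + f.2, f.1 - f.2)

/-- Position of a vertex of the six-vertex lattice in the fine lattice. -/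
def pov (w : Pt) : Pt := (w.1 + w.2 - 1, w.1 - w.2)

theorem fc_pos (f : Pt) : fc (pos f) = f := by
  unfold fc pos
  exact Prod.ext (by simp only; omega) (by simp only; omega)

theorem vx_pov (w : Pt) : vx (pov w) = w := by
  unfold vx pov
  exact Prod.ext (by simp only; omega) (by simp only; omega)

/-- One step between two odd faces which does not cross an edge of `B`. -/
def FStep (B : Set Pt) (u v : Pt) : Prop :=
  ∃ w, w ∉ B ∧ ((u = o1 w ∧ v = o2 w) ∨ (u = o2 w ∧ v = o1 w))

theorem nn_o1 (w : Pt) : NN (pos (o1 w)) (pov w) := by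
  by_cases h : Even (w.1 + w.2)
  · simp only [NN, pos, pov, o1, if_pos h]
    omega
  · simp [NN, pos, pov, o1, if_neg h]

theorem nn_o2 (w : Pt) : NN (pos (o2 w)) (pov w) := by
  by_cases h : Even (w.1 + w.2)
  · simp only [NN, pos, pov, o2, if_pos h]
    omega
  · simp only [NN, pos, pov, o2, if_neg h]
    omega

theorem pov_notMem {B : Set Pt} {w : Pt} (hw : w ∉ B) : pov w ∉ fine B := by
  rintro (⟨_, h⟩ | ⟨h1, h2, _⟩)
  · rw [vx_pov] at h; exact hw h
  · unfold pov at h1 h2
    simp only [Int.even_iff] at h1 h2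
    omega

theorem pos_notMem {B : Set Pt} {f : Pt} (hf : Odd (f.1 + f.2)) : pos f ∉ fine B := by
  rw [Int.odd_iff] at hf
  rintro (⟨h, _⟩ | ⟨h1, _, _⟩)
  · unfold pos at h
    simp only [Int.odd_iff] at h
    omega
  · unfold pos at h1
    simp only [Int.even_iff] at h1
    omega

theorem odd_o1 (w : Pt) : Odd ((o1 w).1 + (o1 w).2) := by
  unfold o1
  split_ifs with h <;> simp only [Int.odd_iff, Int.even_iff] at * <;> omega

theorem odd_o2 (w : Pt) : Odd ((o2 w).1 + (o2 w).2) := by
  unfold o2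
  split_ifs with h <;> simp only [Int.odd_iff, Int.even_iff] at * <;> omega

/-- A face path avoiding `B` is a path of the fine lattice avoiding `fine B`. -/
theorem conn_of_path {B : Set Pt} {f g : Pt} (hf : Odd (f.1 + f.2))
    (h : ReflTransGen (FStep B) f g) : Conn (fine B)ᶜ (pos f) (pos g) := by
  induction h with
  | refl => exact Conn.refl (pos_notMem hf)
  | @tail u v _ huv ih =>
    obtain ⟨w, hw, ⟨rfl, rfl⟩ | ⟨rfl, rfl⟩⟩ := huv
    · exact (ih.tail (nn_o1 w).adj (pov_notMem hw)).tail (nn_o2 w).symm.adj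
        (pos_notMem (odd_o2 w))
    · exact (ih.tail (nn_o2 w).adj (pov_notMem hw)).tail (nn_o1 w).symm.adj
        (pos_notMem (odd_o1 w))

/-- Confinement by a separating set. -/
theorem SepG.conf {B : Set Pt} {C : Set Pt} {p q a b : ℤ} (hC : SepG C p q a b)
    (hCB : C ⊆ fine B) {f g : Pt} (hfo : Odd (f.1 + f.2))
    (hf : pos f ∈ rc (p - a) (p + a) (q - a) (q + a)) (h : ReflTransGen (FStep B) f g) :
    2 * (p - b) < (pos g).1 ∧ (pos g).1 < 2 * (p + b) ∧ 2 * (q - b) < (pos g).2 ∧
      (pos g).2 < 2 * (q + b) := by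
  by_contra hc
  obtain ⟨z, hz1, hz2⟩ := hC _ _ _ (conn_of_path hfo h) hf (by omega)
  exact hz1 (hCB hz2)

/-- Confinement by a circuit. -/
theorem conf_of_ann {B : Set Pt} {p q r : ℤ} (hr : 0 < r) (hA : Ann p q r (fine B)) {f g : Pt}
    (hfo : Odd (f.1 + f.2)) (hf : pos f ∈ rc (p - r) (p + r) (q - r) (q + r))
    (h : ReflTransGen (FStep B) f g) :
    2 * (p - 2 * r) < (pos g).1 ∧ (pos g).1 < 2 * (p + 2 * r) ∧ 2 * (q - 2 * r) < (pos g).2 ∧
      (pos g).2 < 2 * (q + 2 * r) := by
  obtain ⟨o, ho⟩ := hA.base hr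
  exact (ho.sep hr).conf (fun z hz => hz.right_mem.1) hfo hf h

end Vale.Agent.P145.FB
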