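import Vale.Agent.P145.FB.Space

/-!
# P145, block F-B: monotone coupling of the marks
-/

namespace Vale.Agent.P145.FB

open MeasureTheory

/-- Coupling of two Bernoulli measures, `s ≤ t`. -/
noncomputable def cpl (s t : ℝ) : Measure (Bool × Bool) :=
  ENNReal.ofReal (cl s) • Measure.dirac (true, true) +
    ENNReal.ofReal (cl t - cl s) • Measure.dirac (false, true) +
    ENNReal.ofReal (1 - cl t) • Measure.dirac (false, false)

theorem cpl_prob {s t : ℝ} (h : cl s ≤ cl t) : IsProbabilityMeasure (cpl s t) := by
  constructor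
  simp only [cpl, Measure.coe_add, Measure.coe_smul, Pi.add_apply, Pi.smul_apply, smul_eq_mul,
    measure_univ, mul_one]
  rw [← ENNReal.ofReal_add (cl_nonneg s) (by linarith), ← ENNReal.ofReal_add
    (by linarith [cl_nonneg t]) (by linarith [cl_le t])]
  simp

theorem cpl_fst {s t : ℝ} (h : cl s ≤ cl t) : (cpl s t).map Prod.fst = bern s := by
  have hm : Measurable (Prod.fst : Bool × Bool → Bool) := measurable_fst
  rw [cpl, Measure.map_add _ _ hm, Measure.map_add _ _ hm, Measure.map_smul, Measure.map_smul,
    Measure.map_smul, Measure.map_dirac' hm, Measure.map_dirac' hm, Measure.map_dirac' hm]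
  simp only
  rw [add_assoc, ← add_smul, ← ENNReal.ofReal_add (by linarith) (by linarith [cl_le t])]
  rw [show cl t - cl s + (1 - cl t) = 1 - cl s by ring]
  rfl

theorem cpl_snd {s t : ℝ} (h : cl s ≤ cl t) : (cpl s t).map Prod.snd = bern t := by
  have hm : Measurable (Prod.snd : Bool × Bool → Bool) := measurable_snd
  rw [cpl, Measure.map_add _ _ hm, Measure.map_add _ _ hm, Measure.map_smul, Measure.map_smul,
    Measure.map_smul, Measure.map_dirac' hm, Measure.map_dirac' hm, Measure.map_dirac' hm]
  simp only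
  rw [← add_smul, ← ENNReal.ofReal_add (cl_nonneg s) (by linarith)]
  rw [show cl s + (cl t - cl s) = cl t by ring]
  rfl

theorem cpl_bad (s t : ℝ) : cpl s t {(true, false)} = 0 := by
  simp [cpl]

/-- The probability of an increasing event is monotone in the parameter. -/
theorem mkm_mono {s t : ℝ} (h : cl s ≤ cl t) {A : Set Mk} (hA : MeasurableSet A)
    (hinc : ∀ ξ ζ : Mk, (∀ w, ξ w = true → ζ w = true) → ξ ∈ A → ζ ∈ A) :
    mkm s A ≤ mkm t A := by
  have := cpl_prob h
  set K : Measure (ℤ × ℤ → Bool × Bool) := Measure.infinitePi fun _ => cpl s t with hK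
  have h1 : K.map (fun z w => (z w).1) = mkm s := by
    have := Measure.infinitePi_map_pi (μ := fun _ : ℤ × ℤ => cpl s t)
      (f := fun _ => (Prod.fst : Bool × Bool → Bool)) (fun _ => measurable_fst)
    rw [cpl_fst h] at this
    exact this
  have h2 : K.map (fun z w => (z w).2) = mkm t := by
    have := Measure.infinitePi_map_pi (μ := fun _ : ℤ × ℤ => cpl s t)
      (f := fun _ => (Prod.snd : Bool × Bool → Bool)) (fun _ => measurable_snd)
    rw [cpl_snd h] at this
    exact this
  have m1 : Measurable fun (z : ℤ × ℤ → Bool × Bool) w => (z w).1 := by fun_prop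
  have m2 : Measurable fun (z : ℤ × ℤ → Bool × Bool) w => (z w).2 := by fun_prop
  rw [← h1, ← h2, Measure.map_apply m1 hA, Measure.map_apply m2 hA]
  have hae : ∀ᵐ z ∂K, ∀ w : ℤ × ℤ, z w ≠ (true, false) := by
    rw [ae_all_iff]
    intro w
    have e := Measure.infinitePi_map_eval (fun _ : ℤ × ℤ => cpl s t) w
    have e2 : K {z | z w = (true, false)} = 0 := by
      have e3 : K.map (fun z => z w) {(true, false)} = 0 := by
        rw [hK, e]; exact cpl_bad s t
      rwa [Measure.map_apply (measurable_pi_apply w) (measurableSet_singleton _)] at e3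
    rw [ae_iff]
    convert e2 using 2
    ext z
    simp
  refine measure_mono_ae ?_
  filter_upwards [hae] with z hz hzA
  refine hinc _ _ (fun w hw => ?_) hzA
  have h3 := hz w
  change (z w).1 = true at hw
  change (z w).2 = true
  rcases h4 : z w with ⟨a, b⟩
  rw [h4] at h3 hw
  dsimp only at hw ⊢
  subst hw
  cases b
  · exact absurd rfl h3
  · rfl

/-- The same with a random parameter. -/
theorem prod_mono {X : Type*} [MeasurableSpace X] (P : Measure X) [IsProbabilityMeasure P]
    {s t : ℝ} (h : cl s ≤ cl t) {A : Set (X × Mk)} (hA : MeasurableSet A)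
    (hinc : ∀ (a : X) (ξ ζ : Mk), (∀ w, ξ w = true → ζ w = true) → (a, ξ) ∈ A → (a, ζ) ∈ A) :
    (P.prod (mkm s)) A ≤ (P.prod (mkm t)) A := by
  rw [Measure.prod_apply hA, Measure.prod_apply hA]
  refine lintegral_mono fun a => ?_
  exact mkm_mono h (measurable_prodMk_left hA) fun ξ ζ hξ hm => hinc a ξ ζ hξ hm

/-- Negation and relabelling of the marks. -/
theorem mkm_not {t : ℝ} (h0 : 0 ≤ t) (h1 : t ≤ 1) (e : ℤ × ℤ ≃ ℤ × ℤ) :
    (mkm t).map (fun ξ w => !(ξ (e w))) = mkm (1 - t) := by
  have hb : (bern t).map (fun b => !b) = bern (1 - t) := by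
    have hm : Measurable (fun b : Bool => !b) := measurable_of_countable _
    rw [bern, bern, Measure.map_add _ _ hm, Measure.map_smul, Measure.map_smul,
      Measure.map_dirac' hm, Measure.map_dirac' hm, cl_eq h0 h1, cl_eq (by linarith) (by linarith),
      add_comm]
    simp
  have hr : (mkm t).map (fun (ξ : Mk) w => ξ (e w)) = mkm t := by
    refine Measure.eq_infinitePi _ fun S T hT => ?_
    have hm : Measurable (fun (ξ : Mk) w => ξ (e w)) :=
      measurable_pi_lambda _ fun w => measurable_pi_apply _
    rw [Measure.map_apply hm (MeasurableSet.pi S.countable_toSet fun _ _ => hT _)]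
    have e1 : (fun (ξ : Mk) w => ξ (e w)) ⁻¹' ((S : Set (ℤ × ℤ)).pi T) =
        ((S.map e.toEmbedding : Finset (ℤ × ℤ)) : Set (ℤ × ℤ)).pi (fun w => T (e.symm w)) := by
      ext ξ
      simp only [Set.mem_preimage, Set.mem_pi, Finset.mem_coe, Finset.mem_map_equiv]
      constructor
      · intro h i hi
        have := h (e.symm i) hi
        rwa [e.apply_symm_apply] at this
      · intro h i hi
        have := h (e i) (by rwa [e.symm_apply_apply])
        rwa [e.symm_apply_apply] at this
    rw [e1, mkm, Measure.infinitePi_pi _ (fun i _ => hT _), Finset.prod_map]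
    simp
  have hm1 : Measurable (fun (ξ : Mk) w => ξ (e w)) :=
    measurable_pi_lambda _ fun w => measurable_pi_apply _
  have hnb : Measurable (fun b : Bool => !b) := measurable_of_countable _
  have hm2 : Measurable (fun (ξ : Mk) w => !(ξ w)) :=
    measurable_pi_lambda _ fun w => hnb.comp (measurable_pi_apply _)
  have e3 : (fun (ξ : Mk) w => !(ξ (e w))) = (fun (ξ : Mk) w => !(ξ w)) ∘ fun ξ w => ξ (e w) := rfl
  rw [e3, ← Measure.map_map hm2 hm1, hr]
  have := Measure.infinitePi_map_pi (μ := fun _ : ℤ × ℤ => bern t)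
      (f := fun _ => fun b : Bool => !b) (fun _ => hnb)
  rw [hb] at this
  exact this

end Vale.Agent.P145.FB
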