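import Vale.Agent.P145.FB.Nn

/-!
# P145, block F-B: increasing local events, symmetries
-/

namespace Vale.Agent.P145.FB

open Relation

/-- Increasing events. -/
def Inc (Q : Set (ℤ × ℤ) → Prop) : Prop := ∀ S T : Set (ℤ × ℤ), S ⊆ T → Q S → Q T

/-- Events which depend on the points of a bounded box only. -/
def Loc (Q : Set (ℤ × ℤ) → Prop) : Prop :=
  ∃ N : ℤ, ∀ S T : Set (ℤ × ℤ),
    (∀ z : ℤ × ℤ, |z.1| ≤ N → |z.2| ≤ N → (z ∈ S ↔ z ∈ T)) → Q S → Q T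

/-- Increasing local events. -/
def IL (Q : Set (ℤ × ℤ) → Prop) : Prop := Inc Q ∧ Loc Q

theorem IL.and {Q R : Set (ℤ × ℤ) → Prop} (hQ : IL Q) (hR : IL R) :
    IL (fun S => Q S ∧ R S) := by
  refine ⟨fun S T h hS => ⟨hQ.1 S T h hS.1, hR.1 S T h hS.2⟩, ?_⟩
  obtain ⟨N, hN⟩ := hQ.2
  obtain ⟨M, hM⟩ := hR.2
  refine ⟨max N M, fun S T h hS => ⟨hN S T (fun z h1 h2 => h z ?_ ?_) hS.1,
    hM S T (fun z h1 h2 => h z ?_ ?_) hS.2⟩⟩
  · exact h1.trans (le_max_left _ _)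
  · exact h2.trans (le_max_left _ _)
  · exact h1.trans (le_max_right _ _)
  · exact h2.trans (le_max_right _ _)

/-- The data of the abstract theorem: `p Q` is the probability of the event `Q` for a random
subset of the fine lattice. -/
structure PP where
  /-- probability of an event -/
  p : (Set (ℤ × ℤ) → Prop) → ℝ
  nonneg : ∀ Q, 0 ≤ p Q
  le_one : ∀ Q, p Q ≤ 1
  mono : ∀ Q R : Set (ℤ × ℤ) → Prop, (∀ S, Q S → R S) → p Q ≤ p R
  or_le : ∀ Q R : Set (ℤ × ℤ) → Prop, p (fun S => Q S ∨ R S) ≤ p Q + p R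
  fkg : ∀ Q R : Set (ℤ × ℤ) → Prop, IL Q → IL R → p Q * p R ≤ p (fun S => Q S ∧ R S)
  shift : ∀ (a b : ℤ) (Q : Set (ℤ × ℤ) → Prop), IL Q →
    p (fun S => Q {z | (z.1 + 2 * a, z.2 + 2 * b) ∈ S}) = p Q
  reflx : ∀ Q : Set (ℤ × ℤ) → Prop, IL Q → p (fun S => Q {z | (-z.1, z.2) ∈ S}) = p Q
  refly : ∀ Q : Set (ℤ × ℤ) → Prop, IL Q → p (fun S => Q {z | (z.1, -z.2) ∈ S}) = p Q
  swap : ∀ Q : Set (ℤ × ℤ) → Prop, IL Q → p (fun S => Q {z | (z.2, z.1) ∈ S}) = p Q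

theorem NC.mono_ {S T : Set (ℤ × ℤ)} {x y : ℤ × ℤ} (h : NC S x y) (hST : S ⊆ T) : NC T x y := by
  refine ⟨hST h.1, ?_⟩
  have h2 := h.2
  induction h2 with
  | refl => exact ReflTransGen.refl
  | tail h1 h2 ih => exact (ih ⟨h.1, h1⟩).tail ⟨h2.1, hST h2.2⟩

theorem NC.map_ {S S' : Set (ℤ × ℤ)} {x y : ℤ × ℤ} {T : ℤ × ℤ → ℤ × ℤ}
    (hT : ∀ u v, NN u v → NN (T u) (T v)) (hS : ∀ z ∈ S, T z ∈ S') (h : NC S x y) :
    NC S' (T x) (T y) := by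
  refine ⟨hS _ h.1, ?_⟩
  have h2 := h.2
  induction h2 with
  | refl => exact ReflTransGen.refl
  | tail h1 h2 ih => exact (ih ⟨h.1, h1⟩).tail ⟨hT _ _ h2.1, hS _ h2.2⟩

/-- Transport of a connection event by a symmetry of the lattice. -/
theorem ex_iff {T T' : ℤ × ℤ → ℤ × ℤ} (h1 : ∀ z, T (T' z) = z)
    (hT : ∀ u v, NN u v → NN (T u) (T v)) (hT' : ∀ u v, NN u v → NN (T' u) (T' v))
    {R R' : Set (ℤ × ℤ)} (hR : ∀ z, z ∈ R ↔ T z ∈ R')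
    {P P' : ℤ × ℤ → ℤ × ℤ → Prop} (hP : ∀ x y, P x y ↔ P' (T x) (T y)) (S : Set (ℤ × ℤ)) :
    (∃ x y, NC ({z | T z ∈ S} ∩ R) x y ∧ P x y) ↔ ∃ x y, NC (S ∩ R') x y ∧ P' x y := by
  constructor
  · rintro ⟨x, y, h, hp⟩
    exact ⟨T x, T y, h.map_ hT (fun z hz => ⟨hz.1, (hR z).1 hz.2⟩), (hP x y).1 hp⟩
  · rintro ⟨x, y, h, hp⟩
    refine ⟨T' x, T' y, h.map_ hT' (fun z hz => ⟨?_, ?_⟩), (hP _ _).2 (by rw [h1, h1]; exact hp)⟩
    · show T (T' z) ∈ S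
      rw [h1]; exact hz.1
    · rw [hR, h1]; exact hz.2

/-- A connection event in a bounded region is increasing and local. -/
theorem IL_ex {R : Set (ℤ × ℤ)} (N : ℤ) (hR : ∀ z ∈ R, |z.1| ≤ N ∧ |z.2| ≤ N)
    (P : ℤ × ℤ → ℤ × ℤ → Prop) : IL (fun S => ∃ x y, NC (S ∩ R) x y ∧ P x y) := by
  constructor
  · rintro S T hST ⟨x, y, h, hp⟩
    exact ⟨x, y, h.mono_ (Set.inter_subset_inter_left _ hST), hp⟩
  · refine ⟨N, ?_⟩
    rintro S T hST ⟨x, y, h, hp⟩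
    refine ⟨x, y, h.mono_ ?_, hp⟩
    rintro z ⟨hz, hzR⟩
    exact ⟨(hST z (hR z hzR).1 (hR z hzR).2).1 hz, hzR⟩

theorem rc_bdd (a b c d : ℤ) : ∀ z ∈ rc a b c d,
    |z.1| ≤ 2 * (|a| + |b| + |c| + |d|) ∧ |z.2| ≤ 2 * (|a| + |b| + |c| + |d|) := by
  rintro ⟨x, y⟩ ⟨h1, h2, h3, h4⟩
  dsimp only at h1 h2 h3 h4 ⊢
  have := abs_nonneg a
  have := abs_nonneg b
  have := abs_nonneg c
  have := abs_nonneg d
  have := le_abs_self a
  have := le_abs_self b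
  have := le_abs_self c
  have := le_abs_self d
  have := neg_abs_le a
  have := neg_abs_le b
  have := neg_abs_le c
  have := neg_abs_le d
  constructor <;> rw [abs_le] <;> constructor <;> linarith

theorem IL_LRc (a b c d : ℤ) : IL (LRc a b c d) :=
  IL_ex _ (rc_bdd a b c d) (fun x y => x.1 = 2 * a ∧ y.1 = 2 * b)

theorem IL_BTc (a b c d : ℤ) : IL (BTc a b c d) :=
  IL_ex _ (rc_bdd a b c d) (fun x y => x.2 = 2 * c ∧ y.2 = 2 * d)

theorem IL_Hc (a b c d u v : ℤ) : IL (Hc a b c d u v) :=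
  IL_ex _ (rc_bdd a b c d) (fun x y => x.1 = 2 * a ∧ y.1 = 2 * b ∧ 2 * u ≤ y.2 ∧ y.2 ≤ 2 * v)

theorem IL_Hm (a b c d u v : ℤ) : IL (Hm a b c d u v) :=
  IL_ex _ (rc_bdd a b c d) (fun x y => x.1 = 2 * b ∧ y.1 = 2 * a ∧ 2 * u ≤ y.2 ∧ y.2 ≤ 2 * v)

theorem IL_XX (p q n h : ℤ) : IL (XX p q n h) :=
  (IL_Hc _ _ _ _ _ _).and ((IL_Hc _ _ _ _ _ _).and ((IL_Hm _ _ _ _ _ _).and
    ((IL_Hm _ _ _ _ _ _).and (IL_BTc _ _ _ _))))

theorem IL_Ann (p q t : ℤ) : IL (Ann p q t) :=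
  (IL_LRc _ _ _ _).and ((IL_LRc _ _ _ _).and ((IL_BTc _ _ _ _).and (IL_BTc _ _ _ _)))

section sym

theorem nn_shift (p q : ℤ) (u v : ℤ × ℤ) (h : NN u v) :
    NN (u.1 + 2 * p, u.2 + 2 * q) (v.1 + 2 * p, v.2 + 2 * q) := by
  unfold NN at *; dsimp only; omega

theorem nn_reflx (u v : ℤ × ℤ) (h : NN u v) : NN (-u.1, u.2) (-v.1, v.2) := by
  unfold NN at *; dsimp only; omega

theorem nn_refly (u v : ℤ × ℤ) (h : NN u v) : NN (u.1, -u.2) (v.1, -v.2) := by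
  unfold NN at *; dsimp only; omega

theorem nn_swap (u v : ℤ × ℤ) (h : NN u v) : NN (u.2, u.1) (v.2, v.1) := by
  unfold NN at *; dsimp only; omega

variable (S : Set (ℤ × ℤ))

theorem LRc_shift (a b c d p q : ℤ) :
    LRc a b c d {z | (z.1 + 2 * p, z.2 + 2 * q) ∈ S} ↔ LRc (a + p) (b + p) (c + q) (d + q) S := by
  refine ex_iff (T := fun z => (z.1 + 2 * p, z.2 + 2 * q))
    (T' := fun z => (z.1 + 2 * (-p), z.2 + 2 * (-q))) ?_ (nn_shift p q) (nn_shift (-p) (-q)) ?_ ?_ S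
  · rintro ⟨x, y⟩; ext <;> dsimp only <;> ring
  · rintro ⟨x, y⟩; simp only [rc, Set.mem_ofPred_eq]; constructor <;> intro h <;> omega
  · rintro ⟨x, y⟩ ⟨x', y'⟩; dsimp only; omega

theorem BTc_shift (a b c d p q : ℤ) :
    BTc a b c d {z | (z.1 + 2 * p, z.2 + 2 * q) ∈ S} ↔ BTc (a + p) (b + p) (c + q) (d + q) S := by
  refine ex_iff (T := fun z => (z.1 + 2 * p, z.2 + 2 * q))
    (T' := fun z => (z.1 + 2 * (-p), z.2 + 2 * (-q))) ?_ (nn_shift p q) (nn_shift (-p) (-q)) ?_ ?_ S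
  · rintro ⟨x, y⟩; ext <;> dsimp only <;> ring
  · rintro ⟨x, y⟩; simp only [rc, Set.mem_ofPred_eq]; constructor <;> intro h <;> omega
  · rintro ⟨x, y⟩ ⟨x', y'⟩; dsimp only; omega

theorem Hc_shift (a b c d u v p q : ℤ) :
    Hc a b c d u v {z | (z.1 + 2 * p, z.2 + 2 * q) ∈ S} ↔
      Hc (a + p) (b + p) (c + q) (d + q) (u + q) (v + q) S := by
  refine ex_iff (T := fun z => (z.1 + 2 * p, z.2 + 2 * q))
    (T' := fun z => (z.1 + 2 * (-p), z.2 + 2 * (-q))) ?_ (nn_shift p q) (nn_shift (-p) (-q)) ?_ ?_ S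
  · rintro ⟨x, y⟩; ext <;> dsimp only <;> ring
  · rintro ⟨x, y⟩; simp only [rc, Set.mem_ofPred_eq]; constructor <;> intro h <;> omega
  · rintro ⟨x, y⟩ ⟨x', y'⟩; dsimp only; omega

theorem Hm_shift (a b c d u v p q : ℤ) :
    Hm a b c d u v {z | (z.1 + 2 * p, z.2 + 2 * q) ∈ S} ↔
      Hm (a + p) (b + p) (c + q) (d + q) (u + q) (v + q) S := by
  refine ex_iff (T := fun z => (z.1 + 2 * p, z.2 + 2 * q))
    (T' := fun z => (z.1 + 2 * (-p), z.2 + 2 * (-q))) ?_ (nn_shift p q) (nn_shift (-p) (-q)) ?_ ?_ S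
  · rintro ⟨x, y⟩; ext <;> dsimp only <;> ring
  · rintro ⟨x, y⟩; simp only [rc, Set.mem_ofPred_eq]; constructor <;> intro h <;> omega
  · rintro ⟨x, y⟩ ⟨x', y'⟩; dsimp only; omega

theorem Hc_reflx (a b c d u v : ℤ) :
    Hc a b c d u v {z | (-z.1, z.2) ∈ S} ↔ Hm (-b) (-a) c d u v S := by
  refine ex_iff (T := fun z => (-z.1, z.2)) (T' := fun z => (-z.1, z.2)) ?_ nn_reflx nn_reflx ?_ ?_ S
  · rintro ⟨x, y⟩; ext <;> dsimp only <;> ring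
  · rintro ⟨x, y⟩; simp only [rc, Set.mem_ofPred_eq]; constructor <;> intro h <;> omega
  · rintro ⟨x, y⟩ ⟨x', y'⟩; dsimp only; omega

theorem Hc_refly (a b c d u v : ℤ) :
    Hc a b c d u v {z | (z.1, -z.2) ∈ S} ↔ Hc a b (-d) (-c) (-v) (-u) S := by
  refine ex_iff (T := fun z => (z.1, -z.2)) (T' := fun z => (z.1, -z.2)) ?_ nn_refly nn_refly ?_ ?_ S
  · rintro ⟨x, y⟩; ext <;> dsimp only <;> ring
  · rintro ⟨x, y⟩; simp only [rc, Set.mem_ofPred_eq]; constructor <;> intro h <;> omega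
  · rintro ⟨x, y⟩ ⟨x', y'⟩; dsimp only; omega

theorem LRc_swap (a b c d : ℤ) : LRc a b c d {z | (z.2, z.1) ∈ S} ↔ BTc c d a b S := by
  refine ex_iff (T := fun z => (z.2, z.1)) (T' := fun z => (z.2, z.1)) ?_ nn_swap nn_swap ?_ ?_ S
  · rintro ⟨x, y⟩; rfl
  · rintro ⟨x, y⟩; simp only [rc, Set.mem_ofPred_eq]; constructor <;> intro h <;> omega
  · rintro ⟨x, y⟩ ⟨x', y'⟩; dsimp only; omega

end sym

namespace PP

variable (P : PP)

theorem p_LRc_shift (a b c d p q : ℤ) :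
    P.p (LRc (a + p) (b + p) (c + q) (d + q)) = P.p (LRc a b c d) := by
  rw [← P.shift p q _ (IL_LRc a b c d)]
  congr 1
  funext S
  exact propext (LRc_shift S a b c d p q).symm

theorem p_BTc_shift (a b c d p q : ℤ) :
    P.p (BTc (a + p) (b + p) (c + q) (d + q)) = P.p (BTc a b c d) := by
  rw [← P.shift p q _ (IL_BTc a b c d)]
  congr 1
  funext S
  exact propext (BTc_shift S a b c d p q).symm

theorem p_Hc_shift (a b c d u v p q : ℤ) :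
    P.p (Hc (a + p) (b + p) (c + q) (d + q) (u + q) (v + q)) = P.p (Hc a b c d u v) := by
  rw [← P.shift p q _ (IL_Hc a b c d u v)]
  congr 1
  funext S
  exact propext (Hc_shift S a b c d u v p q).symm

theorem p_Hm (a b c d u v : ℤ) :
    P.p (Hm (-b) (-a) c d u v) = P.p (Hc a b c d u v) := by
  rw [← P.reflx _ (IL_Hc a b c d u v)]
  congr 1
  funext S
  exact propext (Hc_reflx S a b c d u v).symm

theorem p_Hc_refly (a b c d u v : ℤ) :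
    P.p (Hc a b (-d) (-c) (-v) (-u)) = P.p (Hc a b c d u v) := by
  rw [← P.refly _ (IL_Hc a b c d u v)]
  congr 1
  funext S
  exact propext (Hc_refly S a b c d u v).symm

theorem p_BTc (a b c d : ℤ) : P.p (BTc c d a b) = P.p (LRc a b c d) := by
  rw [← P.swap _ (IL_LRc a b c d)]
  congr 1
  funext S
  exact propext (LRc_swap S a b c d).symm

end PP

end Vale.Agent.P145.FB
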