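import Vale.Agent.P145.FB.Space
import Vale.Agent.P145.FB.Swap

/-!
P145, block F-B: the flip.

`U D o` is the set of the faces of `D` which are not connected to the complement of `D` by closed
bonds. Reversing all arrows around the odd faces of `U D o` preserves the joint law of the arrows
and the bonds.
-/

namespace Vale.Agent.P145.FB

open Finset Filter Topology MeasureTheory
open Vale.Agent.P152 Vale.Agent.P145.FA

/-! ### A measure on arrows and bonds is determined by its cylinders -/

lemma ext_bool {I : Type} [DecidableEq I] {μ ν : Measure (I → Bool)} [IsFiniteMeasure μ]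
    [IsFiniteMeasure ν] (F : Finset I → Prop) (hF : ∀ s, ∃ s', s ⊆ s' ∧ F s')
    (h : ∀ s, F s → ∀ a : I → Bool, μ {x | ∀ i ∈ s, x i = a i} = ν {x | ∀ i ∈ s, x i = a i}) :
    μ = ν := by
  have hm : ∀ s : Finset I, Measurable (s.restrict (π := fun _ : I => Bool)) := fun s =>
    Finset.measurable_restrict s
  have key : ∀ s, F s → μ.map s.restrict = ν.map s.restrict := by
    intro s hs
    rw [Measure.ext_iff_singleton]
    intro η
    rw [Measure.map_apply (hm s) (measurableSet_singleton _),
      Measure.map_apply (hm s) (measurableSet_singleton _)]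
    have e : (s.restrict (π := fun _ : I => Bool)) ⁻¹' {η} =
        {x | ∀ i ∈ s, x i = (fun j => if hj : j ∈ s then η ⟨j, hj⟩ else true) i} := by
      ext x
      simp only [Set.mem_preimage, Set.mem_singleton_iff]
      constructor
      · intro h i hi
        rw [← h]
        simp [hi]
      · intro h
        funext i
        have := h i.1 i.2
        simp only [i.2, dif_pos] at this
        exact this
    rw [e]
    exact h s hs _
  have key2 : ∀ s : Finset I, μ.map s.restrict = ν.map s.restrict := by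
    intro s
    obtain ⟨s', hss, hs'⟩ := hF s
    have e : (s.restrict (π := fun _ : I => Bool)) =
        Finset.restrict₂ (π := fun _ : I => Bool) hss ∘ s'.restrict := rfl
    have hm2 : Measurable (Finset.restrict₂ (π := fun _ : I => Bool) hss) :=
      Finset.measurable_restrict₂ hss
    rw [e, ← Measure.map_map hm2 (hm s'), key s' hs', Measure.map_map hm2 (hm s')]
  exact IsProjectiveLimit.unique (P := fun s : Finset I => μ.map s.restrict) (fun s => rfl)
    (fun s => (key2 s).symm)

lemma ext_cylO {μ ν : Measure (Ori (ℤ × ℤ) × Mk)} [IsFiniteMeasure μ] [IsFiniteMeasure ν]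
    (F : Finset (Edge (ℤ × ℤ)) → Finset Pt → Prop)
    (hF : ∀ E W, ∃ E' W', E ⊆ E' ∧ W ⊆ W' ∧ F E' W')
    (h : ∀ E W, F E W → ∀ a o, μ (cylO E W a o) = ν (cylO E W a o)) : μ = ν := by
  classical
  set Φ := MeasurableEquiv.sumPiEquivProdPi (fun _ : Edge (ℤ × ℤ) ⊕ Pt => Bool) with hΦ
  have key : μ.map Φ.symm = ν.map Φ.symm := by
    have : IsFiniteMeasure (μ.map Φ.symm) := Measure.isFiniteMeasure_map _ _
    have : IsFiniteMeasure (ν.map Φ.symm) := Measure.isFiniteMeasure_map _ _
    refine ext_bool (fun s => ∃ E W, F E W ∧ s = E.disjSum W) (fun s => ?_) ?_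
    · obtain ⟨E', W', h1, h2, h3⟩ := hF s.toLeft s.toRight
      refine ⟨E'.disjSum W', ?_, E', W', h3, rfl⟩
      intro i hi
      rcases i with i | i
      · exact Finset.inl_mem_disjSum.2 (h1 (Finset.mem_toLeft.2 hi))
      · exact Finset.inr_mem_disjSum.2 (h2 (Finset.mem_toRight.2 hi))
    · rintro s ⟨E, W, hEW, rfl⟩ a
      rw [MeasurableEquiv.map_apply, MeasurableEquiv.map_apply]
      have e : (Φ.symm ⁻¹' {x | ∀ i ∈ E.disjSum W, x i = a i}) =
          cylO E W (fun e => a (Sum.inl e)) (fun w => a (Sum.inr w)) := by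
        ext x
        simp only [Set.mem_preimage, cylO]
        constructor
        · intro hx
          exact ⟨fun e he => hx (Sum.inl e) (Finset.inl_mem_disjSum.2 he),
            fun w hw => hx (Sum.inr w) (Finset.inr_mem_disjSum.2 hw)⟩
        · rintro ⟨hx1, hx2⟩ (i | i) hi
          · exact hx1 i (Finset.inl_mem_disjSum.1 hi)
          · exact hx2 i (Finset.inr_mem_disjSum.1 hi)
      rw [e]
      exact h E W hEW _ _
  have e1 : (μ.map Φ.symm).map Φ = μ := by
    rw [MeasurableEquiv.map_map_symm]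
  have e2 : (ν.map Φ.symm).map Φ = ν := by
    rw [MeasurableEquiv.map_map_symm]
  rw [← e1, ← e2, key]

/-! ### The swap property of the plane measure -/

lemma measurableSet_cyl' (Λ : Finset (Edge (ℤ × ℤ))) (ξ : Ori (ℤ × ℤ)) :
    MeasurableSet (cyl Λ ξ) := by
  have h1 : cyl Λ ξ = ⋂ e ∈ Λ, (fun x : Ori (ℤ × ℤ) => x e) ⁻¹' {ξ e} := by
    ext x; simp [cyl]
  rw [h1]
  exact Finset.measurableSet_biInter _ fun e _ =>
    (measurable_pi_apply e) (measurableSet_singleton _)

/-! ### The flip -/

/-- The odd face at an edge of the six-vertex lattice. -/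
def fo (e : Edge (ℤ × ℤ)) : Pt :=
  match e with
  | Sum.inl v => if Even (v.1 + v.2) then (v.1, v.2 - 1) else v
  | Sum.inr v => if Even (v.1 + v.2) then (v.1 - 1, v.2) else v

/-- The odd faces `f` and `g` are joined by a closed bond. -/
def Rb (o : Mk) (f g : Pt) : Prop :=
  ∃ w, o w = false ∧ ((f = o1 w ∧ g = o2 w) ∨ (f = o2 w ∧ g = o1 w))

lemma Rb.symm {o : Mk} {f g : Pt} (h : Rb o f g) : Rb o g f := by
  obtain ⟨w, hw, h⟩ := h
  exact ⟨w, hw, h.symm.imp (fun h => ⟨h.2, h.1⟩) (fun h => ⟨h.2, h.1⟩)⟩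

/-- The faces which are not connected to the complement of `D` by closed bonds. -/
def U (D : Set Pt) (o : Mk) : Set Pt := {f | ∀ g, Relation.ReflTransGen (Rb o) f g → g ∈ D}

lemma U_sub {D : Set Pt} {o : Mk} {f : Pt} (h : f ∈ U D o) : f ∈ D :=
  h f Relation.ReflTransGen.refl

lemma U_step {D : Set Pt} {o : Mk} {f g : Pt} (h : f ∈ U D o) (hr : Rb o f g) : g ∈ U D o :=
  fun k hk => h k (Relation.ReflTransGen.head hr hk)

lemma U_iff {D : Set Pt} {o : Mk} {f g : Pt} (hr : Rb o f g) : f ∈ U D o ↔ g ∈ U D o :=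
  ⟨fun h => U_step h hr, fun h => U_step h hr.symm⟩

/-- The vertices at the faces of `D`. -/
def VD (D : Finset Pt) : Finset Pt :=
  D.biUnion fun f => {f, (f.1 + 1, f.2), (f.1, f.2 + 1), (f.1 + 1, f.2 + 1)}

lemma mem_VD_o1 {D : Finset Pt} {w : Pt} (h : o1 w ∈ D) : w ∈ VD D := by
  rw [VD, Finset.mem_biUnion]
  refine ⟨_, h, ?_⟩
  unfold o1
  split_ifs <;> simp

lemma mem_VD_o2 {D : Finset Pt} {w : Pt} (h : o2 w ∈ D) : w ∈ VD D := by
  rw [VD, Finset.mem_biUnion]
  refine ⟨_, h, ?_⟩
  unfold o2
  split_ifs <;> simp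

lemma U_local {D : Finset Pt} {o o' : Mk} (h : ∀ w ∈ VD D, o w = o' w) :
    U (D : Set Pt) o = U (D : Set Pt) o' := by
  have key : ∀ o o' : Mk, (∀ w ∈ VD D, o w = o' w) → U (D : Set Pt) o ⊆ U (D : Set Pt) o' := by
    intro o o' h f hf g hg
    have : Relation.ReflTransGen (Rb o) f g := by
      induction hg with
      | refl => exact Relation.ReflTransGen.refl
      | tail h1 h2 ih =>
        refine ih.tail ?_
        obtain ⟨w, hw, h3⟩ := h2
        refine ⟨w, ?_, h3⟩
        rw [h w, hw]
        have hD := hf _ ih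
        rcases h3 with h3 | h3
        · exact mem_VD_o1 (by rw [← h3.1]; exact hD)
        · exact mem_VD_o2 (by rw [← h3.1]; exact hD)
    exact hf g this
  exact Set.Subset.antisymm (key o o' h) (key o' o fun w hw => (h w hw).symm)

open Classical in
/-- Reverse the arrows at the odd faces of `S`. -/
noncomputable def flA (S : Set Pt) (a : Ori (ℤ × ℤ)) : Ori (ℤ × ℤ) :=
  fun e => xor (a e) (decide (fo e ∈ S))

lemma flA_flA (S : Set Pt) (a : Ori (ℤ × ℤ)) : flA S (flA S a) = a := by
  funext e; simp [flA]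

/-- The flip. -/
noncomputable def fl (D : Finset Pt) (x : Ori (ℤ × ℤ) × Mk) : Ori (ℤ × ℤ) × Mk :=
  (flA (U (D : Set Pt) x.2) x.1, x.2)

lemma fl_fl (D : Finset Pt) (x : Ori (ℤ × ℤ) × Mk) : fl D (fl D x) = x := by
  simp [fl, flA_flA]

/-- Boolean form of `kap`. -/
noncomputable def kb (t : ℝ) (od ev b : Bool) : ℝ :=
  if od = true then
    if ev = true then (if b = true then t else 1 - t) else (if b = true then 0 else 1)
  else (if b = true then 1 else 0)

lemma kap_eq (t : ℝ) (a : Ori (ℤ × ℤ)) (w : Pt) (b : Bool) : kap t a w b = kb t (od a w) (ev a w) b :=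
  rfl

lemma core1 {c t : ℝ} (hct : c * t = 1) (l r b a p q s : Bool) (h : p = q ∨ s = true) :
    vw c (xor l p) (xor r q) (xor b q) (xor a p) *
      kb t ((xor r q) != (xor a p)) ((xor r q) == (xor b q)) s =
    vw c l r b a * kb t (r != a) (r == b) s := by
  have hct' : c * (1 - t) = c - 1 := by linear_combination -hct
  cases l <;> cases r <;> cases b <;> cases a <;> cases p <;> cases q <;> cases s <;>
    simp_all [vw, kb]

lemma core2 {c t : ℝ} (hct : c * t = 1) (l r b a p q s : Bool) (h : p = q ∨ s = true) :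
    vw c (xor l q) (xor r p) (xor b q) (xor a p) *
      kb t ((xor r p) == (xor b q)) ((xor r p) != (xor a p)) s =
    vw c l r b a * kb t (r == b) (r != a) s := by
  have hct' : c * (1 - t) = c - 1 := by linear_combination -hct
  cases l <;> cases r <;> cases b <;> cases a <;> cases p <;> cases q <;> cases s <;>
    simp_all [vw, kb]

lemma wgt_flip {c t : ℝ} (hct : c * t = 1) (S : Set Pt) (a : Ori (ℤ × ℤ)) (w : Pt) (b : Bool)
    (h : (o1 w ∈ S ↔ o2 w ∈ S) ∨ b = true) :
    FP.vwt c (flA S a) w * kap t (flA S a) w b = FP.vwt c a w * kap t a w b := by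
  classical
  rw [kap_eq, kap_eq]
  by_cases hw : Even (w.1 + w.2)
  · have n1 : ¬ Even (w.1 - 1 + w.2) := by rw [Int.even_iff] at hw ⊢; omega
    have n2 : ¬ Even (w.1 + (w.2 - 1)) := by rw [Int.even_iff] at hw ⊢; omega
    have f1 : fo (Sum.inl (w.1 - 1, w.2)) = o1 w := by simp [fo, o1, hw, n1]
    have f2 : fo (Sum.inl w) = o2 w := by simp [fo, o2, hw]
    have f3 : fo (Sum.inr (w.1, w.2 - 1)) = o2 w := by simp [fo, o2, hw, n2]
    have f4 : fo (Sum.inr w) = o1 w := by simp [fo, o1, hw]
    have := core1 hct (a (Sum.inl (w.1 - 1, w.2))) (a (Sum.inl w)) (a (Sum.inr (w.1, w.2 - 1)))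
      (a (Sum.inr w)) (decide (o1 w ∈ S)) (decide (o2 w ∈ S)) b (by
        rcases h with h | h
        · left; simp [h]
        · right; exact h)
    simp only [FP.vwt, od, ev, dg, ag, hw, if_true, flA, f1, f2, f3, f4]
    exact this
  · have n1 : Even (w.1 - 1 + w.2) := by rw [Int.even_iff] at hw ⊢; omega
    have n2 : Even (w.1 + (w.2 - 1)) := by rw [Int.even_iff] at hw ⊢; omega
    have f1 : fo (Sum.inl (w.1 - 1, w.2)) = o2 w := by simp [fo, o2, hw, n1]
    have f2 : fo (Sum.inl w) = o1 w := by simp [fo, o1, hw]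
    have f3 : fo (Sum.inr (w.1, w.2 - 1)) = o2 w := by simp [fo, o2, hw, n2]
    have f4 : fo (Sum.inr w) = o1 w := by simp [fo, o1, hw]
    have := core2 hct (a (Sum.inl (w.1 - 1, w.2))) (a (Sum.inl w)) (a (Sum.inr (w.1, w.2 - 1)))
      (a (Sum.inr w)) (decide (o1 w ∈ S)) (decide (o2 w ∈ S)) b (by
        rcases h with h | h
        · left; simp [h]
        · right; exact h)
    simp only [FP.vwt, od, ev, dg, ag, hw, if_false, flA, f1, f2, f3, f4]
    exact this

/-! ### Measurability of the flip -/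

lemma measurableSet_U (D : Finset Pt) (f : Pt) : MeasurableSet {o : Mk | f ∈ U (D : Set Pt) o} := by
  classical
  have h1 : {o : Mk | f ∈ U (D : Set Pt) o} = (VD D).restrict (π := fun _ : Pt => Bool) ⁻¹'
      {η | f ∈ U (D : Set Pt) (fun w => if h : w ∈ VD D then η ⟨w, h⟩ else true)} := by
    ext o
    simp only [Set.mem_preimage, Set.mem_ofPred_eq]
    rw [U_local (D := D) (o := o) (o' := fun w => if h : w ∈ VD D then
      (VD D).restrict (π := fun _ : Pt => Bool) o ⟨w, h⟩ else true)]
    intro w hw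
    simp [hw]
  rw [h1]
  exact (Finset.measurable_restrict (VD D)) (Set.toFinite _).measurableSet

lemma measurable_fl (D : Finset Pt) : Measurable (fl D) := by
  classical
  refine Measurable.prodMk (measurable_pi_lambda _ fun e => ?_) measurable_snd
  have h1 : MeasurableSet {x : Ori (ℤ × ℤ) × Mk | fo e ∈ U (D : Set Pt) x.2} :=
    measurable_snd (measurableSet_U D (fo e))
  have h2 : Measurable fun x : Ori (ℤ × ℤ) × Mk => decide (fo e ∈ U (D : Set Pt) x.2) := by
    refine measurable_to_bool ?_
    convert h1 using 1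
    ext x
    simp
  have h3 : Measurable fun x : Ori (ℤ × ℤ) × Mk => x.1 e :=
    (measurable_pi_apply e).comp measurable_fst
  exact (measurable_of_finite (fun p : Bool × Bool => xor p.1 p.2)).comp (h3.prodMk h2)

/-! ### Invariance of the joint law -/

lemma cyl_zero {c : ℝ} (hc : 0 < c) {P : Measure (Ori (ℤ × ℤ))} [IsProbabilityMeasure P]
    (hice : ∀ᵐ a ∂P, ∀ x y, Ice a x y) {E : Finset (Edge (ℤ × ℤ))} {v : Pt}
    (hE : FP.star v ⊆ E) {a : Ori (ℤ × ℤ)} (h0 : FP.vwt c a v = 0) : P.real (cyl E a) = 0 := by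
  have h1 : ¬ Ice a v.1 v.2 := by
    intro h
    unfold Ice at h
    unfold FP.vwt vw at h0
    rw [if_pos (by simpa using h)] at h0
    split_ifs at h0 with h2
    · exact one_ne_zero h0
    · exact hc.ne' h0
  have h2 : P (cyl E a) = 0 := by
    refine measure_mono_null ?_ (ae_iff.1 hice)
    intro ω hω
    simp only [Set.mem_ofPred_eq]
    intro h3
    have h4 := h3 v.1 v.2
    apply h1
    have e : ∀ e ∈ FP.star v, ω e = a e := fun e he => hω e (hE he)
    unfold Ice at h4 ⊢
    rw [← e _ (by simp [FP.star]), ← e _ (by simp [FP.star]), ← e _ (by simp [FP.star]),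
      ← e _ (by simp [FP.star])]
    exact h4
  rw [Measure.real, h2, ENNReal.toReal_zero]

lemma fo_star {w : Pt} {e : Edge (ℤ × ℤ)} (he : e ∈ FP.star w) : fo e = o1 w ∨ fo e = o2 w := by
  simp only [FP.star, Finset.mem_insert, Finset.mem_singleton] at he
  by_cases hw : Even (w.1 + w.2)
  · have n1 : ¬ Even (w.1 - 1 + w.2) := by rw [Int.even_iff] at hw ⊢; omega
    have n2 : ¬ Even (w.1 + (w.2 - 1)) := by rw [Int.even_iff] at hw ⊢; omega
    rcases he with rfl | rfl | rfl | rfl <;> simp [fo, o1, o2, hw, n1, n2]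
  · have n1 : Even (w.1 - 1 + w.2) := by rw [Int.even_iff] at hw ⊢; omega
    have n2 : Even (w.1 + (w.2 - 1)) := by rw [Int.even_iff] at hw ⊢; omega
    rcases he with rfl | rfl | rfl | rfl <;> simp [fo, o1, o2, hw, n1, n2]

lemma ends_of_fo {D : Finset Pt} {e : Edge (ℤ × ℤ)} (he : fo e ∈ D) : FP.Ends (VD D) e := by
  rcases e with v | v
  · unfold fo at he
    simp only at he
    split_ifs at he with hv
    · refine ⟨?_, ?_⟩ <;> rw [VD, Finset.mem_biUnion] <;> refine ⟨_, he, ?_⟩ <;> simp
    · refine ⟨?_, ?_⟩ <;> rw [VD, Finset.mem_biUnion] <;> refine ⟨_, he, ?_⟩ <;> simp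
  · unfold fo at he
    simp only at he
    split_ifs at he with hv
    · refine ⟨?_, ?_⟩ <;> rw [VD, Finset.mem_biUnion] <;> refine ⟨_, he, ?_⟩ <;> simp
    · refine ⟨?_, ?_⟩ <;> rw [VD, Finset.mem_biUnion] <;> refine ⟨_, he, ?_⟩ <;> simp

theorem fl_mp {c t : ℝ} (hc : 0 < c) (hct : c * t = 1) (ht1 : t ≤ 1)
    {P : Measure (Ori (ℤ × ℤ))} [IsProbabilityMeasure P] (hice : ∀ᵐ a ∂P, ∀ x y, Ice a x y)
    (hsw : Swap c P) (D : Finset Pt) : (JO t P).map (fl D) = JO t P := by
  classical
  have ht0 : 0 ≤ t := by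
    by_contra h
    push Not at h
    nlinarith
  have hfin : IsProbabilityMeasure ((JO t P).map (fl D)) :=
    Measure.isProbabilityMeasure_map (measurable_fl D).aemeasurable
  refine ext_cylO (fun E W => VD D ⊆ W ∧ ∀ w ∈ W, FP.star w ⊆ E) (fun E W => ?_) ?_
  · refine ⟨E ∪ (W ∪ VD D).biUnion FP.star, W ∪ VD D, Finset.subset_union_left,
      Finset.subset_union_left, Finset.subset_union_right, fun w hw => ?_⟩
    exact (Finset.subset_biUnion_of_mem FP.star hw).trans Finset.subset_union_right
  · rintro E W ⟨hDW, hE⟩ a o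
    have hmc : MeasurableSet (cylO E W a o) := by
      have h1 : cylO E W a o = (⋂ e ∈ E, (fun x : Ori (ℤ × ℤ) × Mk => x.1 e) ⁻¹' {a e}) ∩
          ⋂ w ∈ W, (fun x : Ori (ℤ × ℤ) × Mk => x.2 w) ⁻¹' {o w} := by
        ext x; simp [cylO]
      rw [h1]
      refine MeasurableSet.inter (Finset.measurableSet_biInter _ fun e _ => ?_)
        (Finset.measurableSet_biInter _ fun w _ => ?_)
      · exact ((measurable_pi_apply e).comp measurable_fst) (measurableSet_singleton _)
      · exact ((measurable_pi_apply w).comp measurable_snd) (measurableSet_singleton _)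
    set S : Set Pt := U (D : Set Pt) o with hS
    have hpre : fl D ⁻¹' (cylO E W a o) = cylO E W (flA S a) o := by
      ext x
      simp only [Set.mem_preimage, cylO, fl, Set.mem_ofPred_eq]
      constructor
      · rintro ⟨h1, h2⟩
        refine ⟨fun e he => ?_, h2⟩
        have hU : U (D : Set Pt) x.2 = S := U_local fun w hw => h2 w (hDW hw)
        rw [hU] at h1
        have := h1 e he
        rw [flA] at this ⊢
        rw [← this]
        simp
      · rintro ⟨h1, h2⟩
        refine ⟨fun e he => ?_, h2⟩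
        have hU : U (D : Set Pt) x.2 = S := U_local fun w hw => h2 w (hDW hw)
        rw [hU]
        have := h1 e he
        rw [flA] at this ⊢
        rw [this]
        simp
    rw [Measure.map_apply (measurable_fl D) hmc, hpre]
    have hSD : ∀ f, f ∈ S → f ∈ D := fun f hf => U_sub hf
    -- reals
    have main : (JO t P).real (cylO E W (flA S a) o) = (JO t P).real (cylO E W a o) := by
      rw [JO_cyl ht0 ht1 P hE, JO_cyl ht0 ht1 P hE, ← Finset.prod_sdiff hDW,
        ← Finset.prod_sdiff (s₁ := VD D) (s₂ := W) (f := fun w => kap t a w (o w)) hDW]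
      have hrest : ∏ w ∈ W \ VD D, kap t (flA S a) w (o w) =
          ∏ w ∈ W \ VD D, kap t a w (o w) := by
        refine Finset.prod_congr rfl fun w hw => kap_congr (fun e he => ?_) _
        rw [Finset.mem_sdiff] at hw
        have : fo e ∉ S := by
          intro h
          rcases fo_star he with h1 | h1
          · exact hw.2 (mem_VD_o1 (by rw [← h1]; exact hSD _ h))
          · exact hw.2 (mem_VD_o2 (by rw [← h1]; exact hSD _ h))
        simp [flA, this]
      have hin : ∀ v ∈ VD D, FP.star v ⊆ E := fun v hv => hE v (hDW hv)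
      have hswap := hsw E (VD D) a (flA S a) hin (fun e _ hne => by
        apply ends_of_fo
        apply hSD
        by_contra h
        apply hne
        simp [flA, h])
      have hwk : (∏ v ∈ VD D, FP.vwt c (flA S a) v) * ∏ v ∈ VD D, kap t (flA S a) v (o v) =
          (∏ v ∈ VD D, FP.vwt c a v) * ∏ v ∈ VD D, kap t a v (o v) := by
        rw [← Finset.prod_mul_distrib, ← Finset.prod_mul_distrib]
        refine Finset.prod_congr rfl fun v _ => wgt_flip hct S a v (o v) ?_
        by_cases ho : o v = true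
        · exact Or.inr ho
        · left
          exact U_iff ⟨v, by simpa using ho, Or.inl ⟨rfl, rfl⟩⟩
      rw [hrest]
      set A := P.real (cyl E a)
      set A' := P.real (cyl E (flA S a))
      set w0 := ∏ v ∈ VD D, FP.vwt c a v with hw0
      set w1 := ∏ v ∈ VD D, FP.vwt c (flA S a) v with hw1
      set k0 := ∏ v ∈ VD D, kap t a v (o v)
      set k1 := ∏ v ∈ VD D, kap t (flA S a) v (o v)
      have goal : A' * k1 = A * k0 := by
        by_cases hz : w0 = 0
        · have hA : A = 0 := by
            obtain ⟨v, hv, hv0⟩ := Finset.prod_eq_zero_iff.1 hz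
            exact cyl_zero hc hice (hin v hv) hv0
          rw [hz, zero_mul] at hwk
          rw [hA, zero_mul]
          rcases mul_eq_zero.1 hwk with h | h
          · have hA' : A' = 0 := by
              obtain ⟨v, hv, hv0⟩ := Finset.prod_eq_zero_iff.1 h
              exact cyl_zero hc hice (hin v hv) hv0
            rw [hA', zero_mul]
          · rw [h, mul_zero]
        · have : (A' * k1) * w0 = (A * k0) * w0 := by
            calc (A' * k1) * w0 = (A' * w0) * k1 := by ring
              _ = (A * w1) * k1 := by rw [hswap]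
              _ = A * (w1 * k1) := by ring
              _ = A * (w0 * k0) := by rw [hwk]
              _ = (A * k0) * w0 := by ring
          exact mul_right_cancel₀ hz this
      calc A' * ((∏ w ∈ W \ VD D, kap t a w (o w)) * k1) =
          (∏ w ∈ W \ VD D, kap t a w (o w)) * (A' * k1) := by ring
        _ = (∏ w ∈ W \ VD D, kap t a w (o w)) * (A * k0) := by rw [goal]
        _ = A * ((∏ w ∈ W \ VD D, kap t a w (o w)) * k0) := by ring
    rw [Measure.real, Measure.real] at main
    exact (ENNReal.toReal_eq_toReal_iff' (measure_ne_top _ _) (measure_ne_top _ _)).1 main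

/-- The flip preserves the joint law of the arrows and the bonds. -/
theorem fl_mp_pl {c t : ℝ} (hc : 0 < c) (hct : c * t = 1) (ht1 : t ≤ 1)
    {P : Measure (Ori (ℤ × ℤ))} (hP : Pl c P) (hS : Swap c P) (D : Finset Pt) :
    MeasurePreserving (fl D) (JO t P) (JO t P) := by
  have := hP.prob
  exact ⟨measurable_fl D, fl_mp hc hct ht1 hP.ice hS D⟩

end Vale.Agent.P145.FB
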