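import Vale.Agent.P145.FB.R1
import Vale.Agent.P145.FB.Arm
import Vale.Agent.P145.FB.AsPc
import Vale.Agent.P145.FB.AsPd
import Vale.Agent.P145.FB.AntiConc

/-!
P145, block F-B: **(R1)** for the plane measure, `1 ≤ c ≤ 2`, `t = 1 / c`: long rectangles are
crossed, and annuli contain circuits, of open bonds with spin plus, with probability bounded below,
at all large scales.
-/

namespace Vale.Agent.P145.FB

open MeasureTheory
open Vale.Agent.P152 Vale.Agent.P152.GFF.S Vale.Agent.P152.GFF.B3 Vale.Agent.P145.FA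

variable {c : ℝ} {P : Measure (Ori (ℤ × ℤ))} [IsProbabilityMeasure P]

theorem ice_of_isP (hP : IsP c P) : ∀ᵐ a ∂P, ∀ x y, Ice a x y := by
  have hsub : IsSubLimit c P := by
    obtain ⟨Q, hQ1, hQ2⟩ := hP.2.1
    exact ⟨id, strictMono_id, Q, fun i => hQ1 i, hQ2⟩
  exact ice_ae hsub

/-- **(A)** for the plane measure. -/
theorem assoc_pl0 (hc : 1 ≤ c) (hc2 : c ≤ 2) (hb : BoxLim c) (hP : IsP c P) : Assoc (1 / c) P :=
  assoc_of hc hc2 hb (ice_of_isP hP)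
    (fun m r hm hr x0 y0 f hf => pl_mu hc hP m r hm hr x0 y0 f hf)

/-- **(ARM)** for the plane measure. -/
theorem arm_pl (hc : 1 ≤ c) (hP : IsP c P) (hS : Swap c P) (hac : AC.Stmt P) :
    ∀ ε > 0, ∀ M0 : ℤ, ∃ M : ℤ, M0 ≤ M ∧ ∃ s0 : ℤ, ∀ s : ℤ, s0 ≤ s →
      (J (1 / c) P).real {x | Arm s (2 * M * s) (SP x)} < ε :=
  harm_of (by linarith) (mul_one_div_cancel (by linarith : c ≠ 0))
    ((div_le_one (by linarith)).2 hc) (ice_of_isP hP) hS hac

/-- **(R1)**, rectangles, plane measure. -/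
theorem main_rect (hc : 1 ≤ c) (hc2 : c ≤ 2) (hP : IsP c P) (hSym : SymM P) (hb : BoxLim c)
    (hS : Swap c P) (hac : AC.Stmt P) (k : ℕ) :
    ∃ c0 : ℝ, 0 < c0 ∧ ∃ r0 : ℤ, ∀ r : ℤ, r0 ≤ r →
      c0 ≤ (J (1 / c) P).real {x | LRc 0 (k * r) 0 r (SQ x)} :=
  r1_rect hSym (ice_of_isP hP) (one_div_le_one_div_of_le (by linarith) hc2)
    ((div_le_one (by linarith)).2 hc) (assoc_pl0 hc hc2 hb hP)
    (fun e he => arm_pl hc hP hS hac e he) k

/-- **(R1)**, circuits around every centre, plane measure. -/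
theorem main_circ (hc : 1 ≤ c) (hc2 : c ≤ 2) (hP : IsP c P) (hSym : SymM P) (hb : BoxLim c)
    (hS : Swap c P) (hac : AC.Stmt P) :
    ∃ c0 : ℝ, 0 < c0 ∧ ∃ r0 : ℤ, ∀ r : ℤ, r0 ≤ r → ∀ p q : ℤ,
      c0 ≤ (J (1 / c) P).real {x | Ann p q r (SQ x)} :=
  r1_circ hSym (ice_of_isP hP) (one_div_le_one_div_of_le (by linarith) hc2)
    ((div_le_one (by linarith)).2 hc) (assoc_pl0 hc hc2 hb hP)
    (fun e he => arm_pl hc hP hS hac e he)

/-- **(R1)** from Gaussian domination and the limit of the characteristic function. -/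
theorem main_circ_gd (hc : 1 ≤ c) (hc2 : c ≤ 2) (hP : IsP c P) (hSym : SymM P) (hb : BoxLim c)
    (hS : Swap c P) {C κ : ℝ} (hC : 0 ≤ C) (hG : GD P C) (hκ : 0 < κ) (hch : AC.CharLim P κ) :
    ∃ c0 : ℝ, 0 < c0 ∧ ∃ r0 : ℤ, ∀ r : ℤ, r0 ≤ r → ∀ p q : ℤ,
      c0 ≤ (J (1 / c) P).real {x | Ann p q r (SQ x)} :=
  main_circ hc hc2 hP hSym hb hS (AC.main hC hG (ice_of_isP hP) hκ hch)

end Vale.Agent.P145.FB
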