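import Vale.Agent.P152.GFF.B3.Stmt3

/-!
P145, block F-B: exponential moments of the vertex averages of the vertical arrows in the plane,
from Gaussian domination in boxes with free arrows.
-/

namespace Vale.Agent.P145.FB.Mom

open Finset Filter Topology MeasureTheory
open Vale.Agent.P152 Vale.Agent.P152.GFF Vale.Agent.P152.GFF.B3
open Vale.Agent.P152.GFF.S (ar)

/-- the field of the window, moved and extended by zero. -/
noncomputable def secg (m r p n : ℕ) (s : ℝ) (g : ℕ → ℕ → ℝ) (i j : ℕ) : ℝ :=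
  if (p ≤ i ∧ i < p + m) ∧ (n ≤ j ∧ j < n + r) then s * g (i - p) (j - n) else 0

lemma secg_in {m r p n : ℕ} (s : ℝ) (g : ℕ → ℕ → ℝ) {i j : ℕ} (hi : i < m) (hj : j < r) :
    secg m r p n s g (p + i) (n + j) = s * g i j := by
  unfold secg
  rw [if_pos ⟨⟨by omega, by omega⟩, ⟨by omega, by omega⟩⟩]
  congr 2 <;> omega

lemma secg_out {m r p n : ℕ} (s : ℝ) (g : ℕ → ℕ → ℝ) {i j : ℕ}
    (h : i < p ∨ p + m ≤ i ∨ j < n ∨ n + r ≤ j) : secg m r p n s g i j = 0 := by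
  unfold secg
  rw [if_neg]
  omega

lemma secg_sum {m r p n M R : ℕ} (hx : p + m ≤ M) (hy : n + r ≤ R) (s : ℝ)
    (g : ℕ → ℕ → ℝ) (H : Fin M × Fin R → ℝ → ℝ) (h0 : ∀ v, H v 0 = 0) :
    ∑ v : Fin M × Fin R, H v (secg m r p n s g v.1 v.2) =
      ∑ v : Fin m × Fin r, H (bxf p n hx hy v) (s * g v.1 v.2) := by
  symm
  refine Fintype.sum_of_injective (bxf p n hx hy) ?_ _ _ ?_ ?_
  · rintro ⟨a, b⟩ ⟨c, d⟩ h
    simp only [bxf, Prod.mk.injEq, Fin.mk.injEq] at h
    ext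
    · show a.val = c.val
      omega
    · show b.val = d.val
      omega
  · rintro ⟨a, b⟩ h
    have h1 : (a.val < p ∨ p + m ≤ a.val ∨ b.val < n ∨ n + r ≤ b.val) := by
      by_contra hc
      push Not at hc
      apply h
      refine ⟨(⟨a.val - p, by omega⟩, ⟨b.val - n, by omega⟩), ?_⟩
      simp only [bxf]
      ext
      · show p + (a.val - p) = a.val
        omega
      · show n + (b.val - n) = b.val
        omega
    show H (a, b) (secg m r p n s g a b) = 0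
    rw [secg_out s g h1, h0]
  · rintro ⟨a, b⟩
    show H (bxf p n hx hy (a, b)) (s * g a b) =
      H (bxf p n hx hy (a, b)) (secg m r p n s g (p + a) (n + b))
    rw [secg_in s g a.2 b.2]

lemma sec_range (M R : ℕ) (h : ℕ → ℕ → ℝ) :
    ∑ i ∈ range M, ∑ j ∈ range R, h i j = ∑ v : Fin M × Fin R, h v.1 v.2 := by
  rw [Fintype.sum_prod_type, Finset.sum_range]
  exact Finset.sum_congr rfl fun i _ => Finset.sum_range _

lemma secg_sq {m r p n M R : ℕ} (hx : p + m ≤ M) (hy : n + r ≤ R) (s : ℝ)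
    (g : ℕ → ℕ → ℝ) :
    ∑ i ∈ range M, ∑ j ∈ range R, secg m r p n s g i j ^ 2 =
      s ^ 2 * ∑ i ∈ range m, ∑ j ∈ range r, g i j ^ 2 := by
  rw [sec_range M R (fun i j => secg m r p n s g i j ^ 2), sec_range m r (fun i j => g i j ^ 2),
    secg_sum hx hy s g (fun _ x => x ^ 2) (fun _ => by simp), Finset.mul_sum]
  exact Finset.sum_congr rfl fun v _ => mul_pow _ _ _

lemma secg_field {m r p n M R : ℕ} (hx : p + m ≤ M) (hy : n + r ≤ R) (s : ℝ)
    (g : ℕ → ℕ → ℝ) (he : IsEmb (boxNet m r) (boxNet M R) (bxf p n hx hy) (bxg p n hx hy))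
    (k : BE M R → ZMod 2) :
    fieldY M R (secg m r p n s g) k = s * fieldY m r g (fun e => k (bxg p n hx hy e)) := by
  unfold fieldY
  rw [secg_sum hx hy s g (fun v x => x / 2 *
    (sg (k (Sum.inl (v.1.castSucc, v.2))) + sg (k (Sum.inl (v.1.succ, v.2)))))
    (fun _ => by simp), Finset.mul_sum]
  refine Finset.sum_congr rfl fun v _ => ?_
  have h1 : k (Sum.inl ((bxf p n hx hy v).1.castSucc, (bxf p n hx hy v).2)) =
      k (bxg p n hx hy (Sum.inl (v.1.castSucc, v.2))) := congrArg k (he.hl v)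
  have h2 : k (Sum.inl ((bxf p n hx hy v).1.succ, (bxf p n hx hy v).2)) =
      k (bxg p n hx hy (Sum.inl (v.1.succ, v.2))) := congrArg k (he.hr v)
  rw [h1, h2]
  ring

/-- Exponential moments in the infinite-volume state. -/
theorem mexp (hGD : S_GD) (hmuI : S_muI) (hloc : S_loc) (hemb : S_emb)
    (w : Pairing → ℝ) (hw : GoodW w) (hw12 : w Pairing.t1 = w Pairing.t2) (hA : A6 w) :
    ∃ C > 0, ∃ γ > 0, ∀ (m r : ℕ) (g : ℕ → ℕ → ℝ), 1 ≤ m → 1 ≤ r → Even m → Even r →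
      (∀ i j, |g i j| ≤ γ) →
      mu w m r (fun x => Real.exp (fieldY m r g x)) ≤
        Real.exp (C * ∑ i ∈ range m, ∑ j ∈ range r, g i j ^ 2) := by
  obtain ⟨C0, hC0, γ0, hγ0, hG⟩ := hGD w hw.pos hw12 hA
  refine ⟨C0, hC0, γ0, hγ0, fun m r g hm hr hme hre hgb => ?_⟩
  set S : ℝ := ∑ i ∈ range m, ∑ j ∈ range r, g i j ^ 2 with hS
  have hbd : ∀ p n i j, |secg m r p n 1 g i j| ≤ γ0 := by
    intro p n i j
    unfold secg
    split_ifs with h
    · rw [one_mul]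
      exact hgb _ _
    · rw [abs_zero]
      exact hγ0.le
  -- the main estimate
  have key : ∀ ε : ℝ, 0 < ε → mu w m r (fun x => Real.exp (fieldY m r g x)) ≤
      Real.exp (C0 * S + ε) + ε := by
    intro ε hε
    obtain ⟨q0, hq0⟩ := hmuI w hw m r hm hr
      (fun x => Real.exp (fieldY m r g x) * (boxNet m r).W6 w x) ε hε
    have hl2 : 0 < Real.log 2 := Real.log_pos (by norm_num)
    obtain ⟨p0, hp0⟩ := exists_nat_ge ((r : ℝ) * m * Real.log 2 / ε)
    obtain ⟨p, hp⟩ : ∃ p, p = max (max q0 1) p0 := ⟨_, rfl⟩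
    obtain ⟨n0, hn0⟩ := exists_nat_ge ((r : ℝ) * (2 * p + m) * Real.log 2 / ε)
    obtain ⟨n, hn⟩ : ∃ n, n = max (max q0 1) n0 := ⟨_, rfl⟩
    have hp1 : 1 ≤ p := by omega
    have hn1 : 1 ≤ n := by omega
    have hpq : q0 ≤ p := by omega
    have hnq : q0 ≤ n := by omega
    have hp2 : (p0 : ℝ) ≤ p := by exact_mod_cast (by omega : p0 ≤ p)
    have hn2 : (n0 : ℝ) ≤ n := by exact_mod_cast (by omega : n0 ≤ n)
    have hp3 : (0 : ℝ) < p := by exact_mod_cast hp1
    have hn3 : (0 : ℝ) < n := by exact_mod_cast hn1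
    have e1 : (r : ℝ) * m * Real.log 2 / (2 * p) ≤ ε / 2 := by
      have h1 : (r : ℝ) * m * Real.log 2 / ε ≤ p := le_trans hp0 hp2
      rw [div_le_iff₀ hε] at h1
      rw [div_le_iff₀ (by positivity)]
      linarith
    have e2 : (r : ℝ) * (2 * p + m) * Real.log 2 / (2 * n) ≤ ε / 2 := by
      have h1 : (r : ℝ) * (2 * p + m) * Real.log 2 / ε ≤ n := le_trans hn0 hn2
      rw [div_le_iff₀ hε] at h1
      rw [div_le_iff₀ (by positivity)]
      linarith
    have hx : p + m ≤ p + m + p := by omega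
    have hy : n + r ≤ n + r + n := by omega
    have he : IsEmb (boxNet m r) (boxNet (p + m + p) (n + r + n)) (bxf p n hx hy)
        (bxg p n hx hy) := hemb.2.2.1 m r _ _ p n hx hy
    have hE : (boxNet (p + m + p) (n + r + n)).Ea w
        (fun k => Real.exp (fieldY m r g (fun e => k (bxg p n hx hy e)))) ≤
        Real.exp (C0 * S + ε) := by
      have h1 := hG p m n r (secg m r p n 1 g) hp1 hme hn1 hre
        (fun i j h => secg_out 1 g h) (hbd p n)
      have h2 : (fun k : BE (p + m + p) (n + r + n) → ZMod 2 =>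
          Real.exp (fieldY (p + m + p) (n + r + n) (secg m r p n 1 g) k)) =
          fun k => Real.exp (fieldY m r g (fun e => k (bxg p n hx hy e))) := by
        funext k
        rw [secg_field hx hy 1 g he, one_mul]
      rw [h2, secg_sq hx hy] at h1
      refine le_trans h1 (Real.exp_le_exp.2 ?_)
      rw [← hS, one_pow, one_mul]
      linarith
    have h2 := hq0 (p + m + p) (n + r + n) p n hx hy hpq hnq (by omega) (by omega)
    have h3 := hloc _ _ _ _ (boxNet m r) (boxNet (p + m + p) (n + r + n)) (bxf p n hx hy)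
      (bxg p n hx hy) w he (fun x => Real.exp (fieldY m r g x))
    unfold Net.Ea at hE
    rw [← h3] at h2
    have h4 := (abs_le.1 h2).1
    unfold mu
    linarith
  have hlim : Tendsto (fun ε : ℝ => Real.exp (C0 * S + ε) + ε)
      (𝓝[>] 0) (𝓝 (Real.exp (C0 * S + 0) + 0)) := by
    refine Tendsto.mono_left ?_ nhdsWithin_le_nhds
    have hc : Continuous (fun ε : ℝ => Real.exp (C0 * S + ε) + ε) := by fun_prop
    exact hc.tendsto 0
  have h5 : mu w m r (fun x => Real.exp (fieldY m r g x)) ≤ Real.exp (C0 * S + 0) + 0 :=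
    ge_of_tendsto hlim (eventually_nhdsWithin_of_forall fun ε hε => key ε hε)
  rwa [add_zero, add_zero] at h5

/-- The same for the vertical arrows. -/
theorem mexpV (hGD : S_GD) (hmuI : S_muI) (htsym : S_tsym) (hloc : S_loc) (hemb : S_emb)
    (w : Pairing → ℝ) (hw : GoodW w) (hw12 : w Pairing.t1 = w Pairing.t2) (hA : A6 w) :
    ∃ C > 0, ∃ γ > 0, ∀ (m r : ℕ) (g : ℕ → ℕ → ℝ), 1 ≤ m → 1 ≤ r → Even m → Even r →
      (∀ i j, |g i j| ≤ γ) →
      mu w m r (fun x => Real.exp (fieldY m r g x)) ≤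
        Real.exp (C * ∑ i ∈ range m, ∑ j ∈ range r, g i j ^ 2) ∧
      mu w m r (fun x => Real.exp (∑ v : Fin m × Fin r, g v.1 v.2 / 2 *
        (sg (x (Sum.inr (v.1, v.2.castSucc))) + sg (x (Sum.inr (v.1, v.2.succ)))))) ≤
        Real.exp (C * ∑ i ∈ range m, ∑ j ∈ range r, g i j ^ 2) := by
  obtain ⟨C, hC, γ, hγ, h⟩ := mexp hGD hmuI hloc hemb w hw hw12 hA
  refine ⟨C, hC, γ, hγ, fun m r g hm hr hme hre hg => ⟨h m r g hm hr hme hre hg, ?_⟩⟩
  rw [htsym.2.1 w hw m r hm hr]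
  have h1 := h r m (fun i j => g j i) hr hm hre hme (fun i j => hg j i)
  have h2 : (fun x : BE r m → ZMod 2 => Real.exp (∑ v : Fin m × Fin r, g v.1 v.2 / 2 *
      (sg ((fun e => x (sw m r e)) (Sum.inr (v.1, v.2.castSucc))) +
        sg ((fun e => x (sw m r e)) (Sum.inr (v.1, v.2.succ)))))) =
      fun x => Real.exp (fieldY r m (fun i j => g j i) x) := by
    funext x
    congr 1
    unfold fieldY
    rw [← Equiv.sum_comp (Equiv.prodComm (Fin m) (Fin r))]
    rfl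
  rw [h2]
  refine le_trans h1 (le_of_eq ?_)
  rw [Finset.sum_comm]

/-- The value of an arrow read in a window. -/
lemma sg_rd_bit (b : Bool) : sg (if b = true then 0 else 1) = ((sgb b : ℤ) : ℝ) := by
  cases b <;> simp [sg, sgb]

lemma sg_rd_inl (m r : ℕ) (x0 y0 : ℤ) (ω : Ori (ℤ × ℤ)) (v : Fin (m + 1) × Fin r) :
    sg (rd m r x0 y0 ω (Sum.inl v)) = ar ω (Sum.inl (x0 + v.1 - 1, y0 + v.2)) := by
  unfold rd ar
  exact sg_rd_bit _

lemma sg_rd_inr (m r : ℕ) (x0 y0 : ℤ) (ω : Ori (ℤ × ℤ)) (v : Fin m × Fin (r + 1)) :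
    sg (rd m r x0 y0 ω (Sum.inr v)) = ar ω (Sum.inr (x0 + v.1, y0 + v.2 - 1)) := by
  unfold rd ar
  exact sg_rd_bit _

/-- A finite sum over `ℤ × ℤ` as a sum over a window. -/
lemma win_sum (s : Finset (ℤ × ℤ)) (N : ℕ) (hN : ∀ v ∈ s, v.1.natAbs + v.2.natAbs ≤ N)
    (H : ℤ × ℤ → ℝ) :
    ∑ u ∈ s, H u = ∑ v : Fin (2 * N + 2) × Fin (2 * N + 2),
      if ((v.1 : ℤ) - N, (v.2 : ℤ) - N) ∈ s then H ((v.1 : ℤ) - N, (v.2 : ℤ) - N) else 0 := by
  rw [← Finset.sum_filter]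
  symm
  refine Finset.sum_nbij (fun v => ((v.1 : ℤ) - N, (v.2 : ℤ) - N)) ?_ ?_ ?_ ?_
  · intro v hv
    exact (Finset.mem_filter.1 hv).2
  · intro v _ v' _ h
    simp only [Prod.mk.injEq] at h
    ext
    · omega
    · omega
  · intro u hu
    have h := hN u hu
    refine ⟨(⟨(u.1 + N).toNat, by omega⟩, ⟨(u.2 + N).toNat, by omega⟩), ?_, ?_⟩
    · rw [Finset.mem_coe, Finset.mem_filter]
      refine ⟨Finset.mem_univ _, ?_⟩
      have h1 : (((u.1 + N).toNat : ℕ) : ℤ) - N = u.1 := by omega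
      have h2 : (((u.2 + N).toNat : ℕ) : ℤ) - N = u.2 := by omega
      simp only [h1, h2]
      exact hu
    · have h1 : (((u.1 + N).toNat : ℕ) : ℤ) - N = u.1 := by omega
      have h2 : (((u.2 + N).toNat : ℕ) : ℤ) - N = u.2 := by omega
      simp only [h1, h2]
  · intro v _
    rfl

/-- Exponential moments of the vertex averages of the arrows. -/
def EGD (P : Measure (Ori (ℤ × ℤ))) (C γ : ℝ) : Prop :=
  ∀ (s : Finset (ℤ × ℤ)) (g : ℤ × ℤ → ℝ), (∀ v, |g v| ≤ γ) →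
    ∫ ω, Real.exp (∑ v ∈ s, g v * ((ar ω (Sum.inl (v.1 - 1, v.2)) + ar ω (Sum.inl v)) / 2)) ∂P ≤
      Real.exp (C * ∑ v ∈ s, g v ^ 2) ∧
    ∫ ω, Real.exp (∑ v ∈ s, g v * ((ar ω (Sum.inr (v.1, v.2 - 1)) + ar ω (Sum.inr v)) / 2)) ∂P ≤
      Real.exp (C * ∑ v ∈ s, g v ^ 2)

/-- Gaussian domination (exponential moments) for vertex averages. -/
theorem egd (hGD : S_GD) (hmuI : S_muI) (htsym : S_tsym) (hloc : S_loc) (hemb : S_emb)
    {c : ℝ} (hc : 0 < c) (hc2 : c ^ 2 ≤ 2) (hA : A6 (wc c)) :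
    ∃ C > 0, ∃ γ > 0, ∀ P : Measure (Ori (ℤ × ℤ)), IsP c P → EGD P C γ := by
  obtain ⟨C, hC, γ, hγ, hb⟩ := mexpV hGD hmuI htsym hloc hemb (wc c) (wc_good hc hc2) rfl hA
  refine ⟨C, hC, γ, hγ, fun P hP s g hg => ?_⟩
  classical
  set N : ℕ := ∑ v ∈ s, (v.1.natAbs + v.2.natAbs) with hNdef
  have hN : ∀ v ∈ s, v.1.natAbs + v.2.natAbs ≤ N := fun v hv =>
    Finset.single_le_sum (f := fun v : ℤ × ℤ => v.1.natAbs + v.2.natAbs)
      (fun _ _ => Nat.zero_le _) hv
  set G : ℕ → ℕ → ℝ := fun i j =>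
    if ((i : ℤ) - N, (j : ℤ) - N) ∈ s then g ((i : ℤ) - N, (j : ℤ) - N) else 0 with hG
  have hGb : ∀ i j, |G i j| ≤ γ := by
    intro i j
    simp only [hG]
    split_ifs
    · exact hg _
    · rw [abs_zero]
      exact hγ.le
  have hsq : ∑ i ∈ range (2 * N + 2), ∑ j ∈ range (2 * N + 2), G i j ^ 2 = ∑ v ∈ s, g v ^ 2 := by
    rw [win_sum s N hN (fun v => g v ^ 2), Fintype.sum_prod_type, Finset.sum_range]
    refine Finset.sum_congr rfl fun i _ => ?_
    rw [Finset.sum_range]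
    refine Finset.sum_congr rfl fun j _ => ?_
    simp only [hG]
    split_ifs <;> simp
  obtain ⟨hb1, hb2⟩ := hb (2 * N + 2) (2 * N + 2) G (by omega) (by omega) ⟨N + 1, by ring⟩
    ⟨N + 1, by ring⟩ hGb
  rw [hsq] at hb1 hb2
  have hx : ∀ a : ℤ, -(N : ℤ) + a = a - N := fun a => by ring
  constructor
  · refine le_trans (le_of_eq ?_) hb1
    rw [← hP.2.2 (2 * N + 2) (2 * N + 2) (by omega) (by omega)
      (fun x => Real.exp (fieldY (2 * N + 2) (2 * N + 2) G x)) (-(N : ℤ)) (-(N : ℤ))]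
    refine integral_congr_ae (Filter.Eventually.of_forall fun ω => ?_)
    beta_reduce
    congr 1
    rw [win_sum s N hN]
    unfold fieldY
    refine Finset.sum_congr rfl fun v _ => ?_
    rw [sg_rd_inl, sg_rd_inl]
    simp only [hG, hx, Fin.val_castSucc, Fin.val_succ]
    split_ifs with h
    · have e2 : (((v.1 : ℕ) + 1 : ℕ) : ℤ) - N - 1 = ((v.1 : ℕ) : ℤ) - N := by push_cast; ring
      rw [e2]
      ring
    · ring
  · refine le_trans (le_of_eq ?_) hb2
    rw [← hP.2.2 (2 * N + 2) (2 * N + 2) (by omega) (by omega)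
      (fun x => Real.exp (∑ v : Fin (2 * N + 2) × Fin (2 * N + 2), G v.1 v.2 / 2 *
        (sg (x (Sum.inr (v.1, v.2.castSucc))) + sg (x (Sum.inr (v.1, v.2.succ))))))
      (-(N : ℤ)) (-(N : ℤ))]
    refine integral_congr_ae (Filter.Eventually.of_forall fun ω => ?_)
    beta_reduce
    congr 1
    rw [win_sum s N hN]
    refine Finset.sum_congr rfl fun v _ => ?_
    rw [sg_rd_inr, sg_rd_inr]
    simp only [hG, hx, Fin.val_castSucc, Fin.val_succ]
    split_ifs with h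
    · have e2 : (((v.2 : ℕ) + 1 : ℕ) : ℤ) - N - 1 = ((v.2 : ℕ) : ℤ) - N := by push_cast; ring
      rw [e2]
      ring
    · ring

end Vale.Agent.P145.FB.Mom
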