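import Vale.Agent.P145.FB.MomA
import Vale.Agent.P152.GFF.S.Final

/-!
P145, block F-B: all moments of the smoothed heights tested against a derivative `∂_t Ψ` are
bounded in terms of `∫ Ψ²`.
-/

namespace Vale.Agent.P145.FB.Mom

open Finset Filter Topology MeasureTheory
open Vale.Agent.P152 Vale.Agent.P152.GFF.S

theorem row_cells {Ψ : ℝ × ℝ → ℝ}
    (hΨ : ContDiff ℝ ((⊤ : ℕ∞) : WithTop ℕ∞) Ψ) (hs : HasCompactSupport Ψ) {ε : ℝ}
    (hε : 0 < ε) :
    ∀ᶠ δ : ℝ in 𝓝[>] 0, ∃ (s : Finset (ℤ × ℤ)) (c : ℤ × ℤ → ℝ),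
      (∀ v ∉ s, c v = 0) ∧ (∀ v ∉ s, c (v.1, v.2 + 1) = 0) ∧ (∀ v ∉ s, c (v.1, v.2 + 2) = 0) ∧
      (∀ ω : Ori (ℤ × ℤ), (∑' v : ℤ × ℤ, ar ω (Sum.inr v) *
        ∫ y in (δ * v.2)..(δ * (v.2 + 1)), Ψ (δ * v.1, y)) = ∑ v ∈ s, c v * ar ω (Sum.inr v)) ∧
      ∑ v ∈ s, c v ^ 2 ≤ (∫ x, Ψ x ^ 2) + ε ∧
      ∑ v ∈ s, |c (v.1, v.2 + 2) - 2 * c (v.1, v.2 + 1) + c v| ≤ ε ∧ ∀ v, |c v| ≤ ε := by
  have hΨc := hΨ.continuous
  -- the derivative in the second variable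
  obtain ⟨D, hD⟩ : ∃ D : ℝ × ℝ → ℝ, ∀ p, D p = fderiv ℝ Ψ p (0, 1) := ⟨_, fun _ => rfl⟩
  have hDc : Continuous D := by
    have h1 : Continuous (fderiv ℝ Ψ) := hΨ.continuous_fderiv (by simp)
    have h2 : D = fun p => fderiv ℝ Ψ p (0, 1) := funext hD
    rw [h2]
    exact h1.clm_apply continuous_const
  have hDs : HasCompactSupport D := by
    have h2 : D = fun p => fderiv ℝ Ψ p (0, 1) := funext hD
    rw [h2]
    exact hs.fderiv_apply (𝕜 := ℝ) (0, 1)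
  have hDd : ∀ t y, HasDerivAt (fun y => Ψ (t, y)) (D (t, y)) y := by
    intro t y
    have h1 : HasFDerivAt Ψ (fderiv ℝ Ψ (t, y)) (t, y) :=
      (hΨ.differentiable (by simp) (t, y)).hasFDerivAt
    have h2 : HasDerivAt (fun y : ℝ => (t, y)) ((0 : ℝ), (1 : ℝ)) y :=
      (hasDerivAt_const y t).prodMk (hasDerivAt_id y)
    rw [hD]
    exact h1.comp_hasDerivAt y h2
  -- bound
  obtain ⟨M, hM⟩ := hΨc.bounded_above_of_compact_support hs
  have hM' : ∀ p, |Ψ p| ≤ M := fun p => by rw [← Real.norm_eq_abs]; exact hM p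
  have hM0 : 0 ≤ M := (norm_nonneg _).trans (hM 0)
  -- support
  obtain ⟨A, hA0, hA⟩ : ∃ A : ℝ, 0 < A ∧ ∀ p : ℝ × ℝ, (A ≤ |p.1| ∨ A ≤ |p.2|) → Ψ p = 0 := by
    obtain ⟨A, hA0, hA⟩ := hs.isCompact.isBounded.exists_pos_norm_lt
    refine ⟨A, hA0, fun p hp => ?_⟩
    by_contra hne
    have h1 := hA p (subset_tsupport _ hne)
    rw [Prod.norm_def, max_lt_iff, Real.norm_eq_abs, Real.norm_eq_abs] at h1
    rcases hp with h | h <;> linarith [h1.1, h1.2]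
  obtain ⟨K, hK⟩ : ∃ K : ℝ, K = (2 * A + 9) ^ 2 := ⟨_, rfl⟩
  have hK0 : 0 < K := by rw [hK]; positivity
  obtain ⟨η, hη0, hη⟩ : ∃ η : ℝ, 0 < η ∧
      (2 * M * η + η ^ 2) * K ≤ ε ∧ K * η ≤ ε := by
    obtain ⟨L, hL⟩ : ∃ L : ℝ, L = (2 * M + 1) * K + K := ⟨_, rfl⟩
    have hL0 : 0 < L := by rw [hL]; positivity
    refine ⟨min 1 (ε / L), lt_min one_pos (div_pos hε hL0), ?_⟩
    have h1 : min 1 (ε / L) ≤ 1 := min_le_left _ _
    have h2 : min 1 (ε / L) ≤ ε / L := min_le_right _ _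
    have h0 : 0 < min 1 (ε / L) := lt_min one_pos (div_pos hε hL0)
    generalize min 1 (ε / L) = η at h0 h1 h2
    have h3 : η ^ 2 ≤ η := by nlinarith
    have h4 : L * η ≤ ε := by
      rw [le_div_iff₀ hL0] at h2
      linarith
    have h5 : (2 * M * η + η ^ 2) * K ≤ (2 * M + 1) * K * η := by nlinarith
    have h6 : 0 ≤ (2 * M + 1) * K * η := by positivity
    have h7 : 0 ≤ K * η := by positivity
    have h8 : L * η = (2 * M + 1) * K * η + K * η := by rw [hL]; ring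
    constructor <;> linarith
  filter_upwards [modulus hΨc hs hη0, modulus hDc hDs hη0,
    Ioo_mem_nhdsGT (show (0 : ℝ) < 1 from one_pos),
    Ioo_mem_nhdsGT (show (0 : ℝ) < ε / (M + 1) by positivity)] with δ hu1 hu2 hδ1 hδ2
  have hδ : 0 < δ := hδ1.1
  obtain ⟨N, hN⟩ : ∃ N : ℤ, N = ⌈A / δ⌉ + 3 := ⟨_, rfl⟩
  have hN1 : A / δ + 3 ≤ N := by
    rw [hN]; push_cast; linarith [Int.le_ceil (A / δ)]
  have hN2 : (N : ℝ) < A / δ + 4 := by
    rw [hN]; push_cast; linarith [Int.ceil_lt_add_one (A / δ)]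
  have hN0 : 0 ≤ N := by
    have : (0 : ℝ) ≤ N := le_trans (by positivity) hN1
    exact_mod_cast this
  obtain ⟨s, hsdef⟩ : ∃ s : Finset (ℤ × ℤ), s = Finset.Icc (-N) N ×ˢ Finset.Icc (-N) N := ⟨_, rfl⟩
  obtain ⟨c, hc⟩ : ∃ c : ℤ × ℤ → ℝ, ∀ v, c v =
      ∫ y in (δ * v.2)..(δ * (v.2 + 1)), Ψ (δ * v.1, y) := ⟨_, fun _ => rfl⟩
  have hAδ : A = δ * (A / δ) := by field_simp
  have hz : ∀ v : ℤ × ℤ, (N - 2 < |v.1| ∨ N - 2 < |v.2|) → c v = 0 := by
    intro v hv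
    rw [hc]
    refine intervalIntegral.integral_zero_ae (Eventually.of_forall fun y hy => ?_)
    rw [Set.uIoc_of_le (by nlinarith)] at hy
    refine hA _ ?_
    rcases hv with hv | hv
    · left
      have h1 : (N : ℝ) - 2 < |(v.1 : ℝ)| := by
        have : ((N - 2 : ℤ) : ℝ) < ((|v.1| : ℤ) : ℝ) := by exact_mod_cast hv
        push_cast at this
        exact this
      rw [abs_mul, abs_of_pos hδ]
      nlinarith
    · right
      have h1 : (N : ℝ) - 2 < |(v.2 : ℝ)| := by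
        have : ((N - 2 : ℤ) : ℝ) < ((|v.2| : ℤ) : ℝ) := by exact_mod_cast hv
        push_cast at this
        exact this
      simp only
      rw [lt_abs] at h1
      rw [le_abs]
      rcases h1 with h1 | h1
      · left
        nlinarith [hy.1]
      · right
        nlinarith [hy.2]
  have hmem : ∀ v : ℤ × ℤ, v ∉ s → N < |v.1| ∨ N < |v.2| := by
    intro v hv
    by_contra hcon
    push Not at hcon
    refine hv ?_
    rw [hsdef, Finset.mem_product, Finset.mem_Icc, Finset.mem_Icc]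
    exact ⟨abs_le.1 hcon.1, abs_le.1 hcon.2⟩
  have hs0 : ∀ v ∉ s, c v = 0 := by
    intro v hv
    refine hz v ?_
    rcases hmem v hv with h | h
    · left; omega
    · right; omega
  have hsj : ∀ j : ℤ, 0 ≤ j → j ≤ 2 → ∀ v ∉ s, c (v.1, v.2 + j) = 0 := by
    intro j hj0 hj2 v hv
    refine hz _ ?_
    rcases hmem v hv with h | h
    · left; simp only; omega
    · right
      simp only
      rw [lt_abs] at h ⊢
      omega
  have hts : ∀ ω : Ori (ℤ × ℤ), (∑' v : ℤ × ℤ, ar ω (Sum.inr v) *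
      ∫ y in (δ * v.2)..(δ * (v.2 + 1)), Ψ (δ * v.1, y)) = ∑ v ∈ s, c v * ar ω (Sum.inr v) := by
    intro ω
    have h1 : ∑' v, c v * ar ω (Sum.inr v) = ∑ v ∈ s, c v * ar ω (Sum.inr v) :=
      tsum_eq_sum fun v hv => by rw [hs0 v hv, zero_mul]
    rw [← h1]
    refine tsum_congr fun v => ?_
    rw [hc]
    ring
  -- the two sums
  have hcard : (s.card : ℝ) * δ ^ 2 ≤ K := by
    have h1 : (s.card : ℝ) = (2 * N + 1) ^ 2 := by
      rw [hsdef, Finset.card_product, Int.card_Icc]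
      have h2 : ((N + 1 - -N).toNat : ℝ) = 2 * N + 1 := by
        have h3 : ((N + 1 - -N).toNat : ℤ) = 2 * N + 1 := by omega
        have h4 : (((N + 1 - -N).toNat : ℤ) : ℝ) = ((2 * N + 1 : ℤ) : ℝ) := by rw [h3]
        push_cast at h4
        exact h4
      push_cast
      rw [h2]
      ring
    have hN0' : (0 : ℝ) ≤ N := by exact_mod_cast hN0
    have h5 : (2 * (N : ℝ) + 1) * δ ≤ 2 * A + 9 := by
      have h6 : (N : ℝ) * δ ≤ A + 4 * δ := by
        have := mul_le_mul_of_nonneg_right hN2.le hδ.le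
        have h7 : (A / δ + 4) * δ = A + 4 * δ := by field_simp
        linarith
      nlinarith [hδ1.2]
    rw [h1, hK, ← mul_pow]
    exact pow_le_pow_left₀ (by positivity) h5 2
  have hcard0 : (0 : ℝ) ≤ s.card := Nat.cast_nonneg _
  have hsum1 : ∑ v ∈ s, c v ^ 2 ≤ (∫ x, Ψ x ^ 2) + (2 * M * η + η ^ 2) * K := by
    have h1 : ∑ v ∈ s, c v ^ 2 ≤
        ∑ v ∈ s, ((∫ x in cell δ v, Ψ x ^ 2) + (2 * M * η + η ^ 2) * δ ^ 2) := by
      refine Finset.sum_le_sum fun v _ => ?_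
      rw [hc]
      exact cell_bound hΨc hs hM' hδ hη0.le hu1 v
    rw [Finset.sum_add_distrib, Finset.sum_const, nsmul_eq_mul] at h1
    have h2 : ∑ v ∈ s, ∫ x in cell δ v, Ψ x ^ 2 ≤ ∫ x, Ψ x ^ 2 :=
      cell_sum hδ s (sq_int hΨc hs) fun x => sq_nonneg _
    have h3 : (s.card : ℝ) * ((2 * M * η + η ^ 2) * δ ^ 2) ≤ (2 * M * η + η ^ 2) * K := by
      have h4 : 0 ≤ 2 * M * η + η ^ 2 := by positivity
      have h5 := mul_le_mul_of_nonneg_left hcard h4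
      linarith
    linarith
  have hsum2 : ∑ v ∈ s, |c (v.1, v.2 + 2) - 2 * c (v.1, v.2 + 1) + c v| ≤ K * η := by
    have h1 : ∑ v ∈ s, |c (v.1, v.2 + 2) - 2 * c (v.1, v.2 + 1) + c v| ≤
        ∑ _v ∈ s, η * δ ^ 2 := by
      refine Finset.sum_le_sum fun v _ => ?_
      rw [hc, hc, hc]
      exact cell_diff hΨc hDd hδ hu2 v
    rw [Finset.sum_const, nsmul_eq_mul] at h1
    have h2 := mul_le_mul_of_nonneg_left hcard hη0.le
    linarith
  have hcb : ∀ v, |c v| ≤ ε := by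
    intro v
    rw [hc, ← Real.norm_eq_abs]
    refine (intervalIntegral.norm_integral_le_of_norm_le_const (C := M) fun y _ => ?_).trans ?_
    · exact hM _
    · have h4 : δ * ((v.2 : ℝ) + 1) - δ * v.2 = δ := by ring
      rw [h4, abs_of_pos hδ]
      have h5 : δ * (M + 1) < ε := (lt_div_iff₀ (by linarith)).1 hδ2.2
      nlinarith
  exact ⟨s, c, hs0, hsj 1 (by norm_num) (by norm_num), hsj 2 (by norm_num) (by norm_num), hts,
    by linarith [hη.1], by linarith [hη.2], hcb⟩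


/-- Exponential moment of a sum of vertical arrows. -/
theorem vert_exp {P : Measure (Ori (ℤ × ℤ))} [IsProbabilityMeasure P] {C γ : ℝ} (hC : 0 ≤ C)
    (hE : EGD P C γ) (s : Finset (ℤ × ℤ)) (c : ℤ × ℤ → ℝ)
    (hs : ∀ v ∉ s, c v = 0) (hs1 : ∀ v ∉ s, c (v.1, v.2 + 1) = 0)
    (hs2 : ∀ v ∉ s, c (v.1, v.2 + 2) = 0) {a ε : ℝ} (hc : ∀ v, |c v| ≤ ε)
    (ha : 2 * |a| * ε ≤ γ)
    (hd2 : ∑ v ∈ s, |c (v.1, v.2 + 2) - 2 * c (v.1, v.2 + 1) + c v| ≤ ε) :
    ∫ ω, Real.exp (a * ∑ v ∈ s, c v * ar ω (Sum.inr v)) ∂P ≤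
      Real.exp (4 * C * a ^ 2 * ∑ v ∈ s, c v ^ 2 + |a| * ε) := by
  obtain ⟨d, hd⟩ : ∃ d : ℤ × ℤ → ℝ, ∀ v, d v = c (v.1, v.2 + 1) - c v := ⟨_, fun _ => rfl⟩
  have hd' : ∀ v : ℤ × ℤ, d (v.1, v.2 + 1) = c (v.1, v.2 + 2) - c (v.1, v.2 + 1) := by
    intro v
    rw [hd]
    simp only [add_assoc]
    norm_num
  have hds : ∀ v ∉ s, d v = 0 := fun v hv => by rw [hd, hs v hv, hs1 v hv, sub_zero]
  have hds1 : ∀ v ∉ s, d (v.1, v.2 + 1) = 0 := fun v hv => by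
    rw [hd', hs1 v hv, hs2 v hv, sub_zero]
  obtain ⟨g, hg⟩ : ∃ g : ℤ × ℤ → ℝ, ∀ v, g v = a * (c v - 1 / 2 * d v) := ⟨_, fun _ => rfl⟩
  have hgb : ∀ v, |g v| ≤ γ := by
    intro v
    have h1 : |c v - 1 / 2 * d v| ≤ 2 * ε := by
      rw [hd]
      have h2 := abs_le.1 (hc v)
      have h3 := abs_le.1 (hc (v.1, v.2 + 1))
      rw [abs_le]
      constructor <;> linarith [h2.1, h2.2, h3.1, h3.2]
    rw [hg, abs_mul]
    have := mul_le_mul_of_nonneg_left h1 (abs_nonneg a)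
    linarith
  have key : ∀ ω : Ori (ℤ × ℤ), Real.exp (a * ∑ v ∈ s, c v * ar ω (Sum.inr v)) ≤
      Real.exp (|a| * ε) * Real.exp (∑ v ∈ s, g v *
        ((ar ω (Sum.inr (v.1, v.2 - 1)) + ar ω (Sum.inr v)) / 2)) := by
    intro ω
    rw [← Real.exp_add, Real.exp_le_exp]
    have h1 := vert_split ω s c hs hs1
    have h2 := vert_split ω s d hds hds1
    have h3 : |∑ v ∈ s, (d (v.1, v.2 + 1) - d v) * ar ω (Sum.inr v)| ≤ ε := by
      refine (Finset.abs_sum_le_sum_abs _ _).trans (le_trans (Finset.sum_le_sum fun v _ => ?_) hd2)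
      rw [abs_mul, ar_abs, mul_one, hd', hd]
      refine le_of_eq (congrArg _ ?_)
      ring
    simp only [← hd] at h1
    have h4 : ∑ v ∈ s, g v * ((ar ω (Sum.inr (v.1, v.2 - 1)) + ar ω (Sum.inr v)) / 2) =
        a * (∑ v ∈ s, c v * ((ar ω (Sum.inr (v.1, v.2 - 1)) + ar ω (Sum.inr v)) / 2) -
          1 / 2 * ∑ v ∈ s, d v * ((ar ω (Sum.inr (v.1, v.2 - 1)) + ar ω (Sum.inr v)) / 2)) := by
      rw [Finset.mul_sum, ← Finset.sum_sub_distrib, Finset.mul_sum]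
      refine Finset.sum_congr rfl fun v _ => ?_
      rw [hg]
      ring
    rw [h4, h1, h2]
    generalize (∑ v ∈ s, c v * ((ar ω (Sum.inr (v.1, v.2 - 1)) + ar ω (Sum.inr v)) / 2)) = p
    generalize (∑ v ∈ s, d v * ((ar ω (Sum.inr (v.1, v.2 - 1)) + ar ω (Sum.inr v)) / 2)) = q
    generalize (∑ v ∈ s, (d (v.1, v.2 + 1) - d v) * ar ω (Sum.inr v)) = z at h3
    have h5 : a * (1 / 4 * z) ≤ |a| * ε := by
      have h6 : |a * (1 / 4 * z)| ≤ |a| * ε := by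
        rw [abs_mul, abs_mul]
        refine mul_le_mul_of_nonneg_left ?_ (abs_nonneg a)
        have h7 : |(1 / 4 : ℝ)| = 1 / 4 := abs_of_pos (by norm_num)
        rw [h7]
        have := abs_nonneg z
        linarith
      exact (le_abs_self _).trans h6
    nlinarith [h5]
  have hmeas : Measurable fun ω : Ori (ℤ × ℤ) => ∑ v ∈ s, g v *
      ((ar ω (Sum.inr (v.1, v.2 - 1)) + ar ω (Sum.inr v)) / 2) := by
    refine Finset.measurable_sum _ fun v _ => ?_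
    exact (((ar_measurable _).add (ar_measurable _)).div_const _).const_mul _
  have hi : Integrable (fun ω => Real.exp (|a| * ε) * Real.exp (∑ v ∈ s, g v *
        ((ar ω (Sum.inr (v.1, v.2 - 1)) + ar ω (Sum.inr v)) / 2))) P := by
    refine Integrable.const_mul ?_ _
    refine Integrable.of_bound (Real.measurable_exp.comp hmeas).aestronglyMeasurable
      (Real.exp (∑ v ∈ s, |g v|)) (Eventually.of_forall fun ω => ?_)
    rw [Real.norm_eq_abs, abs_of_pos (Real.exp_pos _), Real.exp_le_exp]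
    refine Finset.sum_le_sum fun v _ => ?_
    refine (le_abs_self _).trans ?_
    rw [abs_mul]
    refine mul_le_of_le_one_right (abs_nonneg _) ?_
    have h1 := abs_le.1 (ar_abs_le ω (Sum.inr (v.1, v.2 - 1)))
    have h2 := abs_le.1 (ar_abs_le ω (Sum.inr v))
    rw [abs_le]
    constructor <;> linarith [h1.1, h1.2, h2.1, h2.2]
  have h8 : ∑ v ∈ s, g v ^ 2 ≤ a ^ 2 * (4 * ∑ v ∈ s, c v ^ 2) := by
    have h6 := sum_shift s (fun v => c v ^ 2) (fun v hv => by simp only [hs v hv]; norm_num)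
      (fun v hv => by simp only [hs1 v hv]; norm_num)
    have h7 : ∑ v ∈ s, g v ^ 2 ≤ ∑ v ∈ s, (a ^ 2 * (3 * c v ^ 2) +
        a ^ 2 * c (v.1, v.2 + 1) ^ 2) := by
      refine Finset.sum_le_sum fun v _ => ?_
      rw [hg, hd, mul_pow, ← mul_add]
      refine mul_le_mul_of_nonneg_left ?_ (sq_nonneg a)
      nlinarith [sq_nonneg (c (v.1, v.2 + 1) + c v)]
    rw [Finset.sum_add_distrib, ← Finset.mul_sum, ← Finset.mul_sum, ← Finset.mul_sum, ← h6] at h7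
    linarith
  calc ∫ ω, Real.exp (a * ∑ v ∈ s, c v * ar ω (Sum.inr v)) ∂P
      ≤ ∫ ω, Real.exp (|a| * ε) * Real.exp (∑ v ∈ s, g v *
        ((ar ω (Sum.inr (v.1, v.2 - 1)) + ar ω (Sum.inr v)) / 2)) ∂P :=
        integral_mono_of_nonneg (Eventually.of_forall fun ω => (Real.exp_pos _).le) hi
          (Eventually.of_forall key)
    _ = Real.exp (|a| * ε) * ∫ ω, Real.exp (∑ v ∈ s, g v *
        ((ar ω (Sum.inr (v.1, v.2 - 1)) + ar ω (Sum.inr v)) / 2)) ∂P := integral_const_mul _ _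
    _ ≤ Real.exp (|a| * ε) * Real.exp (C * ∑ v ∈ s, g v ^ 2) :=
        mul_le_mul_of_nonneg_left (hE s g hgb).2 (Real.exp_pos _).le
    _ ≤ Real.exp (4 * C * a ^ 2 * ∑ v ∈ s, c v ^ 2 + |a| * ε) := by
        rw [← Real.exp_add, Real.exp_le_exp]
        have := mul_le_mul_of_nonneg_left h8 hC
        linarith

/-- **Exponential moments** of the heights tested against `∂_t Ψ`. -/
theorem exp_moment {P : Measure (Ori (ℤ × ℤ))} [IsProbabilityMeasure P] {C γ : ℝ} (hC : 0 ≤ C)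
    (hγ : 0 < γ) (hE : EGD P C γ) (hice : ∀ᵐ ω ∂P, ∀ x y, Ice ω x y) {Ψ F : ℝ × ℝ → ℝ}
    (hΨ : ContDiff ℝ ((⊤ : ℕ∞) : WithTop ℕ∞) Ψ) (hs : HasCompactSupport Ψ) (hFc : Continuous F)
    (hF : ∀ t y, HasDerivAt (fun t => Ψ (t, y)) (F (t, y)) t) (a : ℝ) {ε : ℝ} (hε : 0 < ε) :
    ∀ᶠ δ : ℝ in 𝓝[>] 0, ∫ ω, Real.exp (a * hint (pth ω) δ F) ∂P ≤
      Real.exp (4 * C * a ^ 2 * (∫ x, Ψ x ^ 2) + ε) := by
  obtain ⟨ε', hε', h1, h2⟩ : ∃ ε' : ℝ, 0 < ε' ∧ 2 * |a| * ε' ≤ γ ∧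
      4 * C * a ^ 2 * ε' + |a| * ε' ≤ ε := by
    refine ⟨min (γ / (2 * |a| + 1)) (ε / (4 * C * a ^ 2 + |a| + 1)), ?_, ?_, ?_⟩
    · exact lt_min (by positivity) (by positivity)
    · have h1 : min (γ / (2 * |a| + 1)) (ε / (4 * C * a ^ 2 + |a| + 1)) ≤ γ / (2 * |a| + 1) :=
        min_le_left _ _
      have h2 := mul_le_mul_of_nonneg_left h1 (by positivity : 0 ≤ 2 * |a|)
      have h3 : 2 * |a| * (γ / (2 * |a| + 1)) ≤ γ := by
        rw [mul_div_assoc', div_le_iff₀ (by positivity)]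
        nlinarith [abs_nonneg a]
      linarith
    · have h1 : min (γ / (2 * |a| + 1)) (ε / (4 * C * a ^ 2 + |a| + 1)) ≤
          ε / (4 * C * a ^ 2 + |a| + 1) := min_le_right _ _
      have h2 := mul_le_mul_of_nonneg_left h1 (by positivity : 0 ≤ 4 * C * a ^ 2 + |a|)
      have h3 : (4 * C * a ^ 2 + |a|) * (ε / (4 * C * a ^ 2 + |a| + 1)) ≤ ε := by
        rw [mul_div_assoc', div_le_iff₀ (by positivity)]
        nlinarith
      linarith
  filter_upwards [row_cells hΨ hs hε', self_mem_nhdsWithin] with δ ⟨s, c, a1, a2, a3, a4, a5, a6, a7⟩ hδ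
  have hδ0 : 0 < δ := hδ
  have e : ∫ ω, Real.exp (a * hint (pth ω) δ F) ∂P =
      ∫ ω, Real.exp (a * ∑ v ∈ s, c v * ar ω (Sum.inr v)) ∂P := by
    refine integral_congr_ae ?_
    filter_upwards [hice] with ω hω
    rw [hint_dt (pth_isHeight hω) hδ0 hΨ.continuous hs hFc hF, a4 ω]
  rw [e]
  refine (vert_exp hC hE s c a1 a2 a3 a7 h1 a6).trans (Real.exp_le_exp.2 ?_)
  have h3 := mul_le_mul_of_nonneg_left a5 (by positivity : 0 ≤ 4 * C * a ^ 2)
  linarith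

lemma exp_integrable {P : Measure (Ori (ℤ × ℤ))} [IsProbabilityMeasure P] (s : Finset (ℤ × ℤ))
    (c : ℤ × ℤ → ℝ) (a : ℝ) :
    Integrable (fun ω => Real.exp (a * ∑ v ∈ s, c v * ar ω (Sum.inr v))) P := by
  have hmeas : Measurable fun ω : Ori (ℤ × ℤ) => ∑ v ∈ s, c v * ar ω (Sum.inr v) :=
    Finset.measurable_sum _ fun v _ => (ar_measurable _).const_mul _
  refine Integrable.of_bound (Real.measurable_exp.comp (hmeas.const_mul a)).aestronglyMeasurable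
    (Real.exp (|a| * ∑ v ∈ s, |c v|)) (Eventually.of_forall fun ω => ?_)
  rw [Real.norm_eq_abs, abs_of_pos (Real.exp_pos _), Real.exp_le_exp]
  refine (le_abs_self _).trans ?_
  rw [abs_mul]
  refine mul_le_mul_of_nonneg_left ?_ (abs_nonneg _)
  refine (Finset.abs_sum_le_sum_abs _ _).trans (Finset.sum_le_sum fun v _ => ?_)
  rw [abs_mul, ar_abs, mul_one]

/-- The constant in the bound of the moments. -/
noncomputable def DD (C : ℝ) (k : ℕ) : ℝ := 2 * (2 * k).factorial * Real.exp (4 * C + 1)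

/-- **All moments** of the heights tested against `∂_t Ψ`. -/
theorem moment {P : Measure (Ori (ℤ × ℤ))} [IsProbabilityMeasure P] {C γ : ℝ} (hC : 0 ≤ C)
    (hγ : 0 < γ) (hE : EGD P C γ) (hice : ∀ᵐ ω ∂P, ∀ x y, Ice ω x y) {Ψ F : ℝ × ℝ → ℝ}
    (hΨ : ContDiff ℝ ((⊤ : ℕ∞) : WithTop ℕ∞) Ψ) (hs : HasCompactSupport Ψ) (hFc : Continuous F)
    (hF : ∀ t y, HasDerivAt (fun t => Ψ (t, y)) (F (t, y)) t) (k : ℕ) {ε : ℝ} (hε : 0 < ε) :
    ∀ᶠ δ : ℝ in 𝓝[>] 0, Integrable (fun ω => hint (pth ω) δ F ^ (2 * k)) P ∧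
      ∫ ω, hint (pth ω) δ F ^ (2 * k) ∂P ≤ DD C k * ((∫ x, Ψ x ^ 2) + ε) ^ k := by
  set W : ℝ := (∫ x, Ψ x ^ 2) + ε with hW
  have hI0 : 0 ≤ ∫ x, Ψ x ^ 2 := integral_nonneg fun x => sq_nonneg _
  have hW0 : 0 < W := by linarith
  set a : ℝ := (Real.sqrt W)⁻¹ with ha
  have hsW : 0 < Real.sqrt W := Real.sqrt_pos.2 hW0
  have ha0 : 0 < a := inv_pos.2 hsW
  have ha2 : a ^ 2 * W = 1 := by
    rw [ha, inv_pow, Real.sq_sqrt hW0.le]
    field_simp
  have hb : 4 * C * a ^ 2 * (∫ x, Ψ x ^ 2) ≤ 4 * C := by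
    have h1 : a ^ 2 * (∫ x, Ψ x ^ 2) ≤ 1 := by
      rw [← ha2]
      exact mul_le_mul_of_nonneg_left (by linarith) (sq_nonneg a)
    have := mul_le_mul_of_nonneg_left h1 (by positivity : 0 ≤ 4 * C)
    linarith
  filter_upwards [exp_moment hC hγ hE hice hΨ hs hFc hF a one_pos,
    exp_moment hC hγ hE hice hΨ hs hFc hF (-a) one_pos, row_cells hΨ hs one_pos,
    self_mem_nhdsWithin] with δ h1 h2 ⟨s, c, _, _, _, a4, _, _, _⟩ hδ
  have hδ0 : 0 < δ := hδ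
  obtain ⟨X, hX⟩ : ∃ X : Ori (ℤ × ℤ) → ℝ, ∀ ω, X ω = ∑ v ∈ s, c v * ar ω (Sum.inr v) :=
    ⟨_, fun _ => rfl⟩
  have hXa : ∀ᵐ ω ∂P, hint (pth ω) δ F = X ω := by
    filter_upwards [hice] with ω hω
    rw [hint_dt (pth_isHeight hω) hδ0 hΨ.continuous hs hFc hF, a4 ω, hX]
  have e1 : ∀ b : ℝ, ∫ ω, Real.exp (b * hint (pth ω) δ F) ∂P = ∫ ω, Real.exp (b * X ω) ∂P := by
    intro b
    refine integral_congr_ae ?_
    filter_upwards [hXa] with ω hω
    rw [hω]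
  rw [e1] at h1 h2
  have i1 : ∀ b : ℝ, Integrable (fun ω => Real.exp (b * X ω)) P := by
    intro b
    have := exp_integrable (P := P) s c b
    simpa only [← hX] using this
  have hpt : ∀ ω, X ω ^ (2 * k) ≤ ((2 * k).factorial : ℝ) * W ^ k *
      (Real.exp (a * X ω) + Real.exp (-a * X ω)) := by
    intro ω
    have h3 := Real.pow_div_factorial_le_exp (|a * X ω|) (abs_nonneg _) (2 * k)
    rw [div_le_iff₀ (by positivity)] at h3
    have h4 : |a * X ω| ^ (2 * k) = a ^ (2 * k) * X ω ^ (2 * k) := by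
      rw [pow_mul, sq_abs, ← pow_mul, mul_pow]
    have h5 : Real.exp |a * X ω| ≤ Real.exp (a * X ω) + Real.exp (-a * X ω) := by
      rcases abs_cases (a * X ω) with ⟨h, _⟩ | ⟨h, _⟩
      · rw [h]
        have := Real.exp_pos (-a * X ω)
        linarith
      · rw [h]
        have := Real.exp_pos (a * X ω)
        have e2 : -(a * X ω) = -a * X ω := by ring
        rw [e2]
        linarith
    have h6 : W ^ k * a ^ (2 * k) = 1 := by
      rw [pow_mul, ← mul_pow, mul_comm, ha2, one_pow]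
    rw [h4] at h3
    have h7 := mul_le_mul_of_nonneg_left h3 (by positivity : 0 ≤ W ^ k)
    have h8 : W ^ k * (a ^ (2 * k) * X ω ^ (2 * k)) = X ω ^ (2 * k) := by
      rw [← mul_assoc, h6, one_mul]
    rw [h8] at h7
    have h9 : W ^ k * (Real.exp |a * X ω| * ((2 * k).factorial : ℝ)) ≤
        ((2 * k).factorial : ℝ) * W ^ k * (Real.exp (a * X ω) + Real.exp (-a * X ω)) := by
      have := mul_le_mul_of_nonneg_left h5 (by positivity : 0 ≤ ((2 * k).factorial : ℝ) * W ^ k)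
      linarith
    exact h7.trans h9
  have hXm : Measurable X := by
    have : X = fun ω => ∑ v ∈ s, c v * ar ω (Sum.inr v) := funext hX
    rw [this]
    exact Finset.measurable_sum _ fun v _ => (ar_measurable _).const_mul _
  have iR : Integrable (fun ω => ((2 * k).factorial : ℝ) * W ^ k *
      (Real.exp (a * X ω) + Real.exp (-a * X ω))) P := ((i1 a).add (i1 (-a))).const_mul _
  have hev : ∀ ω, 0 ≤ X ω ^ (2 * k) := fun ω => by
    rw [pow_mul]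
    positivity
  have iX : Integrable (fun ω => X ω ^ (2 * k)) P := by
    refine iR.mono' (hXm.pow_const _).aestronglyMeasurable (Eventually.of_forall fun ω => ?_)
    rw [Real.norm_eq_abs, abs_of_nonneg (hev ω)]
    exact hpt ω
  have hXa2 : (fun ω => hint (pth ω) δ F ^ (2 * k)) =ᵐ[P] fun ω => X ω ^ (2 * k) := by
    filter_upwards [hXa] with ω hω
    rw [hω]
  refine ⟨iX.congr hXa2.symm, ?_⟩
  rw [integral_congr_ae hXa2]
  refine (integral_mono iX iR hpt).trans ?_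
  rw [integral_const_mul, integral_add (i1 a) (i1 (-a))]
  have h3 : ∫ ω, Real.exp (a * X ω) ∂P ≤ Real.exp (4 * C + 1) :=
    h1.trans (Real.exp_le_exp.2 (by linarith))
  have h4 : ∫ ω, Real.exp (-a * X ω) ∂P ≤ Real.exp (4 * C + 1) := by
    refine h2.trans (Real.exp_le_exp.2 ?_)
    rw [neg_sq]
    linarith
  unfold DD
  have h5 := mul_le_mul_of_nonneg_left (add_le_add h3 h4)
    (by positivity : 0 ≤ ((2 * k).factorial : ℝ) * W ^ k)
  linarith

/-! ### Flips and even powers -/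

/-- A flip of `X` which fixes `Y` gives `∫ X ^ (2 q) ≤ ∫ (X + Y) ^ (2 q)`. -/
theorem flip_pow {Ω : Type*} [MeasurableSpace Ω] {ν : Measure Ω} {Φ : Ω → Ω}
    (hΦ : MeasurePreserving Φ ν ν) {X Y : Ω → ℝ}
    (hX : ∀ᵐ x ∂ν, X (Φ x) = - X x) (hY : ∀ᵐ x ∂ν, Y (Φ x) = Y x) (q : ℕ)
    (iX : Integrable (fun x => X x ^ (2 * q)) ν)
    (iXY : Integrable (fun x => (X x + Y x) ^ (2 * q)) ν) :
    ∫ x, X x ^ (2 * q) ∂ν ≤ ∫ x, (X x + Y x) ^ (2 * q) ∂ν := by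
  have hpt : ∀ x y : ℝ, 2 * x ^ (2 * q) ≤ (x + y) ^ (2 * q) + (-x + y) ^ (2 * q) := by
    intro x y
    have h1 : (-x + y) ^ (2 * q) = (x - y) ^ (2 * q) := by
      rw [pow_mul, pow_mul]
      congr 1
      ring
    rw [h1]
    have hconv : ConvexOn ℝ Set.univ (fun z : ℝ => z ^ (2 * q)) :=
      Even.convexOn_pow (even_two_mul q)
    have h2 := hconv.2 (Set.mem_univ (x + y)) (Set.mem_univ (x - y))
      (by norm_num : (0 : ℝ) ≤ 1 / 2) (by norm_num : (0 : ℝ) ≤ 1 / 2) (by norm_num)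
    simp only [smul_eq_mul] at h2
    have h3 : 1 / 2 * (x + y) + 1 / 2 * (x - y) = x := by ring
    rw [h3] at h2
    linarith
  have e1 : ∫ x, (X (Φ x) + Y (Φ x)) ^ (2 * q) ∂ν = ∫ x, (X x + Y x) ^ (2 * q) ∂ν := by
    have h1 := integral_map (μ := ν) hΦ.measurable.aemeasurable
      (f := fun x => (X x + Y x) ^ (2 * q)) (by rw [hΦ.map_eq]; exact iXY.aestronglyMeasurable)
    rw [hΦ.map_eq] at h1
    exact h1.symm
  have i2 : Integrable (fun x => (X (Φ x) + Y (Φ x)) ^ (2 * q)) ν :=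
    hΦ.integrable_comp_of_integrable iXY
  have e2 : ∫ x, (X (Φ x) + Y (Φ x)) ^ (2 * q) ∂ν = ∫ x, (-X x + Y x) ^ (2 * q) ∂ν := by
    refine integral_congr_ae ?_
    filter_upwards [hX, hY] with x h1 h2
    rw [h1, h2]
  have i3 : Integrable (fun x => (-X x + Y x) ^ (2 * q)) ν := by
    refine i2.congr ?_
    filter_upwards [hX, hY] with x h1 h2
    rw [h1, h2]
  have h4 : ∫ x, 2 * X x ^ (2 * q) ∂ν ≤
      ∫ x, ((X x + Y x) ^ (2 * q) + (-X x + Y x) ^ (2 * q)) ∂ν :=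
    integral_mono (iX.const_mul 2) (iXY.add i3) fun x => hpt _ _
  rw [integral_const_mul, integral_add iXY i3, ← e2, e1] at h4
  linarith

end Vale.Agent.P145.FB.Mom
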