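import Vale.Agent.P145.FB.MomB
import Vale.Agent.P145.FB.JLaw
import Vale.Agent.P145.FP.Clt

/-!
P145, block F-B: moments of the smoothed heights of the vertices of the square lattice, from the
moments of the rescaled heights of the six-vertex model.
-/

namespace Vale.Agent.P145.FB.Mom

open Finset Filter Topology MeasureTheory
open Vale.Agent.P152 (Edge Ori Ice sgb pth pth_isHeight pth_integrable sqp)
open Vale.Agent.P152.GFF.S (hcell hbox hint hint_cells cell_zero ar idx_mem ar_abs ar_measurable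
  bound_of_compact)
open Vale.Agent.P145.FP

/-- Smooth functions with compact support. -/
def Sm (φ : ℝ × ℝ → ℝ) : Prop := ContDiff ℝ ((⊤ : ℕ∞) : WithTop ℕ∞) φ ∧ HasCompactSupport φ

lemma pow_add_two (a b : ℝ) (k : ℕ) :
    (a + b) ^ (2 * k) ≤ 2 ^ (2 * k) * (a ^ (2 * k) + b ^ (2 * k)) := by
  have he : Even (2 * k) := even_two_mul k
  rw [← he.pow_abs (a + b), ← he.pow_abs a, ← he.pow_abs b]
  refine (pow_le_pow_left₀ (abs_nonneg _) (abs_add_le a b) _).trans ?_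
  refine (add_pow_le (abs_nonneg a) (abs_nonneg b) (2 * k)).trans ?_
  refine mul_le_mul_of_nonneg_right ?_ (by positivity)
  exact pow_le_pow_right₀ (by norm_num) (Nat.sub_le _ _)

variable {P : Measure (Ori (ℤ × ℤ))} [IsProbabilityMeasure P]

/-- Families of random variables which are bounded and tend to zero in mean. -/
structure Neg (P : Measure (Ori (ℤ × ℤ))) (X : ℝ → Ori (ℤ × ℤ) → ℝ) : Prop where
  meas : ∀ᶠ δ in 𝓝[>] (0 : ℝ), AEStronglyMeasurable (X δ) P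
  bdd : ∃ K : ℝ, 0 ≤ K ∧ ∀ᶠ δ in 𝓝[>] (0 : ℝ), ∀ᵐ ω ∂P, |X δ ω| ≤ K
  lim : Tendsto (fun δ => ∫ ω, |X δ ω| ∂P) (𝓝[>] 0) (𝓝 0)

lemma Neg.int {X : ℝ → Ori (ℤ × ℤ) → ℝ} (h : Neg P X) :
    ∀ᶠ δ in 𝓝[>] (0 : ℝ), Integrable (X δ) P := by
  obtain ⟨K, _, hK⟩ := h.bdd
  filter_upwards [h.meas, hK] with δ h1 h2
  exact Integrable.of_bound h1 K (by simpa only [Real.norm_eq_abs] using h2)

lemma Neg.add {X Y : ℝ → Ori (ℤ × ℤ) → ℝ} (hX : Neg P X) (hY : Neg P Y) :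
    Neg P (fun δ ω => X δ ω + Y δ ω) where
  meas := by
    filter_upwards [hX.meas, hY.meas] with δ h1 h2 using h1.add h2
  bdd := by
    obtain ⟨K, hK0, hK⟩ := hX.bdd
    obtain ⟨L, hL0, hL⟩ := hY.bdd
    refine ⟨K + L, by positivity, ?_⟩
    filter_upwards [hK, hL] with δ h1 h2
    filter_upwards [h1, h2] with ω h3 h4
    exact (abs_add_le _ _).trans (add_le_add h3 h4)
  lim := by
    have h0 := hX.lim.add hY.lim
    rw [add_zero] at h0
    refine tendsto_of_tendsto_of_tendsto_of_le_of_le' tendsto_const_nhds h0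
      (Eventually.of_forall fun δ => integral_nonneg fun ω => abs_nonneg _) ?_
    filter_upwards [hX.int, hY.int] with δ h1 h2
    rw [← integral_add h1.abs h2.abs]
    exact integral_mono (h1.add h2).abs (h1.abs.add h2.abs) fun ω => abs_add_le _ _

omit [IsProbabilityMeasure P] in
lemma Neg.neg {X : ℝ → Ori (ℤ × ℤ) → ℝ} (hX : Neg P X) : Neg P (fun δ ω => - X δ ω) where
  meas := by
    filter_upwards [hX.meas] with δ h1 using h1.neg
  bdd := by simpa only [abs_neg] using hX.bdd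
  lim := by simpa only [abs_neg] using hX.lim

lemma Neg.pow {X : ℝ → Ori (ℤ × ℤ) → ℝ} (hX : Neg P X) {k : ℕ} (hk : k ≠ 0) {η : ℝ}
    (hη : 0 < η) : ∀ᶠ δ in 𝓝[>] (0 : ℝ), Integrable (fun ω => X δ ω ^ (2 * k)) P ∧
      ∫ ω, X δ ω ^ (2 * k) ∂P ≤ η := by
  obtain ⟨K, hK0, hK⟩ := hX.bdd
  have hlim := hX.lim.const_mul (K ^ (2 * k - 1))
  rw [mul_zero] at hlim
  filter_upwards [hX.meas, hX.int, hK, hlim.eventually_le_const hη] with δ h1 h2 h3 h4
  have hb : ∀ᵐ ω ∂P, X δ ω ^ (2 * k) ≤ K ^ (2 * k - 1) * |X δ ω| := by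
    filter_upwards [h3] with ω hω
    have he : Even (2 * k) := even_two_mul k
    rw [← he.pow_abs (X δ ω)]
    have e : 2 * k = (2 * k - 1) + 1 := by omega
    conv_lhs => rw [e, pow_succ]
    exact mul_le_mul_of_nonneg_right (pow_le_pow_left₀ (abs_nonneg _) hω _) (abs_nonneg _)
  have hn : ∀ ω, 0 ≤ X δ ω ^ (2 * k) := fun ω => (even_two_mul k).pow_nonneg _
  have hi : Integrable (fun ω => X δ ω ^ (2 * k)) P := by
    refine (h2.abs.const_mul (K ^ (2 * k - 1))).mono' (h1.pow _) ?_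
    filter_upwards [hb] with ω hω
    rw [Real.norm_eq_abs, abs_of_nonneg (hn ω)]
    exact hω
  refine ⟨hi, ?_⟩
  refine (integral_mono_ae hi (h2.abs.const_mul _) hb).trans ?_
  rw [integral_const_mul]
  exact h4

/-- Adding a negligible family. -/
lemma moment_add {X Y : ℝ → Ori (ℤ × ℤ) → ℝ} (hX : Neg P X)
    (hY : ∀ᶠ δ in 𝓝[>] (0 : ℝ), AEStronglyMeasurable (Y δ) P) {k : ℕ} {B : ℝ}
    (h : ∀ᶠ δ in 𝓝[>] (0 : ℝ), Integrable (fun ω => Y δ ω ^ (2 * k)) P ∧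
      ∫ ω, Y δ ω ^ (2 * k) ∂P ≤ B) {η : ℝ} (hη : 0 < η) :
    ∀ᶠ δ in 𝓝[>] (0 : ℝ), Integrable (fun ω => (Y δ ω + X δ ω) ^ (2 * k)) P ∧
      ∫ ω, (Y δ ω + X δ ω) ^ (2 * k) ∂P ≤ 2 ^ (2 * k) * (B + η) := by
  rcases Nat.eq_zero_or_pos k with rfl | hk
  · filter_upwards [h] with δ h1
    simp only [mul_zero, pow_zero, integral_const, smul_eq_mul, mul_one, one_mul] at h1 ⊢
    exact ⟨h1.1, by linarith [h1.2]⟩
  · filter_upwards [h, hX.pow hk.ne' hη, hX.meas, hY] with δ h1 h2 h3 h4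
    have hn : ∀ ω, 0 ≤ (Y δ ω + X δ ω) ^ (2 * k) := fun ω => (even_two_mul k).pow_nonneg _
    have hi : Integrable (fun ω => 2 ^ (2 * k) * (Y δ ω ^ (2 * k) + X δ ω ^ (2 * k))) P :=
      (h1.1.add h2.1).const_mul _
    have hI : Integrable (fun ω => (Y δ ω + X δ ω) ^ (2 * k)) P := by
      refine hi.mono' ((h4.add h3).pow _) (Eventually.of_forall fun ω => ?_)
      rw [Real.norm_eq_abs, abs_of_nonneg (hn ω)]
      exact pow_add_two _ _ _
    refine ⟨hI, (integral_mono hI hi fun ω => pow_add_two _ _ _).trans ?_⟩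
    rw [integral_const_mul, integral_add h1.1 h2.1]
    exact mul_le_mul_of_nonneg_left (add_le_add h1.2 h2.2) (by positivity)

/-! ### Linear functionals with small coefficients -/

lemma abs_pth_box {N : ℕ} {q : ℤ × ℤ} (hq : q ∈ hbox N) (ω : Ori (ℤ × ℤ)) :
    |(pth ω q : ℝ)| ≤ 2 * N := by
  have h1 := abs_pth_le ω q
  unfold hbox at hq
  rw [Finset.mem_product, Finset.mem_Icc, Finset.mem_Icc] at hq
  have a1 := abs_le.2 hq.1
  have a2 := abs_le.2 hq.2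
  have h2 : |pth ω q| ≤ 2 * (N : ℤ) := by linarith
  exact_mod_cast h2

/-- A functional with coefficients of order `δ ^ 3` is bounded. -/
lemma small_bdd {R : ℝ} (hR : 0 < R) {δ : ℝ} (hδ : 0 < δ) (hδ1 : δ ≤ 1) {K : ℤ × ℤ → ℝ} {κ : ℝ}
    (hK : ∀ q, |K q| ≤ κ * δ ^ 3) (ω : Ori (ℤ × ℤ)) :
    |∑ q ∈ hbox (NN R δ + 1), FP.ev q * ((pth ω q : ℝ) * K q)| ≤ (2 * R + 7) ^ 3 * κ := by
  have hκ : 0 ≤ κ * δ ^ 3 := (abs_nonneg _).trans (hK 0)
  have hκ0 : 0 ≤ κ := by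
    by_contra h
    push Not at h
    have : κ * δ ^ 3 < 0 := mul_neg_of_neg_of_pos h (by positivity)
    linarith
  have hY := NN_le hR hδ hδ1
  set Y : ℝ := 2 * (((NN R δ) + 1 : ℕ) : ℝ) + 1 with hYd
  have hY0 : 0 < Y := by positivity
  calc |∑ q ∈ hbox (NN R δ + 1), FP.ev q * ((pth ω q : ℝ) * K q)|
      ≤ ∑ q ∈ hbox (NN R δ + 1), |FP.ev q * ((pth ω q : ℝ) * K q)| :=
        Finset.abs_sum_le_sum_abs _ _
    _ ≤ ∑ q ∈ hbox (NN R δ + 1), Y * (κ * δ ^ 3) := by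
        refine Finset.sum_le_sum fun q hq => ?_
        rw [abs_mul, abs_mul]
        have h1 := abs_pth_box hq ω
        have h2 : |(pth ω q : ℝ)| ≤ Y := by rw [hYd]; push_cast at h1 ⊢; linarith
        calc |FP.ev q| * (|(pth ω q : ℝ)| * |K q|) ≤ 1 * (Y * (κ * δ ^ 3)) :=
              mul_le_mul (ev_abs q) (mul_le_mul h2 (hK q) (abs_nonneg _) hY0.le)
                (by positivity) zero_le_one
          _ = _ := one_mul _
    _ = Y ^ 2 * (Y * (κ * δ ^ 3)) := by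
        rw [Finset.sum_const, nsmul_eq_mul, hbox_card]
    _ = (δ * Y) ^ 3 * κ := by ring
    _ ≤ (2 * R + 7) ^ 3 * κ :=
        mul_le_mul_of_nonneg_right (pow_le_pow_left₀ (by positivity) hY 3) hκ0

/-- A functional with coefficients of order `δ ^ 3` is small in mean. -/
lemma small_lim (hP : Hyp P) {R : ℝ} (hR : 0 < R) (κ : ℝ) :
    ∃ u : ℝ → ℝ, Tendsto u (𝓝[>] 0) (𝓝 0) ∧ ∀ δ : ℝ, 0 < δ → δ ≤ 1 → ∀ K : ℤ × ℤ → ℝ,
      (∀ q, |K q| ≤ κ * δ ^ 3) →
      ∫ ω, |∑ q ∈ hbox (NN R δ + 1), FP.ev q * ((pth ω q : ℝ) * K q)| ∂P ≤ u δ := by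
  obtain ⟨C, hC, hmom⟩ := pth_moment hP
  set A0 : ℝ := 2 * R + 7 with hA0
  have hA0' : 7 < A0 := by linarith
  refine ⟨fun δ : ℝ => A0 ^ 2 * κ * (δ * ((1 + C + C * Real.log A0) / 2) -
      C / 2 * (Real.log δ * δ)), ?_, ?_⟩
  · have a1 : Tendsto (fun δ : ℝ => δ * ((1 + C + C * Real.log A0) / 2)) (𝓝[>] 0) (𝓝 0) := by
      have := (tendsto_id (x := 𝓝 (0 : ℝ))).mul_const ((1 + C + C * Real.log A0) / 2)
      rw [zero_mul] at this
      exact this.mono_left nhdsWithin_le_nhds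
    have a2 : Tendsto (fun δ : ℝ => Real.log δ * δ) (𝓝[>] 0) (𝓝 0) := by
      have := tendsto_log_mul_rpow_nhdsGT_zero zero_lt_one
      simpa only [Real.rpow_one] using this
    have := (a1.sub (a2.const_mul (C / 2))).const_mul (A0 ^ 2 * κ)
    simpa using this
  · intro δ hδ hδ1 K hK
    have hκ : 0 ≤ κ * δ ^ 3 := (abs_nonneg _).trans (hK 0)
    have hκ0 : 0 ≤ κ := by
      by_contra h
      push Not at h
      have : κ * δ ^ 3 < 0 := mul_neg_of_neg_of_pos h (by positivity)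
      linarith
    set N := NN R δ with hN
    have hNb := NN_le hR hδ hδ1
    rw [← hN] at hNb
    have hcard : (((hbox (N + 1)).card : ℕ) : ℝ) = (2 * ((N + 1 : ℕ) : ℝ) + 1) ^ 2 := hbox_card _
    set Y : ℝ := 2 * ((N + 1 : ℕ) : ℝ) + 1 with hY
    have hY0 : 0 < Y := by positivity
    have hlog : Real.log (2 * ((N + 1 : ℕ) : ℝ)) ≤ Real.log A0 - Real.log δ := by
      rw [← Real.log_div (by linarith) hδ.ne']
      refine Real.log_le_log (by positivity) ?_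
      rw [le_div_iff₀ hδ]
      nlinarith
    have h0 : 0 ≤ Real.log (2 * ((N + 1 : ℕ) : ℝ)) := by
      refine Real.log_nonneg ?_
      have : (1 : ℝ) ≤ ((N + 1 : ℕ) : ℝ) := by push_cast; linarith [Nat.cast_nonneg (α := ℝ) N]
      linarith
    have hA := EA (P := P) (hbox (N + 1)) K (k := κ * δ ^ 3)
      (M := (1 + C * (1 + (Real.log A0 - Real.log δ))) / 2) hK
      (by
        have h2 : 0 ≤ C * (1 + (Real.log A0 - Real.log δ)) := mul_nonneg hC (by linarith)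
        linarith)
      (fun q hq => by
        refine (abs_pth_int q).trans ?_
        have h1 := hmom (N + 1) q hq (by omega)
        have h2 : C * (1 + Real.log (2 * ((N + 1 : ℕ) : ℝ))) ≤
            C * (1 + (Real.log A0 - Real.log δ)) := mul_le_mul_of_nonneg_left (by linarith) hC
        linarith)
    refine hA.trans ?_
    rw [hcard]
    have h1 : 0 ≤ δ * ((1 + C * (1 + (Real.log A0 - Real.log δ))) / 2) := by
      refine mul_nonneg hδ.le ?_
      have h3 : 0 ≤ C * (1 + (Real.log A0 - Real.log δ)) := mul_nonneg hC (by linarith)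
      linarith
    have h4 : (δ * Y) ^ 2 ≤ A0 ^ 2 := pow_le_pow_left₀ (by positivity) hNb 2
    calc Y ^ 2 * ((1 + C * (1 + (Real.log A0 - Real.log δ))) / 2 * (κ * δ ^ 3))
        = (δ * Y) ^ 2 * (κ * (δ * ((1 + C * (1 + (Real.log A0 - Real.log δ))) / 2))) := by
          ring
      _ ≤ A0 ^ 2 * (κ * (δ * ((1 + C * (1 + (Real.log A0 - Real.log δ))) / 2))) :=
          mul_le_mul_of_nonneg_right h4 (mul_nonneg hκ0 h1)
      _ = _ := by ring

/-! ### Constants of a test function -/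

/-- Bounds for `rot φ`. -/
lemma rot_const {φ : ℝ × ℝ → ℝ} (hφ : Sm φ) : ∃ R F L : ℝ, 0 < R ∧ 0 ≤ F ∧ 0 ≤ L ∧
    (∀ x : ℝ × ℝ, rot φ x ≠ 0 → |x.1| ≤ R ∧ |x.2| ≤ R) ∧ (∀ x, |rot φ x| ≤ F) ∧
    (∀ x y, |rot φ x - rot φ y| ≤ L * ‖x - y‖) ∧ Integrable (rot φ) ∧ Continuous (rot φ) ∧
    HasCompactSupport (rot φ) := by
  have hc : Continuous (rot φ) := (rot_smooth hφ.1).continuous
  have hs := rot_compact hφ.2
  obtain ⟨R, hR0, hR⟩ := bound_of_compact hs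
  obtain ⟨F, hF⟩ := hc.bounded_above_of_compact_support hs
  obtain ⟨L, hL⟩ := ((rot_smooth hφ.1).of_le (m := 1) (by
    exact_mod_cast le_top)).lipschitzWith_of_hasCompactSupport hs one_ne_zero
  refine ⟨R, F, L, hR0, (norm_nonneg _).trans (hF 0), L.coe_nonneg, hR, fun x => ?_, fun x y => ?_,
    hc.integrable_of_hasCompactSupport hs, hc, hs⟩
  · have := hF x
    rwa [Real.norm_eq_abs] at this
  · have := hL.dist_le_mul x y
    rwa [Real.dist_eq, dist_eq_norm] at this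

/-- The field and the integral of the rescaled height differ by a negligible quantity. -/
theorem neg_fld (hP : Hyp P) {φ : ℝ × ℝ → ℝ} (hφ : Sm φ) :
    Neg P (fun δ ω => fld (Hc ω) δ φ - hint (pth ω) δ (rot φ)) := by
  obtain ⟨R, F, L, hR0, hF0, hL0, hR, hF, hL, hi, hc, hs⟩ := rot_const hφ
  have hfx : ∀ δ : ℝ, 0 < δ → ∀ ω, fld (Hc ω) δ φ = xs (pth ω) δ (rot φ) (NN R δ + 1) := by
    intro δ hδ ω
    have hN := NN_ge R δ
    exact fld_eq (h := pth ω) (H := Hc ω) (fun v => rfl) hR hδ (N := NN R δ + 1)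
      (by push_cast; linarith)
  refine ⟨?_, ?_, ?_⟩
  · filter_upwards [self_mem_nhdsWithin] with δ hδ
    have hδ0 : 0 < δ := hδ
    exact ((fld_integrable hφ.2 hδ0).sub (hint_integrable hc hs hδ0)).aestronglyMeasurable
  · refine ⟨(2 * R + 7) ^ 3 * (3 * L) + (2 * R + 7) ^ 2 * F, by positivity, ?_⟩
    filter_upwards [self_mem_nhdsWithin, mem_nhdsWithin_of_mem_nhds (Iic_mem_nhds one_pos)]
      with δ hδ hδ1
    have hδ0 : 0 < δ := hδ
    have hδ1' : δ ≤ 1 := hδ1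
    filter_upwards [hP.ice] with ω hω
    rw [hfx δ hδ0 ω, xs_sub (pth_isHeight hω) hδ0 hi hR (NN_ge R δ)]
    have e : ∑ q ∈ hbox (NN R δ + 1), FP.ev q *
        ((pth ω q : ℝ) * (2 * δ ^ 2 * rot φ (δ * q.1, δ * q.2) - cI (rot φ) δ q -
          cI (rot φ) δ (q.1, q.2 - 1)) + ar ω (Sum.inl q) * cI (rot φ) δ (q.1, q.2 - 1)) =
        (∑ q ∈ hbox (NN R δ + 1), FP.ev q * ((pth ω q : ℝ) *
          (2 * δ ^ 2 * rot φ (δ * q.1, δ * q.2) - cI (rot φ) δ q -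
          cI (rot φ) δ (q.1, q.2 - 1)))) +
        ∑ q ∈ hbox (NN R δ + 1), FP.ev q * (ar ω (Sum.inl q) * cI (rot φ) δ (q.1, q.2 - 1)) := by
      rw [← Finset.sum_add_distrib]
      exact Finset.sum_congr rfl fun q _ => by ring
    rw [e]
    refine (abs_add_le _ _).trans (add_le_add ?_ ?_)
    · exact small_bdd hR0 hδ0 hδ1' (κ := 3 * L)
        (K := fun q => 2 * δ ^ 2 * rot φ (δ * q.1, δ * q.2) - cI (rot φ) δ q -
          cI (rot φ) δ (q.1, q.2 - 1)) (fun q => K_abs hi hL0 hL hδ0 q) ω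
    · have hY := NN_le hR0 hδ0 hδ1'
      set Y : ℝ := 2 * (((NN R δ) + 1 : ℕ) : ℝ) + 1 with hYd
      have hY0 : 0 < Y := by positivity
      calc |∑ q ∈ hbox (NN R δ + 1), FP.ev q * (ar ω (Sum.inl q) * cI (rot φ) δ (q.1, q.2 - 1))|
          ≤ ∑ q ∈ hbox (NN R δ + 1),
            |FP.ev q * (ar ω (Sum.inl q) * cI (rot φ) δ (q.1, q.2 - 1))| :=
            Finset.abs_sum_le_sum_abs _ _
        _ ≤ ∑ q ∈ hbox (NN R δ + 1), F * δ ^ 2 := by
            refine Finset.sum_le_sum fun q _ => ?_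
            rw [abs_mul, abs_mul, ar_abs, one_mul]
            calc |FP.ev q| * |cI (rot φ) δ (q.1, q.2 - 1)| ≤ 1 * (F * δ ^ 2) :=
                  mul_le_mul (ev_abs q) (cI_abs hF hδ0 _) (abs_nonneg _) zero_le_one
              _ = _ := one_mul _
        _ = (δ * Y) ^ 2 * F := by
            rw [Finset.sum_const, nsmul_eq_mul, hbox_card]
            ring
        _ ≤ _ := mul_le_mul_of_nonneg_right (pow_le_pow_left₀ (by positivity) hY 2) hF0
  · refine (xs_close hP hi hR0 hR hF hL0 hL).congr' ?_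
    filter_upwards [self_mem_nhdsWithin] with δ hδ
    have hδ0 : 0 < δ := hδ
    refine integral_congr_ae (Eventually.of_forall fun ω => ?_)
    show |xs (pth ω) δ (rot φ) (NN R δ + 1) - hint (pth ω) δ (rot φ)| =
      |fld (Hc ω) δ φ - hint (pth ω) δ (rot φ)|
    rw [hfx δ hδ0 ω]

/-! ### The mass -/

/-- `δ² ∑_v φ(δ v)`. -/
noncomputable def sm (δ : ℝ) (φ : ℝ × ℝ → ℝ) : ℝ := fld (fun _ => 1) δ φ

lemma sm_eq (δ : ℝ) (φ : ℝ × ℝ → ℝ) : sm δ φ = δ ^ 2 * ∑' v : ℤ × ℤ, φ (δ * v.1, δ * v.2) := by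
  unfold sm fld
  simp only [one_mul]

lemma sm_rate {φ : ℝ × ℝ → ℝ} (hφ : Sm φ) : ∃ K : ℝ, 0 ≤ K ∧ ∀ δ : ℝ, 0 < δ → δ ≤ 1 →
    |sm δ φ - ∫ x, φ x| ≤ K * δ := by
  obtain ⟨R, F, L, hR0, hF0, hL0, hR, hF, hL, hi, hc, hs⟩ := rot_const hφ
  refine ⟨2 * ((2 * R + 7) ^ 2 * (3 * L)), by positivity, fun δ hδ hδ1 => ?_⟩
  have hNge := NN_ge R δ
  have hY := NN_le hR0 hδ hδ1
  set N := NN R δ with hN
  have e1 : sm δ φ = xs (fun _ => 2) δ (rot φ) (N + 1) :=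
    fld_eq (h := fun _ => 2) (H := fun _ => 1) (fun v => by norm_num) hR hδ (N := N + 1)
      (by push_cast; linarith)
  have e2 : ∫ x, φ x = 2 * ∫ x, rot φ x := by
    rw [int_Th (rot φ)]
    simp only [rot_Th]
    rw [integral_const_mul]
    ring
  have hN' : R / δ + 1 ≤ ((N + 1 : ℕ) : ℝ) := by push_cast; linarith
  have hz : ∀ v, v ∉ hbox N → cI (rot φ) δ v = 0 := fun v hv => cell_zero hδ hNge hR hv
  have h1 : ∫ x, rot φ x = ∑ q ∈ hbox (N + 1), cI (rot φ) δ q := by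
    have := hint_cells (fun _ => 1) hδ hi hR hN'
    unfold hint P152.GFF.S.hd at this
    simpa [cI] using this
  set g : ℤ × ℤ → ℝ := fun q => (1 - FP.ev q) * cI (rot φ) δ q with hg
  have g1 : ∑' q, g q = ∑ q ∈ hbox (N + 1), g q := by
    refine tsum_eq_sum (fun q hq => ?_)
    show (1 - FP.ev q) * cI (rot φ) δ q = 0
    rw [hz q (fun h => hq (hbox_mono h)), mul_zero]
  have g2 : ∑' q : ℤ × ℤ, g (q.1, q.2 - 1) = ∑ q ∈ hbox (N + 1), g (q.1, q.2 - 1) := by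
    refine tsum_eq_sum (fun q hq => ?_)
    show (1 - FP.ev (q.1, q.2 - 1)) * cI (rot φ) δ (q.1, q.2 - 1) = 0
    rw [hz _ (fun h => hq (hbox_succ h)), mul_zero]
  have g3 : ∑' q : ℤ × ℤ, g (q.1, q.2 - 1) = ∑' q, g q := by
    have := (Equiv.subRight ((0, 1) : ℤ × ℤ)).tsum_eq g
    rw [← this]
    refine tsum_congr (fun q => ?_)
    rw [Equiv.subRight_apply]
    congr 1
    refine Prod.ext ?_ ?_ <;> simp
  have h2 : ∫ x, rot φ x = ∑ q ∈ hbox (N + 1), FP.ev q * (cI (rot φ) δ q +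
      cI (rot φ) δ (q.1, q.2 - 1)) := by
    have e3 : ∑ q ∈ hbox (N + 1), cI (rot φ) δ q =
        ∑ q ∈ hbox (N + 1), FP.ev q * cI (rot φ) δ q + ∑ q ∈ hbox (N + 1), g q := by
      rw [← Finset.sum_add_distrib]
      refine Finset.sum_congr rfl (fun q _ => ?_)
      rw [hg]; ring
    rw [h1, e3, ← g1, ← g3, g2, ← Finset.sum_add_distrib]
    refine Finset.sum_congr rfl (fun q _ => ?_)
    show FP.ev q * cI (rot φ) δ q + (1 - FP.ev (q.1, q.2 - 1)) * cI (rot φ) δ (q.1, q.2 - 1) = _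
    rw [ev_shift]
    ring
  have e4 : sm δ φ - ∫ x, φ x = 2 * ∑ q ∈ hbox (N + 1), FP.ev q *
      (2 * δ ^ 2 * rot φ (δ * q.1, δ * q.2) - cI (rot φ) δ q - cI (rot φ) δ (q.1, q.2 - 1)) := by
    rw [e1, e2, h2]
    unfold xs
    rw [Finset.mul_sum, Finset.mul_sum, Finset.mul_sum, ← Finset.sum_sub_distrib]
    refine Finset.sum_congr rfl (fun q _ => ?_)
    push_cast
    ring
  rw [e4, abs_mul, abs_two, mul_assoc]
  refine mul_le_mul_of_nonneg_left ?_ (by norm_num)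
  set Y : ℝ := 2 * ((N + 1 : ℕ) : ℝ) + 1 with hYd
  have hY0 : 0 < Y := by positivity
  calc |∑ q ∈ hbox (N + 1), FP.ev q * (2 * δ ^ 2 * rot φ (δ * q.1, δ * q.2) -
        cI (rot φ) δ q - cI (rot φ) δ (q.1, q.2 - 1))|
      ≤ ∑ q ∈ hbox (N + 1), |FP.ev q * (2 * δ ^ 2 * rot φ (δ * q.1, δ * q.2) -
        cI (rot φ) δ q - cI (rot φ) δ (q.1, q.2 - 1))| := Finset.abs_sum_le_sum_abs _ _
    _ ≤ ∑ q ∈ hbox (N + 1), 3 * L * δ ^ 3 := by
        refine Finset.sum_le_sum fun q _ => ?_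
        rw [abs_mul]
        calc |FP.ev q| * |2 * δ ^ 2 * rot φ (δ * q.1, δ * q.2) - cI (rot φ) δ q -
              cI (rot φ) δ (q.1, q.2 - 1)| ≤ 1 * (3 * L * δ ^ 3) :=
              mul_le_mul (ev_abs q) (K_abs hi hL0 hL hδ q) (abs_nonneg _) zero_le_one
          _ = _ := one_mul _
    _ = (δ * Y) ^ 2 * (3 * L) * δ := by
        rw [Finset.sum_const, nsmul_eq_mul, hbox_card]
        ring
    _ ≤ (2 * R + 7) ^ 2 * (3 * L) * δ := by
        have := pow_le_pow_left₀ (by positivity) hY 2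
        gcongr

lemma sm_tendsto {φ : ℝ × ℝ → ℝ} (hφ : Sm φ) :
    Tendsto (fun δ : ℝ => sm δ φ) (𝓝[>] 0) (𝓝 (∫ x, φ x)) := by
  obtain ⟨K, hK, h⟩ := sm_rate hφ
  rw [tendsto_iff_dist_tendsto_zero]
  have h0 : Tendsto (fun δ : ℝ => K * δ) (𝓝[>] 0) (𝓝 0) := by
    have := (tendsto_id (x := 𝓝 (0 : ℝ))).const_mul K
    rw [mul_zero] at this
    exact this.mono_left nhdsWithin_le_nhds
  refine tendsto_of_tendsto_of_tendsto_of_le_of_le' tendsto_const_nhds h0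
    (Eventually.of_forall fun δ => dist_nonneg) ?_
  filter_upwards [self_mem_nhdsWithin, mem_nhdsWithin_of_mem_nhds (Iic_mem_nhds one_pos)]
    with δ hδ hδ1
  rw [Real.dist_eq]
  exact h δ hδ hδ1

/-- The normalisation is harmless. -/
theorem neg_norm (hP : Hyp P) {φ g : ℝ × ℝ → ℝ} (hφ : Sm φ) (hg : Sm g)
    (hI : ∫ x, φ x = ∫ x, g x) (h0 : ∫ x, g x ≠ 0) :
    Neg P (fun δ ω => (1 - sm δ φ / sm δ g) * fld (Hc ω) δ g) := by
  obtain ⟨K1, hK1, h1⟩ := sm_rate hφ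
  obtain ⟨K2, hK2, h2⟩ := sm_rate hg
  obtain ⟨R, F, L, hR0, hF0, hL0, hR, hF, hL, hi, hc, hs⟩ := rot_const hg
  set m : ℝ := |∫ x, g x| with hm
  have hm0 : 0 < m := abs_pos.2 h0
  -- the ratio
  have hr : ∀ᶠ δ in 𝓝[>] (0 : ℝ), |1 - sm δ φ / sm δ g| ≤ 2 * (K1 + K2) / m * δ := by
    have hlim := (sm_tendsto hg).abs
    have hev := hlim.eventually_const_lt (show m / 2 < |∫ x, g x| by rw [← hm]; linarith)
    filter_upwards [hev, self_mem_nhdsWithin,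
      mem_nhdsWithin_of_mem_nhds (Iic_mem_nhds one_pos)] with δ h3 hδ hδ1
    have hδ0 : 0 < δ := hδ
    have h4 : sm δ g ≠ 0 := by
      intro h
      rw [h, abs_zero] at h3
      linarith
    have e : 1 - sm δ φ / sm δ g = (sm δ g - sm δ φ) / sm δ g := by
      field_simp
    rw [e, abs_div, div_le_iff₀ (abs_pos.2 h4)]
    have h5 : |sm δ g - sm δ φ| ≤ (K1 + K2) * δ := by
      have e2 : sm δ g - sm δ φ = (sm δ g - ∫ x, g x) - (sm δ φ - ∫ x, φ x) := by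
        rw [hI]; ring
      rw [e2]
      refine (abs_sub _ _).trans ?_
      linarith [h1 δ hδ0 hδ1, h2 δ hδ0 hδ1]
    refine h5.trans ?_
    have h6 : 2 * (K1 + K2) / m * δ * (m / 2) ≤ 2 * (K1 + K2) / m * δ * |sm δ g| :=
      mul_le_mul_of_nonneg_left h3.le (by positivity)
    refine le_trans (le_of_eq ?_) h6
    field_simp
  set κ : ℝ := 2 * (K1 + K2) / m * (2 * F) with hκ
  have hκ0 : 0 ≤ κ := by positivity
  obtain ⟨u, hu, hu2⟩ := small_lim hP hR0 κ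
  have hform : ∀ δ : ℝ, 0 < δ → ∀ ω, (1 - sm δ φ / sm δ g) * fld (Hc ω) δ g =
      ∑ q ∈ hbox (NN R δ + 1), FP.ev q * ((pth ω q : ℝ) *
        ((1 - sm δ φ / sm δ g) * (2 * δ ^ 2 * rot g (δ * q.1, δ * q.2)))) := by
    intro δ hδ ω
    have hN := NN_ge R δ
    rw [fld_eq (h := pth ω) (H := Hc ω) (fun v => rfl) hR hδ (N := NN R δ + 1)
      (by push_cast; linarith)]
    unfold xs
    rw [Finset.mul_sum, Finset.mul_sum]
    exact Finset.sum_congr rfl fun q _ => by ring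
  have hsmall : ∀ δ : ℝ, 0 < δ → |1 - sm δ φ / sm δ g| ≤ 2 * (K1 + K2) / m * δ → ∀ q : ℤ × ℤ,
      |(1 - sm δ φ / sm δ g) * (2 * δ ^ 2 * rot g (δ * q.1, δ * q.2))| ≤ κ * δ ^ 3 := by
    intro δ hδ h3 q
    rw [abs_mul, abs_mul, abs_of_nonneg (by positivity : (0 : ℝ) ≤ 2 * δ ^ 2)]
    calc |1 - sm δ φ / sm δ g| * (2 * δ ^ 2 * |rot g (δ * q.1, δ * q.2)|)
        ≤ (2 * (K1 + K2) / m * δ) * (2 * δ ^ 2 * F) := by
          refine mul_le_mul h3 (mul_le_mul_of_nonneg_left (hF _) (by positivity)) (by positivity)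
            (by positivity)
      _ = κ * δ ^ 3 := by rw [hκ]; ring
  refine ⟨?_, ⟨(2 * R + 7) ^ 3 * κ, by positivity, ?_⟩, ?_⟩
  · filter_upwards [self_mem_nhdsWithin] with δ hδ
    have hδ0 : 0 < δ := hδ
    exact ((fld_integrable hg.2 hδ0).const_mul _).aestronglyMeasurable
  · filter_upwards [hr, self_mem_nhdsWithin,
      mem_nhdsWithin_of_mem_nhds (Iic_mem_nhds one_pos)] with δ h3 hδ hδ1
    refine Eventually.of_forall fun ω => ?_
    rw [hform δ hδ ω]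
    exact small_bdd hR0 hδ hδ1
      (K := fun q => (1 - sm δ φ / sm δ g) * (2 * δ ^ 2 * rot g (δ * q.1, δ * q.2)))
      (hsmall δ hδ h3) ω
  · refine tendsto_of_tendsto_of_tendsto_of_le_of_le' tendsto_const_nhds hu
      (Eventually.of_forall fun δ => integral_nonneg fun ω => abs_nonneg _) ?_
    filter_upwards [hr, self_mem_nhdsWithin,
      mem_nhdsWithin_of_mem_nhds (Iic_mem_nhds one_pos)] with δ h3 hδ hδ1
    simp only [hform δ hδ]
    exact hu2 δ hδ hδ1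
      (fun q => (1 - sm δ φ / sm δ g) * (2 * δ ^ 2 * rot g (δ * q.1, δ * q.2)))
      (hsmall δ hδ h3)

/-- Moments of the neutral combination of two test functions. -/
theorem pair_moment (hP : Hyp P) {φ g : ℝ × ℝ → ℝ} (hφ : Sm φ) (hg : Sm g)
    (hI : ∫ x, φ x = ∫ x, g x) (h0 : ∫ x, g x ≠ 0) {k : ℕ} {B : ℝ}
    (hB : ∀ᶠ δ in 𝓝[>] (0 : ℝ),
      Integrable (fun ω => hint (pth ω) δ (fun x => rot φ x - rot g x) ^ (2 * k)) P ∧
        ∫ ω, hint (pth ω) δ (fun x => rot φ x - rot g x) ^ (2 * k) ∂P ≤ B) {η : ℝ}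
    (hη : 0 < η) : ∀ᶠ δ in 𝓝[>] (0 : ℝ),
      Integrable (fun ω => (fld (Hc ω) δ φ - sm δ φ / sm δ g * fld (Hc ω) δ g) ^ (2 * k)) P ∧
        ∫ ω, (fld (Hc ω) δ φ - sm δ φ / sm δ g * fld (Hc ω) δ g) ^ (2 * k) ∂P ≤
          2 ^ (2 * k) * (B + η) := by
  obtain ⟨R, F, L, hR0, hF0, hL0, hR, hF, hL, hi, hc, hs⟩ := rot_const hφ
  obtain ⟨R', F', L', hR0', hF0', hL0', hR', hF', hL', hi', hc', hs'⟩ := rot_const hg
  have hN : Neg P (fun δ ω => (fld (Hc ω) δ φ - hint (pth ω) δ (rot φ)) +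
      (-(fld (Hc ω) δ g - hint (pth ω) δ (rot g)) +
        (1 - sm δ φ / sm δ g) * fld (Hc ω) δ g)) :=
    (neg_fld hP hφ).add ((neg_fld hP hg).neg.add (neg_norm hP hφ hg hI h0))
  have hsub : ∀ δ : ℝ, 0 < δ → ∀ ω, hint (pth ω) δ (fun x => rot φ x - rot g x) =
      hint (pth ω) δ (rot φ) - hint (pth ω) δ (rot g) := by
    intro δ hδ ω
    have h1 := P152.GFF.S.hint_add (pth ω) hδ (F := fun x => rot φ x - rot g x) (G := rot g)
      (hc.sub hc') (hs.sub hs') hc' hs'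
    simp only [sub_add_cancel] at h1
    linarith
  have h := moment_add hN (Y := fun δ ω => hint (pth ω) δ (fun x => rot φ x - rot g x))
    (by
      filter_upwards [self_mem_nhdsWithin] with δ hδ
      exact (hint_integrable (hc.sub hc') (hs.sub hs') hδ).aestronglyMeasurable) hB hη
  filter_upwards [h, self_mem_nhdsWithin] with δ h1 hδ
  have e : ∀ ω, hint (pth ω) δ (fun x => rot φ x - rot g x) +
      ((fld (Hc ω) δ φ - hint (pth ω) δ (rot φ)) +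
      (-(fld (Hc ω) δ g - hint (pth ω) δ (rot g)) +
        (1 - sm δ φ / sm δ g) * fld (Hc ω) δ g)) =
      fld (Hc ω) δ φ - sm δ φ / sm δ g * fld (Hc ω) δ g := by
    intro ω
    rw [hsub δ hδ ω]
    ring
  simpa only [e] using h1

end Vale.Agent.P145.FB.Mom
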