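import Vale.Agent.P145.FB.MomC
import Vale.Agent.P145.FB.Sym0
import Vale.Agent.P145.FB.ACb

/-!
P145, block F-B: moments of neutral combinations of the smoothed heights of the vertices of the
square lattice: transport of a test function to an outer function (scale invariant bound), and
arbitrary pairs of test functions.
-/

namespace Vale.Agent.P145.FB.Mom

open Finset Filter Topology MeasureTheory
open Vale.Agent.P152 (Edge Ori Ice sgb pth pth_isHeight pth_integrable sqp)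
open Vale.Agent.P152.GFF.S (hcell hbox hint hint_cells cell_zero ar idx_mem ar_abs ar_measurable
  bound_of_compact conv_hv deriv_conv interval_full smooth_param hv_loc)
open Vale.Agent.P145.FP
open Vale.Agent.P145.FB.AC (b b_smooth b_cont b_nonneg b_compact b_int b_supp)

/-! ### Derivatives in the second variable -/

theorem moment_dy {P : Measure (Ori (ℤ × ℤ))} [IsProbabilityMeasure P] {C γ : ℝ} (hC : 0 ≤ C)
    (hγ : 0 < γ) (hE : EGD P C γ) (hice : ∀ᵐ ω ∂P, ∀ x y, Ice ω x y) (hS : SymM P)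
    {Φ F : ℝ × ℝ → ℝ}
    (hΦ : ContDiff ℝ ((⊤ : ℕ∞) : WithTop ℕ∞) Φ) (hs : HasCompactSupport Φ) (hFc : Continuous F)
    (hF : ∀ t y, HasDerivAt (fun y => Φ (t, y)) (F (t, y)) y) (k : ℕ) {ε : ℝ} (hε : 0 < ε) :
    ∀ᶠ δ : ℝ in 𝓝[>] 0, Integrable (fun ω => hint (pth ω) δ F ^ (2 * k)) P ∧
      ∫ ω, hint (pth ω) δ F ^ (2 * k) ∂P ≤ DD C k * ((∫ x, Φ x ^ 2) + ε) ^ k := by
  have h := moment hC hγ hE hice (Ψ := fun x => Φ x.swap) (F := fun x => F x.swap)
    (hΦ.comp (contDiff_snd.prodMk contDiff_fst))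
    (hs.comp_homeomorph (Homeomorph.prodComm ℝ ℝ)) (hFc.comp continuous_swap)
    (fun t y => hF y t) k hε
  have e2 : ∫ x : ℝ × ℝ, Φ x.swap ^ 2 = ∫ x : ℝ × ℝ, Φ x ^ 2 := by
    rw [Measure.volume_eq_prod]
    exact integral_prod_swap (fun x => Φ x ^ 2)
  rw [e2] at h
  filter_upwards [h, self_mem_nhdsWithin] with δ h1 hδ
  have key : (fun ω => hint (pth (ryA ω)) δ (fun x => F x.swap) ^ (2 * k)) =ᵐ[P]
      fun ω => hint (pth ω) δ F ^ (2 * k) := by
    filter_upwards [hice] with ω hω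
    congr 1
    unfold hint P152.GFF.S.hd
    rw [Measure.volume_eq_prod]
    rw [← integral_prod_swap (fun x : ℝ × ℝ => (pth ω (⌊x.1 / δ⌋, ⌊x.2 / δ⌋) : ℝ) * F x)]
    refine integral_congr_ae (Eventually.of_forall fun x => ?_)
    show (pth (ryA ω) (⌊x.1 / δ⌋, ⌊x.2 / δ⌋) : ℝ) * F x.swap =
      (pth ω (⌊x.2 / δ⌋, ⌊x.1 / δ⌋) : ℝ) * F x.swap
    rw [pth_ry hω]
  have hm : AEStronglyMeasurable (fun ω => hint (pth ω) δ (fun x => F x.swap) ^ (2 * k))
      (P.map ryA) := by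
    rw [map_ry hS]
    exact h1.1.aestronglyMeasurable
  have hI : Integrable (fun ω => hint (pth ω) δ (fun x => F x.swap) ^ (2 * k)) (P.map ryA) := by
    rw [map_ry hS]
    exact h1.1
  refine ⟨?_, ?_⟩
  · refine Integrable.congr ?_ key
    exact hI.comp_measurable ryA_meas
  · rw [← integral_congr_ae key]
    have h3 := integral_map ryA_meas.aemeasurable hm
    rw [map_ry hS] at h3
    rw [← h3]
    exact h1.2

/-! ### Primitives -/

lemma marg_smooth {F : ℝ × ℝ → ℝ} (hF : ContDiff ℝ ((⊤ : ℕ∞) : WithTop ℕ∞) F) {B : ℝ}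
    (hB : ∀ t y, B < |y| → F (t, y) = 0) :
    ContDiff ℝ ((⊤ : ℕ∞) : WithTop ℕ∞) (fun t : ℝ => ∫ y, F (t, y)) := by
  have h := (smooth_param hF hB (locallyIntegrable_const (1:ℝ))).comp
    (contDiff_id.prodMk contDiff_const : ContDiff ℝ ((⊤ : ℕ∞) : WithTop ℕ∞)
      (fun t : ℝ => (t, (0:ℝ))))
  have e : ((fun q : ℝ × ℝ => (convolution (fun _ : ℝ => (1:ℝ)) (fun y => F (q.1, y))
      (ContinuousLinearMap.mul ℝ ℝ) volume) q.2) ∘ (fun t : ℝ => (t, (0:ℝ)))) =
      fun t : ℝ => ∫ y, F (t, y) := by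
    funext t
    show (convolution (fun _ : ℝ => (1:ℝ)) (fun y => F (t, y))
      (ContinuousLinearMap.mul ℝ ℝ) volume) 0 = _
    rw [convolution_def]
    simp only [ContinuousLinearMap.mul_apply', one_mul]
    rw [integral_sub_left_eq_self (fun y => F (t, y)) volume 0]
  rw [← e]; exact h

lemma prim_smooth {F : ℝ × ℝ → ℝ} (hF : ContDiff ℝ ((⊤ : ℕ∞) : WithTop ℕ∞) F) {B : ℝ}
    (hB : ∀ t y, B < |y| → F (t, y) = 0) :
    ContDiff ℝ ((⊤ : ℕ∞) : WithTop ℕ∞) (fun q : ℝ × ℝ => ∫ u in (-B)..q.2, F (q.1, u)) := by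
  have h := smooth_param hF hB hv_loc
  have e : (fun q : ℝ × ℝ => (convolution P152.GFF.S.hv (fun y => F (q.1, y))
      (ContinuousLinearMap.mul ℝ ℝ) volume) q.2) = fun q => ∫ u in (-B)..q.2, F (q.1, u) := by
    funext q
    exact conv_hv (hF.continuous.comp (continuous_const.prodMk continuous_id)) (hB q.1) q.2
  rw [e] at h
  exact h

lemma supp_line {g : ℝ → ℝ} {B : ℝ} (hB : ∀ y, B < |y| → g y = 0) : HasCompactSupport g := by
  refine HasCompactSupport.intro (isCompact_Icc (a := -B) (b := B)) ?_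
  intro x hx
  apply hB
  by_contra h
  exact hx (abs_le.mp (not_lt.mp h))

lemma prim_Iic {g : ℝ → ℝ} (hg : Continuous g) {B : ℝ} (hB : ∀ y, B < |y| → g y = 0) (t : ℝ) :
    ∫ u in (-B)..t, g u = ∫ u in Set.Iic t, g u := by
  have hint : Integrable g volume := hg.integrable_of_hasCompactSupport (supp_line hB)
  have h3 := intervalIntegral.integral_Iic_sub_Iic (a := -B) (b := t) (f := g) (μ := volume)
    hint.integrableOn hint.integrableOn
  have h4 : ∫ x in Set.Iic (-B), g x = 0 := by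
    have e : Set.Iic (-B) =ᵐ[volume] Set.Iio (-B) := Iio_ae_eq_Iic.symm
    rw [setIntegral_congr_set e]
    apply setIntegral_eq_zero_of_forall_eq_zero
    intro x hx
    apply hB
    have hx' : x < -B := hx
    by_cases hB0 : 0 ≤ B
    · rw [abs_of_neg (by linarith)]; linarith
    · exact lt_of_lt_of_le (not_le.mp hB0) (abs_nonneg x)
  rw [← h3, h4, sub_zero]

lemma prim_nonneg {g : ℝ → ℝ} (hg : Continuous g) {B : ℝ} (hB : ∀ y, B < |y| → g y = 0)
    (h0 : ∀ y, 0 ≤ g y) (t : ℝ) : 0 ≤ ∫ u in (-B)..t, g u := by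
  rw [prim_Iic hg hB]
  exact setIntegral_nonneg measurableSet_Iic fun u _ => h0 u

lemma prim_le {g : ℝ → ℝ} (hg : Continuous g) {B : ℝ} (hB : ∀ y, B < |y| → g y = 0)
    (h0 : ∀ y, 0 ≤ g y) (t : ℝ) : ∫ u in (-B)..t, g u ≤ ∫ u, g u := by
  rw [prim_Iic hg hB]
  exact setIntegral_le_integral (hg.integrable_of_hasCompactSupport (supp_line hB))
    (Eventually.of_forall h0)

lemma prim_left {g : ℝ → ℝ} (hg : Continuous g) {B : ℝ} (hB : ∀ y, B < |y| → g y = 0) {a t : ℝ}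
    (ha : ∀ y, y < a → g y = 0) (ht : t < a) : ∫ u in (-B)..t, g u = 0 := by
  rw [prim_Iic hg hB]
  exact setIntegral_eq_zero_of_forall_eq_zero fun u hu => ha u (lt_of_le_of_lt hu ht)

lemma prim_right {g : ℝ → ℝ} (hg : Continuous g) {B : ℝ} (hB : ∀ y, B < |y| → g y = 0) {a t : ℝ}
    (ha : ∀ y, a < y → g y = 0) (ht : a < t) : ∫ u in (-B)..t, g u = ∫ u, g u := by
  rw [prim_Iic hg hB]
  refine setIntegral_eq_integral_of_forall_compl_eq_zero fun u hu => ha u ?_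
  rw [Set.mem_Iic, not_le] at hu
  exact ht.trans hu

/-- Cauchy-Schwarz on an interval. -/
lemma cs_line {g : ℝ → ℝ} (hg : Continuous g) {z R : ℝ} (hR : 0 < R)
    (hs : ∀ s, g s ≠ 0 → |s - z| ≤ R) : (∫ s, g s) ^ 2 ≤ 2 * R * ∫ s, g s ^ 2 := by
  set I := Set.Icc (z - R) (z + R) with hI
  have hz : ∀ s, s ∉ I → g s = 0 := by
    intro s hs'
    by_contra h
    have := abs_le.1 (hs s h)
    exact hs' ⟨by linarith, by linarith⟩
  have hc : HasCompactSupport g := HasCompactSupport.intro isCompact_Icc hz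
  have hc2 : HasCompactSupport fun s => g s ^ 2 :=
    HasCompactSupport.intro isCompact_Icc fun s hs' => by rw [hz s hs']; ring
  have i1 : Integrable g := hg.integrable_of_hasCompactSupport hc
  have i2 : Integrable fun s => g s ^ 2 := (hg.pow 2).integrable_of_hasCompactSupport hc2
  have e1 : ∫ s in I, g s = ∫ s, g s := setIntegral_eq_integral_of_forall_compl_eq_zero hz
  have e2 : ∫ s in I, g s ^ 2 = ∫ s, g s ^ 2 :=
    setIntegral_eq_integral_of_forall_compl_eq_zero fun s hs' => by rw [hz s hs']; ring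
  set m := ∫ s, g s with hm
  have hvol : (volume : Measure ℝ).real I = 2 * R := by
    rw [hI, Real.volume_real_Icc_of_le (by linarith)]; ring
  have hfin : (volume : Measure ℝ) I ≠ ⊤ := by rw [hI]; exact isCompact_Icc.measure_lt_top.ne
  have h0 : 0 ≤ ∫ s in I, (g s - m / (2 * R)) ^ 2 :=
    setIntegral_nonneg measurableSet_Icc fun s _ => sq_nonneg _
  have e3 : ∫ s in I, (g s - m / (2 * R)) ^ 2 =
      (∫ s in I, g s ^ 2) - 2 * (m / (2 * R)) * (∫ s in I, g s) + (m / (2 * R)) ^ 2 * (2 * R) := by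
    have e4 : ∀ s, (g s - m / (2 * R)) ^ 2 =
        (g s ^ 2 - 2 * (m / (2 * R)) * g s) + (m / (2 * R)) ^ 2 := fun s => by ring
    simp only [e4]
    rw [integral_add, integral_sub, integral_const_mul, setIntegral_const, hvol, smul_eq_mul]
    · ring
    · exact i2.integrableOn
    · exact (i1.const_mul _).integrableOn
    · exact (i2.integrableOn).sub (i1.const_mul _).integrableOn
    · exact integrableOn_const hfin
  rw [e3, e1, e2] at h0
  have h1 : (∫ s, g s ^ 2) - 2 * (m / (2 * R)) * m + (m / (2 * R)) ^ 2 * (2 * R) =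
      (∫ s, g s ^ 2) - m ^ 2 / (2 * R) := by
    field_simp
    ring
  rw [h1] at h0
  have h2 : m ^ 2 / (2 * R) ≤ ∫ s, g s ^ 2 := by linarith
  rw [div_le_iff₀ (by positivity)] at h2
  linarith

/-! ### Transport to an outer function -/

theorem outer {f : ℝ × ℝ → ℝ} (hf : Sm f) (h0 : ∀ x, 0 ≤ f x) {z : ℝ × ℝ} {R T : ℝ} (hR : 0 < R)
    (hRT : R ≤ T) (hs : ∀ x, f x ≠ 0 → |x.1 - z.1| ≤ R ∧ |x.2 - z.2| ≤ R) :
    ∃ G Ψ : ℝ × ℝ → ℝ, Sm G ∧ Sm Ψ ∧ (∀ x, 0 ≤ G x) ∧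
      (∀ x, G x ≠ 0 → z.1 + T ≤ x.1 ∧ x.1 ≤ z.1 + 2 * T ∧ |x.2 - z.2| ≤ R) ∧
      ∫ x, G x = ∫ x, f x ∧
      (∀ t y, HasDerivAt (fun t => Ψ (t, y)) (f (t, y) - G (t, y)) t) ∧
      ∫ x, Ψ x ^ 2 ≤ 6 * T ^ 2 * ∫ x, f x ^ 2 := by
  have hT : 0 < T := lt_of_lt_of_le hR hRT
  have hfc : Continuous f := hf.1.continuous
  -- the bump on the line
  obtain ⟨β, hβ⟩ : ∃ β : ℝ → ℝ, ∀ t, β t = T⁻¹ * b ((t - (z.1 + 3 / 2 * T)) / T) :=
    ⟨_, fun _ => rfl⟩
  have hβs : ContDiff ℝ ((⊤ : ℕ∞) : WithTop ℕ∞) β := by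
    have : β = fun t => T⁻¹ * b ((t - (z.1 + 3 / 2 * T)) / T) := funext hβ
    rw [this]
    exact contDiff_const.mul (b_smooth.comp ((contDiff_id.sub contDiff_const).div_const T))
  have hβ0 : ∀ t, 0 ≤ β t := fun t => by rw [hβ]; exact mul_nonneg (by positivity) (b_nonneg _)
  have hβsup : ∀ t, β t ≠ 0 → z.1 + T ≤ t ∧ t ≤ z.1 + 2 * T := by
    intro t ht
    rw [hβ] at ht
    have h1 := b_supp (right_ne_zero_of_mul ht)
    rw [abs_div, abs_of_pos hT, div_lt_iff₀ hT, abs_lt] at h1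
    constructor <;> linarith [h1.1, h1.2]
  have hβ1 : ∫ t, β t = 1 := by
    simp only [hβ]
    rw [integral_const_mul]
    have h1 : ∫ t, b ((t - (z.1 + 3 / 2 * T)) / T) = ∫ t, b (t / T) :=
      integral_sub_right_eq_self (fun t => b (t / T)) (z.1 + 3 / 2 * T)
    rw [h1, Measure.integral_comp_div b T, b_int, abs_of_pos hT, smul_eq_mul, mul_one]
    exact inv_mul_cancel₀ hT.ne'
  -- bounds for the supports
  set B : ℝ := |z.1| + |z.2| + R + 2 * T with hB
  have hB0 : 0 < B := by positivity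
  have hfB1 : ∀ t y, B < |t| → f (t, y) = 0 := by
    intro t y ht
    by_contra h
    have h1 := (hs _ h).1
    have h2 := abs_sub_abs_le_abs_sub t z.1
    have h3 := abs_nonneg z.2
    simp only at h1
    linarith
  have hfB2 : ∀ t y, B < |y| → f (t, y) = 0 := by
    intro t y ht
    by_contra h
    have h1 := (hs _ h).2
    have h2 := abs_sub_abs_le_abs_sub y z.2
    have h3 := abs_nonneg z.1
    simp only at h1
    linarith
  have hβB : ∀ t, B < |t| → β t = 0 := by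
    intro t ht
    by_contra h
    obtain ⟨h1, h2⟩ := hβsup t h
    have h3 := neg_abs_le z.1
    have h4 := le_abs_self z.1
    have h5 := abs_nonneg z.2
    rcases abs_cases t with ⟨h6, _⟩ | ⟨h6, _⟩ <;> linarith
  -- the marginal
  obtain ⟨r, hr⟩ : ∃ r : ℝ → ℝ, ∀ y, r y = ∫ s, f (s, y) := ⟨_, fun _ => rfl⟩
  have hswap : ContDiff ℝ ((⊤ : ℕ∞) : WithTop ℕ∞) (fun x : ℝ × ℝ => f x.swap) :=
    hf.1.comp (contDiff_snd.prodMk contDiff_fst)
  have hrs : ContDiff ℝ ((⊤ : ℕ∞) : WithTop ℕ∞) r := by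
    have h1 := marg_smooth hswap (B := B) (fun t y hy => hfB1 y t hy)
    have : r = fun t => ∫ y, f (y, t) := funext hr
    rw [this]
    exact h1
  have hr0 : ∀ y, 0 ≤ r y := fun y => by rw [hr]; exact integral_nonneg fun s => h0 _
  have hrsup : ∀ y, r y ≠ 0 → |y - z.2| ≤ R := by
    intro y hy
    by_contra h
    apply hy
    rw [hr]
    have : (fun s => f (s, y)) = fun _ => 0 := by
      funext s
      by_contra h1
      exact h (hs _ h1).2
    rw [this]; simp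
  have hrB : ∀ y, B < |y| → r y = 0 := by
    intro y hy
    rw [hr]
    have : (fun s => f (s, y)) = fun _ => 0 := by funext s; exact hfB2 s y hy
    rw [this]; simp
  -- the outer function
  obtain ⟨G, hG⟩ : ∃ G : ℝ × ℝ → ℝ, ∀ x, G x = β x.1 * r x.2 := ⟨_, fun _ => rfl⟩
  have hGf : G = fun x => β x.1 * r x.2 := funext hG
  have hGs : ContDiff ℝ ((⊤ : ℕ∞) : WithTop ℕ∞) G := by
    rw [hGf]
    exact (hβs.comp contDiff_fst).mul (hrs.comp contDiff_snd)
  have hGsup : ∀ x, G x ≠ 0 → z.1 + T ≤ x.1 ∧ x.1 ≤ z.1 + 2 * T ∧ |x.2 - z.2| ≤ R := by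
    intro x hx
    rw [hG] at hx
    obtain ⟨h1, h2⟩ := hβsup _ (left_ne_zero_of_mul hx)
    exact ⟨h1, h2, hrsup _ (right_ne_zero_of_mul hx)⟩
  have hGc : HasCompactSupport G := by
    refine HasCompactSupport.intro
      ((isCompact_Icc (a := z.1 + T) (b := z.1 + 2 * T)).prod
        (isCompact_Icc (a := z.2 - R) (b := z.2 + R))) ?_
    intro x hx
    by_contra h
    obtain ⟨h1, h2, h3⟩ := hGsup x h
    rw [abs_le] at h3
    exact hx ⟨⟨h1, h2⟩, ⟨by linarith [h3.1], by linarith [h3.2]⟩⟩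
  have hfi : Integrable f := hfc.integrable_of_hasCompactSupport hf.2
  have hGint : ∫ x, G x = ∫ x, f x := by
    simp only [hG]
    rw [Measure.volume_eq_prod, integral_prod_mul β r, hβ1, one_mul]
    have h1 := integral_prod_symm (μ := (volume : Measure ℝ)) (ν := (volume : Measure ℝ)) f hfi
    rw [h1]
    exact integral_congr_ae (Eventually.of_forall fun y => hr y)
  -- the potential
  obtain ⟨D, hD⟩ : ∃ D : ℝ × ℝ → ℝ, ∀ x, D x = f x.swap - G x.swap := ⟨_, fun _ => rfl⟩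
  have hDf : D = fun x => f x.swap - G x.swap := funext hD
  have hDs : ContDiff ℝ ((⊤ : ℕ∞) : WithTop ℕ∞) D := by
    rw [hDf]
    exact hswap.sub (hGs.comp (contDiff_snd.prodMk contDiff_fst))
  have hDB : ∀ y s, B < |s| → D (y, s) = 0 := by
    intro y s h
    rw [hD]
    show f (s, y) - G (s, y) = 0
    rw [hfB1 s y h, hG]
    show 0 - β s * r y = 0
    rw [hβB s h]
    ring
  have hDc : ∀ y, Continuous fun s => D (y, s) := fun y =>
    hDs.continuous.comp (continuous_const.prodMk continuous_id)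
  obtain ⟨Ψ, hΨ⟩ : ∃ Ψ : ℝ × ℝ → ℝ, ∀ x, Ψ x = ∫ u in (-B)..x.1, D (x.2, u) := ⟨_, fun _ => rfl⟩
  have hΨf : Ψ = fun x => ∫ u in (-B)..x.1, D (x.2, u) := funext hΨ
  have hΨs : ContDiff ℝ ((⊤ : ℕ∞) : WithTop ℕ∞) Ψ := by
    rw [hΨf]
    exact (prim_smooth hDs hDB).comp (contDiff_snd.prodMk contDiff_fst)
  -- formula for the potential
  have hfc1 : ∀ y, Continuous fun s => f (s, y) := fun y =>
    hfc.comp (continuous_id.prodMk continuous_const)
  have hform : ∀ t y, Ψ (t, y) = (∫ u in (-B)..t, f (u, y)) - (∫ u in (-B)..t, β u) * r y := by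
    intro t y
    rw [hΨ]
    show ∫ u in (-B)..t, D (y, u) = _
    have e : ∀ u, D (y, u) = f (u, y) - β u * r y := by
      intro u
      rw [hD]
      show f (u, y) - G (u, y) = _
      rw [hG]
    simp only [e]
    have i1 : IntervalIntegrable (fun u => f (u, y)) volume (-B) t :=
      (hfc1 y).intervalIntegrable _ _
    have i2 : IntervalIntegrable (fun u => β u * r y) volume (-B) t :=
      Continuous.intervalIntegrable (hβs.continuous.mul continuous_const) _ _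
    rw [intervalIntegral.integral_sub i1 i2, intervalIntegral.integral_mul_const]
  have hβc := hβs.continuous
  have hbd : ∀ t y, |Ψ (t, y)| ≤ r y := by
    intro t y
    have a1 := prim_nonneg (hfc1 y) (B := B) (fun s hs' => hfB1 s y hs') (fun s => h0 _) t
    have a2 := prim_le (hfc1 y) (B := B) (fun s hs' => hfB1 s y hs') (fun s => h0 _) t
    have a3 := prim_nonneg hβc hβB hβ0 t
    have a4 := prim_le hβc hβB hβ0 t
    rw [hβ1] at a4
    rw [← hr] at a2
    have h1 := hr0 y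
    rw [hform, abs_le]
    constructor <;> nlinarith
  have hleft : ∀ t y, t < z.1 - R → Ψ (t, y) = 0 := by
    intro t y ht
    rw [hform, prim_left (hfc1 y) (B := B) (a := z.1 - R) (fun s hs' => hfB1 s y hs') ?_ ht,
      prim_left hβc hβB (a := z.1 - R) ?_ ht]
    · ring
    · intro s hs'
      by_contra h
      have := (hβsup s h).1
      linarith
    · intro s hs'
      by_contra h
      have := abs_le.1 (hs _ h).1
      simp only at this
      linarith [this.1]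
  have hright : ∀ t y, z.1 + 2 * T < t → Ψ (t, y) = 0 := by
    intro t y ht
    rw [hform, prim_right (hfc1 y) (B := B) (a := z.1 + 2 * T) (fun s hs' => hfB1 s y hs') ?_ ht,
      prim_right hβc hβB (a := z.1 + 2 * T) ?_ ht]
    · rw [hβ1, ← hr]
      ring
    · intro s hs'
      by_contra h
      have := (hβsup s h).2
      linarith
    · intro s hs'
      by_contra h
      have := abs_le.1 (hs _ h).1
      simp only at this
      linarith [this.2]
  have hΨsup : ∀ x, Ψ x ≠ 0 → x ∈ Set.Icc (z.1 - R) (z.1 + 2 * T) ×ˢ Set.Icc (z.2 - R) (z.2 + R) := by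
    rintro ⟨t, y⟩ hx
    have h1 : ¬ t < z.1 - R := fun h => hx (hleft t y h)
    have h2 : ¬ z.1 + 2 * T < t := fun h => hx (hright t y h)
    have h3 : r y ≠ 0 := by
      intro h
      have := hbd t y
      rw [h] at this
      exact hx (abs_nonpos_iff.1 this)
    have h4 := abs_le.1 (hrsup y h3)
    exact ⟨⟨not_lt.1 h1, not_lt.1 h2⟩, ⟨by linarith [h4.1], by linarith [h4.2]⟩⟩
  have hΨc : HasCompactSupport Ψ := by
    refine HasCompactSupport.intro
      ((isCompact_Icc (a := z.1 - R) (b := z.1 + 2 * T)).prod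
        (isCompact_Icc (a := z.2 - R) (b := z.2 + R))) ?_
    intro x hx
    by_contra h
    exact hx (hΨsup x h)
  refine ⟨G, Ψ, ⟨hGs, hGc⟩, ⟨hΨs, hΨc⟩, fun x => by rw [hG]; exact mul_nonneg (hβ0 _) (hr0 _),
    hGsup, hGint, ?_, ?_⟩
  · intro t y
    have e : (fun t => Ψ (t, y)) = fun t => ∫ u in (-B)..t, D (y, u) := by
      funext t; exact hΨ _
    have e2 : f (t, y) - G (t, y) = D (y, t) := by rw [hD]; rfl
    rw [e, e2]
    exact deriv_conv (hDc y) B t
  · -- the bound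
    set I := Set.Icc (z.1 - R) (z.1 + 2 * T) with hI
    have hvol : (volume : Measure ℝ).real I = 2 * T + R := by
      rw [hI, Real.volume_real_Icc_of_le (by linarith)]; ring
    have hrc : HasCompactSupport r := supp_line hrB
    have hr2c : HasCompactSupport fun y => r y ^ 2 :=
      supp_line (B := B) fun y hy => by rw [hrB y hy]; ring
    have ir2 : Integrable fun y => r y ^ 2 :=
      (hrs.continuous.pow 2).integrable_of_hasCompactSupport hr2c
    have iI : Integrable (I.indicator fun _ : ℝ => (1 : ℝ)) :=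
      (integrable_indicator_iff measurableSet_Icc).2
        (integrableOn_const isCompact_Icc.measure_lt_top.ne)
    have i1 : Integrable (fun x : ℝ × ℝ => I.indicator (fun _ => (1 : ℝ)) x.1 * r x.2 ^ 2) := by
      rw [Measure.volume_eq_prod]
      exact iI.mul_prod ir2
    have iΨ : Integrable fun x => Ψ x ^ 2 := by
      refine (hΨs.continuous.pow 2).integrable_of_hasCompactSupport ?_
      refine HasCompactSupport.intro hΨc.isCompact fun x hx => ?_
      show Ψ x ^ 2 = 0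
      rw [image_eq_zero_of_notMem_tsupport hx]; ring
    have hf2c : HasCompactSupport fun x => f x ^ 2 := by
      refine HasCompactSupport.intro hf.2.isCompact fun x hx => ?_
      show f x ^ 2 = 0
      rw [image_eq_zero_of_notMem_tsupport hx]; ring
    have if2 : Integrable fun x => f x ^ 2 := (hfc.pow 2).integrable_of_hasCompactSupport hf2c
    have h1 : ∫ x, Ψ x ^ 2 ≤ ∫ x : ℝ × ℝ, I.indicator (fun _ => (1 : ℝ)) x.1 * r x.2 ^ 2 := by
      refine integral_mono iΨ i1 ?_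
      rintro ⟨t, y⟩
      simp only
      by_cases ht : t ∈ I
      · rw [Set.indicator_of_mem ht, one_mul, ← sq_abs (Ψ (t, y))]
        exact pow_le_pow_left₀ (abs_nonneg _) (hbd t y) 2
      · rw [Set.indicator_of_notMem ht, zero_mul]
        have : Ψ (t, y) = 0 := by
          by_contra h
          exact ht (hΨsup _ h).1
        rw [this]
        simp
    have h2 : ∫ x : ℝ × ℝ, I.indicator (fun _ => (1 : ℝ)) x.1 * r x.2 ^ 2 =
        (2 * T + R) * ∫ y, r y ^ 2 := by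
      rw [Measure.volume_eq_prod,
        integral_prod_mul (fun t => I.indicator (fun _ => (1 : ℝ)) t) (fun y => r y ^ 2)]
      congr 1
      rw [integral_indicator measurableSet_Icc, setIntegral_const, hvol, smul_eq_mul, mul_one]
    have h3 : ∫ y, r y ^ 2 ≤ 2 * R * ∫ x, f x ^ 2 := by
      have e1 := integral_prod_symm (μ := (volume : Measure ℝ)) (ν := (volume : Measure ℝ))
        (fun x => f x ^ 2) if2
      rw [← Measure.volume_eq_prod] at e1
      rw [e1, ← integral_const_mul]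
      refine integral_mono ir2 ?_ ?_
      · have := Integrable.integral_prod_right (μ := (volume : Measure ℝ))
          (ν := (volume : Measure ℝ)) (f := fun x => f x ^ 2) if2
        exact this.const_mul _
      · intro y
        simp only
        rw [hr]
        exact cs_line (hfc1 y) (z := z.1) hR (fun s hs' => (hs _ hs').1)
    have h4 : 0 ≤ ∫ x, f x ^ 2 := integral_nonneg fun x => sq_nonneg _
    calc ∫ x, Ψ x ^ 2 ≤ (2 * T + R) * ∫ y, r y ^ 2 := h1.trans (le_of_eq h2)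
      _ ≤ (2 * T + R) * (2 * R * ∫ x, f x ^ 2) := mul_le_mul_of_nonneg_left h3 (by positivity)
      _ = ((2 * T + R) * (2 * R)) * ∫ x, f x ^ 2 := by ring
      _ ≤ (6 * T ^ 2) * ∫ x, f x ^ 2 := by
          refine mul_le_mul_of_nonneg_right ?_ h4
          nlinarith

/-! ### Change of coordinates -/

/-- The constant in the bounds. -/
noncomputable def DE (C : ℝ) (k : ℕ) : ℝ := 2 ^ (2 * k) * (DD C k + 1)

lemma DD_nonneg (C : ℝ) (k : ℕ) : 0 ≤ DD C k := by unfold DD; positivity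

lemma DE_nonneg (C : ℝ) (k : ℕ) : 0 ≤ DE C k := by
  unfold DE
  have := DD_nonneg C k
  positivity

/-- The test function on the square lattice of a test function on the rotated lattice. -/
noncomputable def unrot (G : ℝ × ℝ → ℝ) (w : ℝ × ℝ) : ℝ := 4 * G (w.1 - w.2, w.1 + w.2)

lemma rot_unrot (G : ℝ × ℝ → ℝ) : rot (unrot G) = G := by
  funext x
  unfold rot unrot
  simp only
  have e1 : (x.1 + x.2) / 2 - (x.2 - x.1) / 2 = x.1 := by ring
  have e2 : (x.1 + x.2) / 2 + (x.2 - x.1) / 2 = x.2 := by ring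
  rw [e1, e2]
  ring

lemma unrot_sm {G : ℝ × ℝ → ℝ} (h : Sm G) : Sm (unrot G) := by
  refine ⟨?_, ?_⟩
  · unfold unrot
    exact contDiff_const.mul (h.1.comp
      ((contDiff_fst.sub contDiff_snd).prodMk (contDiff_fst.add contDiff_snd)))
  · have h1 : HasCompactSupport (G ∘ Th) := h.2.comp_homeomorph Th
    have e : unrot G = fun x => (4 : ℝ) * (G ∘ Th) x := by
      funext x; rfl
    rw [e]
    exact h1.mul_left

lemma rot_sm {φ : ℝ × ℝ → ℝ} (h : Sm φ) : Sm (rot φ) := ⟨rot_smooth h.1, rot_compact h.2⟩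

lemma int_rot (φ : ℝ × ℝ → ℝ) : ∫ x, rot φ x = 1 / 2 * ∫ x, φ x := by
  rw [int_Th (rot φ)]
  simp only [rot_Th]
  rw [integral_const_mul]
  ring

lemma int_rot_sq (φ : ℝ × ℝ → ℝ) : ∫ x, rot φ x ^ 2 = 1 / 8 * ∫ x, φ x ^ 2 := by
  rw [int_Th (fun x => rot φ x ^ 2)]
  simp only [rot_Th]
  have e : ∀ w, (1 / 4 * φ w) ^ 2 = 1 / 16 * φ w ^ 2 := fun w => by ring
  simp only [e]
  rw [integral_const_mul]
  ring

lemma int_unrot (G : ℝ × ℝ → ℝ) : ∫ x, unrot G x = 2 * ∫ x, G x := by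
  have h := int_rot (unrot G)
  rw [rot_unrot] at h
  linarith

/-! ### The final statements -/

section

variable {P : Measure (Ori (ℤ × ℤ))} [IsProbabilityMeasure P]

/-- **Transport to an outer function**, on the square lattice: scale invariant bound for all
moments. -/
theorem m2 (hP : Hyp P) {C γ : ℝ} (hC : 0 ≤ C) (hγ : 0 < γ) (hE : EGD P C γ) {φ : ℝ × ℝ → ℝ}
    (hφ : Sm φ) (h0 : ∀ x, 0 ≤ φ x) (hpos : 0 < ∫ x, φ x) {z : ℝ × ℝ} {R T : ℝ} (hR : 0 < R)
    (hRT : R ≤ T) (hs : ∀ x, φ x ≠ 0 → |x.1 - z.1| ≤ R ∧ |x.2 - z.2| ≤ R) :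
    ∃ g : ℝ × ℝ → ℝ, Sm g ∧ (∀ x, 0 ≤ g x) ∧
      (∀ x, g x ≠ 0 → (T ≤ |x.1 - z.1| ∨ T ≤ |x.2 - z.2|) ∧
        |x.1 - z.1| ≤ 3 * T ∧ |x.2 - z.2| ≤ 3 * T) ∧
      ∫ x, g x = ∫ x, φ x ∧ ∀ (k : ℕ) (ε : ℝ), 0 < ε → ∀ᶠ δ in 𝓝[>] (0 : ℝ),
        Integrable (fun ω => (fld (Hc ω) δ φ - sm δ φ / sm δ g * fld (Hc ω) δ g) ^ (2 * k)) P ∧
        ∫ ω, (fld (Hc ω) δ φ - sm δ φ / sm δ g * fld (Hc ω) δ g) ^ (2 * k) ∂P ≤
          DE C k * (3 * T ^ 2 * (∫ x, φ x ^ 2) + ε) ^ k := by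
  have hT : 0 < T := lt_of_lt_of_le hR hRT
  have hrs : ∀ x, rot φ x ≠ 0 → |x.1 - (z.1 - z.2)| ≤ 2 * R ∧ |x.2 - (z.1 + z.2)| ≤ 2 * R := by
    intro x hx
    unfold rot at hx
    obtain ⟨h1, h2⟩ := hs _ (right_ne_zero_of_mul hx)
    simp only at h1 h2
    rw [abs_le] at h1 h2 ⊢
    rw [abs_le]
    refine ⟨⟨?_, ?_⟩, ⟨?_, ?_⟩⟩ <;> linarith [h1.1, h1.2, h2.1, h2.2]
  obtain ⟨G, Ψ, hG, hΨ, hG0, hGs, hGi, hd, hb⟩ := outer (rot_sm hφ)
    (fun x => by unfold rot; exact mul_nonneg (by norm_num) (h0 _))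
    (z := (z.1 - z.2, z.1 + z.2)) (R := 2 * R) (T := 2 * T) (by positivity) (by linarith) hrs
  have hgi : ∫ x, unrot G x = ∫ x, φ x := by
    rw [int_unrot, hGi, int_rot]; ring
  refine ⟨unrot G, unrot_sm hG, fun x => mul_nonneg (by norm_num) (hG0 _), ?_, hgi, ?_⟩
  · intro x hx
    unfold unrot at hx
    obtain ⟨h1, h2, h3⟩ := hGs _ (right_ne_zero_of_mul hx)
    simp only at h1 h2 h3
    rw [abs_le] at h3
    refine ⟨?_, ?_, ?_⟩
    · by_contra hcon
      push Not at hcon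
      obtain ⟨h4, h5⟩ := hcon
      rw [abs_lt] at h4 h5
      linarith [h4.2, h5.1]
    · rw [abs_le]
      constructor <;> linarith [h3.1, h3.2]
    · rw [abs_le]
      constructor <;> linarith [h3.1, h3.2]
  · intro k ε hε
    set W : ℝ := (∫ x, Ψ x ^ 2) + ε with hW
    have hW0 : 0 < W := by
      have : 0 ≤ ∫ x, Ψ x ^ 2 := integral_nonneg fun x => sq_nonneg _
      linarith
    have hWle : W ≤ 3 * T ^ 2 * (∫ x, φ x ^ 2) + ε := by
      rw [int_rot_sq] at hb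
      have e : 6 * (2 * T) ^ 2 * (1 / 8 * ∫ x, φ x ^ 2) = 3 * T ^ 2 * ∫ x, φ x ^ 2 := by ring
      rw [e] at hb
      linarith
    have hm := moment hC hγ hE hP.ice (Ψ := Ψ) (F := fun x => rot φ x - rot (unrot G) x) hΨ.1 hΨ.2
      ((rot_sm hφ).1.continuous.sub (rot_sm (unrot_sm hG)).1.continuous)
      (fun t y => by
        have := hd t y
        rw [rot_unrot]
        exact this) k hε
    have hp := pair_moment hP hφ (unrot_sm hG) hgi.symm (by rw [hgi]; exact hpos.ne') hm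
      (pow_pos hW0 k)
    filter_upwards [hp] with δ h1
    refine ⟨h1.1, h1.2.trans ?_⟩
    have e : 2 ^ (2 * k) * (DD C k * W ^ k + W ^ k) = DE C k * W ^ k := by unfold DE; ring
    rw [e]
    exact mul_le_mul_of_nonneg_left (pow_le_pow_left₀ hW0.le hWle k) (DE_nonneg C k)

lemma moment_sum {X Y : Ori (ℤ × ℤ) → ℝ} {k : ℕ} {A B : ℝ} (mX : AEStronglyMeasurable X P)
    (mY : AEStronglyMeasurable Y P)
    (hX : Integrable (fun ω => X ω ^ (2 * k)) P ∧ ∫ ω, X ω ^ (2 * k) ∂P ≤ A)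
    (hY : Integrable (fun ω => Y ω ^ (2 * k)) P ∧ ∫ ω, Y ω ^ (2 * k) ∂P ≤ B) :
    Integrable (fun ω => (X ω + Y ω) ^ (2 * k)) P ∧
      ∫ ω, (X ω + Y ω) ^ (2 * k) ∂P ≤ 2 ^ (2 * k) * (A + B) := by
  have hn : ∀ ω, 0 ≤ (X ω + Y ω) ^ (2 * k) := fun ω => (even_two_mul k).pow_nonneg _
  have hi : Integrable (fun ω => 2 ^ (2 * k) * (X ω ^ (2 * k) + Y ω ^ (2 * k))) P :=
    (hX.1.add hY.1).const_mul _
  have hI : Integrable (fun ω => (X ω + Y ω) ^ (2 * k)) P := by
    refine hi.mono' ((mX.add mY).pow _) (Eventually.of_forall fun ω => ?_)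
    rw [Real.norm_eq_abs, abs_of_nonneg (hn ω)]
    exact pow_add_two _ _ _
  refine ⟨hI, (integral_mono hI hi fun ω => pow_add_two _ _ _).trans ?_⟩
  rw [integral_const_mul, integral_add hX.1 hY.1]
  exact mul_le_mul_of_nonneg_left (add_le_add hX.2 hY.2) (by positivity)

/-- Moments of the heights tested against `∂_t Ψ + ∂_y Φ`. -/
theorem moment_div {C γ : ℝ} (hC : 0 ≤ C) (hγ : 0 < γ) (hE : EGD P C γ)
    (hice : ∀ᵐ ω ∂P, ∀ x y, Ice ω x y) (hS : SymM P) {Ψ Φ F₁ F₂ : ℝ × ℝ → ℝ}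
    (hΨ : Sm Ψ) (hΦ : Sm Φ) (hF₁ : Continuous F₁) (cF₁ : HasCompactSupport F₁)
    (hF₂ : Continuous F₂) (cF₂ : HasCompactSupport F₂)
    (hd₁ : ∀ t y, HasDerivAt (fun t => Ψ (t, y)) (F₁ (t, y)) t)
    (hd₂ : ∀ t y, HasDerivAt (fun y => Φ (t, y)) (F₂ (t, y)) y) (k : ℕ) {ε : ℝ} (hε : 0 < ε) :
    ∀ᶠ δ : ℝ in 𝓝[>] 0, Integrable (fun ω => hint (pth ω) δ (fun x => F₁ x + F₂ x) ^ (2 * k)) P ∧
      ∫ ω, hint (pth ω) δ (fun x => F₁ x + F₂ x) ^ (2 * k) ∂P ≤
        2 ^ (2 * k) * (DD C k * ((∫ x, Ψ x ^ 2) + ε) ^ k + DD C k * ((∫ x, Φ x ^ 2) + ε) ^ k) := by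
  filter_upwards [moment hC hγ hE hice hΨ.1 hΨ.2 hF₁ hd₁ k hε,
    moment_dy hC hγ hE hice hS hΦ.1 hΦ.2 hF₂ hd₂ k hε, self_mem_nhdsWithin] with δ h1 h2 hδ
  have e : ∀ ω, hint (pth ω) δ (fun x => F₁ x + F₂ x) =
      hint (pth ω) δ F₁ + hint (pth ω) δ F₂ := fun ω =>
    P152.GFF.S.hint_add (pth ω) hδ hF₁ cF₁ hF₂ cF₂
  simp only [e]
  exact moment_sum (hint_integrable hF₁ cF₁ hδ).aestronglyMeasurable
    (hint_integrable hF₂ cF₂ hδ).aestronglyMeasurable h1 h2

/-- **All moments of an arbitrary neutral pair are bounded.** -/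
theorem gen_moment (hP : Hyp P) {C γ : ℝ} (hC : 0 ≤ C) (hγ : 0 < γ) (hE : EGD P C γ)
    (hS : SymM P) {φ g : ℝ × ℝ → ℝ} (hφ : Sm φ) (hg : Sm g) (hI : ∫ x, φ x = ∫ x, g x)
    (h0 : ∫ x, g x ≠ 0) (k : ℕ) : ∃ B : ℝ, ∀ᶠ δ in 𝓝[>] (0 : ℝ),
      Integrable (fun ω => (fld (Hc ω) δ φ - sm δ φ / sm δ g * fld (Hc ω) δ g) ^ (2 * k)) P ∧
        ∫ ω, (fld (Hc ω) δ φ - sm δ φ / sm δ g * fld (Hc ω) δ g) ^ (2 * k) ∂P ≤ B := by
  have hrφ := rot_sm hφ
  have hrg := rot_sm hg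
  have hF : P152.GFF.S.Test (fun x => rot φ x - rot g x) := by
    refine ⟨hrφ.1.sub hrg.1, hrφ.2.sub hrg.2, ?_⟩
    rw [integral_sub (hrφ.1.continuous.integrable_of_hasCompactSupport hrφ.2)
      (hrg.1.continuous.integrable_of_hasCompactSupport hrg.2), int_rot, int_rot, hI, sub_self]
  obtain ⟨r, χ, ρ, hr, hrc, hρ, hρc, hχ, hχc, _, _, hρd, hΦ⟩ := P152.GFF.S.test_decomp hF
  obtain ⟨Φ, hΦs, hΦc, hΦd⟩ := hΦ 1 one_pos
  have hχ' : ContDiff ℝ ((⊤ : ℕ∞) : WithTop ℕ∞) (fun y : ℝ => (1 : ℝ)⁻¹ * χ (y / 1)) :=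
    contDiff_const.mul (hχ.comp (contDiff_id.div_const 1))
  have hprod : ∀ {u : ℝ → ℝ}, HasCompactSupport u →
      HasCompactSupport (fun x : ℝ × ℝ => u x.1 * ((1 : ℝ)⁻¹ * χ (x.2 / 1))) := by
    intro u hu
    refine HasCompactSupport.intro (hu.isCompact.prod hχc.isCompact) fun x hx => ?_
    by_cases h1 : x.1 ∈ tsupport u
    · have h2 : x.2 ∉ tsupport χ := fun h => hx ⟨h1, h⟩
      rw [div_one, image_eq_zero_of_notMem_tsupport h2]
      ring
    · rw [image_eq_zero_of_notMem_tsupport h1]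
      ring
  set F₁ : ℝ × ℝ → ℝ := fun x => r x.1 * ((1 : ℝ)⁻¹ * χ (x.2 / 1)) with hF₁
  set F₂ : ℝ × ℝ → ℝ := fun x => (rot φ x - rot g x) - r x.1 * ((1 : ℝ)⁻¹ * χ (x.2 / 1)) with hF₂
  have cF₁ : HasCompactSupport F₁ := hprod hrc
  have sF₁ : Continuous F₁ := ((hr.comp contDiff_fst).mul (hχ'.comp contDiff_snd)).continuous
  have h := moment_div hC hγ hE hP.ice hS (Ψ := fun x => ρ x.1 * ((1 : ℝ)⁻¹ * χ (x.2 / 1)))
    (Φ := Φ) (F₁ := F₁) (F₂ := F₂)
    ⟨(hρ.comp contDiff_fst).mul (hχ'.comp contDiff_snd), hprod hρc⟩ ⟨hΦs, hΦc⟩ sF₁ cF₁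
    (hF.1.continuous.sub sF₁) (hF.2.1.sub cF₁)
    (fun t y => (hρd t).mul_const ((1 : ℝ)⁻¹ * χ (y / 1))) hΦd k one_pos
  have e : (fun x => F₁ x + F₂ x) = fun x => rot φ x - rot g x := by
    funext x
    rw [hF₁, hF₂]
    ring
  rw [e] at h
  exact ⟨_, pair_moment hP hφ hg hI h0 h one_pos⟩

end

end Vale.Agent.P145.FB.Mom
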