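import Vale.Agent.P145.FB.MomD

/-!
P145, block F-B: quantitative bound for all moments of the neutral combination of an arbitrary test
function and a fixed one.
-/

namespace Vale.Agent.P145.FB.Mom

open Finset Filter Topology MeasureTheory
open Vale.Agent.P152 (Edge Ori Ice sgb pth pth_isHeight pth_integrable sqp)
open Vale.Agent.P152.GFF.S (hcell hbox hint hint_cells cell_zero ar idx_mem ar_abs ar_measurable
  bound_of_compact conv_hv deriv_conv interval_full smooth_param hv_loc)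
open Vale.Agent.P145.FP
open Vale.Agent.P145.FB.AC (b b_smooth b_cont b_nonneg b_compact b_int b_supp)

/-! ### Decomposition -/

lemma prim_abs {g : ℝ → ℝ} (hg : Continuous g) {B : ℝ} (hB : ∀ y, B < |y| → g y = 0) (t : ℝ) :
    |∫ u in (-B)..t, g u| ≤ ∫ u, |g u| := by
  have hi : Integrable g := hg.integrable_of_hasCompactSupport (supp_line hB)
  rw [prim_Iic hg hB]
  refine (abs_integral_le_integral_abs).trans ?_
  exact setIntegral_le_integral hi.abs (Eventually.of_forall fun u => abs_nonneg _)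

theorem decomp_quant {R : ℝ} (hR : 0 < R) : ∃ K : ℝ, 0 ≤ K ∧ ∀ f : ℝ × ℝ → ℝ, Sm f →
    (∀ x, f x ≠ 0 → |x.1| ≤ R ∧ |x.2| ≤ R) → ∃ Ψ Φ F₁ F₂ : ℝ × ℝ → ℝ, Sm Ψ ∧ Sm Φ ∧
      Sm F₁ ∧ Sm F₂ ∧
      (∀ t y, HasDerivAt (fun t => Ψ (t, y)) (F₁ (t, y)) t) ∧
      (∀ t y, HasDerivAt (fun y => Φ (t, y)) (F₂ (t, y)) y) ∧
      (∀ x, f x = (∫ x, f x) * (b x.1 * b x.2) + F₁ x + F₂ x) ∧
      ∫ x, Ψ x ^ 2 ≤ K * ∫ x, f x ^ 2 ∧ ∫ x, Φ x ^ 2 ≤ K * ∫ x, f x ^ 2 ∧
      (∫ x, f x) ^ 2 ≤ 4 * R ^ 2 * ∫ x, f x ^ 2 := by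
  set B : ℝ := R + 1 with hB
  have hB0 : 0 < B := by positivity
  have ib2 : Integrable fun t => b t ^ 2 := by
    refine (b_cont.pow 2).integrable_of_hasCompactSupport ?_
    refine HasCompactSupport.intro b_compact.isCompact fun x hx => ?_
    show b x ^ 2 = 0
    rw [image_eq_zero_of_notMem_tsupport hx]; ring
  set β := ∫ t, b t ^ 2 with hβ
  have hβ0 : 0 ≤ β := integral_nonneg fun t => sq_nonneg _
  have hbB : ∀ t, B < |t| → b t = 0 := by
    intro t ht
    by_contra h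
    have := b_supp h
    linarith
  refine ⟨16 * R * B + 32 * B * R ^ 2 * β, by positivity, fun f hf hs => ?_⟩
  have hfc : Continuous f := hf.1.continuous
  have hfB1 : ∀ t y, R < |t| → f (t, y) = 0 := by
    intro t y ht
    by_contra h
    exact absurd (hs _ h).1 (not_le.2 ht)
  have hfB2 : ∀ t y, R < |y| → f (t, y) = 0 := by
    intro t y ht
    by_contra h
    exact absurd (hs _ h).2 (not_le.2 ht)
  have hfc1 : ∀ y, Continuous fun s => f (s, y) := fun y =>
    hfc.comp (continuous_id.prodMk continuous_const)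
  have hswap : ContDiff ℝ ((⊤ : ℕ∞) : WithTop ℕ∞) (fun x : ℝ × ℝ => f x.swap) :=
    hf.1.comp (contDiff_snd.prodMk contDiff_fst)
  have hf2c : HasCompactSupport fun x => f x ^ 2 := by
    refine HasCompactSupport.intro hf.2.isCompact fun x hx => ?_
    show f x ^ 2 = 0
    rw [image_eq_zero_of_notMem_tsupport hx]; ring
  have if1 : Integrable f := hfc.integrable_of_hasCompactSupport hf.2
  have if2 : Integrable fun x => f x ^ 2 := (hfc.pow 2).integrable_of_hasCompactSupport hf2c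
  set S := ∫ x, f x ^ 2 with hSd
  have hS0 : 0 ≤ S := integral_nonneg fun x => sq_nonneg _
  set m := ∫ x, f x with hm
  -- the marginals
  obtain ⟨r, hr⟩ : ∃ r : ℝ → ℝ, ∀ y, r y = ∫ s, f (s, y) := ⟨_, fun _ => rfl⟩
  obtain ⟨q, hq⟩ : ∃ q : ℝ → ℝ, ∀ y, q y = ∫ s, f (s, y) ^ 2 := ⟨_, fun _ => rfl⟩
  have hrs : ContDiff ℝ ((⊤ : ℕ∞) : WithTop ℕ∞) r := by
    have h1 := marg_smooth hswap (B := R) (fun t y hy => hfB1 y t hy)
    have : r = fun t => ∫ y, f (y, t) := funext hr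
    rw [this]
    exact h1
  have hrc := hrs.continuous
  have hrR : ∀ y, R < |y| → r y = 0 := by
    intro y hy
    rw [hr]
    have : (fun s => f (s, y)) = fun _ => 0 := by funext s; exact hfB2 s y hy
    rw [this]; simp
  have iq : Integrable q := by
    have := Integrable.integral_prod_right (μ := (volume : Measure ℝ))
      (ν := (volume : Measure ℝ)) (f := fun x => f x ^ 2) if2
    exact this.congr (Eventually.of_forall fun y => (hq y).symm)
  have hqS : ∫ y, q y = S := by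
    have e1 := integral_prod_symm (μ := (volume : Measure ℝ)) (ν := (volume : Measure ℝ))
      (fun x => f x ^ 2) if2
    rw [← Measure.volume_eq_prod] at e1
    rw [hSd, e1]
    exact integral_congr_ae (Eventually.of_forall fun y => hq y)
  have hq0 : ∀ y, 0 ≤ q y := fun y => by rw [hq]; exact integral_nonneg fun s => sq_nonneg _
  have hrm : ∫ y, r y = m := by
    have h1 := integral_prod_symm (μ := (volume : Measure ℝ)) (ν := (volume : Measure ℝ)) f if1
    rw [← Measure.volume_eq_prod] at h1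
    rw [hm, h1]
    exact integral_congr_ae (Eventually.of_forall fun y => hr y)
  have habs : ∀ y, (∫ s, |f (s, y)|) ^ 2 ≤ 2 * R * q y := by
    intro y
    have h1 := cs_line (g := fun s => |f (s, y)|) (hfc1 y).abs (z := 0) hR (fun s hs' => by
      rw [sub_zero]
      exact (hs _ (abs_ne_zero.1 hs')).1)
    simp only [sq_abs] at h1
    rw [hq]
    exact h1
  have hr2 : ∀ y, r y ^ 2 ≤ 2 * R * q y := by
    intro y
    refine le_trans ?_ (habs y)
    rw [hr, ← sq_abs]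
    exact pow_le_pow_left₀ (abs_nonneg _) abs_integral_le_integral_abs 2
  have ir : Integrable r := hrc.integrable_of_hasCompactSupport (supp_line hrR)
  have ir2 : Integrable fun y => r y ^ 2 :=
    (hrc.pow 2).integrable_of_hasCompactSupport
      (supp_line (B := R) fun y hy => by
        show r y ^ 2 = 0
        rw [hrR y hy]; ring)
  have hA : (∫ y, |r y|) ^ 2 ≤ 4 * R ^ 2 * S := by
    have h1 := cs_line (g := fun y => |r y|) hrc.abs (z := 0) hR (fun s hs' => by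
      rw [sub_zero]
      by_contra h
      exact hs' (by rw [hrR s (not_le.1 h), abs_zero]))
    simp only [sq_abs] at h1
    have h2 : ∫ y, r y ^ 2 ≤ 2 * R * S := by
      rw [← hqS, ← integral_const_mul]
      exact integral_mono ir2 (iq.const_mul _) hr2
    calc (∫ y, |r y|) ^ 2 ≤ 2 * R * ∫ y, r y ^ 2 := h1
      _ ≤ 2 * R * (2 * R * S) := mul_le_mul_of_nonneg_left h2 (by positivity)
      _ = _ := by ring
  have hmA : |m| ≤ ∫ y, |r y| := by rw [← hrm]; exact abs_integral_le_integral_abs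
  have hA0 : 0 ≤ ∫ y, |r y| := integral_nonneg fun y => abs_nonneg _
  have hm2 : m ^ 2 ≤ 4 * R ^ 2 * S := by
    rw [← sq_abs]
    exact (pow_le_pow_left₀ (abs_nonneg _) hmA 2).trans hA
  -- the first potential
  obtain ⟨F₁, hF₁⟩ : ∃ F₁ : ℝ × ℝ → ℝ, ∀ x, F₁ x = f x - r x.2 * b x.1 := ⟨_, fun _ => rfl⟩
  have hF₁f : F₁ = fun x => f x - r x.2 * b x.1 := funext hF₁
  have hF₁s : ContDiff ℝ ((⊤ : ℕ∞) : WithTop ℕ∞) F₁ := by
    rw [hF₁f]
    exact hf.1.sub ((hrs.comp contDiff_snd).mul (b_smooth.comp contDiff_fst))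
  have hF₁0 : ∀ x : ℝ × ℝ, B < |x.1| ∨ R < |x.2| → F₁ x = 0 := by
    rintro ⟨t, y⟩ (h | h)
    · rw [hF₁, hfB1 t y (by simp only at h; linarith)]
      show 0 - r y * b t = 0
      rw [hbB t h]; ring
    · rw [hF₁, hfB2 t y h]
      show 0 - r y * b t = 0
      rw [hrR y h]; ring
  have hcomp : ∀ {u : ℝ × ℝ → ℝ}, (∀ x : ℝ × ℝ, B < |x.1| ∨ B < |x.2| → u x = 0) →
      HasCompactSupport u := by
    intro u hu
    refine HasCompactSupport.intro
      ((isCompact_Icc (a := -B) (b := B)).prod (isCompact_Icc (a := -B) (b := B))) ?_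
    intro x hx
    by_contra h
    have h1 : |x.1| ≤ B := by
      by_contra h2
      exact h (hu x (Or.inl (not_le.1 h2)))
    have h2 : |x.2| ≤ B := by
      by_contra h3
      exact h (hu x (Or.inr (not_le.1 h3)))
    exact hx ⟨abs_le.1 h1, abs_le.1 h2⟩
  have hRB : R < B := by rw [hB]; linarith
  have hF₁c : HasCompactSupport F₁ := hcomp fun x hx => hF₁0 x (by
    rcases hx with h | h
    · exact Or.inl h
    · exact Or.inr (by linarith))
  have hF₁c1 : ∀ y, Continuous fun s => F₁ (s, y) := fun y =>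
    hF₁s.continuous.comp (continuous_id.prodMk continuous_const)
  have hF₁B : ∀ y s, B < |s| → F₁ (s, y) = 0 := fun y s h => hF₁0 (s, y) (Or.inl h)
  have hF₁i : ∀ y, ∫ s, F₁ (s, y) = 0 := by
    intro y
    have i1 : Integrable fun s => f (s, y) :=
      (hfc1 y).integrable_of_hasCompactSupport (supp_line (B := R) fun s h => hfB1 s y h)
    have i2 : Integrable b := b_cont.integrable_of_hasCompactSupport b_compact
    have e : ∀ s, F₁ (s, y) = f (s, y) - r y * b s := fun s => hF₁ _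
    simp only [e]
    rw [integral_sub i1 (i2.const_mul _), integral_const_mul, b_int, ← hr]
    ring
  obtain ⟨Ψ, hΨ⟩ : ∃ Ψ : ℝ × ℝ → ℝ, ∀ x, Ψ x = ∫ u in (-B)..x.1, F₁ (u, x.2) := ⟨_, fun _ => rfl⟩
  have hΨf : Ψ = fun x => ∫ u in (-B)..x.1, F₁ (u, x.2) := funext hΨ
  have hΨs : ContDiff ℝ ((⊤ : ℕ∞) : WithTop ℕ∞) Ψ := by
    rw [hΨf]
    exact (prim_smooth (F := fun x => F₁ x.swap) (B := B)
      (hF₁s.comp (contDiff_snd.prodMk contDiff_fst)) (fun t y hy => hF₁B t y hy)).comp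
      (contDiff_snd.prodMk contDiff_fst)
  have hΨ0 : ∀ t y, B < |t| → Ψ (t, y) = 0 := by
    intro t y ht
    rw [hΨ]
    exact interval_full (hF₁c1 y) (hF₁B y) (hF₁i y) ht
  have hΨb : ∀ t y, Ψ (t, y) ^ 2 ≤ 8 * R * q y := by
    intro t y
    have h1 : |Ψ (t, y)| ≤ ∫ s, |F₁ (s, y)| := by
      rw [hΨ]
      exact prim_abs (hF₁c1 y) (hF₁B y) t
    have i1 : Integrable fun s => |f (s, y)| :=
      ((hfc1 y).integrable_of_hasCompactSupport (supp_line (B := R) fun s h => hfB1 s y h)).abs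
    have i2 : Integrable b := b_cont.integrable_of_hasCompactSupport b_compact
    have h2 : ∫ s, |F₁ (s, y)| ≤ ∫ s, (|f (s, y)| + |r y| * b s) := by
      refine integral_mono ((hF₁c1 y).integrable_of_hasCompactSupport
        (supp_line (hF₁B y))).abs (i1.add (i2.const_mul _)) fun s => ?_
      simp only
      rw [hF₁]
      refine (abs_sub _ _).trans ?_
      rw [abs_mul, abs_of_nonneg (b_nonneg _)]
    rw [integral_add i1 (i2.const_mul _), integral_const_mul, b_int, mul_one] at h2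
    have h3 : |r y| ≤ ∫ s, |f (s, y)| := by
      rw [hr]; exact abs_integral_le_integral_abs
    have h4 : |Ψ (t, y)| ≤ 2 * ∫ s, |f (s, y)| := by linarith
    have h5 := pow_le_pow_left₀ (abs_nonneg _) h4 2
    rw [sq_abs, mul_pow] at h5
    have h6 := habs y
    nlinarith
  have hΨc : HasCompactSupport Ψ := hcomp fun x hx => by
    obtain ⟨t, y⟩ := x
    rcases hx with h | h
    · exact hΨ0 t y h
    · have h1 := hΨb t y
      have h2 : q y = 0 := by
        rw [hq]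
        have : (fun s => f (s, y) ^ 2) = fun _ => 0 := by
          funext s
          rw [hfB2 s y (by simp only at h; linarith)]; ring
        rw [this]; simp
      rw [h2, mul_zero] at h1
      have h3 : Ψ (t, y) ^ 2 = 0 := le_antisymm h1 (sq_nonneg _)
      exact pow_eq_zero_iff (two_ne_zero) |>.1 h3
  -- the second potential
  obtain ⟨v, hv⟩ : ∃ v : ℝ → ℝ, ∀ y, v y = r y - m * b y := ⟨_, fun _ => rfl⟩
  have hvf : v = fun y => r y - m * b y := funext hv
  have hvs : ContDiff ℝ ((⊤ : ℕ∞) : WithTop ℕ∞) v := by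
    rw [hvf]
    exact hrs.sub (contDiff_const.mul b_smooth)
  have hvB : ∀ y, B < |y| → v y = 0 := by
    intro y hy
    rw [hv, hrR y (by linarith), hbB y hy]; ring
  have ib : Integrable b := b_cont.integrable_of_hasCompactSupport b_compact
  have hvi : ∫ y, v y = 0 := by
    simp only [hv]
    rw [integral_sub ir (ib.const_mul _), integral_const_mul, b_int, hrm]
    ring
  obtain ⟨p, hp⟩ : ∃ p : ℝ → ℝ, ∀ y, p y = ∫ u in (-B)..y, v u := ⟨_, fun _ => rfl⟩
  have hpf : p = fun y => ∫ u in (-B)..y, v u := funext hp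
  have hpd : ∀ y, HasDerivAt p (v y) y := fun y => by
    rw [hpf]; exact deriv_conv hvs.continuous B y
  have hps : ContDiff ℝ ((⊤ : ℕ∞) : WithTop ℕ∞) p := by
    rw [contDiff_infty_iff_deriv]
    refine ⟨fun y => (hpd y).differentiableAt, ?_⟩
    have e : deriv p = v := funext fun y => (hpd y).deriv
    rw [e]
    exact hvs
  have hp0 : ∀ y, B < |y| → p y = 0 := fun y hy => by
    rw [hp]; exact interval_full hvs.continuous hvB hvi hy
  have hpb : ∀ y, p y ^ 2 ≤ 16 * R ^ 2 * S := by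
    intro y
    have h1 : |p y| ≤ ∫ s, |v s| := by
      rw [hp]; exact prim_abs hvs.continuous hvB y
    have h2 : ∫ s, |v s| ≤ ∫ s, (|r s| + |m| * b s) := by
      refine integral_mono (hvs.continuous.integrable_of_hasCompactSupport
        (supp_line hvB)).abs (ir.abs.add (ib.const_mul _)) fun s => ?_
      simp only
      rw [hv]
      refine (abs_sub _ _).trans ?_
      rw [abs_mul, abs_of_nonneg (b_nonneg _)]
    rw [integral_add ir.abs (ib.const_mul _), integral_const_mul, b_int, mul_one] at h2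
    have h4 : |p y| ≤ 2 * ∫ s, |r s| := by linarith
    have h5 := pow_le_pow_left₀ (abs_nonneg _) h4 2
    rw [sq_abs, mul_pow] at h5
    nlinarith
  refine ⟨Ψ, fun x => b x.1 * p x.2, F₁, fun x => b x.1 * v x.2, ⟨hΨs, hΨc⟩,
    ⟨(b_smooth.comp contDiff_fst).mul (hps.comp contDiff_snd), ?_⟩, ⟨hF₁s, hF₁c⟩,
    ⟨(b_smooth.comp contDiff_fst).mul (hvs.comp contDiff_snd), ?_⟩, ?_, ?_, ?_, ?_, ?_, hm2⟩
  · refine hcomp fun x hx => ?_
    rcases hx with h | h
    · show b x.1 * p x.2 = 0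
      rw [hbB _ h, zero_mul]
    · show b x.1 * p x.2 = 0
      rw [hp0 _ h, mul_zero]
  · refine hcomp fun x hx => ?_
    rcases hx with h | h
    · show b x.1 * v x.2 = 0
      rw [hbB _ h, zero_mul]
    · show b x.1 * v x.2 = 0
      rw [hvB _ h, mul_zero]
  · intro t y
    have e : (fun t => Ψ (t, y)) = fun t => ∫ u in (-B)..t, F₁ (u, y) := by
      funext t; exact hΨ _
    rw [e]
    exact deriv_conv (hF₁c1 y) B t
  · intro t y
    exact (hpd y).const_mul (b t)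
  · intro x
    show f x = m * (b x.1 * b x.2) + F₁ x + b x.1 * v x.2
    rw [hF₁, hv]
    ring
  · set I := Set.Icc (-B) B with hI
    have hvol : (volume : Measure ℝ).real I = 2 * B := by
      rw [hI, Real.volume_real_Icc_of_le (by linarith)]; ring
    have iI : Integrable (I.indicator fun _ : ℝ => (1 : ℝ)) :=
      (integrable_indicator_iff measurableSet_Icc).2
        (integrableOn_const isCompact_Icc.measure_lt_top.ne)
    have i1 : Integrable (fun x : ℝ × ℝ => I.indicator (fun _ => (1 : ℝ)) x.1 * (8 * R * q x.2)) := by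
      rw [Measure.volume_eq_prod]
      exact iI.mul_prod (iq.const_mul _)
    have iΨ : Integrable fun x => Ψ x ^ 2 := by
      refine (hΨs.continuous.pow 2).integrable_of_hasCompactSupport ?_
      refine HasCompactSupport.intro hΨc.isCompact fun x hx => ?_
      show Ψ x ^ 2 = 0
      rw [image_eq_zero_of_notMem_tsupport hx]; ring
    have h1 : ∫ x, Ψ x ^ 2 ≤ ∫ x : ℝ × ℝ, I.indicator (fun _ => (1 : ℝ)) x.1 * (8 * R * q x.2) := by
      refine integral_mono iΨ i1 ?_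
      rintro ⟨t, y⟩
      simp only
      by_cases ht : t ∈ I
      · rw [Set.indicator_of_mem ht, one_mul]
        exact hΨb t y
      · rw [Set.indicator_of_notMem ht, zero_mul, hΨ0 t y (by
          by_contra h
          exact ht (abs_le.1 (not_lt.1 h)))]
        simp
    have h2 : ∫ x : ℝ × ℝ, I.indicator (fun _ => (1 : ℝ)) x.1 * (8 * R * q x.2) =
        (2 * B) * (8 * R * S) := by
      rw [Measure.volume_eq_prod,
        integral_prod_mul (fun t => I.indicator (fun _ => (1 : ℝ)) t) (fun y => 8 * R * q y),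
        integral_const_mul, hqS]
      congr 1
      rw [integral_indicator measurableSet_Icc, setIntegral_const, hvol, smul_eq_mul, mul_one]
    have h3 : 0 ≤ 32 * B * R ^ 2 * β * S := by positivity
    calc ∫ x, Ψ x ^ 2 ≤ (2 * B) * (8 * R * S) := h1.trans (le_of_eq h2)
      _ ≤ _ := by linarith
  · have e : ∀ x : ℝ × ℝ, (b x.1 * p x.2) ^ 2 = b x.1 ^ 2 * p x.2 ^ 2 := fun x => by ring
    simp only [e]
    rw [Measure.volume_eq_prod, integral_prod_mul (fun t => b t ^ 2) (fun y => p y ^ 2)]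
    set I := Set.Icc (-B) B with hI
    have hvol : (volume : Measure ℝ).real I = 2 * B := by
      rw [hI, Real.volume_real_Icc_of_le (by linarith)]; ring
    have iI : Integrable (I.indicator fun _ : ℝ => (16 * R ^ 2 * S : ℝ)) :=
      (integrable_indicator_iff measurableSet_Icc).2
        (integrableOn_const isCompact_Icc.measure_lt_top.ne)
    have ip2 : Integrable fun y => p y ^ 2 :=
      (hps.continuous.pow 2).integrable_of_hasCompactSupport
        (supp_line (B := B) fun y hy => by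
          show p y ^ 2 = 0
          rw [hp0 y hy]; ring)
    have h1 : ∫ y, p y ^ 2 ≤ 2 * B * (16 * R ^ 2 * S) := by
      have h2 : ∫ y, p y ^ 2 ≤ ∫ y, I.indicator (fun _ : ℝ => (16 * R ^ 2 * S : ℝ)) y := by
        refine integral_mono ip2 iI fun y => ?_
        simp only
        by_cases hy : y ∈ I
        · rw [Set.indicator_of_mem hy]
          exact hpb y
        · rw [Set.indicator_of_notMem hy, hp0 y (by
            by_contra h
            exact hy (abs_le.1 (not_lt.1 h)))]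
          simp
      refine h2.trans (le_of_eq ?_)
      rw [integral_indicator measurableSet_Icc, setIntegral_const, hvol, smul_eq_mul]
    have h3 : 0 ≤ 16 * R * B * S := by positivity
    calc β * ∫ y, p y ^ 2 ≤ β * (2 * B * (16 * R ^ 2 * S)) := mul_le_mul_of_nonneg_left h1 hβ0
      _ ≤ _ := by nlinarith

/-! ### Pairs with different masses -/

section

variable {P : Measure (Ori (ℤ × ℤ))} [IsProbabilityMeasure P]

omit [IsProbabilityMeasure P] in
lemma Neg.const_mul {X : ℝ → Ori (ℤ × ℤ) → ℝ} (hX : Neg P X) (c : ℝ) :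
    Neg P (fun δ ω => c * X δ ω) where
  meas := by
    filter_upwards [hX.meas] with δ h1 using h1.const_mul c
  bdd := by
    obtain ⟨K, hK0, hK⟩ := hX.bdd
    refine ⟨|c| * K, by positivity, ?_⟩
    filter_upwards [hK] with δ h1
    filter_upwards [h1] with ω h2
    rw [abs_mul]
    exact mul_le_mul_of_nonneg_left h2 (abs_nonneg _)
  lim := by
    have h := hX.lim.const_mul |c|
    rw [mul_zero] at h
    refine h.congr fun δ => ?_
    rw [← integral_const_mul]
    refine integral_congr_ae (Eventually.of_forall fun ω => ?_)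
    simp only
    rw [abs_mul]

/-- The normalisation is harmless. -/
theorem neg_norm' (hP : Hyp P) {φ g : ℝ × ℝ → ℝ} (hφ : Sm φ) (hg : Sm g) (h0 : ∫ x, g x ≠ 0) :
    Neg P (fun δ ω => ((∫ x, φ x) / (∫ x, g x) - sm δ φ / sm δ g) * fld (Hc ω) δ g) := by
  obtain ⟨K1, hK1, h1⟩ := sm_rate hφ
  obtain ⟨K2, hK2, h2⟩ := sm_rate hg
  obtain ⟨R, F, L, hR0, hF0, hL0, hR, hF, hL, hi, hc, hs⟩ := rot_const hg
  set m : ℝ := |∫ x, g x| with hm
  have hm0 : 0 < m := abs_pos.2 h0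
  set c : ℝ := (∫ x, φ x) / (∫ x, g x) with hcd
  set K3 : ℝ := |c| * K2 + K1 with hK3
  have hK30 : 0 ≤ K3 := by positivity
  -- the ratio
  have hr : ∀ᶠ δ in 𝓝[>] (0 : ℝ), |c - sm δ φ / sm δ g| ≤ 2 * K3 / m * δ := by
    have hlim := (sm_tendsto hg).abs
    have hev := hlim.eventually_const_lt (show m / 2 < |∫ x, g x| by rw [← hm]; linarith)
    filter_upwards [hev, self_mem_nhdsWithin,
      mem_nhdsWithin_of_mem_nhds (Iic_mem_nhds one_pos)] with δ h3 hδ hδ1
    have hδ0 : 0 < δ := hδ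
    have h4 : sm δ g ≠ 0 := by
      intro h
      rw [h, abs_zero] at h3
      linarith
    have e : c - sm δ φ / sm δ g = (c * sm δ g - sm δ φ) / sm δ g := by
      field_simp
    rw [e, abs_div, div_le_iff₀ (abs_pos.2 h4)]
    have h5 : |c * sm δ g - sm δ φ| ≤ K3 * δ := by
      have e3 : c * ∫ x, g x = ∫ x, φ x := by rw [hcd]; field_simp
      have e2 : c * sm δ g - sm δ φ = c * (sm δ g - ∫ x, g x) - (sm δ φ - ∫ x, φ x) := by
        rw [mul_sub, e3]; ring
      rw [e2]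
      refine (abs_sub _ _).trans ?_
      rw [abs_mul, hK3]
      have a1 := mul_le_mul_of_nonneg_left (h2 δ hδ0 hδ1) (abs_nonneg c)
      have a2 := h1 δ hδ0 hδ1
      linarith
    refine h5.trans ?_
    have h6 : 2 * K3 / m * δ * (m / 2) ≤ 2 * K3 / m * δ * |sm δ g| :=
      mul_le_mul_of_nonneg_left h3.le (by positivity)
    refine le_trans (le_of_eq ?_) h6
    field_simp
  set κ : ℝ := 2 * K3 / m * (2 * F) with hκ
  have hκ0 : 0 ≤ κ := by positivity
  obtain ⟨u, hu, hu2⟩ := small_lim hP hR0 κ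
  have hform : ∀ δ : ℝ, 0 < δ → ∀ ω, (c - sm δ φ / sm δ g) * fld (Hc ω) δ g =
      ∑ q ∈ hbox (NN R δ + 1), FP.ev q * ((pth ω q : ℝ) *
        ((c - sm δ φ / sm δ g) * (2 * δ ^ 2 * rot g (δ * q.1, δ * q.2)))) := by
    intro δ hδ ω
    have hN := NN_ge R δ
    rw [fld_eq (h := pth ω) (H := Hc ω) (fun v => rfl) hR hδ (N := NN R δ + 1)
      (by push_cast; linarith)]
    unfold xs
    rw [Finset.mul_sum, Finset.mul_sum]
    exact Finset.sum_congr rfl fun q _ => by ring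
  have hsmall : ∀ δ : ℝ, 0 < δ → |c - sm δ φ / sm δ g| ≤ 2 * K3 / m * δ → ∀ q : ℤ × ℤ,
      |(c - sm δ φ / sm δ g) * (2 * δ ^ 2 * rot g (δ * q.1, δ * q.2))| ≤ κ * δ ^ 3 := by
    intro δ hδ h3 q
    rw [abs_mul, abs_mul, abs_of_nonneg (by positivity : (0 : ℝ) ≤ 2 * δ ^ 2)]
    calc |c - sm δ φ / sm δ g| * (2 * δ ^ 2 * |rot g (δ * q.1, δ * q.2)|)
        ≤ (2 * K3 / m * δ) * (2 * δ ^ 2 * F) := by
          refine mul_le_mul h3 (mul_le_mul_of_nonneg_left (hF _) (by positivity)) (by positivity)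
            (by positivity)
      _ = κ * δ ^ 3 := by rw [hκ]; ring
  refine ⟨?_, ⟨(2 * R + 7) ^ 3 * κ, by positivity, ?_⟩, ?_⟩
  · filter_upwards [self_mem_nhdsWithin] with δ hδ
    have hδ0 : 0 < δ := hδ
    exact ((fld_integrable hg.2 hδ0).const_mul _).aestronglyMeasurable
  · filter_upwards [hr, self_mem_nhdsWithin,
      mem_nhdsWithin_of_mem_nhds (Iic_mem_nhds one_pos)] with δ h3 hδ hδ1
    refine Eventually.of_forall fun ω => ?_
    rw [hform δ hδ ω]
    exact small_bdd hR0 hδ hδ1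
      (K := fun q => (c - sm δ φ / sm δ g) * (2 * δ ^ 2 * rot g (δ * q.1, δ * q.2)))
      (hsmall δ hδ h3) ω
  · refine tendsto_of_tendsto_of_tendsto_of_le_of_le' tendsto_const_nhds hu
      (Eventually.of_forall fun δ => integral_nonneg fun ω => abs_nonneg _) ?_
    filter_upwards [hr, self_mem_nhdsWithin,
      mem_nhdsWithin_of_mem_nhds (Iic_mem_nhds one_pos)] with δ h3 hδ hδ1
    simp only [hform δ hδ]
    exact hu2 δ hδ hδ1
      (fun q => (c - sm δ φ / sm δ g) * (2 * δ ^ 2 * rot g (δ * q.1, δ * q.2)))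
      (hsmall δ hδ h3)

/-- Moments of the neutral combination of two test functions. -/
theorem pair_moment' (hP : Hyp P) {φ g : ℝ × ℝ → ℝ} (hφ : Sm φ) (hg : Sm g)
    (h0 : ∫ x, g x ≠ 0) {k : ℕ} {B : ℝ}
    (hB : ∀ᶠ δ in 𝓝[>] (0 : ℝ),
      Integrable (fun ω => hint (pth ω) δ (fun x => rot φ x -
        ((∫ x, φ x) / (∫ x, g x)) * rot g x) ^ (2 * k)) P ∧
        ∫ ω, hint (pth ω) δ (fun x => rot φ x -
          ((∫ x, φ x) / (∫ x, g x)) * rot g x) ^ (2 * k) ∂P ≤ B) {η : ℝ}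
    (hη : 0 < η) : ∀ᶠ δ in 𝓝[>] (0 : ℝ),
      Integrable (fun ω => (fld (Hc ω) δ φ - sm δ φ / sm δ g * fld (Hc ω) δ g) ^ (2 * k)) P ∧
        ∫ ω, (fld (Hc ω) δ φ - sm δ φ / sm δ g * fld (Hc ω) δ g) ^ (2 * k) ∂P ≤
          2 ^ (2 * k) * (B + η) := by
  obtain ⟨R, F, L, hR0, hF0, hL0, hR, hF, hL, hi, hc, hs⟩ := rot_const hφ
  obtain ⟨R', F', L', hR0', hF0', hL0', hR', hF', hL', hi', hc', hs'⟩ := rot_const hg
  set c : ℝ := (∫ x, φ x) / (∫ x, g x) with hcd
  have hN : Neg P (fun δ ω => (fld (Hc ω) δ φ - hint (pth ω) δ (rot φ)) +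
      ((-c) * (fld (Hc ω) δ g - hint (pth ω) δ (rot g)) +
        (c - sm δ φ / sm δ g) * fld (Hc ω) δ g)) :=
    (neg_fld hP hφ).add (((neg_fld hP hg).const_mul (-c)).add (neg_norm' hP hφ hg h0))
  have hsc : Continuous fun x => c * rot g x := continuous_const.mul hc'
  have hss : HasCompactSupport fun x => c * rot g x := hs'.mul_left
  have hmul : ∀ (δ : ℝ) (ω : Ori (ℤ × ℤ)), hint (pth ω) δ (fun x => c * rot g x) =
      c * hint (pth ω) δ (rot g) := by
    intro δ ω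
    unfold hint
    rw [← integral_const_mul]
    refine integral_congr_ae (Eventually.of_forall fun x => ?_)
    simp only
    ring
  have hsub : ∀ δ : ℝ, 0 < δ → ∀ ω, hint (pth ω) δ (fun x => rot φ x - c * rot g x) =
      hint (pth ω) δ (rot φ) - c * hint (pth ω) δ (rot g) := by
    intro δ hδ ω
    have h1 := P152.GFF.S.hint_add (pth ω) hδ (F := fun x => rot φ x - c * rot g x)
      (G := fun x => c * rot g x) (hc.sub hsc) (hs.sub hss) hsc hss
    simp only [sub_add_cancel] at h1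
    rw [hmul] at h1
    linarith
  have h := moment_add hN (Y := fun δ ω => hint (pth ω) δ (fun x => rot φ x - c * rot g x))
    (by
      filter_upwards [self_mem_nhdsWithin] with δ hδ
      exact (hint_integrable (hc.sub hsc) (hs.sub hss) hδ).aestronglyMeasurable) hB hη
  filter_upwards [h, self_mem_nhdsWithin] with δ h1 hδ
  have e : ∀ ω, hint (pth ω) δ (fun x => rot φ x - c * rot g x) +
      ((fld (Hc ω) δ φ - hint (pth ω) δ (rot φ)) +
      ((-c) * (fld (Hc ω) δ g - hint (pth ω) δ (rot g)) +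
        (c - sm δ φ / sm δ g) * fld (Hc ω) δ g)) =
      fld (Hc ω) δ φ - sm δ φ / sm δ g * fld (Hc ω) δ g := by
    intro ω
    rw [hsub δ hδ ω]
    ring
  simpa only [e] using h1

lemma sq_int_le {A₁ A₂ : ℝ × ℝ → ℝ} (h₁ : Sm A₁) (h₂ : Sm A₂) (c : ℝ) :
    ∫ x, (A₁ x - c * A₂ x) ^ 2 ≤ 2 * (∫ x, A₁ x ^ 2) + 2 * c ^ 2 * ∫ x, A₂ x ^ 2 := by
  have hi : ∀ {A : ℝ × ℝ → ℝ}, Sm A → Integrable fun x => A x ^ 2 := by
    intro A hA
    refine (hA.1.continuous.pow 2).integrable_of_hasCompactSupport ?_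
    refine HasCompactSupport.intro hA.2.isCompact fun x hx => ?_
    show A x ^ 2 = 0
    rw [image_eq_zero_of_notMem_tsupport hx]; ring
  have h3 : Sm fun x => A₁ x - c * A₂ x := ⟨h₁.1.sub (contDiff_const.mul h₂.1), h₁.2.sub h₂.2.mul_left⟩
  rw [← integral_const_mul, ← integral_const_mul, ← integral_add ((hi h₁).const_mul _)
    ((hi h₂).const_mul _)]
  refine integral_mono (hi h3) (((hi h₁).const_mul _).add ((hi h₂).const_mul _)) fun x => ?_
  simp only
  nlinarith [sq_nonneg (A₁ x + c * A₂ x)]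

/-- **All moments of the neutral combination of a test function and a fixed one.** -/
theorem gen_quant (hP : Hyp P) {C γ : ℝ} (hC : 0 ≤ C) (hγ : 0 < γ) (hE : EGD P C γ)
    (hS : SymM P) {i : ℝ × ℝ → ℝ} (hi : Sm i) (hi0 : ∫ x, i x ≠ 0) {R : ℝ} (hR : 0 < R) (k : ℕ) :
    ∃ K : ℝ, 0 ≤ K ∧ ∀ φ : ℝ × ℝ → ℝ, Sm φ → (∀ x, φ x ≠ 0 → |x.1| ≤ R ∧ |x.2| ≤ R) →
      ∀ ε : ℝ, 0 < ε → ∀ᶠ δ in 𝓝[>] (0 : ℝ),
      Integrable (fun ω => (fld (Hc ω) δ φ - sm δ φ / sm δ i * fld (Hc ω) δ i) ^ (2 * k)) P ∧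
        ∫ ω, (fld (Hc ω) δ φ - sm δ φ / sm δ i * fld (Hc ω) δ i) ^ (2 * k) ∂P ≤
          K * ((∫ x, φ x ^ 2) + ε) ^ k := by
  obtain ⟨R₁, F, L, hR10, hF0, hL0, hR1, hF, hL, _, _, _⟩ := rot_const hi
  set R' : ℝ := max (2 * R) R₁ with hR'
  have hR'0 : 0 < R' := lt_max_of_lt_right hR10
  obtain ⟨K, hK, hdec⟩ := decomp_quant hR'0
  obtain ⟨Ψi, Φi, G₁, G₂, hΨi, hΦi, hG₁, hG₂, di₁, di₂, ei, bi₁, bi₂, _⟩ := hdec (rot i) (rot_sm hi)
    (fun x hx => ⟨(hR1 x hx).1.trans (le_max_right _ _), (hR1 x hx).2.trans (le_max_right _ _)⟩)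
  set mi : ℝ := ∫ x, rot i x with hmi
  have hmi0 : mi ≠ 0 := by
    rw [hmi, int_rot]
    exact mul_ne_zero (by norm_num) hi0
  set Si : ℝ := ∫ x, rot i x ^ 2 with hSi
  have hSi0 : 0 ≤ Si := integral_nonneg fun x => sq_nonneg _
  set K1 : ℝ := 2 * K * (1 + 4 * R' ^ 2 / mi ^ 2 * Si) with hK1
  have hK10 : 0 ≤ K1 := by positivity
  set K2 : ℝ := K1 / 8 + 1 with hK2
  have hK20 : 0 ≤ K2 := by positivity
  have hDD := DD_nonneg C k
  refine ⟨2 ^ (2 * k) * (2 ^ (2 * k) * (DD C k + DD C k) + 1) * K2 ^ k, by positivity,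
    fun φ hφ hs ε hε => ?_⟩
  have hrs : ∀ x, rot φ x ≠ 0 → |x.1| ≤ R' ∧ |x.2| ≤ R' := by
    intro x hx
    unfold rot at hx
    obtain ⟨h1, h2⟩ := hs _ (right_ne_zero_of_mul hx)
    simp only at h1 h2
    have h3 := le_max_left (2 * R) R₁
    rw [← hR'] at h3
    rw [abs_le] at h1 h2 ⊢
    rw [abs_le]
    refine ⟨⟨?_, ?_⟩, ⟨?_, ?_⟩⟩ <;> linarith [h1.1, h1.2, h2.1, h2.2]
  obtain ⟨Ψ, Φ, F₁, F₂, hΨ, hΦ, hF₁, hF₂, d₁, d₂, ef, b₁, b₂, hm⟩ := hdec (rot φ) (rot_sm hφ) hrs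
  set m : ℝ := ∫ x, rot φ x with hmd
  set c : ℝ := (∫ x, φ x) / (∫ x, i x) with hc
  have hcm : c = m / mi := by
    rw [hc, hmd, hmi, int_rot, int_rot]
    rw [mul_div_mul_left _ _ (by norm_num : (1 / 2 : ℝ) ≠ 0)]
  set S : ℝ := ∫ x, rot φ x ^ 2 with hSd
  have hS0 : 0 ≤ S := integral_nonneg fun x => sq_nonneg _
  have hc2 : c ^ 2 ≤ 4 * R' ^ 2 / mi ^ 2 * S := by
    rw [hcm, div_pow, div_le_iff₀ (by positivity)]
    refine hm.trans (le_of_eq ?_)
    field_simp
  have hbd : ∀ {A₁ A₂ : ℝ × ℝ → ℝ}, Sm A₁ → Sm A₂ → ∫ x, A₁ x ^ 2 ≤ K * S →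
      ∫ x, A₂ x ^ 2 ≤ K * Si → ∫ x, (A₁ x - c * A₂ x) ^ 2 ≤ K1 * S := by
    intro A₁ A₂ h₁ h₂ h3 h4
    refine (sq_int_le h₁ h₂ c).trans ?_
    have h5 : c ^ 2 * ∫ x, A₂ x ^ 2 ≤ (4 * R' ^ 2 / mi ^ 2 * S) * (K * Si) :=
      mul_le_mul hc2 h4 (integral_nonneg fun x => sq_nonneg _) (by positivity)
    rw [hK1]
    nlinarith
  have hmom := moment_div hC hγ hE hP.ice hS (Ψ := fun x => Ψ x - c * Ψi x)
    (Φ := fun x => Φ x - c * Φi x) (F₁ := fun x => F₁ x - c * G₁ x)
    (F₂ := fun x => F₂ x - c * G₂ x)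
    ⟨hΨ.1.sub (contDiff_const.mul hΨi.1), hΨ.2.sub hΨi.2.mul_left⟩
    ⟨hΦ.1.sub (contDiff_const.mul hΦi.1), hΦ.2.sub hΦi.2.mul_left⟩
    (hF₁.1.continuous.sub (continuous_const.mul hG₁.1.continuous)) (hF₁.2.sub hG₁.2.mul_left)
    (hF₂.1.continuous.sub (continuous_const.mul hG₂.1.continuous)) (hF₂.2.sub hG₂.2.mul_left)
    (fun t y => (d₁ t y).sub ((di₁ t y).const_mul c))
    (fun t y => (d₂ t y).sub ((di₂ t y).const_mul c)) k hε
  have e : (fun x => (F₁ x - c * G₁ x) + (F₂ x - c * G₂ x)) =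
      fun x => rot φ x - ((∫ x, φ x) / (∫ x, i x)) * rot i x := by
    funext x
    rw [ef x, ei x, ← hc, hcm]
    have : m / mi * mi = m := div_mul_cancel₀ _ hmi0
    linear_combination (b x.1 * b x.2) * this
  rw [e] at hmom
  set W : ℝ := K1 * S + ε with hW
  have hW0 : 0 < W := by positivity
  have hmom' : ∀ᶠ δ in 𝓝[>] (0 : ℝ),
      Integrable (fun ω => hint (pth ω) δ (fun x => rot φ x -
        ((∫ x, φ x) / (∫ x, i x)) * rot i x) ^ (2 * k)) P ∧
        ∫ ω, hint (pth ω) δ (fun x => rot φ x -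
          ((∫ x, φ x) / (∫ x, i x)) * rot i x) ^ (2 * k) ∂P ≤
          2 ^ (2 * k) * (DD C k * W ^ k + DD C k * W ^ k) := by
    filter_upwards [hmom] with δ h1
    refine ⟨h1.1, h1.2.trans ?_⟩
    have h2 : ((∫ x, (Ψ x - c * Ψi x) ^ 2) + ε) ^ k ≤ W ^ k :=
      pow_le_pow_left₀ (add_nonneg (integral_nonneg fun x => sq_nonneg _) hε.le)
        (add_le_add (hbd hΨ hΨi b₁ bi₁) le_rfl) k
    have h3 : ((∫ x, (Φ x - c * Φi x) ^ 2) + ε) ^ k ≤ W ^ k :=
      pow_le_pow_left₀ (add_nonneg (integral_nonneg fun x => sq_nonneg _) hε.le)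
        (add_le_add (hbd hΦ hΦi b₂ bi₂) le_rfl) k
    gcongr
  filter_upwards [pair_moment' hP hφ hi hi0 hmom' (pow_pos hW0 k)] with δ h1
  refine ⟨h1.1, h1.2.trans ?_⟩
  have h4 : W ≤ K2 * ((∫ x, φ x ^ 2) + ε) := by
    have h5 : S = 1 / 8 * ∫ x, φ x ^ 2 := int_rot_sq φ
    have h6 : 0 ≤ ∫ x, φ x ^ 2 := integral_nonneg fun x => sq_nonneg _
    rw [hW, h5, hK2]
    nlinarith
  have h5 : W ^ k ≤ K2 ^ k * ((∫ x, φ x ^ 2) + ε) ^ k := by
    rw [← mul_pow]
    exact pow_le_pow_left₀ hW0.le h4 k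
  have e2 : 2 ^ (2 * k) * (2 ^ (2 * k) * (DD C k * W ^ k + DD C k * W ^ k) + W ^ k) =
      2 ^ (2 * k) * (2 ^ (2 * k) * (DD C k + DD C k) + 1) * W ^ k := by ring
  rw [e2, mul_assoc (2 ^ (2 * k) * (2 ^ (2 * k) * (DD C k + DD C k) + 1))]
  exact mul_le_mul_of_nonneg_left h5 (by positivity)

end

end Vale.Agent.P145.FB.Mom
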