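import Vale.Agent.P145.FB.Space
import Vale.Agent.P145.FP.Spin

/-!
# P145, block F-B: the measure on absolute heights and bonds

`MU t P` is the law of (heights, bonds) for the infinite measure `mu0 P` on the absolute heights; it
is the sum over the even constants `2 k` of the laws of `hk k` under `JO t P`.
-/

namespace Vale.Agent.P145.FB

open Finset Filter Topology MeasureTheory
open Vale.Agent.P152 (Edge Ori Ice sgb pth IsHeight)
open Vale.Agent.P145.FA (Hgt mu0)

/-- Law of the absolute heights and of the bonds. -/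
noncomputable def MU (t : ℝ) (P : Measure (Ori (ℤ × ℤ))) : Measure (Hgt × Mk) :=
  ((mu0 P).prod (mkm t)).map fun x => (x.1, om x.1 x.2)

theorem measurable_om : Measurable fun x : Hgt × Mk => (x.1, om x.1 x.2) := by
  refine measurable_fst.prodMk (measurable_pi_lambda _ fun w => ?_)
  have h0 : ∀ q : Pt, Measurable fun x : Hgt × Mk => x.1 q := fun q =>
    (measurable_pi_apply q).comp measurable_fst
  have h1 : Measurable fun x : Hgt × Mk =>
      (x.1 (o1 w), x.1 (o2 w), x.1 (e1 w), x.1 (e2 w), x.2 w) :=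
    (h0 _).prodMk ((h0 _).prodMk ((h0 _).prodMk ((h0 _).prodMk
      ((measurable_pi_apply w).comp measurable_snd))))
  have h2 : (fun x : Hgt × Mk => om x.1 x.2 w) =
      (fun y : ℤ × ℤ × ℤ × ℤ × Bool =>
        !(decide (y.1 = y.2.1)) || (decide (y.2.2.1 = y.2.2.2.1) && y.2.2.2.2)) ∘
      fun x => (x.1 (o1 w), x.1 (o2 w), x.1 (e1 w), x.1 (e2 w), x.2 w) := rfl
  rw [h2]
  exact (measurable_of_countable _).comp h1

theorem measurable_pthk (k : ℤ) : Measurable fun (a : Ori (ℤ × ℤ)) q => pth a q + 2 * k :=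
  measurable_pi_lambda _ fun q => (measurable_pth_apply q).add measurable_const

/-- The bonds do not depend on the constant. -/
theorem om_add (h : Hgt) (c : ℤ) (ξ : Mk) : om (fun q => h q + c) ξ = om h ξ := by
  funext w
  simp only [om, add_left_inj]

theorem MU_eq {t : ℝ} {P : Measure (Ori (ℤ × ℤ))} [IsProbabilityMeasure P]
    (hice : ∀ᵐ a ∂P, ∀ x y, Ice a x y) :
    MU t P = Measure.sum fun k : ℤ => (JO t P).map (hk k) := by
  have hpr : ∀ k : ℤ, IsProbabilityMeasure (P.map fun ω q => pth ω q + 2 * k) := fun k =>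
    Measure.isProbabilityMeasure_map (measurable_pthk k).aemeasurable
  rw [MU, mu0, Measure.prod_sum_left, Measure.map_sum measurable_om.aemeasurable]
  congr 1
  funext k
  have e1 : (P.map fun (ω : Ori (ℤ × ℤ)) q => pth ω q + 2 * k).prod (mkm t) =
      (P.prod (mkm t)).map (Prod.map (fun (ω : Ori (ℤ × ℤ)) q => pth ω q + 2 * k) id) := by
    rw [← Measure.map_prod_map _ _ (measurable_pthk k) measurable_id, Measure.map_id]
  rw [e1, Measure.map_map measurable_om ((measurable_pthk k).prodMap measurable_id), JO,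
    Measure.map_map (measurable_hk k) measurable_oma]
  refine Measure.map_congr ?_
  have hice2 : ∀ᵐ x ∂(P.prod (mkm t)), ∀ i j, Ice x.1 i j :=
    Measure.quasiMeasurePreserving_fst.ae hice
  filter_upwards [hice2] with x hx
  show ((fun q => pth x.1 q + 2 * k, om (fun q => pth x.1 q + 2 * k) x.2) : Hgt × Mk) =
    (fun q => pth x.1 q + 2 * k, oma x.1 x.2)
  rw [om_add, oma_eq_om (FP.isHeight_pth hx)]

theorem MU_apply {t : ℝ} {P : Measure (Ori (ℤ × ℤ))} [IsProbabilityMeasure P]
    (hice : ∀ᵐ a ∂P, ∀ x y, Ice a x y) {A : Set (Hgt × Mk)} (hA : MeasurableSet A) :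
    MU t P A = ∑' k : ℤ, JO t P (hk k ⁻¹' A) := by
  rw [MU_eq hice, Measure.sum_apply _ hA]
  refine tsum_congr fun k => ?_
  rw [Measure.map_apply (measurable_hk k) hA]

end Vale.Agent.P145.FB
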