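import Vale.Agent.P145.FB.Nn
import Vale.Agent.P153.Topo.Cross
import Vale.Agent.P153.Topo.Hex
import Vale.Agent.P153.Topo.Circuit

/-!
# Nearest-neighbour connections in the plane lattice

`NC S x y`: `x` and `y` are joined by a nearest-neighbour path inside `S`. Intersection lemmas for
such paths, deduced from the crossing lemma of the triangular lattice.
-/

namespace Vale.Agent.P145.FB

open Vale.Agent.P153 Vale.Agent.P153.Topo

theorem NN.symm {x y : ℤ × ℤ} (h : NN x y) : NN y x := by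
  unfold NN at h ⊢
  omega

theorem NN.adj {x y : ℤ × ℤ} (h : NN x y) : Adj x y := by
  rw [adj_iff]
  unfold NN at h
  omega

theorem NC.left_mem {S : Set (ℤ × ℤ)} {x y : ℤ × ℤ} (h : NC S x y) : x ∈ S := h.1

theorem NC.right_mem {S : Set (ℤ × ℤ)} {x y : ℤ × ℤ} (h : NC S x y) : y ∈ S := by
  obtain ⟨hx, h⟩ := h
  induction h with
  | refl => exact hx
  | tail _ h _ => exact h.2

theorem NC.refl {S : Set (ℤ × ℤ)} {x : ℤ × ℤ} (h : x ∈ S) : NC S x x :=
  ⟨h, Relation.ReflTransGen.refl⟩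

theorem NC.trans {S : Set (ℤ × ℤ)} {x y z : ℤ × ℤ} (h : NC S x y) (h' : NC S y z) :
    NC S x z :=
  ⟨h.1, h.2.trans h'.2⟩

theorem NC.tail {S : Set (ℤ × ℤ)} {x y z : ℤ × ℤ} (h : NC S x y) (h' : NN y z)
    (hz : z ∈ S) : NC S x z :=
  ⟨h.1, h.2.tail ⟨h', hz⟩⟩

theorem NC.of_nn {S : Set (ℤ × ℤ)} {x y : ℤ × ℤ} (hx : x ∈ S) (hy : y ∈ S)
    (h' : NN x y) : NC S x y :=
  (NC.refl hx).tail h' hy

theorem NC.symm {S : Set (ℤ × ℤ)} {x y : ℤ × ℤ} (h : NC S x y) : NC S y x := by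
  obtain ⟨hx, h⟩ := h
  induction h with
  | refl => exact NC.refl hx
  | @tail b c hb h ih =>
    have hbS : b ∈ S := ih.left_mem
    exact (NC.of_nn h.2 hbS h.1.symm).trans ih

theorem NC.ind {S : Set (ℤ × ℤ)} {x : ℤ × ℤ} (P : ℤ × ℤ → Prop) (h0 : P x)
    (hs : ∀ u v, NC S x u → NN u v → v ∈ S → P u → P v) {y : ℤ × ℤ} (h : NC S x y) :
    P y := by
  obtain ⟨hx, h⟩ := h
  induction h with
  | refl => exact h0
  | tail hb h ih => exact hs _ _ ⟨hx, hb⟩ h.1 h.2 ih

theorem NC.map {S T : Set (ℤ × ℤ)} {f : ℤ × ℤ → ℤ × ℤ} (hf : ∀ u v, NN u v → NN (f u) (f v))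
    (hST : ∀ z ∈ S, f z ∈ T) {x y : ℤ × ℤ} (h : NC S x y) : NC T (f x) (f y) :=
  NC.ind (fun z => NC T (f x) (f z)) (NC.refl (hST x h.1))
    (fun u v _ huv hv ih => ih.tail (hf u v huv) (hST v hv)) h

theorem NC.mono {S T : Set (ℤ × ℤ)} (hST : S ⊆ T) {x y : ℤ × ℤ} (h : NC S x y) : NC T x y :=
  NC.map (f := fun z => z) (fun _ _ h => h) hST h

theorem NC.conn {S : Set (ℤ × ℤ)} {x y : ℤ × ℤ} (h : NC S x y) : Conn S x y :=
  NC.ind (fun z => Conn S x z) (Conn.refl h.1) (fun _ _ _ huv hv ih => ih.tail huv.adj hv) h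

/-- The path stays in the cluster of its starting point. -/
theorem NC.cluster {S : Set (ℤ × ℤ)} {x y : ℤ × ℤ} (h : NC S x y) :
    NC {z | NC S x z} x y :=
  NC.ind (fun z => NC {z | NC S x z} x z) (NC.refl (NC.refl h.1))
    (fun u v hu huv hv ih => ih.tail huv (hu.tail huv hv)) h

/-- The first visit of a high level. -/
theorem NC.first {S : Set (ℤ × ℤ)} {f : ℤ × ℤ → ℤ} (hf : ∀ u v, NN u v → f v ≤ f u + 1) {d : ℤ}
    {x y : ℤ × ℤ} (h : NC S x y) (hx : f x ≤ d) (hy : d ≤ f y) :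
    ∃ z, f z = d ∧ NC (S ∩ {w | f w ≤ d}) x z := by
  have key : (f y < d ∧ NC (S ∩ {w | f w ≤ d}) x y) ∨
      ∃ z, f z = d ∧ NC (S ∩ {w | f w ≤ d}) x z := by
    refine NC.ind (fun y => (f y < d ∧ NC (S ∩ {w | f w ≤ d}) x y) ∨
      ∃ z, f z = d ∧ NC (S ∩ {w | f w ≤ d}) x z) ?_ ?_ h
    · rcases lt_or_eq_of_le hx with h1 | h1
      · exact Or.inl ⟨h1, NC.refl ⟨h.1, hx⟩⟩
      · exact Or.inr ⟨x, h1, NC.refl ⟨h.1, hx⟩⟩
    · intro u v _ huv hv ih
      rcases ih with ⟨h1, h2⟩ | h1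
      · have h3 := hf u v huv
        have h4 : NC (S ∩ {w | f w ≤ d}) x v := h2.tail huv ⟨hv, by
          simp only [Set.mem_setOf_eq]; omega⟩
        rcases lt_or_ge (f v) d with h5 | h5
        · exact Or.inl ⟨h5, h4⟩
        · exact Or.inr ⟨v, by omega, h4⟩
      · exact Or.inr h1
  rcases key with ⟨h1, _⟩ | h1
  · omega
  · exact h1

/-- **Exit lemma.** A path from `f ≤ c` to `f ≥ d` contains a path in `c ≤ f ≤ d` from `f = c` to
`f = d`. -/
theorem NC.exit {S : Set (ℤ × ℤ)} {f : ℤ × ℤ → ℤ} (hf : ∀ u v, NN u v → f v ≤ f u + 1) {c d : ℤ}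
    (hcd : c ≤ d) {x y : ℤ × ℤ} (h : NC S x y) (hx : f x ≤ c) (hy : d ≤ f y) :
    ∃ z w, f z = c ∧ f w = d ∧ NC (S ∩ {u | c ≤ f u ∧ f u ≤ d}) z w ∧ NC S x z ∧ NC S x w := by
  obtain ⟨w, hw, h1⟩ := h.first hf (hx.trans hcd) hy
  obtain ⟨z, hz, h2⟩ := h1.symm.first (f := fun u => - f u) (d := -c)
    (fun u v huv => by have := hf v u huv.symm; omega) (by omega) (by omega)
  have h3 : NC (S ∩ {u | c ≤ f u ∧ f u ≤ d}) w z := h2.mono (by
    rintro u ⟨⟨h3, h4⟩, h5⟩
    refine ⟨h3, ?_, h4⟩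
    have : - f u ≤ -c := h5
    show c ≤ f u
    omega)
  have h4 : NC S x w := h1.mono Set.inter_subset_left
  exact ⟨z, w, by omega, hw, h3.symm, h4.trans (h3.mono Set.inter_subset_left), h4⟩

theorem nn_fst (u v : ℤ × ℤ) (h : NN u v) : v.1 ≤ u.1 + 1 := by
  unfold NN at h
  omega

theorem nn_snd (u v : ℤ × ℤ) (h : NN u v) : v.2 ≤ u.2 + 1 := by
  unfold NN at h
  omega

/-- Isometries of the lattice act on connections. -/
theorem NC.congr {e : (ℤ × ℤ) ≃ (ℤ × ℤ)} (he : ∀ u v, NN u v → NN (e u) (e v))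
    (he' : ∀ u v, NN u v → NN (e.symm u) (e.symm v)) {S : Set (ℤ × ℤ)} {x y : ℤ × ℤ} :
    NC (e ⁻¹' S) x y ↔ NC S (e x) (e y) := by
  constructor
  · exact fun h => h.map he (fun z hz => hz)
  · intro h
    have := h.map (f := e.symm) (T := e ⁻¹' S) he' (fun z hz => by
      simpa using hz)
    simpa using this

/-- Reflection in the vertical axis. -/
def flipX : (ℤ × ℤ) ≃ (ℤ × ℤ) where
  toFun z := (-z.1, z.2)
  invFun z := (-z.1, z.2)
  left_inv z := by simp
  right_inv z := by simp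

/-- Reflection in the horizontal axis. -/
def flipY : (ℤ × ℤ) ≃ (ℤ × ℤ) where
  toFun z := (z.1, -z.2)
  invFun z := (z.1, -z.2)
  left_inv z := by simp
  right_inv z := by simp

/-- Translation. -/
def shf (v : ℤ × ℤ) : (ℤ × ℤ) ≃ (ℤ × ℤ) where
  toFun z := (z.1 + v.1, z.2 + v.2)
  invFun z := (z.1 - v.1, z.2 - v.2)
  left_inv z := by simp
  right_inv z := by simp

theorem nc_flipX {S : Set (ℤ × ℤ)} {x y : ℤ × ℤ} :
    NC (flipX ⁻¹' S) x y ↔ NC S (flipX x) (flipX y) :=
  NC.congr (fun u v h => by unfold NN at h ⊢; simp only [flipX, Equiv.coe_fn_mk]; omega)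
    (fun u v h => by unfold NN at h ⊢; simp only [flipX, Equiv.symm, Equiv.coe_fn_mk]; omega)

theorem nc_flipY {S : Set (ℤ × ℤ)} {x y : ℤ × ℤ} :
    NC (flipY ⁻¹' S) x y ↔ NC S (flipY x) (flipY y) :=
  NC.congr (fun u v h => by unfold NN at h ⊢; simp only [flipY, Equiv.coe_fn_mk]; omega)
    (fun u v h => by unfold NN at h ⊢; simp only [flipY, Equiv.symm, Equiv.coe_fn_mk]; omega)

theorem nc_swap {S : Set (ℤ × ℤ)} {x y : ℤ × ℤ} :
    NC ((Equiv.prodComm ℤ ℤ) ⁻¹' S) x y ↔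
      NC S (Equiv.prodComm ℤ ℤ x) (Equiv.prodComm ℤ ℤ y) :=
  NC.congr (fun u v h => by
      unfold NN at h ⊢; simp only [Equiv.prodComm_apply, Prod.fst_swap, Prod.snd_swap]; omega)
    (fun u v h => by
      unfold NN at h ⊢
      simp only [Equiv.prodComm_symm, Equiv.prodComm_apply, Prod.fst_swap, Prod.snd_swap]; omega)

theorem nc_shf {v : ℤ × ℤ} {S : Set (ℤ × ℤ)} {x y : ℤ × ℤ} :
    NC (shf v ⁻¹' S) x y ↔ NC S (shf v x) (shf v y) :=
  NC.congr (fun u v h => by unfold NN at h ⊢; simp only [shf, Equiv.coe_fn_mk]; omega)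
    (fun u v h => by unfold NN at h ⊢; simp only [shf, Equiv.symm, Equiv.coe_fn_mk]; omega)

/-- A horizontal and a vertical crossing of a rectangle meet. -/
theorem ncross {S T : Set (ℤ × ℤ)} {a b c d : ℤ} (hS : S ⊆ Rect a b c d) (hT : T ⊆ Rect a b c d)
    {x x' y y' : ℤ × ℤ} (hx : NC S x x') (hxa : x.1 = a) (hxb : x'.1 = b)
    (hy : NC T y y') (hyc : y.2 = c) (hyd : y'.2 = d) : ∃ z, NC S x z ∧ NC T y z :=
  cross (A := {z | NC S x z}) (B := {z | NC T y z}) (fun z hz => hS hz.right_mem)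
    (fun z hz => hT hz.right_mem) hx.cluster.conn hxa hxb hy.cluster.conn hyc hyd

/-- **Landing lemma (right).** -/
theorem landR {S T : Set (ℤ × ℤ)} {a b c d : ℤ} (hS : S ⊆ Rect a b c d) (hT : T ⊆ Rect a b c d)
    {x x' y y' : ℤ × ℤ} (hx : NC S x x') (hxa : x.1 = a) (hxb : x'.1 = b)
    (hy : NC T y y') (hyb : y.1 = b) (hyb' : y'.1 = b) (h1 : y.2 ≤ x'.2) (h2 : x'.2 ≤ y'.2) :
    ∃ z, NC S x z ∧ NC T y z := by
  have hxr := hS hx.left_mem
  have hxr' := hS hx.right_mem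
  have hyr := hT hy.left_mem
  have hyr' := hT hy.right_mem
  rw [mem_rect] at hxr hxr' hyr hyr'
  set A : Set (ℤ × ℤ) := insert (b + 1, x'.2) {z | NC S x z} with hA
  set B : Set (ℤ × ℤ) := {z | NC T y z} ∪
    {z | z.1 = b + 1 ∧ c ≤ z.2 ∧ z.2 ≤ d ∧ (z.2 ≤ y.2 ∨ y'.2 ≤ z.2)} with hB
  have hAc : Conn A x (b + 1, x'.2) := by
    refine (hx.cluster.conn.mono (Set.subset_insert _ _)).tail ?_ (Set.mem_insert _ _)
    rw [adj_iff]
    left
    exact ⟨by rw [hxb], rfl⟩
  have hBc : Conn B (b + 1, c) (b + 1, d) := by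
    have e1 : Conn B (b + 1, c) (b + 1, y.2) := conn_col (fun j hj1 hj2 => Or.inr ⟨rfl, by omega,
      by omega, Or.inl (by omega)⟩)
    have e2 : Conn B (b + 1, y.2) y := by
      refine Conn.of_adj (Or.inr ⟨rfl, by omega, by omega, Or.inl le_rfl⟩) (Or.inl (NC.refl hy.1)) ?_
      rw [adj_iff]
      right; left
      exact ⟨by rw [hyb]; ring, rfl⟩
    have e3 : Conn B y y' := hy.cluster.conn.mono Set.subset_union_left
    have e4 : Conn B y' (b + 1, y'.2) := by
      refine Conn.of_adj (Or.inl hy) (Or.inr ⟨rfl, by omega, by omega, Or.inr le_rfl⟩) ?_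
      rw [adj_iff]
      left
      exact ⟨by rw [hyb'], rfl⟩
    have e5 : Conn B (b + 1, y'.2) (b + 1, d) := conn_col (fun j hj1 hj2 => Or.inr ⟨rfl, by omega,
      by omega, Or.inr (by omega)⟩)
    exact (((e1.trans e2).trans e3).trans e4).trans e5
  obtain ⟨z, hzA, hzB⟩ := cross (A := A) (B := B) (a := a) (b := b + 1) (c := c) (d := d)
    (by
      rintro z (rfl | hz)
      · exact ⟨by simp only; omega, by simp only; omega, by simp only; omega, by simp only; omega⟩
      · have := hS hz.right_mem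
        rw [mem_rect] at this
        omega)
    (by
      rintro z (hz | hz)
      · have := hT hz.right_mem
        rw [mem_rect] at this
        omega
      · obtain ⟨h3, h4, h5, _⟩ := hz
        omega)
    hAc hxa rfl hBc rfl rfl
  rcases hzA with rfl | hzA
  · rcases hzB with hzB | hzB
    · have := hT hzB.right_mem
      rw [mem_rect] at this
      simp only at this
      omega
    · obtain ⟨_, _, _, h6 | h6⟩ := hzB
      · have h7 : x' = y := Prod.ext (by rw [hxb, hyb]) (le_antisymm h6 h1)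
        exact ⟨x', hx, by rw [h7]; exact NC.refl hy.1⟩
      · have h7 : x' = y' := Prod.ext (by rw [hxb, hyb']) (le_antisymm h2 h6)
        exact ⟨x', hx, by rw [h7]; exact hy⟩
  · rcases hzB with hzB | hzB
    · exact ⟨z, hzA, hzB⟩
    · have h3 := hS hzA.right_mem
      rw [mem_rect] at h3
      have := hzB.1
      omega

/-- **Landing lemma (left).** -/
theorem landL {S T : Set (ℤ × ℤ)} {a b c d : ℤ} (hS : S ⊆ Rect a b c d) (hT : T ⊆ Rect a b c d)
    {x x' y y' : ℤ × ℤ} (hx : NC S x x') (hxb : x.1 = b) (hxa : x'.1 = a)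
    (hy : NC T y y') (hya : y.1 = a) (hya' : y'.1 = a) (h1 : y.2 ≤ x'.2) (h2 : x'.2 ≤ y'.2) :
    ∃ z, NC S x z ∧ NC T y z := by
  have hx2 : NC (flipX ⁻¹' S) (flipX x) (flipX x') := by
    rw [nc_flipX]
    simpa [flipX] using hx
  have hy2 : NC (flipX ⁻¹' T) (flipX y) (flipX y') := by
    rw [nc_flipX]
    simpa [flipX] using hy
  obtain ⟨z, hz1, hz2⟩ := landR (S := flipX ⁻¹' S) (T := flipX ⁻¹' T) (a := -b) (b := -a)
    (c := c) (d := d) (fun z hz => by
      have := hS hz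
      rw [mem_rect] at this ⊢
      simp only [flipX, Equiv.coe_fn_mk] at this
      omega) (fun z hz => by
      have := hT hz
      rw [mem_rect] at this ⊢
      simp only [flipX, Equiv.coe_fn_mk] at this
      omega) hx2 (by simp [flipX, hxb]) (by simp [flipX, hxa]) hy2 (by simp [flipX, hya])
    (by simp [flipX, hya']) (by simpa [flipX] using h1) (by simpa [flipX] using h2)
  refine ⟨flipX z, ?_, ?_⟩
  · have := nc_flipX.mp hz1
    simpa [flipX] using this
  · have := nc_flipX.mp hz2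
    simpa [flipX] using this

/-- **Interlacing lemma.** Two paths between the vertical sides of a strip, the second one below
the first one on the left and above it on the right, meet. -/
theorem interlace {S T : Set (ℤ × ℤ)} {a b c d : ℤ} (hS : S ⊆ Rect a b c d) (hT : T ⊆ Rect a b c d)
    {x x' y y' : ℤ × ℤ} (hx : NC S x x') (hxa : x.1 = a) (hxb : x'.1 = b)
    (hy : NC T y y') (hya : y.1 = a) (hyb : y'.1 = b) (h1 : y.2 ≤ x.2) (h2 : x'.2 ≤ y'.2) :
    ∃ z, NC S x z ∧ NC T y z := by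
  have hxr := hS hx.left_mem
  have hxr' := hS hx.right_mem
  have hyr := hT hy.left_mem
  have hyr' := hT hy.right_mem
  rw [mem_rect] at hxr hxr' hyr hyr'
  set A : Set (ℤ × ℤ) := {z | NC S x z} ∪ {(a - 1, x.2), (b + 1, x'.2)} with hA
  set B : Set (ℤ × ℤ) := {z | NC T y z} ∪
    ({z | z.1 = a - 1 ∧ c ≤ z.2 ∧ z.2 ≤ y.2} ∪ {z | z.1 = b + 1 ∧ y'.2 ≤ z.2 ∧ z.2 ≤ d}) with hB
  have hAc : Conn A (a - 1, x.2) (b + 1, x'.2) := by
    have e1 : Conn A (a - 1, x.2) x := by
      refine Conn.of_adj (Or.inr (Or.inl rfl)) (Or.inl (NC.refl hx.1)) ?_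
      rw [adj_iff]
      left
      exact ⟨by simp only; omega, rfl⟩
    have e2 : Conn A x x' := hx.cluster.conn.mono Set.subset_union_left
    have e3 : Conn A x' (b + 1, x'.2) := by
      refine Conn.of_adj (Or.inl hx) (Or.inr (Or.inr rfl)) ?_
      rw [adj_iff]
      left
      exact ⟨by simp only; omega, rfl⟩
    exact (e1.trans e2).trans e3
  have hBc : Conn B (a - 1, c) (b + 1, d) := by
    have e1 : Conn B (a - 1, c) (a - 1, y.2) := conn_col (fun j hj1 hj2 =>
      Or.inr (Or.inl ⟨rfl, by omega, by omega⟩))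
    have e2 : Conn B (a - 1, y.2) y := by
      refine Conn.of_adj (Or.inr (Or.inl ⟨rfl, by omega, le_rfl⟩)) (Or.inl (NC.refl hy.1)) ?_
      rw [adj_iff]
      left
      exact ⟨by simp only; omega, rfl⟩
    have e3 : Conn B y y' := hy.cluster.conn.mono Set.subset_union_left
    have e4 : Conn B y' (b + 1, y'.2) := by
      refine Conn.of_adj (Or.inl hy) (Or.inr (Or.inr ⟨rfl, le_rfl, by omega⟩)) ?_
      rw [adj_iff]
      left
      exact ⟨by simp only; omega, rfl⟩
    have e5 : Conn B (b + 1, y'.2) (b + 1, d) := conn_col (fun j hj1 hj2 =>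
      Or.inr (Or.inr ⟨rfl, by omega, by omega⟩))
    exact (((e1.trans e2).trans e3).trans e4).trans e5
  obtain ⟨z, hzA, hzB⟩ := cross (A := A) (B := B) (a := a - 1) (b := b + 1) (c := c) (d := d)
    (by
      rintro z (hz | rfl | rfl)
      · have := hS hz.right_mem
        rw [mem_rect] at this
        omega
      · exact ⟨le_rfl, by simp only; omega, by simp only; omega, by simp only; omega⟩
      · exact ⟨by simp only; omega, le_rfl, by simp only; omega, by simp only; omega⟩)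
    (by
      rintro z (hz | hz | hz)
      · have := hT hz.right_mem
        rw [mem_rect] at this
        omega
      · obtain ⟨h3, h4, h5⟩ := hz
        omega
      · obtain ⟨h3, h4, h5⟩ := hz
        omega)
    hAc rfl rfl hBc rfl rfl
  have hTz : ∀ {w : ℤ × ℤ}, NC T y w → a ≤ w.1 ∧ w.1 ≤ b := fun hw => by
    have := hT hw.right_mem
    rw [mem_rect] at this
    omega
  rcases hzA with hzA | rfl | rfl
  · rcases hzB with hzB | hzB | hzB
    · exact ⟨z, hzA, hzB⟩
    · have h3 := hS hzA.right_mem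
      rw [mem_rect] at h3
      have := hzB.1
      omega
    · have h3 := hS hzA.right_mem
      rw [mem_rect] at h3
      have := hzB.1
      omega
  · rcases hzB with hzB | hzB | hzB
    · have := hTz hzB
      simp only at this
      omega
    · have h6 := hzB.2.2
      have h7 : x = y := Prod.ext (by rw [hxa, hya]) (le_antisymm h6 h1)
      exact ⟨x, NC.refl hx.1, by rw [h7]; exact NC.refl hy.1⟩
    · have := hzB.1
      simp only at this
      omega
  · rcases hzB with hzB | hzB | hzB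
    · have := hTz hzB
      simp only at this
      omega
    · have := hzB.1
      simp only at this
      omega
    · have h6 := hzB.2.1
      have h7 : x' = y' := Prod.ext (by rw [hxb, hyb]) (le_antisymm h2 h6)
      exact ⟨x', hx, by rw [h7]; exact hy⟩

end Vale.Agent.P145.FB
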