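import Vale.Agent.P153.Topo.Cross

/-!
# P145, block F-B: crossing events of a random subset of the square lattice

Nearest-neighbour connections inside an arbitrary set `S` of points of `ℤ × ℤ`. All boxes have even
coordinates, `rc a b c d = [2a, 2b] × [2c, 2d]` (the fine lattice codes the bond configuration: a
point with two even coordinates is a vertex, a point with one odd coordinate is an edge).
-/

namespace Vale.Agent.P145.FB

open Relation

/-- Nearest neighbours of the square lattice. -/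
def NN (u v : ℤ × ℤ) : Prop :=
  (v.2 = u.2 ∧ (v.1 = u.1 + 1 ∨ v.1 = u.1 - 1)) ∨ (v.1 = u.1 ∧ (v.2 = u.2 + 1 ∨ v.2 = u.2 - 1))

/-- `x` and `y` are joined by a nearest-neighbour path inside `S`. -/
def NC (S : Set (ℤ × ℤ)) (x y : ℤ × ℤ) : Prop :=
  x ∈ S ∧ ReflTransGen (fun u v => NN u v ∧ v ∈ S) x y

/-- The rectangle `[2a, 2b] × [2c, 2d]`. -/
def rc (a b c d : ℤ) : Set (ℤ × ℤ) :=
  {z | 2 * a ≤ z.1 ∧ z.1 ≤ 2 * b ∧ 2 * c ≤ z.2 ∧ z.2 ≤ 2 * d}

/-- `S` crosses the rectangle `rc a b c d` from left to right. -/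
def LRc (a b c d : ℤ) (S : Set (ℤ × ℤ)) : Prop :=
  ∃ x y, NC (S ∩ rc a b c d) x y ∧ x.1 = 2 * a ∧ y.1 = 2 * b

/-- `S` crosses the rectangle `rc a b c d` from bottom to top. -/
def BTc (a b c d : ℤ) (S : Set (ℤ × ℤ)) : Prop :=
  ∃ x y, NC (S ∩ rc a b c d) x y ∧ x.2 = 2 * c ∧ y.2 = 2 * d

/-- A path of `S` in the rectangle from its left side to the segment `{2b} × [2u, 2v]` of its
right side. -/
def Hc (a b c d u v : ℤ) (S : Set (ℤ × ℤ)) : Prop :=
  ∃ x y, NC (S ∩ rc a b c d) x y ∧ x.1 = 2 * a ∧ y.1 = 2 * b ∧ 2 * u ≤ y.2 ∧ y.2 ≤ 2 * v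

/-- A path of `S` in the rectangle from its right side to the segment `{2a} × [2u, 2v]` of its
left side. -/
def Hm (a b c d u v : ℤ) (S : Set (ℤ × ℤ)) : Prop :=
  ∃ x y, NC (S ∩ rc a b c d) x y ∧ x.1 = 2 * b ∧ y.1 = 2 * a ∧ 2 * u ≤ y.2 ∧ y.2 ≤ 2 * v

/-- The box with centre `(p, q)` and half side `n` is crossed from bottom to top, and there are paths
from its left (right) side to the upper and to the lower part `{|y - q| ≥ h}` of its right (left)
side. -/
def XX (p q n h : ℤ) (S : Set (ℤ × ℤ)) : Prop :=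
  Hc (p - n) (p + n) (q - n) (q + n) (q + h) (q + n) S ∧
  Hc (p - n) (p + n) (q - n) (q + n) (q - n) (q - h) S ∧
  Hm (p - n) (p + n) (q - n) (q + n) (q + h) (q + n) S ∧
  Hm (p - n) (p + n) (q - n) (q + n) (q - n) (q - h) S ∧
  BTc (p - n) (p + n) (q - n) (q + n) S

/-- The four rectangles around the box with centre `(p, q)` and half side `t`, inside the box with
half side `2t`, are crossed in the long direction. -/
def Ann (p q t : ℤ) (S : Set (ℤ × ℤ)) : Prop :=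
  LRc (p - 2 * t) (p + 2 * t) (q + t) (q + 2 * t) S ∧
  LRc (p - 2 * t) (p + 2 * t) (q - 2 * t) (q - t) S ∧
  BTc (p - 2 * t) (p - t) (q - 2 * t) (q + 2 * t) S ∧
  BTc (p + t) (p + 2 * t) (q - 2 * t) (q + 2 * t) S

/-- The event whose probability is small by anti-concentration: circuits around the boxes
`B_s(0)`, `B_{2R}(0)` and `B_R(3R, 0)`, and a path from distance `4R` to `{0} × [0, s]`. -/
def Arm (s R : ℤ) (S : Set (ℤ × ℤ)) : Prop :=
  Ann 0 0 s S ∧ Ann 0 0 (2 * R) S ∧ Ann (3 * R) 0 R S ∧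
    Hc (-(4 * R)) 0 (-(2 * R)) (2 * R) 0 s S

/-- The deterministic facts about crossing paths (proved in `FB/Geo.lean`). -/
structure Geo : Prop where
  /-- Two left-right crossings joined by a bottom-top crossing of the common part. -/
  chain : ∀ (a a' b b' c d : ℤ) (S : Set (ℤ × ℤ)), a ≤ a' → a' ≤ b → b ≤ b' → c ≤ d →
    LRc a b c d S → BTc a' b c d S → LRc a' b' c d S → LRc a b' c d S
  /-- A crossing of a longer and thinner rectangle crosses a shorter and wider one. -/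
  mono : ∀ (a a' b b' c c' d d' : ℤ) (S : Set (ℤ × ℤ)), a ≤ a' → a' ≤ b' → b' ≤ b → c' ≤ c →
    d ≤ d' → LRc a b c d S → LRc a' b' c' d' S
  /-- Two paths landing in `{±m} × [-al, al]` are joined by the cross `XX` of the box `B_m`. -/
  f1 : ∀ (n m v al : ℤ) (S : Set (ℤ × ℤ)), 0 ≤ al → 0 < m → m ≤ n → m + v ≤ n → 0 ≤ v →
    Hc (m - 2 * n) m (-v - n) (-v + n) (-al) al S →
    Hm (-m) (2 * n - m) (-v - n) (-v + n) (-al) al S → XX 0 0 m al S →
    LRc (m - 2 * n) (2 * n - m) (-v - n) (-v + n) S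
  /-- Zig-zag. -/
  zig : ∀ (n h : ℤ) (S : Set (ℤ × ℤ)), 0 < n → 0 ≤ h → h ≤ n → XX 0 0 n h S →
    XX 0 (-(2 * h)) n h S → BTc (-n) n (-n - 2 * h) n S
  /-- Two paths landing in `{0} × [0, s]` are joined by the annulus event. -/
  f2 : ∀ (s t : ℤ) (S : Set (ℤ × ℤ)), 0 < s → 2 * s ≤ t → Hc (-(2 * t)) 0 (-t) t 0 s S →
    Hm 0 (2 * t) (-t) t 0 s S → Ann 0 0 s S → LRc (-(2 * t)) (2 * t) (-t) t S
  /-- Two paths landing in `{0} × [0, 1]` are joined by the edge between `(0, 0)` and `(0, 1)`. -/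
  f2' : ∀ (t : ℤ) (S : Set (ℤ × ℤ)), 1 ≤ t → Hc (-(2 * t)) 0 (-t) t 0 1 S →
    Hm 0 (2 * t) (-t) t 0 1 S → (0, 0) ∈ S → (0, 1) ∈ S → (0, 2) ∈ S →
    LRc (-(2 * t)) (2 * t) (-t) t S

end Vale.Agent.P145.FB
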