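import Vale.Agent.P145.FB.NcA
import Vale.Agent.P153.Topo.Hex

/-!
# P145, block F-B: duality for bond configurations on the fine lattice

A bond configuration is a set `S` of points of `ℤ × ℤ` which contains all points with two even
coordinates (vertices) and no point with two odd coordinates (faces); a point with one odd
coordinate is an edge. The dual configuration `dl S` consists of the closed edges, moved by
`(x, y) ↦ (y - 1, x - 1)`.
-/

namespace Vale.Agent.P145.FB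

open Relation Vale.Agent.P153 Vale.Agent.P153.Topo

/-- Bond configurations. -/
structure Bond (S : Set (ℤ × ℤ)) : Prop where
  vert : ∀ x y : ℤ, (2 * x, 2 * y) ∈ S
  face : ∀ x y : ℤ, (2 * x + 1, 2 * y + 1) ∉ S

/-- The dual configuration. -/
def dl (S : Set (ℤ × ℤ)) : Set (ℤ × ℤ) := {z | (z.2 + 1, z.1 + 1) ∉ S}

theorem nn_mk {a b c d : ℤ} (h : (d = b ∧ (c = a + 1 ∨ c = a - 1)) ∨
    (c = a ∧ (d = b + 1 ∨ d = b - 1))) : NN (a, b) (c, d) := h

theorem Bond.vert' {S : Set (ℤ × ℤ)} (hS : Bond S) {z : ℤ × ℤ} (h1 : z.1 % 2 = 0)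
    (h2 : z.2 % 2 = 0) : z ∈ S := by
  have := hS.vert (z.1 / 2) (z.2 / 2)
  have e : (2 * (z.1 / 2), 2 * (z.2 / 2)) = z := Prod.ext (by simp only; omega) (by simp only; omega)
  rwa [e] at this

theorem Bond.face' {S : Set (ℤ × ℤ)} (hS : Bond S) {z : ℤ × ℤ} (h1 : z.1 % 2 = 1)
    (h2 : z.2 % 2 = 1) : z ∉ S := by
  have := hS.face (z.1 / 2) (z.2 / 2)
  have e : (2 * (z.1 / 2) + 1, 2 * (z.2 / 2) + 1) = z :=
    Prod.ext (by simp only; omega) (by simp only; omega)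
  rwa [e] at this

theorem Bond.dual {S : Set (ℤ × ℤ)} (hS : Bond S) : Bond (dl S) := by
  refine ⟨fun x y => ?_, fun x y => ?_⟩
  · exact hS.face' (by simp only; omega) (by simp only; omega)
  · intro h
    exact h (hS.vert' (by simp only; omega) (by simp only; omega))

/-- A connection of the triangular lattice in a rectangle inside a bond configuration is a
nearest-neighbour connection. -/
theorem nc_of_conn {S : Set (ℤ × ℤ)} (hS : Bond S) {a b c d : ℤ} {x y : ℤ × ℤ}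
    (h : Conn (S ∩ rc a b c d) x y) : NC (S ∩ rc a b c d) x y := by
  refine Conn.ind (S := S ∩ rc a b c d) (fun y => NC (S ∩ rc a b c d) x y) (NC.refl h.1) ?_ h
  rintro u v hu huv ⟨hvS, hvR⟩ ih
  obtain ⟨huS, huR⟩ := ih.right_mem
  obtain ⟨u1, u2⟩ := u
  obtain ⟨v1, v2⟩ := v
  rw [adj_iff] at huv
  simp only at huv
  obtain ⟨hv1, hv2, hv3, hv4⟩ := hvR
  obtain ⟨hu1, hu2, hu3, hu4⟩ := huR
  simp only at hv1 hv2 hv3 hv4 hu1 hu2 hu3 hu4
  have hvR : (v1, v2) ∈ rc a b c d := ⟨hv1, hv2, hv3, hv4⟩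
  rcases huv with h1 | h1 | h1 | h1 | h1 | h1
  · exact ih.tail (nn_mk (by omega)) ⟨hvS, hvR⟩
  · exact ih.tail (nn_mk (by omega)) ⟨hvS, hvR⟩
  · exact ih.tail (nn_mk (by omega)) ⟨hvS, hvR⟩
  · exact ih.tail (nn_mk (by omega)) ⟨hvS, hvR⟩
  · -- `v = u + (1, -1)`
    obtain ⟨h1, h2⟩ := h1
    have hu : ¬ (u1 % 2 = 1 ∧ u2 % 2 = 1) := fun h => hS.face' h.1 h.2 huS
    have hv : ¬ (v1 % 2 = 1 ∧ v2 % 2 = 1) := fun h => hS.face' h.1 h.2 hvS
    by_cases hp : u1 % 2 = 0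
    · have hw : ((u1, v2) : ℤ × ℤ) ∈ S := hS.vert' (by simp only; omega) (by simp only; omega)
      have hwR : ((u1, v2) : ℤ × ℤ) ∈ rc a b c d := ⟨hu1, hu2, hv3, hv4⟩
      exact (ih.tail (z := (u1, v2)) (nn_mk (by omega)) ⟨hw, hwR⟩).tail
        (nn_mk (by omega)) ⟨hvS, hvR⟩
    · have hw : ((v1, u2) : ℤ × ℤ) ∈ S := hS.vert' (by simp only; omega) (by simp only; omega)
      have hwR : ((v1, u2) : ℤ × ℤ) ∈ rc a b c d := ⟨hv1, hv2, hu3, hu4⟩
      exact (ih.tail (z := (v1, u2)) (nn_mk (by omega)) ⟨hw, hwR⟩).tail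
        (nn_mk (by omega)) ⟨hvS, hvR⟩
  · -- `v = u + (-1, 1)`
    obtain ⟨h1, h2⟩ := h1
    have hu : ¬ (u1 % 2 = 1 ∧ u2 % 2 = 1) := fun h => hS.face' h.1 h.2 huS
    have hv : ¬ (v1 % 2 = 1 ∧ v2 % 2 = 1) := fun h => hS.face' h.1 h.2 hvS
    by_cases hp : u1 % 2 = 0
    · have hw : ((u1, v2) : ℤ × ℤ) ∈ S := hS.vert' (by simp only; omega) (by simp only; omega)
      have hwR : ((u1, v2) : ℤ × ℤ) ∈ rc a b c d := ⟨hu1, hu2, hv3, hv4⟩
      exact (ih.tail (z := (u1, v2)) (nn_mk (by omega)) ⟨hw, hwR⟩).tail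
        (nn_mk (by omega)) ⟨hvS, hvR⟩
    · have hw : ((v1, u2) : ℤ × ℤ) ∈ S := hS.vert' (by simp only; omega) (by simp only; omega)
      have hwR : ((v1, u2) : ℤ × ℤ) ∈ rc a b c d := ⟨hv1, hv2, hu3, hu4⟩
      exact (ih.tail (z := (v1, u2)) (nn_mk (by omega)) ⟨hw, hwR⟩).tail
        (nn_mk (by omega)) ⟨hvS, hvR⟩

/-- The same for the complement. -/
theorem nc_of_conn_compl {S : Set (ℤ × ℤ)} (hS : Bond S) {a b c d : ℤ} {x y : ℤ × ℤ}
    (h : Conn (Sᶜ ∩ rc a b c d) x y) : NC (Sᶜ ∩ rc a b c d) x y := by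
  refine Conn.ind (S := Sᶜ ∩ rc a b c d) (fun y => NC (Sᶜ ∩ rc a b c d) x y) (NC.refl h.1) ?_ h
  rintro u v hu huv ⟨hvS, hvR⟩ ih
  obtain ⟨huS, huR⟩ := ih.right_mem
  obtain ⟨u1, u2⟩ := u
  obtain ⟨v1, v2⟩ := v
  rw [adj_iff] at huv
  simp only at huv
  obtain ⟨hv1, hv2, hv3, hv4⟩ := hvR
  obtain ⟨hu1, hu2, hu3, hu4⟩ := huR
  simp only at hv1 hv2 hv3 hv4 hu1 hu2 hu3 hu4
  have hvR : (v1, v2) ∈ rc a b c d := ⟨hv1, hv2, hv3, hv4⟩
  rcases huv with h1 | h1 | h1 | h1 | h1 | h1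
  · exact ih.tail (nn_mk (by omega)) ⟨hvS, hvR⟩
  · exact ih.tail (nn_mk (by omega)) ⟨hvS, hvR⟩
  · exact ih.tail (nn_mk (by omega)) ⟨hvS, hvR⟩
  · exact ih.tail (nn_mk (by omega)) ⟨hvS, hvR⟩
  · obtain ⟨h1, h2⟩ := h1
    have hu : ¬ (u1 % 2 = 0 ∧ u2 % 2 = 0) := fun h => huS (hS.vert' h.1 h.2)
    have hv : ¬ (v1 % 2 = 0 ∧ v2 % 2 = 0) := fun h => hvS (hS.vert' h.1 h.2)
    by_cases hp : u1 % 2 = 1
    · have hw : ((u1, v2) : ℤ × ℤ) ∉ S := hS.face' (by simp only; omega) (by simp only; omega)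
      have hwR : ((u1, v2) : ℤ × ℤ) ∈ rc a b c d := ⟨hu1, hu2, hv3, hv4⟩
      exact (ih.tail (z := (u1, v2)) (nn_mk (by omega)) ⟨hw, hwR⟩).tail
        (nn_mk (by omega)) ⟨hvS, hvR⟩
    · have hw : ((v1, u2) : ℤ × ℤ) ∉ S := hS.face' (by simp only; omega) (by simp only; omega)
      have hwR : ((v1, u2) : ℤ × ℤ) ∈ rc a b c d := ⟨hv1, hv2, hu3, hu4⟩
      exact (ih.tail (z := (v1, u2)) (nn_mk (by omega)) ⟨hw, hwR⟩).tail
        (nn_mk (by omega)) ⟨hvS, hvR⟩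
  · obtain ⟨h1, h2⟩ := h1
    have hu : ¬ (u1 % 2 = 0 ∧ u2 % 2 = 0) := fun h => huS (hS.vert' h.1 h.2)
    have hv : ¬ (v1 % 2 = 0 ∧ v2 % 2 = 0) := fun h => hvS (hS.vert' h.1 h.2)
    by_cases hp : u1 % 2 = 1
    · have hw : ((u1, v2) : ℤ × ℤ) ∉ S := hS.face' (by simp only; omega) (by simp only; omega)
      have hwR : ((u1, v2) : ℤ × ℤ) ∈ rc a b c d := ⟨hu1, hu2, hv3, hv4⟩
      exact (ih.tail (z := (u1, v2)) (nn_mk (by omega)) ⟨hw, hwR⟩).tail
        (nn_mk (by omega)) ⟨hvS, hvR⟩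
    · have hw : ((v1, u2) : ℤ × ℤ) ∉ S := hS.face' (by simp only; omega) (by simp only; omega)
      have hwR : ((v1, u2) : ℤ × ℤ) ∈ rc a b c d := ⟨hv1, hv2, hu3, hu4⟩
      exact (ih.tail (z := (v1, u2)) (nn_mk (by omega)) ⟨hw, hwR⟩).tail
        (nn_mk (by omega)) ⟨hvS, hvR⟩

/-- **Duality.** Either `S` crosses `[a, b] × [c, d]` from left to right, or the dual configuration
crosses `[c - 1, d] × [a, b - 1]` from left to right. -/
theorem duality {S : Set (ℤ × ℤ)} (hS : Bond S) {a b c d : ℤ} (hab : a < b) (hcd : c ≤ d) :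
    LRc a b c d S ∨ LRc (c - 1) d a (b - 1) (dl S) := by
  rcases hex S (a := 2 * a) (b := 2 * b) (c := 2 * c) (d := 2 * d) (by omega) (by omega) with h | h
  · left
    obtain ⟨x, y, h, hx, hy⟩ := h
    exact ⟨x, y, nc_of_conn hS h, hx, hy⟩
  · right
    obtain ⟨x, y, h, hx, hy⟩ := h
    have h := nc_of_conn_compl (a := a) (b := b) (c := c) (d := d) hS h
    have hD := hS.dual
    -- the parity facts
    have hpar : ∀ z : ℤ × ℤ, z ∉ S → ¬ (z.1 % 2 = 0 ∧ z.2 % 2 = 0) := fun z hz h =>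
      hz (hS.vert' h.1 h.2)
    obtain ⟨hxS, hxR⟩ := h.left_mem
    obtain ⟨hyS, hyR⟩ := h.right_mem
    have hxp := hpar x hxS
    have hyp := hpar y hyS
    obtain ⟨x1, x2⟩ := x
    obtain ⟨y1, y2⟩ := y
    simp only [rc, Set.mem_ofPred_eq] at hx hy hxp hyp hxR hyR
    have hmem : ∀ z : ℤ × ℤ, z ∉ S → ((z.2 - 1, z.1 - 1) : ℤ × ℤ) ∈ dl S := by
      intro z hz
      have e : ((z.1 - 1 + 1, z.2 - 1 + 1) : ℤ × ℤ) = z := by simp
      simp only [dl, Set.mem_ofPred_eq]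
      rwa [e]
    -- the clipped path
    set st : ℤ × ℤ := (x2 - 2, x1 - 1) with hst
    have hst1 : st ∈ dl S ∩ rc (c - 1) d a (b - 1) := by
      refine ⟨hD.vert' (by simp only [hst]; omega) (by simp only [hst]; omega), ?_⟩
      simp only [rc, Set.mem_ofPred_eq, hst]
      omega
    have key : ∀ z, NC (Sᶜ ∩ rc a b c d) (x1, x2) z →
        NC (dl S ∩ rc (c - 1) d a (b - 1)) st (z.2 - 1, max (2 * a) (min (z.1 - 1) (2 * b - 2))) := by
      intro z hz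
      refine NC.ind (S := Sᶜ ∩ rc a b c d) (fun z => NC (dl S ∩ rc (c - 1) d a (b - 1)) st
        (z.2 - 1, max (2 * a) (min (z.1 - 1) (2 * b - 2)))) ?_ ?_ hz
      · have e : max (2 * a) (min (x1 - 1) (2 * b - 2)) = x1 - 1 := by omega
        simp only [e]
        refine (NC.refl hst1).tail (nn_mk (by omega)) ⟨hmem _ hxS, ?_⟩
        simp only [rc, Set.mem_ofPred_eq]
        omega
      · rintro ⟨u1, u2⟩ ⟨v1, v2⟩ hu huv ⟨hvS, hvR⟩ ih
        obtain ⟨huS, huR⟩ := hu.right_mem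
        have hup := hpar _ huS
        have hvp := hpar _ hvS
        simp only [rc, Set.mem_ofPred_eq, NN] at hup hvp huR hvR huv ih ⊢
        by_cases hin : 2 * a ≤ v1 - 1 ∧ v1 - 1 ≤ 2 * b - 2
        · have e : max (2 * a) (min (v1 - 1) (2 * b - 2)) = v1 - 1 := by omega
          rw [e]
          by_cases hin' : 2 * a ≤ u1 - 1 ∧ u1 - 1 ≤ 2 * b - 2
          · have e' : max (2 * a) (min (u1 - 1) (2 * b - 2)) = u1 - 1 := by omega
            rw [e'] at ih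
            refine ih.tail (nn_mk (by omega)) ⟨hmem _ hvS, ?_⟩
            simp only [Set.mem_ofPred_eq]
            omega
          · have e' : ((u2 - 1, max (2 * a) (min (u1 - 1) (2 * b - 2))) : ℤ × ℤ) =
                (v2 - 1, v1 - 1) := Prod.ext (by simp only; omega) (by simp only; omega)
            rw [e'] at ih
            exact ih
        · have e' : ((v2 - 1, max (2 * a) (min (v1 - 1) (2 * b - 2))) : ℤ × ℤ) =
                (u2 - 1, max (2 * a) (min (u1 - 1) (2 * b - 2))) :=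
            Prod.ext (by simp only; omega) (by simp only; omega)
          rw [e']
          exact ih
    have hk := key _ h
    simp only at hk
    have e : max (2 * a) (min (y1 - 1) (2 * b - 2)) = y1 - 1 := by omega
    rw [e] at hk
    refine ⟨st, (2 * d, y1 - 1), hk.tail (nn_mk (by omega))
      ⟨hD.vert' (by simp only; omega) (by simp only; omega), ?_⟩, by simp only [hst]; omega, rfl⟩
    simp only [rc, Set.mem_ofPred_eq]
    omega

/-- A crossing of a set on which a sign is constant along steps has one sign. -/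
theorem lr_sign {S : Set (ℤ × ℤ)} (sg : ℤ × ℤ → Prop)
    (hsg : ∀ u v, u ∈ S → v ∈ S → NN u v → (sg u ↔ sg v)) {a b c d : ℤ} (h : LRc a b c d S) :
    LRc a b c d {z | z ∈ S ∧ sg z} ∨ LRc a b c d {z | z ∈ S ∧ ¬ sg z} := by
  obtain ⟨x, y, h, hx, hy⟩ := h
  by_cases hs : sg x
  · left
    refine ⟨x, y, ?_, hx, hy⟩
    have : NC ({z | z ∈ S ∧ sg z} ∩ rc a b c d) x y ∧ sg y := by
      refine NC.ind (S := S ∩ rc a b c d)
        (fun y => NC ({z | z ∈ S ∧ sg z} ∩ rc a b c d) x y ∧ sg y)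
        ⟨NC.refl ⟨⟨h.left_mem.1, hs⟩, h.left_mem.2⟩, hs⟩ ?_ h
      intro u v hu huv hv ih
      have hsv : sg v := (hsg u v hu.right_mem.1 hv.1 huv).1 ih.2
      exact ⟨ih.1.tail huv ⟨⟨hv.1, hsv⟩, hv.2⟩, hsv⟩
    exact this.1
  · right
    refine ⟨x, y, ?_, hx, hy⟩
    have : NC ({z | z ∈ S ∧ ¬ sg z} ∩ rc a b c d) x y ∧ ¬ sg y := by
      refine NC.ind (S := S ∩ rc a b c d)
        (fun y => NC ({z | z ∈ S ∧ ¬ sg z} ∩ rc a b c d) x y ∧ ¬ sg y)
        ⟨NC.refl ⟨⟨h.left_mem.1, hs⟩, h.left_mem.2⟩, hs⟩ ?_ h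
      intro u v hu huv hv ih
      have hsv : ¬ sg v := fun h => ih.2 ((hsg u v hu.right_mem.1 hv.1 huv).2 h)
      exact ⟨ih.1.tail huv ⟨⟨hv.1, hsv⟩, hv.2⟩, hsv⟩
    exact this.1

end Vale.Agent.P145.FB
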