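import Vale.Agent.P145.FB.Space
import Vale.Agent.P145.FB.SqDet
import Vale.Agent.P145.FB.FlipDef

/-!
# P145, block F-B: levels of clusters, deterministic part

`hf x p` is a height function on the whole fine lattice: on an edge it is the common height of the
even faces (open edge) or of the odd faces (closed edge). For even `m` the set `hf x = m` is the set
of the points of level `m` of the open clusters.
-/

namespace Vale.Agent.P145.FB

open Vale.Agent.P153 Vale.Agent.P153.Topo Vale.Agent.P145.FA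

/-- The deterministic properties of a configuration of heights and bonds. -/
structure Good (x : Hgt × Mk) : Prop where
  par : ∀ q : Pt, (x.1 q - (q.1 + q.2)) % 2 = 0
  st : ∀ q : Pt, (x.1 (q.1 + 1, q.2) = x.1 q + 1 ∨ x.1 (q.1 + 1, q.2) = x.1 q - 1) ∧
    (x.1 (q.1, q.2 + 1) = x.1 q + 1 ∨ x.1 (q.1, q.2 + 1) = x.1 q - 1)
  opn : ∀ w : Pt, x.2 w = true → x.1 (e1 w) = x.1 (e2 w)
  cls : ∀ w : Pt, x.2 w = false → x.1 (o1 w) = x.1 (o2 w)

/-- The height at a point of the fine lattice. -/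
def hf (x : Hgt × Mk) (p : Pt) : ℤ :=
  if (p.1 + p.2) % 2 = 0 then x.1 (fc p)
  else if x.2 (vx p) = true then x.1 (e1 (vx p)) else x.1 (o1 (vx p))

/-- Vertices and open edges. -/
def SA (x : Hgt × Mk) : Set Pt :=
  {p | (p.1 % 2 = 0 ∧ p.2 % 2 = 0) ∨ ((p.1 + p.2) % 2 = 1 ∧ x.2 (vx p) = true)}

variable {x : Hgt × Mk}

/-- The four faces at an edge. -/
theorem faces_vx (p : Pt) (hp : (p.1 + p.2) % 2 = 1) :
    (p.1 % 2 = 1 ∧ e1 (vx p) = fc (p.1 + 1, p.2) ∧ e2 (vx p) = fc (p.1 - 1, p.2) ∧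
      o1 (vx p) = fc (p.1, p.2 - 1) ∧ o2 (vx p) = fc (p.1, p.2 + 1)) ∨
    (p.1 % 2 = 0 ∧ e1 (vx p) = fc (p.1, p.2 - 1) ∧ e2 (vx p) = fc (p.1, p.2 + 1) ∧
      o1 (vx p) = fc (p.1 + 1, p.2) ∧ o2 (vx p) = fc (p.1 - 1, p.2)) := by
  obtain ⟨a, b⟩ := p
  simp only at hp
  by_cases ha : a % 2 = 1
  · left
    have hev : Even ((vx (a, b)).1 + (vx (a, b)).2) := by
      rw [Int.even_iff]; simp only [vx]; omega
    simp only [e1, e2, o1, o2, hev, if_true]
    simp only [vx, fc, Prod.mk.injEq]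
    omega
  · right
    have hev : ¬ Even ((vx (a, b)).1 + (vx (a, b)).2) := by
      rw [Int.even_iff]; simp only [vx]; omega
    simp only [e1, e2, o1, o2, hev, if_false]
    simp only [vx, fc, Prod.mk.injEq]
    omega

theorem hf_face (p : Pt) (hp : (p.1 + p.2) % 2 = 0) : hf x p = x.1 (fc p) := by
  unfold hf; rw [if_pos hp]

theorem hf_open (p : Pt) (hp : (p.1 + p.2) % 2 = 1) (ho : x.2 (vx p) = true) :
    hf x p = x.1 (e1 (vx p)) := by
  unfold hf; rw [if_neg (by omega), if_pos ho]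

theorem hf_closed (p : Pt) (hp : (p.1 + p.2) % 2 = 1) (ho : x.2 (vx p) = false) :
    hf x p = x.1 (o1 (vx p)) := by
  unfold hf; rw [if_neg (by omega), if_neg (by rw [ho]; simp)]

theorem Good.par_face (hx : Good x) (p : Pt) (hp : (p.1 + p.2) % 2 = 0) :
    (hf x p - p.1) % 2 = 0 := by
  rw [hf_face p hp]
  have := hx.par (fc p)
  simp only [fc] at this ⊢
  omega

theorem Good.edge (hx : Good x) (p : Pt) (hp : (p.1 + p.2) % 2 = 1) :
    (x.2 (vx p) = true ∧ hf x p % 2 = 0 ∧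
      ∀ q : Pt, NN p q → (q.1 % 2 = 0 → hf x q = hf x p) ∧
        (q.1 % 2 = 1 → hf x q = hf x p + 1 ∨ hf x q = hf x p - 1)) ∨
    (x.2 (vx p) = false ∧ hf x p % 2 = 1 ∧
      ∀ q : Pt, NN p q → (q.1 % 2 = 1 → hf x q = hf x p) ∧
        (q.1 % 2 = 0 → hf x q = hf x p + 1 ∨ hf x q = hf x p - 1)) := by
  obtain ⟨a, b⟩ := p
  simp only at hp
  -- the four faces
  have key : ∀ q : Pt, NN (a, b) q → (q.1 + q.2) % 2 = 0 := by
    intro q hq; unfold NN at hq; simp only at hq; omega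
  have hR : hf x (a + 1, b) = x.1 (fc (a + 1, b)) := hf_face _ (by simp only; omega)
  have hL : hf x (a - 1, b) = x.1 (fc (a - 1, b)) := hf_face _ (by simp only; omega)
  have hU : hf x (a, b + 1) = x.1 (fc (a, b + 1)) := hf_face _ (by simp only; omega)
  have hD : hf x (a, b - 1) = x.1 (fc (a, b - 1)) := hf_face _ (by simp only; omega)
  -- the steps
  have s1 := (hx.st (fc (a, b - 1))).1
  have s2 := (hx.st (fc (a - 1, b))).1
  have s3 := (hx.st (fc (a, b + 1))).2
  have s4 := (hx.st (fc (a - 1, b))).2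
  have t1 : ((fc (a, b - 1)).1 + 1, (fc (a, b - 1)).2) = fc (a + 1, b) := by
    simp only [fc, Prod.mk.injEq]; omega
  have t2 : ((fc (a - 1, b)).1 + 1, (fc (a - 1, b)).2) = fc (a, b + 1) := by
    simp only [fc, Prod.mk.injEq]; omega
  have t3 : ((fc (a, b + 1)).1, (fc (a, b + 1)).2 + 1) = fc (a + 1, b) := by
    simp only [fc, Prod.mk.injEq]; omega
  have t4 : ((fc (a - 1, b)).1, (fc (a - 1, b)).2 + 1) = fc (a, b - 1) := by
    simp only [fc, Prod.mk.injEq]; omega
  rw [t1, ← hR, ← hD] at s1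
  rw [t2, ← hU, ← hL] at s2
  rw [t3, ← hR, ← hU] at s3
  rw [t4, ← hD, ← hL] at s4
  have pR := hx.par_face (a + 1, b) (by simp only; omega)
  have pU := hx.par_face (a, b + 1) (by simp only; omega)
  simp only at pR pU
  have hq : ∀ q : Pt, NN (a, b) q → q = (a + 1, b) ∨ q = (a - 1, b) ∨ q = (a, b + 1) ∨
      q = (a, b - 1) := by
    rintro ⟨c, d⟩ h; unfold NN at h; simp only at h; simp only [Prod.mk.injEq]; omega
  cases ho : x.2 (vx (a, b))
  · right
    have hc := hx.cls _ ho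
    have h0 := hf_closed (x := x) (a, b) hp ho
    rcases faces_vx (a, b) hp with ⟨h1, h2, h3, h4, h5⟩ | ⟨h1, h2, h3, h4, h5⟩
    · simp only at h1 h2 h3 h4 h5
      rw [h4, h5, ← hD, ← hU] at hc
      rw [h4, ← hD] at h0
      refine ⟨rfl, by omega, fun q hq' => ?_⟩
      rcases hq q hq' with rfl | rfl | rfl | rfl <;> simp only <;> omega
    · simp only at h1 h2 h3 h4 h5
      rw [h4, h5, ← hR, ← hL] at hc
      rw [h4, ← hR] at h0
      refine ⟨rfl, by omega, fun q hq' => ?_⟩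
      rcases hq q hq' with rfl | rfl | rfl | rfl <;> simp only <;> omega
  · left
    have hc := hx.opn _ ho
    have h0 := hf_open (x := x) (a, b) hp ho
    rcases faces_vx (a, b) hp with ⟨h1, h2, h3, h4, h5⟩ | ⟨h1, h2, h3, h4, h5⟩
    · simp only at h1 h2 h3 h4 h5
      rw [h2, h3, ← hR, ← hL] at hc
      rw [h2, ← hR] at h0
      refine ⟨rfl, by omega, fun q hq' => ?_⟩
      rcases hq q hq' with rfl | rfl | rfl | rfl <;> simp only <;> omega
    · simp only at h1 h2 h3 h4 h5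
      rw [h2, h3, ← hU, ← hD] at hc
      rw [h2, ← hD] at h0
      refine ⟨rfl, by omega, fun q hq' => ?_⟩
      rcases hq q hq' with rfl | rfl | rfl | rfl <;> simp only <;> omega

theorem Good.mem_SA (hx : Good x) (p : Pt) : p ∈ SA x ↔ hf x p % 2 = 0 := by
  by_cases hp : (p.1 + p.2) % 2 = 0
  · have := hx.par_face p hp
    simp only [SA, Set.mem_ofPred_eq]
    constructor
    · rintro (h | h) <;> omega
    · intro h; left; omega
  · rcases hx.edge p (by omega) with ⟨h1, h2, -⟩ | ⟨h1, h2, -⟩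
    · simp only [SA, Set.mem_ofPred_eq, h1, and_true, h2, iff_true]; omega
    · simp only [SA, Set.mem_ofPred_eq, h1]
      constructor
      · rintro (h | h)
        · omega
        · exact absurd h.2 (by simp)
      · intro h; omega

/-- Neighbours have nearly the same height. -/
theorem Good.nn (hx : Good x) {p q : Pt} (h : NN p q) :
    hf x q = hf x p ∨ hf x q = hf x p + 1 ∨ hf x q = hf x p - 1 := by
  by_cases hp : (p.1 + p.2) % 2 = 1
  · rcases hx.edge p hp with ⟨-, -, h3⟩ | ⟨-, -, h3⟩ <;> have := h3 q h <;>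
      rcases Int.emod_two_eq_zero_or_one q.1 with h4 | h4 <;> have := this <;> omega
  · have hq : (q.1 + q.2) % 2 = 1 := by unfold NN at h; omega
    rcases hx.edge q hq with ⟨-, -, h3⟩ | ⟨-, -, h3⟩ <;> have := h3 p h.symm <;>
      rcases Int.emod_two_eq_zero_or_one p.1 with h4 | h4 <;> have := this <;> omega

/-- The level sets are separated: along a step off the set of height `m`, `m` even, the sign of
`hf - m` does not change. -/
theorem Good.sgn_step (hx : Good x) {m : ℤ} (hm : m % 2 = 0) {p q : Pt} (h : Adj p q)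
    (hp : hf x p ≠ m) (hq : hf x q ≠ m) : hf x p < m ↔ hf x q < m := by
  have key : ∀ p q : Pt, q.1 = p.1 + 1 → q.2 = p.2 - 1 → hf x p ≠ m → hf x q ≠ m →
      (hf x p < m ↔ hf x q < m) := by
    rintro ⟨a, b⟩ ⟨c, d⟩ hc hd hp hq
    simp only at hc hd
    subst hc; subst hd
    by_cases hab : (a + b) % 2 = 0
    · -- two adjacent faces
      have e1 := hf_face (x := x) (a, b) hab
      have e2 := hf_face (x := x) (a + 1, b - 1) (by simp only; omega)
      have s := (hx.st (fc (a, b))).2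
      have t : ((fc (a, b)).1, (fc (a, b)).2 + 1) = fc (a + 1, b - 1) := by
        simp only [fc, Prod.mk.injEq]; omega
      rw [t, ← e1, ← e2] at s
      omega
    · -- two edges
      have h1 := hx.edge (a, b) (by simp only; omega)
      have h2 := hx.edge (a + 1, b - 1) (by simp only; omega)
      by_cases ha : a % 2 = 0
      · -- `(a + 1, b)` is a dual vertex
        have n1 : NN (a, b) (a + 1, b) := nn_mk (by omega)
        have n2 : NN (a + 1, b - 1) (a + 1, b) := nn_mk (by omega)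
        have pr := hx.par_face (a + 1, b) (by simp only; omega)
        simp only at pr
        rcases h1 with ⟨-, h12, h1⟩ | ⟨-, h12, h1⟩ <;> rcases h2 with ⟨-, h22, h2⟩ | ⟨-, h22, h2⟩ <;>
          have g1 := (h1 _ n1) <;> have g2 := h2 _ n2 <;> simp only at g1 g2 <;> omega
      · have n1 : NN (a, b) (a, b - 1) := nn_mk (by omega)
        have n2 : NN (a + 1, b - 1) (a, b - 1) := nn_mk (by omega)
        have pr := hx.par_face (a, b - 1) (by simp only; omega)
        simp only at pr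
        rcases h1 with ⟨-, h12, h1⟩ | ⟨-, h12, h1⟩ <;> rcases h2 with ⟨-, h22, h2⟩ | ⟨-, h22, h2⟩ <;>
          have g1 := (h1 _ n1) <;> have g2 := h2 _ n2 <;> simp only at g1 g2 <;> omega
  rw [adj_iff] at h
  rcases h with h | h | h | h | h | h
  · have := hx.nn (p := p) (q := q) (by unfold NN; omega); omega
  · have := hx.nn (p := p) (q := q) (by unfold NN; omega); omega
  · have := hx.nn (p := p) (q := q) (by unfold NN; omega); omega
  · have := hx.nn (p := p) (q := q) (by unfold NN; omega); omega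
  · exact key p q h.1 h.2 hp hq
  · exact (key q p (by omega) (by omega) hq hp).symm

theorem Good.sgn (hx : Good x) {m : ℤ} (hm : m % 2 = 0) {p q : Pt}
    (h : Conn {z | hf x z ≠ m} p q) : hf x p < m ↔ hf x q < m := by
  refine Conn.ind (S := {z | hf x z ≠ m}) (fun z => hf x p < m ↔ hf x z < m) Iff.rfl ?_ h
  intro u v hu huv hv ih
  exact ih.trans (hx.sgn_step hm huv hu.right_mem hv)

/-- Adjacent points of `SA` are joined by nearest-neighbour steps in `SA` at the same height, inside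
the rectangle spanned by them. -/
theorem Good.step_SA (hx : Good x) {p q : Pt} (h : Adj p q) (hp : p ∈ SA x) (hq : q ∈ SA x) :
    hf x q = hf x p ∧ (NN p q ∨ ∃ r : Pt, NN p r ∧ NN r q ∧ hf x r = hf x p ∧
      (r = (p.1, q.2) ∨ r = (q.1, p.2))) := by
  have key : ∀ p q : Pt, q.1 = p.1 + 1 → q.2 = p.2 - 1 → p ∈ SA x → q ∈ SA x →
      hf x q = hf x p ∧ ∃ r : Pt, NN p r ∧ NN r q ∧ hf x r = hf x p ∧
      (r = (p.1, q.2) ∨ r = (q.1, p.2)) := by
    rintro ⟨a, b⟩ ⟨c, d⟩ hc hd hp hq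
    simp only at hc hd
    subst hc; subst hd
    rw [hx.mem_SA] at hp hq
    have hab : (a + b) % 2 = 1 := by
      by_contra hab
      have e1 := hx.par_face (a, b) (by simp only; omega)
      have e2 := hx.par_face (a + 1, b - 1) (by simp only; omega)
      simp only at e1 e2
      omega
    have h1 := hx.edge (a, b) hab
    have h2 := hx.edge (a + 1, b - 1) (by simp only; omega)
    by_cases ha : a % 2 = 0
    · have n1 : NN (a, b) (a, b - 1) := nn_mk (by omega)
      have n2 : NN (a + 1, b - 1) (a, b - 1) := nn_mk (by omega)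
      rcases h1 with ⟨-, h12, h1⟩ | ⟨-, h12, h1⟩ <;> rcases h2 with ⟨-, h22, h2⟩ | ⟨-, h22, h2⟩ <;>
        have g1 := (h1 _ n1) <;> have g2 := h2 _ n2 <;> simp only at g1 g2 <;>
        first
          | omega
          | exact ⟨by omega, (a, b - 1), n1, n2.symm, by omega, Or.inl rfl⟩
    · have n1 : NN (a, b) (a + 1, b) := nn_mk (by omega)
      have n2 : NN (a + 1, b - 1) (a + 1, b) := nn_mk (by omega)
      rcases h1 with ⟨-, h12, h1⟩ | ⟨-, h12, h1⟩ <;> rcases h2 with ⟨-, h22, h2⟩ | ⟨-, h22, h2⟩ <;>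
        have g1 := (h1 _ n1) <;> have g2 := h2 _ n2 <;> simp only at g1 g2 <;>
        first
          | omega
          | exact ⟨by omega, (a + 1, b), n1, n2.symm, by omega, Or.inr rfl⟩
  have hsame : ∀ p q : Pt, NN p q → p ∈ SA x → q ∈ SA x → hf x q = hf x p := by
    intro p q h hp hq
    rw [hx.mem_SA] at hp hq
    rcases hx.nn h with h | h | h <;> omega
  rw [adj_iff] at h
  rcases h with h | h | h | h | h | h
  · have h' : NN p q := by unfold NN; omega
    exact ⟨hsame p q h' hp hq, Or.inl h'⟩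
  · have h' : NN p q := by unfold NN; omega
    exact ⟨hsame p q h' hp hq, Or.inl h'⟩
  · have h' : NN p q := by unfold NN; omega
    exact ⟨hsame p q h' hp hq, Or.inl h'⟩
  · have h' : NN p q := by unfold NN; omega
    exact ⟨hsame p q h' hp hq, Or.inl h'⟩
  · obtain ⟨h1, r, h2, h3, h4, h5⟩ := key p q h.1 h.2 hp hq
    exact ⟨h1, Or.inr ⟨r, h2, h3, h4, h5⟩⟩
  · obtain ⟨h1, r, h2, h3, h4, h5⟩ := key q p (by omega) (by omega) hq hp
    exact ⟨h1.symm, Or.inr ⟨r, h3.symm, h2.symm, by rw [h4, h1], h5.symm⟩⟩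

/-- The height is constant on connected subsets of `SA`. -/
theorem Good.const (hx : Good x) {p q : Pt} (h : Conn (SA x) p q) : hf x q = hf x p := by
  refine Conn.ind (S := SA x) (fun z => hf x z = hf x p) rfl ?_ h
  intro u v hu huv hv ih
  exact ((hx.step_SA huv hu.right_mem hv).1).trans ih

/-- A triangular connection at an even height in a box is a nearest-neighbour connection. -/
theorem Good.nc (hx : Good x) {m : ℤ} (hm : m % 2 = 0) {a b c d : ℤ} {C : Set Pt}
    (hC : C ⊆ {z | hf x z = m}) (hCr : C ⊆ rc a b c d) {p q : Pt} (h : Conn C p q) :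
    NC ({z | hf x z = m} ∩ rc a b c d) p q := by
  refine Conn.ind (S := C) (fun z => NC ({z | hf x z = m} ∩ rc a b c d) p z)
    (NC.refl ⟨hC h.1, hCr h.1⟩) ?_ h
  intro u v hu huv hv ih
  have hu' := hC hu.right_mem
  have hv' := hC hv
  have hur := hCr hu.right_mem
  have hvr := hCr hv
  simp only [Set.mem_ofPred_eq] at hu' hv'
  obtain ⟨-, h1⟩ := hx.step_SA huv ((hx.mem_SA u).2 (by omega)) ((hx.mem_SA v).2 (by omega))
  rcases h1 with h1 | ⟨r, h1, h2, h3, h4⟩
  · exact ih.tail h1 ⟨hv', hvr⟩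
  · have hr : r ∈ {z | hf x z = m} ∩ rc a b c d := by
      refine ⟨by simp only [Set.mem_ofPred_eq]; omega, ?_⟩
      obtain ⟨r1, r2, r3, r4⟩ := hur
      obtain ⟨s1, s2, s3, s4⟩ := hvr
      rcases h4 with rfl | rfl
      · exact ⟨r1, r2, s3, s4⟩
      · exact ⟨s1, s2, r3, r4⟩
    exact (ih.tail h1 hr).tail h2 ⟨hv', hvr⟩

/-- `C` meets every triangular path from `I` to `O`. -/
def Sp (C I O : Set Pt) : Prop :=
  ∀ (D : Set Pt) (z w : Pt), Conn D z w → z ∈ I → w ∈ O → (D ∩ C).Nonempty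

/-- Far away points. -/
def far (N : ℤ) : Set Pt := {z | N ≤ |z.1| ∨ N ≤ |z.2|}

/-- Between two circuits of the levels `l1`, `l2` there is a circuit of each even level between them. -/
theorem Good.mid (hx : Good x) {m l1 l2 : ℤ} (hm : m % 2 = 0) (h1 : l1 ≠ m) (h2 : l2 ≠ m)
    (h12 : ¬ (l1 < m ↔ l2 < m)) {C1 C2 I1 I2 O2 : Set Pt} (hC1 : ∀ z ∈ C1, hf x z = l1)
    (hc1 : ∀ z ∈ C1, ∀ w ∈ C1, Conn C1 z w) (hn1 : C1.Nonempty) (hs1 : Sp C1 I1 O2)
    (hC2 : ∀ z ∈ C2, hf x z = l2) (hs2 : Sp C2 I2 O2) (hI : C1 ⊆ I2) {N : ℤ}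
    (hN : ∀ z : Pt, N ≤ |z.1| ∨ N ≤ |z.2| → z ∈ O2)
    (hO : ∀ z ∈ O2, ∃ w : Pt, (N ≤ |w.1| ∨ N ≤ |w.2|) ∧ Conn O2 z w) :
    ∃ C : Set Pt, (∀ z ∈ C, hf x z = m) ∧ (∀ z ∈ C, ∃ k, k ∉ O2 ∧ Adj k z) ∧ C.Nonempty ∧
      (∀ z ∈ C, ∀ w ∈ C, Conn C z w) ∧ Sp C I1 O2 := by
  set A : Set Pt := {z | hf x z ≠ m} with hA
  have hC1A : C1 ⊆ A := fun z hz => by
    simp only [hA, Set.mem_ofPred_eq, hC1 z hz]; exact h1
  have hAC : A ∪ C1 = A := Set.union_eq_left.2 hC1A
  -- the cluster `K` of `C1`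
  set K := comp (A ∪ C1) C1 with hK
  have hsgn : ∀ z ∈ K, hf x z < m ↔ l1 < m := by
    rintro z ⟨b, hb, hbz⟩
    rw [hAC] at hbz
    rw [← hx.sgn hm hbz, hC1 b hb]
  have hcl : ∀ u v, u ∈ K → Adj u v → v ∈ A ∪ C1 → v ∈ K := by
    rintro u v ⟨b, hb, hbu⟩ huv hv
    exact ⟨b, hb, hbu.tail huv hv⟩
  have hC1K : C1 ⊆ K := fun b hb => ⟨b, hb, Conn.refl (Or.inr hb)⟩
  have hKO : ∀ z ∈ K, z ∉ O2 := by
    rintro z ⟨b, hb, hbz⟩ hz
    have hb' := hbz.of_closed (T := K) (hC1K hb) (fun u v hu _ hv huv => hcl u v hu huv hv)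
    obtain ⟨y, hy1, hy2⟩ := hs2 _ b z (hb'.mono Set.inter_subset_right) (hI hb) hz
    have := hsgn y hy1
    rw [hC2 y hy2] at this
    exact h12 this.symm
  have hKb : ∀ z ∈ K, |z.1| < N ∧ |z.2| < N := by
    intro z hz
    have h3 := hKO z hz
    by_contra h4
    apply h3
    apply hN
    by_contra h5
    push Not at h5
    exact h4 h5
  have hfin : K.Finite := by
    refine ((Set.finite_Icc (-N) N).prod (Set.finite_Icc (-N) N)).subset ?_
    intro z hz
    have := hKb z hz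
    simp only [Set.mem_prod, Set.mem_Icc]
    have h1 := abs_lt.mp this.1
    have h2 := abs_lt.mp this.2
    omega
  obtain ⟨C, hCn, -, hCA, hCadj, hCc, hCs⟩ := exists_circuit hc1 hn1 hfin
  refine ⟨C, ?_, ?_, hCn, hCc, ?_⟩
  · intro z hz
    have := (hCA z hz).1
    simpa [hA] using this
  · intro z hz
    obtain ⟨k, hk, hkz⟩ := hCadj z hz
    exact ⟨k, hKO k hk, hkz⟩
  · intro D z w hD hz hw
    have hD' : Conn (D ∩ {v | Conn D z v}) z w := hD.of_closed (Conn.refl hD.1)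
      (fun u v hu _ hv huv => Conn.tail hu huv hv)
    obtain ⟨y, hy1, hy2⟩ := hs1 _ z w hD' hz hw
    have hyw : Conn D y w := (Conn.symm hy1.2).trans hD
    have hwe : w ∈ ext K := by
      obtain ⟨w', hw1, hw2⟩ := hO w hw
      have h3 : w' ∈ ext K := mem_ext_of_far hKb hw1
      intro M
      obtain ⟨y', h4, h5⟩ := h3 M
      exact ⟨y', h4, (hw2.mono fun v hv hvK => hKO v hvK hv).trans h5⟩
    exact hCs y (hC1K hy2) w hwe D hyw

end Vale.Agent.P145.FB
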