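import Vale.Agent.P145.FB.Inst
import Vale.Agent.P145.FB.Chain
import Vale.Agent.P145.FB.Mu
import Vale.Agent.P145.X.MuLev

/-!
# P145, block F-B: circuits at a given level

`opl l x` is the set of the open bonds at level `l`. The circuits of open bonds with spin plus are
circuits at a level divisible by four.
-/

namespace Vale.Agent.P145.FB

open Finset Filter Topology MeasureTheory
open Vale.Agent.P152 (Edge Ori Ice sgb pth IsHeight)
open Vale.Agent.P145.FA (Hgt mu0)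
open Vale.Agent.P145.X (Jmu LevFam some4 sh)

/-- The open bonds at level `l`. -/
def opl (l : ℤ) (x : Hgt × Mk) : Set Pt := {w | x.2 w = true ∧ x.1 (e1 w) = l ∧ x.1 (e2 w) = l}

/-- The open bonds at level `0`. -/
def bl (x : Hgt × Mk) : Set Pt := opl 0 x

theorem opl_sub_opp {l : ℤ} (hl : 4 ∣ l) (x : Hgt × Mk) : opl l x ⊆ opp x := by
  rintro w ⟨h1, h2, -⟩
  refine ⟨h1, ?_⟩
  rw [h2]; omega

theorem fine_opl_sub {l : ℤ} (hl : 4 ∣ l) (x : Hgt × Mk) : fine (opl l x) ⊆ SQ x :=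
  fine_mono (opl_sub_opp hl x)

theorem Ann_opl {l : ℤ} (hl : 4 ∣ l) {p q r : ℤ} {x : Hgt × Mk} (h : Ann p q r (fine (opl l x))) :
    Ann p q r (SQ x) := (IL_Ann p q r).1 _ _ (fine_opl_sub hl x) h

/-- The height attached to a point of the fine lattice. -/
noncomputable def lv (x : Hgt × Mk) (z : Pt) : ℤ :=
  open Classical in if Odd (z.1 + z.2) then x.1 (e1 (vx z)) else x.1 (fc z)

theorem lv_opl {l : ℤ} {x : Hgt × Mk} {z : Pt} (hz : z ∈ fine (opl l x)) : lv x z = l := by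
  unfold lv
  rcases hz with ⟨h1, h2⟩ | ⟨h1, h2, q, h3, h4⟩
  · rw [if_pos h1]; exact h2.2.1
  · have h5 : ¬ Odd (z.1 + z.2) := by
      rw [Int.even_iff] at h1 h2
      rw [Int.odd_iff]; omega
    rw [if_neg h5]
    rcases face_of_nn h3 h1 h2 with h6 | h6
    · rw [h6]; exact h4.2.1
    · rw [h6]; exact h4.2.2

/-- Uniqueness of the level. -/
theorem opl_unique {l l' p q p' q' t : ℤ} (ht : 0 < t) {x : Hgt × Mk}
    (h : Ann p q t (fine (opl l x))) (h' : Ann p' q' t (fine (opl l' x)))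
    (hp : |p' - p| ≤ 3 * t) (hq : |q' - q| ≤ 3 * t) : l = l' := by
  refine lev_unique (S := fine (opl l x) ∪ fine (opl l' x)) (lev := lv x) ht
    ((IL_Ann p q t).1 _ _ (fun z hz => ⟨Or.inl hz, lv_opl hz⟩) h)
    ((IL_Ann p' q' t).1 _ _ (fun z hz => ⟨Or.inr hz, lv_opl hz⟩) h') hp hq

/-- The even ends of the open bonds have the same height. -/
def Op (x : Hgt × Mk) : Prop := ∀ w, x.2 w = true → x.1 (e1 w) = x.1 (e2 w)

theorem Op.fcz {x : Hgt × Mk} (hx : Op x) {z q : Pt} (h : NN z q) (h1 : Even z.1) (h2 : Even z.2)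
    (hq : x.2 (vx q) = true) : x.1 (fc z) = x.1 (e1 (vx q)) := by
  rcases face_of_nn h h1 h2 with h6 | h6
  · rw [h6]
  · rw [h6, hx _ hq]

theorem Op.lev {x : Hgt × Mk} (hx : Op x) : Lev (SQ x) (lv x) := by
  have key : ∀ u v, NN u v → u ∈ SQ x → v ∈ SQ x → Odd (v.1 + v.2) → lv x u = lv x v := by
    intro u v huv hu hv ho
    have hue : Even u.1 ∧ Even u.2 := by
      rcases hu with ⟨h1, -⟩ | ⟨h1, h2, -⟩
      · exfalso
        unfold NN at huv
        rw [Int.odd_iff] at h1 ho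
        omega
      · exact ⟨h1, h2⟩
    have hvo : vx v ∈ opp x := by
      rcases hv with ⟨-, h1⟩ | ⟨h1, h2, -⟩
      · exact h1
      · exfalso
        rw [Int.even_iff] at h1 h2
        rw [Int.odd_iff] at ho
        omega
    have huo : ¬ Odd (u.1 + u.2) := by
      have := hue
      rw [Int.even_iff, Int.even_iff] at this
      rw [Int.odd_iff]; omega
    unfold lv
    rw [if_neg huo, if_pos ho]
    exact hx.fcz huv hue.1 hue.2 hvo.1
  intro u v huv hu hv
  by_cases ho : Odd (v.1 + v.2)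
  · exact key u v huv hu hv ho
  · refine (key v u huv.symm hv hu ?_).symm
    unfold NN at huv
    rw [Int.odd_iff] at ho ⊢
    omega

/-- The part of `SQ x` at level `l` consists of bonds at level `l`. -/
theorem SQ_lev_sub {x : Hgt × Mk} (hx : Op x) (l : ℤ) :
    SQ x ∩ {z | lv x z = l} ⊆ fine (opl l x) := by
  rintro z ⟨hz, hl⟩
  rcases hz with ⟨h1, h2⟩ | ⟨h1, h2, q, h3, h4⟩
  · left
    refine ⟨h1, h2.1, ?_⟩
    have hl' : x.1 (e1 (vx z)) = l := by
      have := hl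
      simp only [lv, Set.mem_ofPred_eq, if_pos h1] at this
      exact this
    exact ⟨hl', by rw [← hx _ h2.1]; exact hl'⟩
  · right
    have h5 : ¬ Odd (z.1 + z.2) := by
      rw [Int.even_iff] at h1 h2
      rw [Int.odd_iff]; omega
    have hl' : x.1 (fc z) = l := by
      have := hl
      simp only [lv, Set.mem_ofPred_eq, if_neg h5] at this
      exact this
    have h6 := hx.fcz h3 h1 h2 h4.1
    exact ⟨h1, h2, q, h3, h4.1, by rw [← h6]; exact hl', by rw [← hx _ h4.1, ← h6]; exact hl'⟩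

theorem four_dvd_of_mem {x : Hgt × Mk} {l : ℤ} {z : Pt} (hz : z ∈ SQ x) (hx : Op x)
    (hl : lv x z = l) : 4 ∣ l := by
  have h0 : ∃ w, w ∈ opp x ∧ x.1 (e1 w) = l := by
    rcases hz with ⟨h1, h2⟩ | ⟨h1, h2, q, h3, h4⟩
    · refine ⟨_, h2, ?_⟩
      simpa only [lv, if_pos h1] using hl
    · have h5 : ¬ Odd (z.1 + z.2) := by
        rw [Int.even_iff] at h1 h2
        rw [Int.odd_iff]; omega
      refine ⟨_, h4, ?_⟩
      have hl' : x.1 (fc z) = l := by simpa only [lv, if_neg h5] using hl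
      rw [← hx.fcz h3 h1 h2 h4.1]; exact hl'
  obtain ⟨w, h1, h2⟩ := h0
  have := h1.2
  omega

/-- A circuit of open bonds with spin plus is a circuit at one level divisible by four. -/
theorem Ann_SQ_level {x : Hgt × Mk} (hx : Op x) {p q t : ℤ} (ht : 0 < t) (h : Ann p q t (SQ x)) :
    ∃ l, 4 ∣ l ∧ Ann p q t (fine (opl l x)) := by
  obtain ⟨l, hl⟩ := Ann.lev hx.lev ht h
  refine ⟨l, ?_, (IL_Ann p q t).1 _ _ (SQ_lev_sub hx l) hl⟩
  obtain ⟨⟨a, b, h1, -, -⟩, -⟩ := hl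
  have h2 := h1.left_mem.1
  exact four_dvd_of_mem h2.1 hx h2.2

/-- A chain of circuits has one level. -/
theorem chain_SQ_level {x : Hgt × Mk} (hx : Op x) {t : ℤ} (ht : 0 < t) {n : ℕ} {c : ℕ → ℤ × ℤ}
    (hc : IsCh t n c) (hA : ∀ i ≤ n, Ann (c i).1 (c i).2 t (SQ x)) :
    ∃ l, 4 ∣ l ∧ ∀ i ≤ n, Ann (c i).1 (c i).2 t (fine (opl l x)) := by
  obtain ⟨l, hl⟩ := chain_lev hx.lev ht hc hA
  refine ⟨l, ?_, fun i hi => (IL_Ann _ _ t).1 _ _ (SQ_lev_sub hx l) (hl i hi)⟩
  obtain ⟨⟨a, b, h1, -, -⟩, -⟩ := hl 0 (Nat.zero_le n)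
  have h2 := h1.left_mem.1
  exact four_dvd_of_mem h2.1 hx h2.2

/-! ### The family of the levels -/

theorem opl_sh (l j : ℤ) (x : Hgt × Mk) : opl (l + 2 * j) (sh j x) = opl l x := by
  ext w
  show (x.2 w = true ∧ x.1 (e1 w) + 2 * j = l + 2 * j ∧ x.1 (e2 w) + 2 * j = l + 2 * j) ↔
    (x.2 w = true ∧ x.1 (e1 w) = l ∧ x.1 (e2 w) = l)
  rw [add_left_inj, add_left_inj]

theorem meas_opl (l : ℤ) (w : Pt) : MeasurableSet {x : Hgt × Mk | w ∈ opl l x} := by
  have h0 : ∀ q : Pt, Measurable fun x : Hgt × Mk => x.1 q := fun q =>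
    (measurable_pi_apply q).comp measurable_fst
  have h2 : Measurable fun x : Hgt × Mk => (x.1 (e1 w), x.1 (e2 w), x.2 w) :=
    (h0 _).prodMk ((h0 _).prodMk ((measurable_pi_apply w).comp measurable_snd))
  have h3 : {x : Hgt × Mk | w ∈ opl l x} = (fun x : Hgt × Mk =>
      (x.1 (e1 w), x.1 (e2 w), x.2 w)) ⁻¹' {y : ℤ × ℤ × Bool | y.2.2 = true ∧ y.1 = l ∧ y.2.1 = l} :=
    rfl
  rw [h3]
  exact h2 (Set.to_countable _).measurableSet

/-- A set of configurations which depends on finitely many bonds of `opl l` is measurable. -/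
theorem meas_of_opl (l : ℤ) {Q : Set Pt → Prop}
    (hQ : ∃ F : Finset Pt, ∀ A B : Set Pt, (∀ w ∈ F, w ∈ A ↔ w ∈ B) → Q A → Q B) :
    MeasurableSet {x : Hgt × Mk | Q (opl l x)} := by
  classical
  obtain ⟨F, hF⟩ := hQ
  have h1 : {x : Hgt × Mk | Q (opl l x)} =
      ⋃ T ∈ F.powerset.filter (fun T : Finset Pt => Q {w | w ∈ T}),
        ⋂ w ∈ F, {x : Hgt × Mk | w ∈ opl l x ↔ w ∈ T} := by
    ext x
    simp only [Set.mem_ofPred_eq, Set.mem_iUnion, Finset.mem_filter, Finset.mem_powerset,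
      Set.mem_iInter, exists_prop]
    constructor
    · intro h
      refine ⟨F.filter (fun w => w ∈ opl l x), ⟨Finset.filter_subset _ _, ?_⟩, ?_⟩
      · exact hF _ _ (fun w hw => by simp [hw]) h
      · intro w hw
        simp [hw]
    · rintro ⟨T, ⟨-, hT⟩, h⟩
      exact hF _ _ (fun w hw => by simpa using (h w hw).symm) hT
  rw [h1]
  refine Finset.measurableSet_biUnion _ fun T _ => Finset.measurableSet_biInter _ fun w _ => ?_
  by_cases hw : w ∈ T
  · have : {x : Hgt × Mk | w ∈ opl l x ↔ w ∈ T} = {x : Hgt × Mk | w ∈ opl l x} := by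
      ext x; simp [hw]
    rw [this]
    exact meas_opl l w
  · have : {x : Hgt × Mk | w ∈ opl l x ↔ w ∈ T} = {x : Hgt × Mk | w ∈ opl l x}ᶜ := by
      ext x; simp [hw]
    rw [this]
    exact (meas_opl l w).compl

theorem levFam_opl {Q : Set Pt → Prop}
    (hQ : ∃ F : Finset Pt, ∀ A B : Set Pt, (∀ w ∈ F, w ∈ A ↔ w ∈ B) → Q A → Q B) :
    LevFam fun l => {x : Hgt × Mk | Q (opl l x)} := by
  refine ⟨fun l => meas_of_opl l hQ, fun l j x => ?_⟩
  simp only [Set.mem_ofPred_eq, opl_sh]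

theorem levFam_Ann (p q r : ℤ) : LevFam fun l => {x : Hgt × Mk | Ann p q r (fine (opl l x))} :=
  levFam_opl (Q := fun A => Ann p q r (fine A)) (loc_fine (IL_Ann p q r).2)

/-- The circuit at level `0` has measure at least `2 c`. -/
theorem Jmu_Ann_ge {t : ℝ} {P : Measure (Ori (ℤ × ℤ))} [IsProbabilityMeasure P]
    (hice : ∀ᵐ a ∂P, ∀ x y, Ice a x y) {c : ℝ} {p q r : ℤ} (hr : 0 < r)
    (h : c ≤ (J t P).real {x | Ann p q r (SQ x)}) :
    ENNReal.ofReal (2 * c) ≤ Jmu t P {x | Ann p q r (fine (bl x))} := by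
  refine le_trans ?_ (X.two_mul_J_le (levFam_Ann p q r))
  have h1 : J t P {x | Ann p q r (SQ x)} ≤
      J t P (some4 fun l => {x : Hgt × Mk | Ann p q r (fine (opl l x))}) := by
    refine measure_mono_ae ?_
    filter_upwards [open_even t P hice] with x hx hA
    obtain ⟨l, h2, h3⟩ := Ann_SQ_level (x := x) hx hr hA
    exact ⟨l, h2, h3⟩
  rw [ENNReal.ofReal_mul (by norm_num), ENNReal.ofReal_ofNat]
  gcongr
  refine le_trans ?_ h1
  rw [← ENNReal.ofReal_toReal (measure_ne_top (J t P) {x | Ann p q r (SQ x)})]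
  exact ENNReal.ofReal_le_ofReal h

/-- The circuit at level `0` has measure at most `2`. -/
theorem Jmu_Ann_le {t : ℝ} {P : Measure (Ori (ℤ × ℤ))} [IsProbabilityMeasure P] {p q r : ℤ}
    (hr : 0 < r) : Jmu t P {x | Ann p q r (fine (bl x))} ≤ 2 := by
  have h1 := X.Jmu_eq_two_mul (t := t) (P := P) (levFam_Ann p q r)
    (fun x l l' h h' => opl_unique hr h h' (by simp [hr.le]) (by simp [hr.le]))
  have h2 : Jmu t P {x | Ann p q r (fine (bl x))} = 2 * J t P
      (some4 fun l => {x : Hgt × Mk | Ann p q r (fine (opl l x))}) := h1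
  rw [h2]
  calc 2 * J t P (some4 fun l => {x : Hgt × Mk | Ann p q r (fine (opl l x))}) ≤ 2 * 1 := by
        gcongr
        exact prob_le_one
    _ = 2 := mul_one 2

theorem MU_eq_Jmu {t : ℝ} {P : Measure (Ori (ℤ × ℤ))} [IsProbabilityMeasure P]
    (hice : ∀ᵐ a ∂P, ∀ x y, Ice a x y) : MU t P = Jmu t P := MU_eq hice

end Vale.Agent.P145.FB
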