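import Vale.Agent.P145.FB.Space
import Vale.Agent.P145.FB.Ev

/-!
# P145, block F-B: measurability of local events
-/

namespace Vale.Agent.P145.FB

open Finset Filter Topology MeasureTheory
open Vale.Agent.P152 Vale.Agent.P145.FA

/-- Local events of a measurable random set are measurable. -/
theorem meas_of_loc {X : Type*} [MeasurableSpace X] {F : X → Set Pt}
    (hF : ∀ z, MeasurableSet {x | z ∈ F x}) {Q : Set Pt → Prop} (hQ : Loc Q) :
    MeasurableSet {x | Q (F x)} := by
  classical
  obtain ⟨N, hN⟩ := hQ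
  set B : Finset Pt := Icc (-N) N ×ˢ Icc (-N) N with hB
  have hmB : ∀ z : Pt, z ∈ B ↔ |z.1| ≤ N ∧ |z.2| ≤ N := by
    intro z
    rw [hB, Finset.mem_product, Finset.mem_Icc, Finset.mem_Icc, abs_le, abs_le]
  have e : {x | Q (F x)} = ⋃ A ∈ B.powerset.filter (fun A : Finset Pt => Q (A : Set Pt)),
      ⋂ z ∈ B, {x | z ∈ F x ↔ z ∈ A} := by
    ext x
    simp only [Set.mem_iUnion, Set.mem_iInter, Finset.mem_filter, Finset.mem_powerset]
    constructor
    · intro hx
      refine ⟨B.filter (fun z => z ∈ F x), ⟨Finset.filter_subset _ _, ?_⟩, ?_⟩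
      · refine hN (F x) _ (fun z h1 h2 => ?_) hx
        have : z ∈ B := (hmB z).2 ⟨h1, h2⟩
        simp [this]
      · intro z hz
        show z ∈ F x ↔ z ∈ B.filter (fun z => z ∈ F x)
        simp [hz]
    · rintro ⟨A, ⟨-, hA⟩, hx⟩
      refine hN _ (F x) (fun z h1 h2 => ?_) hA
      exact (hx z ((hmB z).2 ⟨h1, h2⟩)).symm
  rw [e]
  refine Finset.measurableSet_biUnion _ (fun A _ => Finset.measurableSet_biInter _ (fun z _ => ?_))
  by_cases hz : z ∈ A
  · simp only [hz, iff_true]; exact hF z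
  · simp only [hz, iff_false]; exact (hF z).compl

theorem meas_val (q : Pt) (w : Pt) (A : Set (ℤ × Bool)) :
    MeasurableSet {x : Hgt × Mk | (x.1 q, x.2 w) ∈ A} := by
  have h1 : Measurable (fun x : Hgt × Mk => (x.1 q, x.2 w)) :=
    ((measurable_pi_apply q).comp measurable_fst).prodMk
      ((measurable_pi_apply w).comp measurable_snd)
  exact h1 (MeasurableSet.of_discrete)

theorem meas_SP (z : Pt) : MeasurableSet {x : Hgt × Mk | z ∈ SP x} := by
  have h1 := meas_val (fc z) (vx z) {y | y.1 % 4 = 0}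
  have h2 := meas_val (e1 (vx z)) (vx z) {y | y.2 = true ∧ y.1 % 4 = 0}
  by_cases ha : Even z.1 ∧ Even z.2
  · by_cases hb : Odd (z.1 + z.2)
    · exfalso
      rw [← Int.not_even_iff_odd] at hb
      exact hb (ha.1.add ha.2)
    · have e : {x : Hgt × Mk | z ∈ SP x} = {x | (x.1 (fc z), x.2 (vx z)) ∈
          {y : ℤ × Bool | y.1 % 4 = 0}} := by
        ext x
        simp [SP, ha.1, ha.2, hb]
      rw [e]; exact h1
  · by_cases hb : Odd (z.1 + z.2)
    · have e : {x : Hgt × Mk | z ∈ SP x} = {x | (x.1 (e1 (vx z)), x.2 (vx z)) ∈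
          {y : ℤ × Bool | y.2 = true ∧ y.1 % 4 = 0}} := by
        ext x
        simp only [SP, Set.mem_ofPred_eq]
        constructor
        · rintro (h | h)
          · exact absurd ⟨h.1, h.2.1⟩ ha
          · exact h.2
        · intro h
          exact Or.inr ⟨hb, h⟩
      rw [e]; exact h2
    · have e : {x : Hgt × Mk | z ∈ SP x} = ∅ := by
        ext x
        simp only [SP, Set.mem_ofPred_eq, Set.mem_empty_iff_false, iff_false]
        rintro (h | h)
        · exact ha ⟨h.1, h.2.1⟩
        · exact hb h.1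
      rw [e]; exact MeasurableSet.empty

/-- Local events of `SP` are measurable. -/
theorem meas_ev {Q : Set Pt → Prop} (hQ : Loc Q) : MeasurableSet {x : Hgt × Mk | Q (SP x)} :=
  meas_of_loc meas_SP hQ

end Vale.Agent.P145.FB
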