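import Vale.Agent.P145.FB.Coup
import Vale.Agent.P145.FB.Sym0
import Vale.Agent.P145.FB.Sym1
import Vale.Agent.P145.FB.SqDet
import Vale.Agent.P145.FB.Geo

/-!
# P145, block F-B: squares are crossed by open plus bonds with probability at least `1 / 4`
-/

namespace Vale.Agent.P145.FB

open Finset Filter Topology MeasureTheory Relation
open Vale.Agent.P152 (Edge Ori Ice sgb pth pth_isHeight IsHeight height_eq_pth)
open Vale.Agent.P152.GFF.B3 (shO trO reO IsP symP)
open Vale.Agent.P145.FA (Hgt)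

/-- All open bonds, as a subset of the fine lattice. -/
def SB (o : Mk) : Set Pt := {p | (Even p.1 ∧ Even p.2) ∨ (Odd (p.1 + p.2) ∧ o (vx p) = true)}

theorem meas_SB (z : Pt) : MeasurableSet {o : Mk | z ∈ SB o} := by
  by_cases ha : Even z.1 ∧ Even z.2
  · have e : {o : Mk | z ∈ SB o} = Set.univ := by
      ext o
      simp [SB, ha]
    rw [e]; exact MeasurableSet.univ
  · by_cases hb : Odd (z.1 + z.2)
    · have e : {o : Mk | z ∈ SB o} = (fun o : Mk => o (vx z)) ⁻¹' {true} := by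
        ext o
        simp [SB, ha, hb]
      rw [e]
      exact (measurable_pi_apply (vx z)) (measurableSet_singleton _)
    · have e : {o : Mk | z ∈ SB o} = ∅ := by
        ext o
        simp [SB, ha, hb]
      rw [e]; exact MeasurableSet.empty

theorem meas_evB {Q : Set Pt → Prop} (hQ : Loc Q) : MeasurableSet {o : Mk | Q (SB o)} :=
  meas_of_loc meas_SB hQ

theorem bond_SB (o : Mk) : Bond (SB o) := by
  refine ⟨fun x y => Or.inl ⟨by simp, by simp⟩, fun x y => ?_⟩
  rintro (⟨h, -⟩ | ⟨h, -⟩)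
  · simp only at h
    rw [Int.even_iff] at h
    omega
  · simp only at h
    rw [Int.odd_iff] at h
    omega

theorem SB_mono {o o' : Mk} (h : ∀ w, o w = true → o' w = true) : SB o ⊆ SB o' := by
  rintro p (hp | ⟨hp, h1⟩)
  · exact Or.inl hp
  · exact Or.inr ⟨hp, h _ h1⟩

/-! ### The parity mirror -/

/-- The reflection of the arrows corresponding to `(x, y) ↦ (x + 1, -y)` on the faces. -/
def gA (a : Ori (ℤ × ℤ)) : Ori (ℤ × ℤ)
  | Sum.inl v => !(a (Sum.inl (v.1 + 1, 1 - v.2)))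
  | Sum.inr v => a (Sum.inr (v.1 + 1, -v.2))

theorem gA_eq (a : Ori (ℤ × ℤ)) : gA a = ryA (swA (ryA (shO 1 0 a))) := by
  funext e
  rcases e with ⟨i, j⟩ | ⟨i, j⟩
  · show (!a (Sum.inl (i + 1, 1 - j))) = !(!(!a (Sum.inl (i + 1, 1 - j + 0))))
    rw [Bool.not_not, add_zero]
  · show a (Sum.inr (i + 1, -j)) = !(!(a (Sum.inr (i + 1, -j + 0))))
    rw [Bool.not_not, add_zero]

theorem gA_meas : Measurable gA := by
  have : gA = ryA ∘ (swA ∘ (ryA ∘ shO 1 0)) := funext gA_eq
  rw [this]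
  exact ryA_meas.comp (swA_meas.comp (ryA_meas.comp (sh_meas _ _)))

theorem map_gA {P : Measure (Ori (ℤ × ℤ))} (h : SymM P) : P.map gA = P := by
  have : gA = ryA ∘ (swA ∘ (ryA ∘ shO 1 0)) := funext gA_eq
  rw [this, ← Measure.map_map ryA_meas (swA_meas.comp (ryA_meas.comp (sh_meas _ _))),
    ← Measure.map_map swA_meas (ryA_meas.comp (sh_meas _ _)),
    ← Measure.map_map ryA_meas (sh_meas _ _), h.sh, map_ry h, map_sw h, map_ry h]

/-- The corresponding map of the vertices. -/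
def pe : ℤ × ℤ ≃ ℤ × ℤ where
  toFun w := (w.1 + 1, 1 - w.2)
  invFun w := (w.1 - 1, 1 - w.2)
  left_inv w := by simp
  right_inv w := by simp

theorem dg_gA (a : Ori (ℤ × ℤ)) (w : Pt) : dg (gA a) w = ag a (pe w) := by
  simp only [dg, ag, gA, pe, Equiv.coe_fn_mk]
  rw [show -(w.2 - 1) = 1 - w.2 by ring]
  cases a (Sum.inl (w.1 + 1, 1 - w.2)) <;> cases a (Sum.inr (w.1 + 1, 1 - w.2)) <;> rfl

theorem ag_gA (a : Ori (ℤ × ℤ)) (w : Pt) : ag (gA a) w = dg a (pe w) := by
  simp only [dg, ag, gA, pe, Equiv.coe_fn_mk]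
  rw [show (1 - w.2 - 1) = -w.2 by ring]
  cases a (Sum.inl (w.1 + 1, 1 - w.2)) <;> cases a (Sum.inr (w.1 + 1, -w.2)) <;> rfl

theorem even_pe (w : Pt) : Even ((pe w).1 + (pe w).2) ↔ Even (w.1 + w.2) := by
  simp only [pe, Equiv.coe_fn_mk, Int.even_iff]
  omega

theorem ev_gA (a : Ori (ℤ × ℤ)) (w : Pt) : ev (gA a) w = od a (pe w) := by
  simp only [ev, od, dg_gA, ag_gA, even_pe]

theorem od_gA (a : Ori (ℤ × ℤ)) (w : Pt) : od (gA a) w = ev a (pe w) := by
  simp only [ev, od, dg_gA, ag_gA, even_pe]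

/-- The ice rule: the odd faces or the even faces at a vertex agree. -/
theorem sq_ev_or_od {a : Ori (ℤ × ℤ)} (h : ∀ x y, Ice a x y) (w : Pt) :
    ev a w = true ∨ od a w = true := by
  have h1 := h w.1 w.2
  have hh := FP.isHeight_pth h
  by_contra hcon
  push Not at hcon
  obtain ⟨h2, h3⟩ := hcon
  have h4 : dg a w = false ∧ ag a w = false := by
    by_cases hw : Even (w.1 + w.2)
    · simp only [ev, od, hw, if_true] at h2 h3
      exact ⟨by simpa using h2, by simpa using h3⟩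
    · simp only [ev, od, hw, if_false] at h2 h3
      exact ⟨by simpa using h3, by simpa using h2⟩
  obtain ⟨h4, h5⟩ := h4
  unfold Ice at h1
  simp only [dg, ag] at h4 h5
  cases h6 : a (Sum.inl w) <;> cases h7 : a (Sum.inr w) <;>
    cases h8 : a (Sum.inr (w.1, w.2 - 1)) <;> cases h9 : a (Sum.inl (w.1 - 1, w.2)) <;>
    simp_all

theorem oma_mirror {a : Ori (ℤ × ℤ)} (h : ∀ x y, Ice a x y) (ξ : Mk) (w : Pt) :
    (!(oma a ξ (pe w))) = oma (gA a) (fun w => !(ξ (pe w))) w := by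
  have h1 := sq_ev_or_od h (pe w)
  simp only [oma, ev_gA, od_gA]
  cases h2 : ev a (pe w) <;> cases h3 : od a (pe w) <;> cases h4 : ξ (pe w) <;> simp_all

theorem vx_mirror {p : Pt} (hp : Odd (p.1 + p.2)) : vx (p.2 + 1, p.1 + 1) = pe (vx p) := by
  rw [Int.odd_iff] at hp
  simp only [vx, pe, Equiv.coe_fn_mk, Prod.mk.injEq]
  constructor <;> omega

theorem dl_SB (o o' : Mk) (h : ∀ w, (!(o (pe w))) = o' w) : dl (SB o) = SB o' := by
  ext p
  simp only [dl, SB, Set.mem_ofPred_eq]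
  by_cases hp : Odd (p.1 + p.2)
  · have h1 : Odd (p.2 + 1 + (p.1 + 1)) := by
      rw [Int.odd_iff] at hp ⊢; omega
    have h2 : ¬ (Even (p.2 + 1) ∧ Even (p.1 + 1)) := by
      rw [Int.odd_iff] at hp
      rw [Int.even_iff, Int.even_iff]; omega
    have h3 : ¬ (Even p.1 ∧ Even p.2) := by
      rw [Int.odd_iff] at hp
      rw [Int.even_iff, Int.even_iff]; omega
    simp only [h1, h2, h3, hp, true_and, false_or, vx_mirror hp, ← h (vx p)]
    simp
  · have h1 : ¬ Odd (p.2 + 1 + (p.1 + 1)) := by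
      rw [Int.odd_iff] at hp ⊢; omega
    have h2 : ¬ (Even (p.2 + 1) ∧ Even (p.1 + 1)) ↔ (Even p.1 ∧ Even p.2) := by
      rw [Int.odd_iff] at hp
      simp only [Int.even_iff]; omega
    simp only [h1, hp, false_and, or_false]
    exact h2

/-! ### Measurability -/

/-- Crossing events depend on the points of the rectangle only. -/
theorem LRc_congr {a b c d : ℤ} {S T : Set Pt} (h : ∀ z ∈ rc a b c d, (z ∈ S ↔ z ∈ T)) :
    LRc a b c d S ↔ LRc a b c d T := by
  have : S ∩ rc a b c d = T ∩ rc a b c d := by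
    ext z
    simp only [Set.mem_inter_iff]
    constructor
    · rintro ⟨h1, h2⟩; exact ⟨(h z h2).1 h1, h2⟩
    · rintro ⟨h1, h2⟩; exact ⟨(h z h2).2 h1, h2⟩
  unfold LRc
  rw [this]

theorem LRc_inc {a b c d : ℤ} {S T : Set Pt} (h : S ⊆ T) (hS : LRc a b c d S) :
    LRc a b c d T := by
  obtain ⟨x, y, h1, h2, h3⟩ := hS
  exact ⟨x, y, h1.mono (Set.inter_subset_inter_left _ h), h2, h3⟩

theorem rc_finite (a b c d : ℤ) : (rc a b c d).Finite :=
  P153.Topo.rect_finite (2 * a) (2 * b) (2 * c) (2 * d)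

/-- A set of bond configurations which depends on finitely many bonds is measurable. -/
theorem meas_fin {A : Set Mk} (F : Finset Pt) (hA : ∀ o o' : Mk, (∀ w ∈ F, o w = o' w) →
    o ∈ A → o' ∈ A) : MeasurableSet A := by
  have h1 : A = (fun (o : Mk) (w : F) => o w) ⁻¹' ((fun (o : Mk) (w : F) => o w) '' A) := by
    ext o
    constructor
    · intro h
      exact ⟨o, h, rfl⟩
    · rintro ⟨o', h, e⟩
      refine hA o' o (fun w hw => ?_) h
      exact congrFun e ⟨w, hw⟩
  rw [h1]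
  have hm : Measurable (fun (o : Mk) (w : F) => o w) :=
    measurable_pi_lambda _ fun w => measurable_pi_apply _
  exact hm (Set.toFinite _).measurableSet

theorem meas_LRc_SB (a b c d : ℤ) : MeasurableSet {o : Mk | LRc a b c d (SB o)} := by
  refine meas_fin ((rc_finite a b c d).toFinset.image vx) fun o o' h ho => ?_
  refine (LRc_congr fun z hz => ?_).1 ho
  have h1 : o (vx z) = o' (vx z) := h _ (Finset.mem_image_of_mem _ (by simpa using hz))
  simp only [SB, Set.mem_ofPred_eq, h1]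

theorem meas_LRc_dl (a b c d : ℤ) : MeasurableSet {o : Mk | LRc a b c d (dl (SB o))} := by
  refine meas_fin ((rc_finite a b c d).toFinset.image fun z => vx (z.2 + 1, z.1 + 1))
    fun o o' h ho => ?_
  refine (LRc_congr fun z hz => ?_).1 ho
  have h1 : o (vx (z.2 + 1, z.1 + 1)) = o' (vx (z.2 + 1, z.1 + 1)) :=
    h _ (Finset.mem_image_of_mem (fun z : Pt => vx (z.2 + 1, z.1 + 1)) (by simpa using hz))
  simp only [dl, SB, Set.mem_ofPred_eq, h1]

/-! ### The bond configuration crosses squares -/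

section

variable {P : Measure (Ori (ℤ × ℤ))} [IsProbabilityMeasure P] {t : ℝ}

theorem loc_dl {Q : Set Pt → Prop} (hQ : Loc Q) : Loc fun S => Q (dl S) := by
  obtain ⟨N, hN⟩ := hQ
  refine ⟨N + 1, fun S T h hS => hN _ _ (fun z h1 h2 => ?_) hS⟩
  rw [abs_le] at h1 h2
  have h3 := h (z.2 + 1, z.1 + 1) (by rw [abs_le]; dsimp only; omega)
    (by rw [abs_le]; dsimp only; omega)
  simp only [dl, Set.mem_ofPred_eq, h3]

/-- The dual configuration is dominated by the configuration. -/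
theorem dual_le (hP : SymM P) (hice : ∀ᵐ a ∂P, ∀ x y, Ice a x y) (h0 : 1 / 2 ≤ t) (h1 : t ≤ 1)
    {Q : Set Pt → Prop} (hI : Inc Q) (hL : Loc Q) :
    JO t P {x | Q (dl (SB x.2))} ≤ JO t P {x | Q (SB x.2)} := by
  have ht0 : 0 ≤ t := by linarith
  have mA : MeasurableSet {x : Ori (ℤ × ℤ) × Mk | Q (SB x.2)} :=
    measurable_snd (meas_evB hL)
  have mB : MeasurableSet {x : Ori (ℤ × ℤ) × Mk | Q (dl (SB x.2))} :=
    measurable_snd (meas_evB (loc_dl hL))
  have mC : MeasurableSet {x : Ori (ℤ × ℤ) × Mk | Q (SB (oma x.1 x.2))} :=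
    measurable_oma mA
  rw [JO, Measure.map_apply measurable_oma mA, Measure.map_apply measurable_oma mB]
  have e1 : (P.prod (mkm t)) ((fun x => (x.1, oma x.1 x.2)) ⁻¹'
      {x : Ori (ℤ × ℤ) × Mk | Q (dl (SB x.2))}) =
      (P.prod (mkm (1 - t))) {x | Q (SB (oma x.1 x.2))} := by
    have hmap : (P.prod (mkm t)).map (Prod.map gA fun (ξ : Mk) w => !(ξ (pe w))) =
        P.prod (mkm (1 - t)) := by
      have hm2 : Measurable (fun (ξ : Mk) w => !(ξ (pe w))) :=
        measurable_pi_lambda _ fun w => bnot_meas.comp (measurable_pi_apply _)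
      rw [← Measure.map_prod_map _ _ gA_meas hm2, map_gA hP, mkm_not ht0 h1]
    have hm : Measurable (Prod.map gA fun (ξ : Mk) w => !(ξ (pe w))) :=
      gA_meas.prodMap (measurable_pi_lambda _ fun w => bnot_meas.comp (measurable_pi_apply _))
    rw [← hmap, Measure.map_apply hm mC]
    refine measure_congr ?_
    have hice2 : ∀ᵐ x ∂(P.prod (mkm t)), ∀ i j, Ice x.1 i j :=
      Measure.quasiMeasurePreserving_fst.ae hice
    filter_upwards [hice2] with x hx
    apply propext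
    change Q (dl (SB (oma x.1 x.2))) ↔
      Q (SB (oma (gA x.1) fun w => !(x.2 (pe w))))
    rw [dl_SB _ _ (oma_mirror hx x.2)]
  rw [e1]
  refine prod_mono P (by rw [cl_eq (by linarith) (by linarith), cl_eq ht0 h1]; linarith) mC ?_
  intro α ξ ζ h hm
  refine hI _ _ (SB_mono fun w hw => ?_) hm
  simp only [oma, Bool.or_eq_true, Bool.and_eq_true] at hw ⊢
  rcases hw with hw | ⟨h3, h4⟩
  · exact Or.inl hw
  · exact Or.inr ⟨h3, h w h4⟩

/-- Squares are crossed with probability at least `1 / 2`. -/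
theorem square_half (hP : SymM P) (hice : ∀ᵐ a ∂P, ∀ x y, Ice a x y) (h0 : 1 / 2 ≤ t)
    (h1 : t ≤ 1) {n : ℤ} (hn : 1 ≤ n) :
    1 ≤ 2 * JO t P {x | LRc 0 n 0 n (SB x.2)} := by
  have e1 : JO t P Set.univ ≤ JO t P {x | LRc 0 n 0 n (SB x.2)} +
      JO t P {x | LRc (-1) n 0 (n - 1) (dl (SB x.2))} := by
    refine le_trans (measure_mono ?_) (measure_union_le _ _)
    intro x _
    exact duality (bond_SB x.2) (a := 0) (b := n) (c := 0) (d := n) (by omega) (by omega)
  rw [measure_univ] at e1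
  have e2 : JO t P {x | LRc (-1) n 0 (n - 1) (dl (SB x.2))} ≤
      JO t P {x | LRc 0 n 0 n (SB x.2)} := by
    refine (dual_le hP hice h0 h1 (IL_LRc _ _ _ _).1 (IL_LRc _ _ _ _).2).trans
      (measure_mono fun x hx => ?_)
    exact LRc.mono (-1) 0 n n 0 0 (n - 1) n _ (by omega) (by omega) (by omega) (by omega)
      (by omega) hx
  rw [two_mul]
  exact e1.trans (by gcongr)

end

/-! ### The sign -/

theorem pth_even {a : Ori (ℤ × ℤ)} (h : ∀ x y, Ice a x y) {q : Pt} (hq : Even (q.1 + q.2)) :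
    Even (pth a q) := by
  have hp := FP.pth_parity h q
  rw [Int.even_iff] at hq ⊢
  omega

theorem even_e1 (w : Pt) : Even ((e1 w).1 + (e1 w).2) := by
  unfold e1
  split_ifs with h
  · exact h
  · simp only
    rw [Int.even_iff] at h ⊢
    omega

theorem even_e2 (w : Pt) : Even ((e2 w).1 + (e2 w).2) := by
  unfold e2
  split_ifs with h <;> rw [Int.even_iff] at h ⊢
  · show (w.1 - 1 + (w.2 - 1)) % 2 = 0
    omega
  · show (w.1 + (w.2 - 1)) % 2 = 0
    omega

/-- The even ends of an open bond have the same height. -/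
theorem sq_open_eq {a : Ori (ℤ × ℤ)} (h : ∀ x y, Ice a x y) (ξ : Mk) {w : Pt}
    (hw : oma a ξ w = true) : pth a (e1 w) = pth a (e2 w) := by
  have h1 := sq_ev_or_od h w
  have h2 : ev a w = true := by
    rcases h1 with h1 | h1
    · exact h1
    · simp only [oma, h1, Bool.not_true, Bool.false_or, Bool.and_eq_true] at hw
      exact hw.1
  rw [ev_iff (FP.isHeight_pth h) w] at h2
  simpa using h2

/-- The vertex of an edge is one of its two ends. -/
theorem fc_end {u v : Pt} (huv : NN u v) (hu : Even u.1 ∧ Even u.2) (hv : Odd (v.1 + v.2)) :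
    fc u = e1 (vx v) ∨ fc u = e2 (vx v) := by
  unfold e1 e2
  by_cases h : Even ((vx v).1 + (vx v).2)
  · rw [if_pos h, if_pos h]
    rw [Int.even_iff] at h
    simp only [NN, Int.even_iff, Int.odd_iff] at huv hu hv
    simp only [vx] at h
    simp only [fc, vx, Prod.mk.injEq]
    omega
  · rw [if_neg h, if_neg h]
    rw [Int.even_iff] at h
    simp only [NN, Int.even_iff, Int.odd_iff] at huv hu hv
    simp only [vx] at h
    simp only [fc, vx, Prod.mk.injEq]
    omega

theorem lr_SP {a : Ori (ℤ × ℤ)} (h : ∀ x y, Ice a x y) (ξ : Mk) {p q r s : ℤ}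
    (hL : LRc p q r s (SB (oma a ξ))) :
    LRc p q r s (SP (hk 0 (a, oma a ξ))) ∨ LRc p q r s (SP (hk 1 (a, oma a ξ))) := by
  set sg : Pt → Prop := fun z => (Even z.1 ∧ Even z.2 ∧ pth a (fc z) % 4 = 0) ∨
    (Odd (z.1 + z.2) ∧ pth a (e1 (vx z)) % 4 = 0) with hsg
  have key : ∀ u v, u ∈ SB (oma a ξ) → v ∈ SB (oma a ξ) → NN u v → (Even u.1 ∧ Even u.2) →
      (sg u ↔ sg v) := by
    intro u v hu hv huv hue
    have hvo : Odd (v.1 + v.2) := by
      simp only [NN, Int.even_iff, Int.odd_iff] at huv hue ⊢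
      omega
    have huo : ¬ Odd (u.1 + u.2) := by
      simp only [Int.even_iff, Int.odd_iff] at hue ⊢
      omega
    have hve : ¬ (Even v.1 ∧ Even v.2) := by
      simp only [Int.even_iff, Int.odd_iff] at hvo ⊢
      omega
    have hop : oma a ξ (vx v) = true := by
      rcases hv with hv | hv
      · exact absurd hv hve
      · exact hv.2
    have h1 := sq_open_eq h ξ hop
    have h2 := fc_end huv hue hvo
    have h3 : pth a (fc u) = pth a (e1 (vx v)) := by
      rcases h2 with h2 | h2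
      · rw [h2]
      · rw [h2, h1]
    simp only [hsg]
    rw [h3]
    tauto
  have hcases : ∀ u, u ∈ SB (oma a ξ) → (Even u.1 ∧ Even u.2) ∨ Odd (u.1 + u.2) := by
    rintro u (hu | hu)
    · exact Or.inl hu
    · exact Or.inr hu.1
  have hsgn : ∀ u v, u ∈ SB (oma a ξ) → v ∈ SB (oma a ξ) → NN u v → (sg u ↔ sg v) := by
    intro u v hu hv huv
    rcases hcases u hu with hue | huo
    · exact key u v hu hv huv hue
    · have hve : Even v.1 ∧ Even v.2 := by
        rcases hcases v hv with hve | hvo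
        · exact hve
        · simp only [NN, Int.odd_iff] at huv huo hvo
          omega
      exact (key v u hv hu huv.symm hve).symm
  rcases lr_sign sg hsgn hL with h1 | h1
  · left
    refine LRc_inc ?_ h1
    rintro z ⟨hz, hs⟩
    rcases hs with ⟨g1, g2, g3⟩ | ⟨g1, g2⟩
    · left
      refine ⟨g1, g2, ?_⟩
      simpa [hk] using g3
    · right
      refine ⟨g1, ?_, ?_⟩
      · rcases hz with hz | hz
        · exfalso
          simp only [Int.even_iff, Int.odd_iff] at hz g1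
          omega
        · exact hz.2
      · simpa [hk] using g2
  · right
    refine LRc_inc ?_ h1
    rintro z ⟨hz, hs⟩
    rcases hz with ⟨g1, g2⟩ | ⟨g1, g2⟩
    · left
      refine ⟨g1, g2, ?_⟩
      have hne : ¬ pth a (fc z) % 4 = 0 := fun h => hs (Or.inl ⟨g1, g2, h⟩)
      have hev : Even (pth a (fc z)) := pth_even h (by
        simp only [fc, Int.even_iff] at g1 g2 ⊢
        omega)
      rw [Int.even_iff] at hev
      simp only [hk]
      omega
    · right
      refine ⟨g1, g2, ?_⟩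
      have hne : ¬ pth a (e1 (vx z)) % 4 = 0 := fun h => hs (Or.inr ⟨g1, h⟩)
      have hev : Even (pth a (e1 (vx z))) := pth_even h (even_e1 _)
      rw [Int.even_iff] at hev
      simp only [hk]
      omega

/-- **Squares.** -/
theorem square {P : Measure (Ori (ℤ × ℤ))} [IsProbabilityMeasure P] {t : ℝ} (hP : SymM P)
    (hice : ∀ᵐ a ∂P, ∀ x y, Ice a x y) (h0 : 1 / 2 ≤ t) (h1 : t ≤ 1) {n : ℤ} (hn : 1 ≤ n) :
    1 / 4 ≤ (J t P).real {x | LRc 0 n 0 n (SP x)} := by
  have e1 := square_half hP hice h0 h1 hn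
  have e2 : JO t P {x | LRc 0 n 0 n (SB x.2)} ≤ JO t P {x | LRc 0 n 0 n (SP (hk 0 x))} +
      JO t P {x | LRc 0 n 0 n (SP (hk 1 x))} := by
    have mA : MeasurableSet {x : Ori (ℤ × ℤ) × Mk | LRc 0 n 0 n (SB x.2)} :=
      measurable_snd (meas_LRc_SB 0 n 0 n)
    refine le_trans ?_ (measure_union_le _ _)
    have hice2 : ∀ᵐ x ∂(P.prod (mkm t)), ∀ i j, Ice x.1 i j :=
      Measure.quasiMeasurePreserving_fst.ae hice
    have g1 : JO t P {x | LRc 0 n 0 n (SB x.2)} = (P.prod (mkm t))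
        ((fun x => (x.1, oma x.1 x.2)) ⁻¹' {x : Ori (ℤ × ℤ) × Mk | LRc 0 n 0 n (SB x.2)}) := by
      rw [JO, Measure.map_apply measurable_oma mA]
    rw [g1]
    refine le_trans (measure_mono_ae ?_) (Measure.le_map_apply measurable_oma.aemeasurable _)
    filter_upwards [hice2] with x hx hL
    exact lr_SP hx x.2 hL
  have e3 : (2 : ENNReal)⁻¹ * JO t P {x | LRc 0 n 0 n (SB x.2)} ≤
      J t P {x | LRc 0 n 0 n (SP x)} := by
    have g0 := Measure.le_map_apply (μ := JO t P) (measurable_hk 0).aemeasurable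
      {x | LRc 0 n 0 n (SP x)}
    have g1 := Measure.le_map_apply (μ := JO t P) (measurable_hk 1).aemeasurable
      {x | LRc 0 n 0 n (SP x)}
    simp only [J, Measure.coe_add, Measure.coe_smul, Pi.add_apply, Pi.smul_apply, smul_eq_mul]
    rw [← mul_add]
    gcongr
    exact e2.trans (add_le_add g0 g1)
  have e4 : ENNReal.ofReal (1 / 4) ≤ J t P {x | LRc 0 n 0 n (SP x)} := by
    refine le_trans ?_ e3
    have h5 : (2 : ENNReal)⁻¹ ≤ JO t P {x | LRc 0 n 0 n (SB x.2)} := by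
      rw [ENNReal.inv_le_iff_le_mul (by simp) (by simp)]
      exact e1
    calc ENNReal.ofReal (1 / 4) = (2 : ENNReal)⁻¹ * (2 : ENNReal)⁻¹ := by
          rw [← ENNReal.ofReal_ofNat, ← ENNReal.ofReal_inv_of_pos (by norm_num),
            ← ENNReal.ofReal_mul (by norm_num)]
          norm_num
      _ ≤ _ := by gcongr
  rw [Measure.real]
  exact (ENNReal.ofReal_le_iff_le_toReal (measure_ne_top _ _)).1 e4

/-! ### Minus spins -/

/-- The open bonds with spin minus. -/
def SM (x : Hgt × Mk) : Set Pt :=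
  {p | (Even p.1 ∧ Even p.2 ∧ x.1 (fc p) % 4 = 2) ∨
    (Odd (p.1 + p.2) ∧ x.2 (vx p) = true ∧ x.1 (e1 (vx p)) % 4 = 2)}

theorem SM_hk0 (x : Ori (ℤ × ℤ) × Mk) : SM (hk 0 x) = SP (hk 1 x) := by
  ext p
  simp only [SM, SP, hk, Set.mem_ofPred_eq]
  have h1 : (pth x.1 (fc p) + 2 * 0) % 4 = 2 ↔ (pth x.1 (fc p) + 2 * 1) % 4 = 0 := by omega
  have h2 : (pth x.1 (e1 (vx p)) + 2 * 0) % 4 = 2 ↔ (pth x.1 (e1 (vx p)) + 2 * 1) % 4 = 0 := by
    omega
  rw [h1, h2]

theorem SM_hk1 (x : Ori (ℤ × ℤ) × Mk) : SM (hk 1 x) = SP (hk 0 x) := by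
  ext p
  simp only [SM, SP, hk, Set.mem_ofPred_eq]
  have h1 : (pth x.1 (fc p) + 2 * 1) % 4 = 2 ↔ (pth x.1 (fc p) + 2 * 0) % 4 = 0 := by omega
  have h2 : (pth x.1 (e1 (vx p)) + 2 * 1) % 4 = 2 ↔ (pth x.1 (e1 (vx p)) + 2 * 0) % 4 = 0 := by
    omega
  rw [h1, h2]

theorem meas_SM (z : Pt) : MeasurableSet {x : Hgt × Mk | z ∈ SM x} := by
  have h0 : ∀ q : Pt, Measurable fun x : Hgt × Mk => x.1 q := fun q =>
    (measurable_pi_apply q).comp measurable_fst
  have h1 : Measurable fun x : Hgt × Mk => x.2 (vx z) := (measurable_pi_apply _).comp measurable_snd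
  have h2 : Measurable fun x : Hgt × Mk => (x.1 (fc z), x.1 (e1 (vx z)), x.2 (vx z)) :=
    (h0 _).prodMk ((h0 _).prodMk h1)
  have h3 : {x : Hgt × Mk | z ∈ SM x} = (fun x : Hgt × Mk =>
      (x.1 (fc z), x.1 (e1 (vx z)), x.2 (vx z))) ⁻¹'
      {y : ℤ × ℤ × Bool | (Even z.1 ∧ Even z.2 ∧ y.1 % 4 = 2) ∨
        (Odd (z.1 + z.2) ∧ y.2.2 = true ∧ y.2.1 % 4 = 2)} := rfl
  rw [h3]
  exact h2 (Set.to_countable _).measurableSet

/-- The minus configuration has the law of the plus configuration. -/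
theorem sign_sym {P : Measure (Ori (ℤ × ℤ))} {t : ℝ} {Q : Set Pt → Prop} (hQ : Loc Q) :
    J t P {x | Q (SM x)} = J t P {x | Q (SP x)} := by
  have mM : MeasurableSet {x : Hgt × Mk | Q (SM x)} := meas_of_loc meas_SM hQ
  have mP : MeasurableSet {x : Hgt × Mk | Q (SP x)} := meas_ev hQ
  simp only [J, Measure.coe_add, Measure.coe_smul, Pi.add_apply, Pi.smul_apply, smul_eq_mul]
  rw [Measure.map_apply (measurable_hk 0) mM, Measure.map_apply (measurable_hk 1) mM,
    Measure.map_apply (measurable_hk 0) mP, Measure.map_apply (measurable_hk 1) mP]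
  have e0 : hk 0 ⁻¹' {x | Q (SM x)} = hk 1 ⁻¹' {x | Q (SP x)} := by
    ext x
    show Q (SM (hk 0 x)) ↔ Q (SP (hk 1 x))
    rw [SM_hk0]
  have e1 : hk 1 ⁻¹' {x | Q (SM x)} = hk 0 ⁻¹' {x | Q (SP x)} := by
    ext x
    show Q (SM (hk 1 x)) ↔ Q (SP (hk 0 x))
    rw [SM_hk1]
  rw [e0, e1, add_comm]

end Vale.Agent.P145.FB
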