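import Vale.Agent.P145.FB.Sym2

/-!
# P145, block F-B: the symmetries of the Ashkin-Teller lattice preserve the law of `SP`
-/

set_option linter.unusedSimpArgs false

namespace Vale.Agent.P145.FB

open Finset Filter Topology MeasureTheory
open Vale.Agent.P152 Vale.Agent.P145.FA
open Vale.Agent.P152.GFF.B3 (shO trO reO)

/-- Translations. -/
def psSh (a b : ℤ) : Pt ≃ Pt where
  toFun w := (w.1 + a, w.2 + b)
  invFun w := (w.1 - a, w.2 - b)
  left_inv w := by simp
  right_inv w := by simp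

/-- `(x, y) ↦ (y, x)`. -/
def psRy : Pt ≃ Pt where
  toFun w := (w.2, w.1)
  invFun w := (w.2, w.1)
  left_inv w := by simp
  right_inv w := by simp

/-- `(x, y) ↦ (1 - y, 1 - x)`. -/
def psRx : Pt ≃ Pt where
  toFun w := (1 - w.2, 1 - w.1)
  invFun w := (1 - w.2, 1 - w.1)
  left_inv w := by simp
  right_inv w := by simp

/-- `(x, y) ↦ (x, 1 - y)`. -/
def psSz : Pt ≃ Pt where
  toFun w := (w.1, 1 - w.2)
  invFun w := (w.1, 1 - w.2)
  left_inv w := by simp
  right_inv w := by simp

section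

variable {P : Measure (Ori (ℤ × ℤ))}

theorem sy_sh (hP : SymM P) (a b : ℤ) : Sy P (shO (a + b) (a - b))
    (fun q => (q.1 + (a + b), q.2 + (a - b))) (psSh (a + b) (a - b))
    (fun z => (z.1 + 2 * a, z.2 + 2 * b)) where
  meas := sh_meas _ _
  inv := hP.sh _ _
  ht := fun ω h => ht_sh h _ _
  par := by
    simp only [Int.even_iff, Prod.fst_zero, Prod.snd_zero]; omega
  ev := by
    rintro ⟨x, y⟩
    simp only [psSh, Equiv.coe_fn_mk, e1, e2, Int.even_iff]
    split_ifs <;> simp only [Prod.mk.injEq, true_and, and_true, true_or, or_true] <;> omega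
  od := by
    rintro ⟨x, y⟩
    simp only [psSh, Equiv.coe_fn_mk, o1, o2, Int.even_iff]
    split_ifs <;> simp only [Prod.mk.injEq, true_and, and_true, true_or, or_true] <;> omega
  rv := by
    rintro ⟨x, y⟩ h1 h2
    simp only [Int.even_iff] at h1 h2
    simp only [fc, Prod.mk.injEq]
    omega
  re := by
    rintro ⟨x, y⟩ h1
    simp only [Int.odd_iff] at h1
    simp only [psSh, Equiv.coe_fn_mk, vx, Prod.mk.injEq]
    omega
  p1 := by
    rintro ⟨x, y⟩
    simp only [Int.even_iff]; omega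
  p2 := by
    rintro ⟨x, y⟩
    simp only [Int.odd_iff]; omega

theorem sy_ry (hP : SymM P) : Sy P ryA (fun q => (q.2, q.1)) psRy (fun z => (z.1, -z.2)) where
  meas := ryA_meas
  inv := map_ry hP
  ht := fun ω h => ht_ry h
  par := by
    simp only [Int.even_iff, Prod.fst_zero, Prod.snd_zero]; omega
  ev := by
    rintro ⟨x, y⟩
    simp only [psRy, Equiv.coe_fn_mk, e1, e2, Int.even_iff]
    split_ifs <;> simp only [Prod.mk.injEq, true_and, and_true, true_or, or_true] <;> omega
  od := by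
    rintro ⟨x, y⟩
    simp only [psRy, Equiv.coe_fn_mk, o1, o2, Int.even_iff]
    split_ifs <;> simp only [Prod.mk.injEq, true_and, and_true, true_or, or_true] <;> omega
  rv := by
    rintro ⟨x, y⟩ h1 h2
    simp only [Int.even_iff] at h1 h2
    simp only [fc, Prod.mk.injEq]
    omega
  re := by
    rintro ⟨x, y⟩ h1
    simp only [Int.odd_iff] at h1
    simp only [psRy, Equiv.coe_fn_mk, vx, Prod.mk.injEq]
    omega
  p1 := by
    rintro ⟨x, y⟩
    simp only [Int.even_iff]; omega
  p2 := by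
    rintro ⟨x, y⟩
    simp only [Int.odd_iff]; omega

theorem sy_rx (hP : SymM P) : Sy P rxA (fun q => (-q.2, -q.1)) psRx (fun z => (-z.1, z.2)) where
  meas := rxA_meas
  inv := map_rx hP
  ht := fun ω h => ht_rx h
  par := by
    simp only [Int.even_iff, Prod.fst_zero, Prod.snd_zero]; omega
  ev := by
    rintro ⟨x, y⟩
    simp only [psRx, Equiv.coe_fn_mk, e1, e2, Int.even_iff]
    split_ifs <;> simp only [Prod.mk.injEq, true_and, and_true, true_or, or_true] <;> omega
  od := by
    rintro ⟨x, y⟩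
    simp only [psRx, Equiv.coe_fn_mk, o1, o2, Int.even_iff]
    split_ifs <;> simp only [Prod.mk.injEq, true_and, and_true, true_or, or_true] <;> omega
  rv := by
    rintro ⟨x, y⟩ h1 h2
    simp only [Int.even_iff] at h1 h2
    simp only [fc, Prod.mk.injEq]
    omega
  re := by
    rintro ⟨x, y⟩ h1
    simp only [Int.odd_iff] at h1
    simp only [psRx, Equiv.coe_fn_mk, vx, Prod.mk.injEq]
    omega
  p1 := by
    rintro ⟨x, y⟩
    simp only [Int.even_iff]; omega
  p2 := by
    rintro ⟨x, y⟩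
    simp only [Int.odd_iff]; omega

theorem sy_sz (hP : SymM P) : Sy P szA (fun q => (q.1, -q.2)) psSz (fun z => (z.2, z.1)) where
  meas := szA_meas
  inv := map_sz hP
  ht := fun ω h => ht_sz h
  par := by
    simp only [Int.even_iff, Prod.fst_zero, Prod.snd_zero]; omega
  ev := by
    rintro ⟨x, y⟩
    simp only [psSz, Equiv.coe_fn_mk, e1, e2, Int.even_iff]
    split_ifs <;> simp only [Prod.mk.injEq, true_and, and_true, true_or, or_true] <;> omega
  od := by
    rintro ⟨x, y⟩
    simp only [psSz, Equiv.coe_fn_mk, o1, o2, Int.even_iff]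
    split_ifs <;> simp only [Prod.mk.injEq, true_and, and_true, true_or, or_true] <;> omega
  rv := by
    rintro ⟨x, y⟩ h1 h2
    simp only [Int.even_iff] at h1 h2
    simp only [fc, Prod.mk.injEq]
    omega
  re := by
    rintro ⟨x, y⟩ h1
    simp only [Int.odd_iff] at h1
    simp only [psSz, Equiv.coe_fn_mk, vx, Prod.mk.injEq]
    omega
  p1 := by
    rintro ⟨x, y⟩
    simp only [Int.even_iff]; omega
  p2 := by
    rintro ⟨x, y⟩
    simp only [Int.odd_iff]; omega

variable [IsProbabilityMeasure P]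

theorem SPev_shift (hP : SymM P) (hice : ∀ᵐ ω ∂P, ∀ x y, Ice ω x y) (t : ℝ) (a b : ℤ)
    {Q : Set Pt → Prop} (hQ : Loc Q) :
    (J t P).real {x | Q {z | (z.1 + 2 * a, z.2 + 2 * b) ∈ SP x}} = (J t P).real {x | Q (SP x)} :=
  (sy_sh hP a b).main hice t hQ

theorem SPev_reflx (hP : SymM P) (hice : ∀ᵐ ω ∂P, ∀ x y, Ice ω x y) (t : ℝ)
    {Q : Set Pt → Prop} (hQ : Loc Q) :
    (J t P).real {x | Q {z | (-z.1, z.2) ∈ SP x}} = (J t P).real {x | Q (SP x)} :=
  (sy_rx hP).main hice t hQ

theorem SPev_refly (hP : SymM P) (hice : ∀ᵐ ω ∂P, ∀ x y, Ice ω x y) (t : ℝ)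
    {Q : Set Pt → Prop} (hQ : Loc Q) :
    (J t P).real {x | Q {z | (z.1, -z.2) ∈ SP x}} = (J t P).real {x | Q (SP x)} :=
  (sy_ry hP).main hice t hQ

theorem SPev_swap (hP : SymM P) (hice : ∀ᵐ ω ∂P, ∀ x y, Ice ω x y) (t : ℝ)
    {Q : Set Pt → Prop} (hQ : Loc Q) :
    (J t P).real {x | Q {z | (z.2, z.1) ∈ SP x}} = (J t P).real {x | Q (SP x)} :=
  (sy_sz hP).main hice t hQ

end

end Vale.Agent.P145.FB
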