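import Vale.Agent.P145.FB.Inst
import Vale.Agent.P145.FB.Sym
import Vale.Agent.P145.FB.Square

/-!
P145, block F-B, item (R1): crossings and circuits of open bonds with spin plus at all scales, from
association, the symmetries of the arrow measure and the bound for long arms.
-/

namespace Vale.Agent.P145.FB

open MeasureTheory
open Vale.Agent.P152 Vale.Agent.P145.FA

theorem symS {P : Measure (Ori (ℤ × ℤ))} [IsProbabilityMeasure P] (hP : SymM P)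
    (hice : ∀ᵐ a ∂P, ∀ x y, Ice a x y) (t : ℝ) : SymS t P where
  shift a b _ hQ := SPev_shift hP hice t a b hQ
  reflx _ hQ := SPev_reflx hP hice t hQ
  refly _ hQ := SPev_refly hP hice t hQ
  swap _ hQ := SPev_swap hP hice t hQ

/-- **(R1)**, rectangles. -/
theorem r1_rect {t : ℝ} {P : Measure (Ori (ℤ × ℤ))} [IsProbabilityMeasure P] (hP : SymM P)
    (hice : ∀ᵐ a ∂P, ∀ x y, Ice a x y) (h0 : 1 / 2 ≤ t) (h1 : t ≤ 1) (hA : Assoc t P)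
    (harm : ∀ c : ℝ, 0 < c → ∀ M0 : ℤ, ∃ M : ℤ, M0 ≤ M ∧ ∃ s0 : ℤ, ∀ s : ℤ, s0 ≤ s →
      (J t P).real {x | Arm s (2 * M * s) (SP x)} < c) (k : ℕ) :
    ∃ c : ℝ, 0 < c ∧ ∃ r0 : ℤ, ∀ r : ℤ, r0 ≤ r →
      c ≤ (J t P).real {x | LRc 0 (k * r) 0 r (SQ x)} :=
  r1_long hice hA (symS hP hice t) (by norm_num : (0 : ℝ) < 1 / 4) (N := 1)
    (fun _ hn => square hP hice h0 h1 hn) harm k

/-- **(R1)**, circuits, around every centre. -/
theorem r1_circ {t : ℝ} {P : Measure (Ori (ℤ × ℤ))} [IsProbabilityMeasure P] (hP : SymM P)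
    (hice : ∀ᵐ a ∂P, ∀ x y, Ice a x y) (h0 : 1 / 2 ≤ t) (h1 : t ≤ 1) (hA : Assoc t P)
    (harm : ∀ c : ℝ, 0 < c → ∀ M0 : ℤ, ∃ M : ℤ, M0 ≤ M ∧ ∃ s0 : ℤ, ∀ s : ℤ, s0 ≤ s →
      (J t P).real {x | Arm s (2 * M * s) (SP x)} < c) :
    ∃ c : ℝ, 0 < c ∧ ∃ r0 : ℤ, ∀ r : ℤ, r0 ≤ r → ∀ p q : ℤ,
      c ≤ (J t P).real {x | Ann p q r (SQ x)} :=
  r1_ann hice hA (symS hP hice t) (by norm_num : (0 : ℝ) < 1 / 4) (N := 1)
    (fun _ hn => square hP hice h0 h1 hn) harm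

end Vale.Agent.P145.FB
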