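import Vale.Agent.P145.FB.Sym0
import Vale.Agent.P145.FB.Sym1

/-!
# P145, block F-B: symmetries of the law of `SP`
-/

namespace Vale.Agent.P145.FB

open Finset Filter Topology MeasureTheory
open Vale.Agent.P152 Vale.Agent.P145.FA
open Vale.Agent.P152.GFF.B3 (shO trO reO)

/-! ### Heights and bonds -/

/-- The heights with base value `2 k` and the bonds. -/
noncomputable def G (k : ℤ) (x : Ori (ℤ × ℤ) × Mk) : Hgt × Mk := hk k (x.1, oma x.1 x.2)

theorem G_meas (k : ℤ) : Measurable (G k) := (measurable_hk k).comp measurable_oma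

theorem J_lint (t : ℝ) (P : Measure (Ori (ℤ × ℤ))) {A : Set (Hgt × Mk)} (hA : MeasurableSet A) :
    J t P A = 2⁻¹ * ∫⁻ x, (A.indicator 1 (G 0 x) + A.indicator 1 (G 1 x)) ∂(P.prod (mkm t)) := by
  have h0 : ∀ k, (JO t P).map (hk k) A = ∫⁻ x, A.indicator 1 (G k x) ∂(P.prod (mkm t)) := by
    intro k
    rw [Measure.map_apply (measurable_hk k) hA, JO,
      Measure.map_apply measurable_oma (measurable_hk k hA)]
    have e : (fun x : Ori (ℤ × ℤ) × Mk => A.indicator (1 : Hgt × Mk → ENNReal) (G k x)) =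
        (G k ⁻¹' A).indicator 1 := by
      funext x; rfl
    rw [e, lintegral_indicator_one (G_meas k hA)]
    rfl
  rw [J, Measure.coe_add, Measure.coe_smul, Measure.coe_smul, Pi.add_apply, Pi.smul_apply,
    Pi.smul_apply, smul_eq_mul, smul_eq_mul, h0, h0, ← mul_add]
  congr 1
  exact (lintegral_add_left ((measurable_one.indicator hA).comp (G_meas 0)) _).symm

/-- An open bond joins faces of the same height. -/
theorem open_eqS {a : Ori (ℤ × ℤ)} {h : Hgt} (hh : IsHeight a h) {ξ : Mk} {w : Pt}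
    (ho : oma a ξ w = true) : h (e1 w) = h (e2 w) := by
  rw [oma_eq_om hh] at ho
  unfold om at ho
  obtain ⟨x, y⟩ := w
  have h1 := (hh x y).1
  have h2 := (hh x y).2
  have h3 := (hh x (y - 1)).2
  have h4 := (hh (x - 1) y).1
  unfold e1 e2 o1 o2 at *
  simp only at *
  split_ifs at ho ⊢ <;>
  · simp only [Bool.or_eq_true, Bool.not_eq_true', decide_eq_false_iff_not, Bool.and_eq_true,
      decide_eq_true_eq] at ho
    rcases ho with ho | ho
    · split_ifs at h1 h2 h3 h4 <;> omega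
    · exact ho.1

/-- `SP` depends on the heights mod `4`. -/
theorem SP_congr {h h' : Hgt} {o : Mk} (hh : ∀ q, (h q - h' q) % 4 = 0) : SP (h, o) = SP (h', o) := by
  ext p
  have h1 := hh (fc p)
  have h2 := hh (e1 (vx p))
  have e1' : h (fc p) % 4 = 0 ↔ h' (fc p) % 4 = 0 := by omega
  have e2' : h (e1 (vx p)) % 4 = 0 ↔ h' (e1 (vx p)) % 4 = 0 := by omega
  simp only [SP, Set.mem_ofPred_eq, e1', e2']

/-- The data of a symmetry: arrows, faces, vertices, fine lattice. -/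
structure Sy (P : Measure (Ori (ℤ × ℤ))) (T : Ori (ℤ × ℤ) → Ori (ℤ × ℤ)) (φ : Pt → Pt)
    (ψ : Pt ≃ Pt) (ρ : Pt → Pt) : Prop where
  meas : Measurable T
  inv : P.map T = P
  ht : ∀ ω, (∀ x y, Ice ω x y) → IsHeight (T ω) (fun q => P152.pth ω (φ q))
  par : Even ((φ 0).1 + (φ 0).2)
  ev : ∀ w, (φ (e1 w) = e1 (ψ w) ∧ φ (e2 w) = e2 (ψ w)) ∨ (φ (e1 w) = e2 (ψ w) ∧ φ (e2 w) = e1 (ψ w))
  od : ∀ w, (φ (o1 w) = o1 (ψ w) ∧ φ (o2 w) = o2 (ψ w)) ∨ (φ (o1 w) = o2 (ψ w) ∧ φ (o2 w) = o1 (ψ w))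
  rv : ∀ p : Pt, Even p.1 → Even p.2 → fc (ρ p) = φ (fc p)
  re : ∀ p : Pt, Odd (p.1 + p.2) → vx (ρ p) = ψ (vx p)
  p1 : ∀ p : Pt, (Even (ρ p).1 ∧ Even (ρ p).2) ↔ (Even p.1 ∧ Even p.2)
  p2 : ∀ p : Pt, Odd ((ρ p).1 + (ρ p).2) ↔ Odd (p.1 + p.2)

section

variable {P : Measure (Ori (ℤ × ℤ))} {T : Ori (ℤ × ℤ) → Ori (ℤ × ℤ)} {φ : Pt → Pt}
  {ψ : Pt ≃ Pt} {ρ : Pt → Pt}

theorem Sy.oma (S : Sy P T φ ψ ρ) {ω : Ori (ℤ × ℤ)} (h : ∀ x y, Ice ω x y) (ξ : Mk) (w : Pt) :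
    FB.oma (T ω) (fun w => ξ (ψ w)) w = FB.oma ω ξ (ψ w) := by
  rw [oma_eq_om (S.ht ω h), oma_eq_om (pth_isHeight h)]
  unfold om
  rcases S.ev w with ⟨h1, h2⟩ | ⟨h1, h2⟩ <;> rcases S.od w with ⟨h3, h4⟩ | ⟨h3, h4⟩ <;>
    simp only [h1, h2, h3, h4]
  · rw [show (decide (P152.pth ω (o2 (ψ w)) = P152.pth ω (o1 (ψ w)))) =
      decide (P152.pth ω (o1 (ψ w)) = P152.pth ω (o2 (ψ w))) from by
        rw [decide_eq_decide]; exact eq_comm]
  · rw [show (decide (P152.pth ω (e2 (ψ w)) = P152.pth ω (e1 (ψ w)))) =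
      decide (P152.pth ω (e1 (ψ w)) = P152.pth ω (e2 (ψ w))) from by
        rw [decide_eq_decide]; exact eq_comm]
  · rw [show (decide (P152.pth ω (o2 (ψ w)) = P152.pth ω (o1 (ψ w)))) =
      decide (P152.pth ω (o1 (ψ w)) = P152.pth ω (o2 (ψ w))) from by
        rw [decide_eq_decide]; exact eq_comm,
      show (decide (P152.pth ω (e2 (ψ w)) = P152.pth ω (e1 (ψ w)))) =
      decide (P152.pth ω (e1 (ψ w)) = P152.pth ω (e2 (ψ w))) from by
        rw [decide_eq_decide]; exact eq_comm]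

/-- Covariance of `SP`. -/
theorem Sy.SP (S : Sy P T φ ψ ρ) {h : Hgt} {o : Mk}
    (ho : ∀ w, o w = true → h (e1 w) = h (e2 w)) :
    FB.SP (fun q => h (φ q), fun w => o (ψ w)) = {z | ρ z ∈ FB.SP (h, o)} := by
  ext p
  simp only [FB.SP, Set.mem_ofPred_eq]
  by_cases h1 : Even p.1 ∧ Even p.2
  · have h2 := (S.p1 p).2 h1
    have h3 : ¬ Odd (p.1 + p.2) := by
      rw [Int.not_odd_iff_even]; exact h1.1.add h1.2
    have h4 : ¬ Odd ((ρ p).1 + (ρ p).2) := fun h => h3 ((S.p2 p).1 h)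
    simp only [h1, h2, h3, h4, true_and, false_and, or_false, S.rv p h1.1 h1.2]
  · have h2 : ¬ (Even (ρ p).1 ∧ Even (ρ p).2) := fun h => h1 ((S.p1 p).1 h)
    by_cases h3 : Odd (p.1 + p.2)
    · have h4 := (S.p2 p).2 h3
      have e1' : (Even p.1 ∧ Even p.2 ∧ h (φ (fc p)) % 4 = 0) ↔ False :=
        ⟨fun h => h1 ⟨h.1, h.2.1⟩, False.elim⟩
      have e2' : (Even (ρ p).1 ∧ Even (ρ p).2 ∧ h (fc (ρ p)) % 4 = 0) ↔ False :=
        ⟨fun h => h2 ⟨h.1, h.2.1⟩, False.elim⟩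
      rw [e1', e2']
      simp only [h3, h4, true_and, false_or, S.re p h3]
      refine and_congr_right (fun h5 => ?_)
      rcases S.ev (vx p) with ⟨h6, -⟩ | ⟨h6, -⟩
      · rw [h6]
      · rw [h6, ho _ h5]
    · have h4 : ¬ Odd ((ρ p).1 + (ρ p).2) := fun h => h3 ((S.p2 p).1 h)
      constructor
      · rintro (h | h)
        · exact absurd ⟨h.1, h.2.1⟩ h1
        · exact absurd h.1 h3
      · rintro (h | h)
        · exact absurd ⟨h.1, h.2.1⟩ h2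
        · exact absurd h.1 h4

theorem G_eq (k : ℤ) (x : Ori (ℤ × ℤ) × Mk) :
    G k x = (fun q => P152.pth x.1 q + 2 * k, FB.oma x.1 x.2) := rfl

theorem Sy.pth (S : Sy P T φ ψ ρ) (ω : Ori (ℤ × ℤ)) (h : ∀ x y, Ice ω x y) (q : Pt) :
    P152.pth (T ω) q = P152.pth ω (φ q) - P152.pth ω (φ 0) :=
  (height_eq_pth (S.ht ω h) q).symm

/-- The two heights of the image configuration. -/
theorem Sy.G (S : Sy P T φ ψ ρ) {ω : Ori (ℤ × ℤ)} (h : ∀ x y, Ice ω x y) (ξ : Mk) :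
    (FB.SP (G 0 (T ω, fun w => ξ (ψ w))) = {z | ρ z ∈ FB.SP (G 0 (ω, ξ))} ∧
      FB.SP (G 1 (T ω, fun w => ξ (ψ w))) = {z | ρ z ∈ FB.SP (G 1 (ω, ξ))}) ∨
    (FB.SP (G 0 (T ω, fun w => ξ (ψ w))) = {z | ρ z ∈ FB.SP (G 1 (ω, ξ))} ∧
      FB.SP (G 1 (T ω, fun w => ξ (ψ w))) = {z | ρ z ∈ FB.SP (G 0 (ω, ξ))}) := by
  have hpar := FP.pth_parity h (φ 0)
  have hp2 : (φ 0).1 + (φ 0).2 = 2 * (((φ 0).1 + (φ 0).2) / 2) := by
    obtain ⟨r, hr⟩ := S.par
    omega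
  have hop : ∀ k : ℤ, ∀ w, FB.oma ω ξ w = true →
      (fun q => P152.pth ω q + 2 * k) (e1 w) = (fun q => P152.pth ω q + 2 * k) (e2 w) := by
    intro k w hw
    have := open_eqS (pth_isHeight h) hw
    simp only [this]
  have hb : FB.oma (T ω) (fun w => ξ (ψ w)) = fun w => FB.oma ω ξ (ψ w) :=
    funext (fun w => S.oma h ξ w)
  have key : ∀ k k' : ℤ, (- P152.pth ω (φ 0) + 2 * k - 2 * k') % 4 = 0 →
      FB.SP (FB.G k (T ω, fun w => ξ (ψ w))) = {z | ρ z ∈ FB.SP (FB.G k' (ω, ξ))} := by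
    intro k k' hk
    rw [G_eq, G_eq, ← S.SP (hop k'), hb]
    refine SP_congr (fun q => ?_)
    have h1 := S.pth ω h q
    simp only [h1]
    omega
  by_cases hc : P152.pth ω (φ 0) % 4 = 0
  · left
    exact ⟨key 0 0 (by omega), key 1 1 (by omega)⟩
  · right
    exact ⟨key 0 1 (by omega), key 1 0 (by omega)⟩

theorem map_marks (t : ℝ) (ψ : Pt ≃ Pt) : (mkm t).map (fun ξ w => ξ (ψ w)) = mkm t := by
  have h := Measure.infinitePi_map_piCongrLeft (X := fun _ : Pt => Bool) (μ := fun _ : Pt => bern t)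
    ψ.symm
  have e : (MeasurableEquiv.piCongrLeft (fun _ : Pt => Bool) ψ.symm : Mk → Mk) =
      fun ξ w => ξ (ψ w) := by
    funext ξ w
    have := Equiv.piCongrLeft_apply_apply (P := fun _ : Pt => Bool) ψ.symm ξ (ψ w)
    rw [Equiv.symm_apply_apply] at this
    exact this
  rw [e] at h
  exact h

theorem Sy.map (S : Sy P T φ ψ ρ) [SFinite P] (t : ℝ) :
    (P.prod (mkm t)).map (fun x => (T x.1, fun w => x.2 (ψ w))) = P.prod (mkm t) := by
  have h := Measure.map_prod_map P (mkm t) S.meas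
    (measurable_pi_lambda (fun (ξ : Mk) w => ξ (ψ w)) (fun w => measurable_pi_apply (ψ w)))
  rw [S.inv, map_marks] at h
  exact h.symm

/-- Invariance of the probabilities of local events of `SP`. -/
theorem Sy.main (S : Sy P T φ ψ ρ) [IsProbabilityMeasure P] (hice : ∀ᵐ ω ∂P, ∀ x y, Ice ω x y)
    (t : ℝ) {Q : Set Pt → Prop} (hQ : Loc Q) :
    (J t P).real {x | Q {z | ρ z ∈ FB.SP x}} = (J t P).real {x | Q (FB.SP x)} := by
  have m1 : MeasurableSet {x : Hgt × Mk | Q {z | ρ z ∈ FB.SP x}} :=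
    meas_of_loc (F := fun x : Hgt × Mk => {z | ρ z ∈ FB.SP x}) (fun z => meas_SP (ρ z)) hQ
  have m2 : MeasurableSet {x : Hgt × Mk | Q (FB.SP x)} := meas_ev hQ
  unfold Measure.real
  congr 1
  rw [J_lint t P m1, J_lint t P m2]
  congr 1
  have mU : Measurable (fun x : Ori (ℤ × ℤ) × Mk => (T x.1, fun w => x.2 (ψ w))) :=
    (S.meas.comp measurable_fst).prodMk
      (measurable_pi_lambda _ (fun w => (measurable_pi_apply (ψ w)).comp measurable_snd))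
  have mm : Measurable (fun x => {x : Hgt × Mk | Q (FB.SP x)}.indicator (1 : Hgt × Mk → ENNReal)
      (FB.G 0 x) + {x : Hgt × Mk | Q (FB.SP x)}.indicator (1 : Hgt × Mk → ENNReal) (FB.G 1 x)) :=
    ((measurable_one.indicator m2).comp (G_meas 0)).add
      ((measurable_one.indicator m2).comp (G_meas 1))
  conv_rhs => rw [← S.map t]
  rw [lintegral_map mm mU]
  have hice' : ∀ᵐ x ∂(P.prod (mkm t)), ∀ a b, Ice x.1 a b :=
    Measure.quasiMeasurePreserving_fst.ae hice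
  refine lintegral_congr_ae ?_
  filter_upwards [hice'] with x hx
  have e : ∀ (A : Set (Hgt × Mk)) y, A.indicator (1 : Hgt × Mk → ENNReal) y =
      {y | y ∈ A}.indicator 1 y := fun A y => rfl
  have e1 : ∀ (k k' : ℤ), FB.SP (FB.G k (T x.1, fun w => x.2 (ψ w))) =
      {z | ρ z ∈ FB.SP (FB.G k' x)} →
      {x : Hgt × Mk | Q (FB.SP x)}.indicator (1 : Hgt × Mk → ENNReal)
        (FB.G k (T x.1, fun w => x.2 (ψ w))) =
      {x : Hgt × Mk | Q {z | ρ z ∈ FB.SP x}}.indicator 1 (FB.G k' x) := by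
    intro k k' h
    by_cases hq : Q {z | ρ z ∈ FB.SP (FB.G k' x)}
    · rw [Set.indicator_of_mem (show FB.G k' x ∈ {x : Hgt × Mk | Q {z | ρ z ∈ FB.SP x}} from hq),
        Set.indicator_of_mem]
      · rfl
      · show Q _
        rw [h]; exact hq
    · rw [Set.indicator_of_notMem (show FB.G k' x ∉ {x : Hgt × Mk | Q {z | ρ z ∈ FB.SP x}} from hq),
        Set.indicator_of_notMem]
      show ¬ Q _
      rw [h]; exact hq
  obtain ⟨ω, ξ⟩ := x
  rcases S.G hx ξ with ⟨h1, h2⟩ | ⟨h1, h2⟩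
  · rw [e1 0 0 h1, e1 1 1 h2]
  · rw [e1 0 1 h1, e1 1 0 h2, add_comm]

end

end Vale.Agent.P145.FB
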