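import Vale.Agent.P145.FB.Tassion

/-!
# P145, block F-B: Tassion's argument, the scale induction
-/

namespace Vale.Agent.P145.FB

open Relation

namespace PP

variable (P : PP)

/-- The bound for the cross event. -/
noncomputable def cX (c0 : ℝ) : ℝ := (c0 / 8) ^ 4 * c0

/-- The bound for the crossings at a good scale. -/
noncomputable def c1 (c0 : ℝ) : ℝ := (c0 / 4) ^ 2 * cX c0 * cX c0

theorem cX_nonneg {c0 : ℝ} (h0 : 0 ≤ c0) : 0 ≤ cX c0 := by unfold cX; positivity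

theorem cX_pos {c0 : ℝ} (h0 : 0 < c0) : 0 < cX c0 := by unfold cX; positivity

theorem c1_pos {c0 : ℝ} (h0 : 0 < c0) : 0 < c1 c0 := by
  have := cX_pos h0
  unfold c1; positivity

theorem cX_le {c0 : ℝ} (h0 : 0 ≤ c0) (h1 : c0 ≤ 1) : cX c0 ≤ 1 := by
  unfold cX
  have h2 : (c0 / 8) ^ 4 ≤ 1 := pow_le_one₀ (by positivity) (by linarith)
  calc (c0 / 8) ^ 4 * c0 ≤ 1 * 1 := mul_le_mul h2 h1 h0 zero_le_one
    _ = 1 := one_mul 1

/-- Good scales. -/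
def Good (c0 : ℝ) (n : ℕ) : Prop := c1 c0 ≤ P.L (2 * n + 2 * (n / 3 : ℕ)) (2 * n)

/-- Squares of side at least `N` are crossed with probability at least `c0`. -/
def Sq (c0 : ℝ) (N : ℕ) : Prop := ∀ n : ℤ, (N : ℤ) ≤ n → c0 ≤ P.L n n

variable {P} {c0 : ℝ} {N : ℕ}

/-- First case of a good scale. -/
theorem good1 (G : Geo) (h0 : 0 < c0) (hc : c0 ≤ 1) (hsq : P.Sq c0 N) {n : ℕ} (hn : N ≤ n)
    (hn1 : 1 ≤ n) (ha : P.al c0 n < n / 2) (hb : P.al c0 n + 1 ≤ 2 * P.al c0 (n - n / 3)) :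
    P.Good c0 n := by
  obtain ⟨m, hm⟩ : ∃ m : ℕ, m = n - n / 3 := ⟨_, rfl⟩
  rw [← hm] at hb
  obtain ⟨v, hv⟩ : ∃ v : ℕ, v = (P.al c0 n + 1) / 2 := ⟨_, rfl⟩
  have hsm : c0 ≤ P.L (2 * m) (2 * m) := hsq _ (by omega)
  have e1 : c0 / 4 ≤ P.p (Hc ((m : ℤ) - 2 * n) m (-(v : ℤ) - n) (-(v : ℤ) + n) (-(P.al c0 m : ℤ))
      (P.al c0 m)) := by
    have h1 := P.H_gt ha (a := (P.al c0 n : ℤ) + 1) (by omega)
    have h2 := P.H_nonneg n ((P.al c0 n : ℤ) + 1) n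
    have h3 := P.p_Hc_shift (-n) n (-n) n 0 ((P.al c0 n : ℤ) + 1) ((m : ℤ) - n) (-(v : ℤ))
    have h4 : c0 / 4 ≤ P.H n 0 ((P.al c0 n : ℤ) + 1) := by linarith
    rw [H, ← h3] at h4
    refine h4.trans (P.mono _ _ ?_)
    rintro S ⟨x, y, h, hx, hy, h5, h6⟩
    refine ⟨x, y, h.mono_ ?_, by rw [hx]; ring, by rw [hy]; ring, by omega, by omega⟩
    refine Set.inter_subset_inter_right _ ?_
    rintro ⟨z1, z2⟩ ⟨g1, g2, g3, g4⟩
    exact ⟨by dsimp only at *; omega, by dsimp only at *; omega, by dsimp only at *; omega,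
      by dsimp only at *; omega⟩
  have e2 : c0 / 4 ≤ P.p (Hm (-(m : ℤ)) (2 * n - m) (-(v : ℤ) - n) (-(v : ℤ) + n)
      (-(P.al c0 m : ℤ)) (P.al c0 m)) := by
    have h3 := P.p_Hm ((m : ℤ) - 2 * n) m (-(v : ℤ) - n) (-(v : ℤ) + n) (-(P.al c0 m : ℤ))
      (P.al c0 m)
    rw [← h3] at e1
    have e : -((m : ℤ) - 2 * n) = 2 * n - m := by ring
    rw [e] at e1
    exact e1
  have e3 : cX c0 ≤ P.p (XX 0 0 m (P.al c0 m)) := P.XX_ge h0.le hsm 0 0 le_rfl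
  have key := P.fkg3 (T := LRc ((m : ℤ) - 2 * n) (2 * n - m) (-(v : ℤ) - n) (-(v : ℤ) + n))
    (IL_Hc _ _ _ _ _ _) (IL_Hm _ _ _ _ _ _) (IL_XX _ _ _ _)
    (fun S h1 h2 h3 => G.f1 n m v (P.al c0 m) S (by omega) (by omega) (by omega) (by omega)
      (by omega) h1 h2 h3) (by positivity) (by positivity) (cX_nonneg h0.le) e1 e2 e3
  rw [P.L_eq'] at key
  have e5 : (2 * n - m : ℤ) - ((m : ℤ) - 2 * n) = 2 * n + 2 * (n / 3 : ℕ) := by omega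
  have e6 : (-(v : ℤ) + n) - (-(v : ℤ) - n) = 2 * n := by ring
  rw [e5, e6] at key
  refine le_trans ?_ key
  unfold c1
  have := cX_le h0.le hc
  have h7 : 0 ≤ (c0 / 4) ^ 2 * cX c0 := mul_nonneg (by positivity) (cX_nonneg h0.le)
  calc (c0 / 4) ^ 2 * cX c0 * cX c0 ≤ (c0 / 4) ^ 2 * cX c0 * 1 :=
        mul_le_mul_of_nonneg_left this h7
    _ = c0 / 4 * (c0 / 4) * cX c0 := by ring

/-- Second case of a good scale. -/
theorem good2 (G : Geo) (h0 : 0 < c0) (hc : c0 ≤ 1) (hsq : P.Sq c0 N) {n : ℕ} (hn : N ≤ n)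
    (hn1 : 1 ≤ n) (ha : P.al c0 n = n / 2) : P.Good c0 n := by
  obtain ⟨h, hh⟩ : ∃ h : ℕ, h = n / 2 := ⟨_, rfl⟩
  have hsn : c0 ≤ P.L (2 * n) (2 * n) := hsq _ (by omega)
  have e1 : cX c0 ≤ P.p (XX 0 0 n h) := P.XX_ge h0.le hsn 0 0 (by omega)
  have e2 : cX c0 ≤ P.p (XX 0 (-(2 * h)) n h) := P.XX_ge h0.le hsn 0 _ (by omega)
  have key := P.fkg2 (T := BTc (-(n : ℤ)) n (-n - 2 * h) n) (IL_XX _ _ _ _) (IL_XX _ _ _ _)
    (fun S h1 h2 => G.zig n h S (by omega) (by omega) (by omega) h1 h2) (cX_nonneg h0.le)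
    (cX_nonneg h0.le) e1 e2
  rw [P.B_eq'] at key
  have e3 : (n : ℤ) - (-(n : ℤ)) = 2 * n := by ring
  have e4 : (n : ℤ) - (-(n : ℤ) - 2 * h) = 2 * n + 2 * h := by ring
  rw [e3, e4] at key
  have key2 := key.trans (P.L_mono G (w' := 2 * n + 2 * (n / 3 : ℕ)) (h' := 2 * n) (by positivity)
    (by omega) le_rfl)
  refine le_trans ?_ key2
  unfold c1
  have h7 : (c0 / 4) ^ 2 ≤ 1 := pow_le_one₀ (by positivity) (by linarith)
  have h8 := cX_nonneg h0.le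
  calc (c0 / 4) ^ 2 * cX c0 * cX c0 = (c0 / 4) ^ 2 * (cX c0 * cX c0) := by ring
    _ ≤ 1 * (cX c0 * cX c0) := mul_le_mul_of_nonneg_right h7 (mul_nonneg h8 h8)
    _ = cX c0 * cX c0 := one_mul _

theorem not_good (G : Geo) (h0 : 0 < c0) (hc : c0 ≤ 1) (hsq : P.Sq c0 N) {n : ℕ} (hn : N ≤ n)
    (hn1 : 1 ≤ n) (hg : ¬ P.Good c0 n) :
    P.al c0 n < n / 2 ∧ 2 * P.al c0 (n - n / 3) ≤ P.al c0 n := by
  have h1 : P.al c0 n < n / 2 := by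
    rcases lt_or_eq_of_le (P.al_le c0 n) with h | h
    · exact h
    · exact absurd (good2 G h0 hc hsq hn hn1 h) hg
  refine ⟨h1, ?_⟩
  by_contra h2
  exact hg (good1 G h0 hc hsq hn hn1 h1 (by omega))

/-- Landing paths joined by an annulus. -/
theorem long_of_ann (G : Geo) (h0 : 0 < c0) {s t : ℕ} (hs : 0 < s) (hst : 2 * s ≤ t)
    (ha : P.al c0 t < s) {b : ℝ} (hb : 0 ≤ b) (hA : b ≤ P.p (Ann 0 0 s)) :
    (c0 / 4) * (c0 / 4) * b ≤ P.L (4 * t) (2 * t) := by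
  have h1 := P.H_gt (c0 := c0) (n := t) (by omega) (a := (s : ℤ)) (by omega)
  have h2 := P.H_nonneg t (s : ℤ) t
  have h3 := P.p_Hc_shift (-t) t (-t) t 0 s (-(t : ℤ)) 0
  have h4 : c0 / 4 ≤ P.p (Hc (-(2 * (t : ℤ))) 0 (-t) t 0 s) := by
    have : c0 / 4 ≤ P.H t 0 s := by linarith
    rw [H, ← h3] at this
    convert this using 3 <;> ring
  have h5 : c0 / 4 ≤ P.p (Hm 0 (2 * t) (-t) t 0 s) := by
    have := P.p_Hm (-(2 * (t : ℤ))) 0 (-t) t 0 s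
    rw [neg_zero, neg_neg] at this
    rw [this]; exact h4
  have key := P.fkg3 (T := LRc (-(2 * (t : ℤ))) (2 * t) (-t) t) (IL_Hc _ _ _ _ _ _)
    (IL_Hm _ _ _ _ _ _) (IL_Ann _ _ _)
    (fun S h1 h2 h3 => G.f2 s t S (by omega) (by omega) h1 h2 h3) (by positivity) (by positivity)
    hb h4 h5 hA
  rw [P.L_eq'] at key
  have e1 : 2 * (t : ℤ) - (-(2 * (t : ℤ))) = 4 * t := by ring
  have e2 : (t : ℤ) - (-(t : ℤ)) = 2 * t := by ring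
  rwa [e1, e2] at key

theorem IL_edge : IL (fun S => (0, 0) ∈ S ∧ (0, 1) ∈ S ∧ (0, 2) ∈ S) := by
  constructor
  · rintro S T h ⟨h1, h2, h3⟩
    exact ⟨h h1, h h2, h h3⟩
  · refine ⟨2, ?_⟩
    rintro S T h ⟨h1, h2, h3⟩
    exact ⟨(h _ (by decide) (by decide)).1 h1, (h _ (by decide) (by decide)).1 h2,
      (h _ (by decide) (by decide)).1 h3⟩

/-- Landing paths joined by an edge. -/
theorem long_of_edge (G : Geo) (h0 : 0 < c0) {t : ℕ} (ht : 2 ≤ t)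
    (ha : P.al c0 t = 0) {b : ℝ} (hb : 0 ≤ b)
    (hA : b ≤ P.p (fun S => (0, 0) ∈ S ∧ (0, 1) ∈ S ∧ (0, 2) ∈ S)) :
    (c0 / 4) * (c0 / 4) * b ≤ P.L (4 * t) (2 * t) := by
  have h1 := P.H_gt (c0 := c0) (n := t) (by omega) (a := 1) (by omega)
  have h2 := P.H_nonneg t 1 t
  have h3 := P.p_Hc_shift (-t) t (-t) t 0 1 (-(t : ℤ)) 0
  have h4 : c0 / 4 ≤ P.p (Hc (-(2 * (t : ℤ))) 0 (-t) t 0 1) := by
    have : c0 / 4 ≤ P.H t 0 1 := by linarith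
    rw [H, ← h3] at this
    convert this using 3 <;> ring
  have h5 : c0 / 4 ≤ P.p (Hm 0 (2 * t) (-t) t 0 1) := by
    have := P.p_Hm (-(2 * (t : ℤ))) 0 (-t) t 0 1
    rw [neg_zero, neg_neg] at this
    rw [this]; exact h4
  have key := P.fkg3 (T := LRc (-(2 * (t : ℤ))) (2 * t) (-t) t) (IL_Hc _ _ _ _ _ _)
    (IL_Hm _ _ _ _ _ _) IL_edge
    (fun S h1 h2 h3 => G.f2' t S (by omega) h1 h2 h3.1 h3.2.1 h3.2.2) (by positivity)
    (by positivity) hb h4 h5 hA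
  rw [P.L_eq'] at key
  have e1 : 2 * (t : ℤ) - (-(2 * (t : ℤ))) = 4 * t := by ring
  have e2 : (t : ℤ) - (-(t : ℤ)) = 2 * t := by ring
  rwa [e1, e2] at key

/-- From ratio 2 to ratio 4. -/
theorem ratio4 (G : Geo) (h0 : 0 < c0) (hsq : P.Sq c0 N) {t : ℕ} (ht : N ≤ t) {a : ℝ}
    (ha : 0 ≤ a) (h : a ≤ P.L (4 * t) (2 * t)) :
    a * c0 * a * c0 * a ≤ P.L (8 * t) (2 * t) := by
  have hs : c0 ≤ P.L (2 * t) (2 * t) := hsq _ (by omega)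
  have h1 := P.L_chain G h0.le (w := 4 * t) (w' := 4 * t) (h := 2 * t) (by omega) hs (by omega)
    (by omega) ha ha h h
  have h2 := P.L_chain G h0.le (w := 4 * t + 4 * t - 2 * t) (w' := 4 * t) (h := 2 * t) (by omega) hs
    (by omega) (by omega) (mul_nonneg (mul_nonneg ha h0.le) ha) ha h1 h
  have e : 4 * (t : ℤ) + 4 * t - 2 * t + 4 * t - 2 * t = 8 * t := by ring
  rwa [e] at h2

/-- A good scale gives an annulus event of positive probability. -/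
theorem ann_of_good (G : Geo) (h0 : 0 < c0) (hsq : P.Sq c0 N) {n : ℕ} (hn : N ≤ n)
    (hn8 : 8 ≤ n) (hg : P.Good c0 n) (j : ℕ) (w : ℤ) (hw : 0 ≤ w) (hwj : 4 * w ≤ 2 * (j + 1) * n) :
    c1 c0 * (c0 * c1 c0) ^ j ≤ P.L w (2 * n) := by
  have hs : c0 ≤ P.L (2 * n) (2 * n) := hsq _ (by omega)
  have h1 := P.L_iter G h0.le (h := 2 * n) (k := 2 * (n / 3 : ℕ)) (by omega) (by omega) hs
    (c1_pos h0).le hg j
  refine h1.trans (P.L_mono G hw ?_ le_rfl)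
  have h2 : (n : ℤ) ≤ 4 * (n / 3 : ℕ) := by omega
  have h3 : (n : ℤ) * (j + 1 : ℕ) ≤ 4 * (n / 3 : ℕ) * (j + 1 : ℕ) :=
    mul_le_mul_of_nonneg_right h2 (by positivity)
  push_cast at h3 ⊢
  nlinarith

end PP

end Vale.Agent.P145.FB
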